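import Crest.Agent.R077.Iface
import Crest.Agent.R077.TentPhi

/-!
Row 77, `Stmt_AA` (helper323): the two cut off energies are close.
Also exported: Tonelli forms of the energies.  For `W : ℝ → ℝ → ℝ → ℝ≥0∞` (arguments `ρ t s`)
`Q S W = ∫∫∫∫∫ H(ρ,θ,θ') 1[|t-s|<ρ] W(ρ,t,s) F(t,θ) G(s,θ')`.
-/

set_option autoImplicit false
open MeasureTheory Set Real
open scoped ENNReal

namespace Crest.Agent.R077

namespace EnQ

variable {M : Type} [MeasurableSpace M] {μ : Measure M}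

/-- indicator of `|t - s| < ρ` -/
noncomputable def q (ρ t s : ℝ) : ℝ≥0∞ := if t - ρ < s ∧ s < t + ρ then 1 else 0

lemma q_symm (ρ t s : ℝ) : q ρ t s = q ρ s t := by
  unfold q
  have : (t - ρ < s ∧ s < t + ρ) ↔ (s - ρ < t ∧ t < s + ρ) := by
    constructor
    · rintro ⟨h1, h2⟩; exact ⟨by linarith, by linarith⟩
    · rintro ⟨h1, h2⟩; exact ⟨by linarith, by linarith⟩
  simp only [this]

lemma q_meas : Measurable (fun z : ℝ × ℝ × ℝ => q z.1 z.2.1 z.2.2) := by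
  unfold q
  refine Measurable.ite ?_ measurable_const measurable_const
  have h1 : Measurable fun z : ℝ × ℝ × ℝ => z.2.1 - z.1 := by fun_prop
  have h2 : Measurable fun z : ℝ × ℝ × ℝ => z.2.2 := by fun_prop
  have h3 : Measurable fun z : ℝ × ℝ × ℝ => z.2.1 + z.1 := by fun_prop
  exact (measurableSet_lt h1 h2).inter (measurableSet_lt h2 h3)

lemma set_lint (ρ t : ℝ) (g : ℝ → ℝ≥0∞) :
    ∫⁻ s in Ioo (t - ρ) (t + ρ), g s = ∫⁻ s, q ρ t s * g s := by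
  rw [← lintegral_indicator measurableSet_Ioo]
  refine lintegral_congr fun s => ?_
  unfold q
  by_cases h : t - ρ < s ∧ s < t + ρ
  · rw [if_pos h, one_mul, Set.indicator_of_mem (show s ∈ Ioo (t - ρ) (t + ρ) from h)]
  · rw [if_neg h, zero_mul, Set.indicator_of_notMem (show s ∉ Ioo (t - ρ) (t + ρ) from h)]

section swap

variable {Z : M → M → ℝ → ℝ → ℝ → ℝ≥0∞}

lemma part_meas {α β : Type} [MeasurableSpace α] [MeasurableSpace β] (ν : Measure β) [SFinite ν]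
    {f : α → β → ℝ≥0∞} (hf : Measurable (fun z : α × β => f z.1 z.2)) :
    Measurable (fun x => ∫⁻ y, f x y ∂ν) := hf.lintegral_prod_right'

lemma swapA [SFinite μ] (r : Measure ℝ) [SFinite r]
    (hZ : Measurable (fun y : M × M × ℝ × ℝ × ℝ => Z y.1 y.2.1 y.2.2.1 y.2.2.2.1 y.2.2.2.2)) :
    ∫⁻ θ, ∫⁻ t, ∫⁻ θ', ∫⁻ ρ, ∫⁻ s, Z θ θ' ρ t s ∂volume ∂r ∂μ ∂volume ∂μ
      = ∫⁻ θ, ∫⁻ θ', ∫⁻ ρ, ∫⁻ t, ∫⁻ s, Z θ θ' ρ t s ∂volume ∂volume ∂r ∂μ ∂μ := by
  refine lintegral_congr fun θ => ?_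
  have h1 : Measurable (fun y : ((ℝ × M) × ℝ) => ∫⁻ s, Z θ y.1.2 y.2 y.1.1 s ∂volume) := by
    refine part_meas (f := fun (y : ((ℝ × M) × ℝ)) s => Z θ y.1.2 y.2 y.1.1 s) volume ?_
    exact hZ.comp (show Measurable fun z : ((ℝ × M) × ℝ) × ℝ => (θ, z.1.1.2, z.1.2, z.1.1.1, z.2)
      by fun_prop)
  rw [lintegral_lintegral_swap]
  · refine lintegral_congr fun θ' => ?_
    rw [lintegral_lintegral_swap]
    refine Measurable.aemeasurable ?_
    exact h1.comp (show Measurable fun z : ℝ × ℝ => ((z.1, θ'), z.2) by fun_prop)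
  · refine Measurable.aemeasurable ?_
    exact part_meas (f := fun (y : ℝ × M) (ρ : ℝ) => ∫⁻ s, Z θ y.2 ρ y.1 s ∂volume) r h1

lemma swapB [SFinite μ] (r : Measure ℝ) [SFinite r]
    (hZ : Measurable (fun y : M × M × ℝ × ℝ × ℝ => Z y.1 y.2.1 y.2.2.1 y.2.2.2.1 y.2.2.2.2)) :
    ∫⁻ θ', ∫⁻ s, ∫⁻ θ, ∫⁻ ρ, ∫⁻ t, Z θ θ' ρ t s ∂volume ∂r ∂μ ∂volume ∂μ
      = ∫⁻ θ, ∫⁻ θ', ∫⁻ ρ, ∫⁻ t, ∫⁻ s, Z θ θ' ρ t s ∂volume ∂volume ∂r ∂μ ∂μ := by
  have h0 : ∫⁻ θ, ∫⁻ θ', ∫⁻ ρ, ∫⁻ t, ∫⁻ s, Z θ θ' ρ t s ∂volume ∂volume ∂r ∂μ ∂μ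
      = ∫⁻ θ', ∫⁻ θ, ∫⁻ ρ, ∫⁻ t, ∫⁻ s, Z θ θ' ρ t s ∂volume ∂volume ∂r ∂μ ∂μ := by
    rw [lintegral_lintegral_swap]
    refine Measurable.aemeasurable ?_
    have a1 : Measurable (fun y : (((M × M) × ℝ) × ℝ) => ∫⁻ s, Z y.1.1.1 y.1.1.2 y.1.2 y.2 s
        ∂volume) := by
      refine part_meas (f := fun (y : (((M × M) × ℝ) × ℝ)) s => Z y.1.1.1 y.1.1.2 y.1.2 y.2 s)
        volume ?_
      exact hZ.comp (show Measurable fun z : (((M × M) × ℝ) × ℝ) × ℝ =>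
        (z.1.1.1.1, z.1.1.1.2, z.1.1.2, z.1.2, z.2) by fun_prop)
    have a2 : Measurable (fun y : ((M × M) × ℝ) => ∫⁻ t, ∫⁻ s, Z y.1.1 y.1.2 y.2 t s
        ∂volume ∂volume) :=
      part_meas (f := fun (y : ((M × M) × ℝ)) t => ∫⁻ s, Z y.1.1 y.1.2 y.2 t s ∂volume) volume a1
    exact part_meas (f := fun (y : M × M) ρ => ∫⁻ t, ∫⁻ s, Z y.1 y.2 ρ t s ∂volume ∂volume) r a2
  rw [h0]
  refine lintegral_congr fun θ' => ?_
  have h1 : Measurable (fun y : ((ℝ × M) × ℝ) => ∫⁻ t, Z y.1.2 θ' y.2 t y.1.1 ∂volume) := by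
    refine part_meas (f := fun (y : ((ℝ × M) × ℝ)) t => Z y.1.2 θ' y.2 t y.1.1) volume ?_
    exact hZ.comp (show Measurable fun z : ((ℝ × M) × ℝ) × ℝ => (z.1.1.2, θ', z.1.2, z.2, z.1.1.1)
      by fun_prop)
  rw [lintegral_lintegral_swap]
  · refine lintegral_congr fun θ => ?_
    rw [lintegral_lintegral_swap]
    · refine lintegral_congr fun ρ => ?_
      rw [lintegral_lintegral_swap]
      refine Measurable.aemeasurable ?_
      exact hZ.comp (show Measurable fun z : ℝ × ℝ => (θ, θ', ρ, z.2, z.1) by fun_prop)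
    · refine Measurable.aemeasurable ?_
      exact h1.comp (show Measurable fun z : ℝ × ℝ => ((z.1, θ), z.2) by fun_prop)
  · refine Measurable.aemeasurable ?_
    exact part_meas (f := fun (y : ℝ × M) (ρ : ℝ) => ∫⁻ t, Z y.2 θ' ρ t y.1 ∂volume) r h1

end swap

lemma F_meas (S : Cyl M μ) : Measurable (fun z : ℝ × M => S.F z.1 z.2) := by
  unfold Cyl.F
  exact (by fun_prop : Measurable fun z : ℝ × M => Real.exp (S.b₁ * z.1)).mul
    (S.V_meas.pow_const _)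

lemma G_meas (S : Cyl M μ) : Measurable (fun z : ℝ × M => S.G z.1 z.2) := by
  unfold Cyl.G
  exact (by fun_prop : Measurable fun z : ℝ × M => Real.exp (S.b₂ * z.1)).mul
    (S.U_meas.pow_const _)

lemma F_pos (S : Cyl M μ) (t : ℝ) (θ : M) : 0 < S.F t θ := by
  unfold Cyl.F
  exact mul_pos (Real.exp_pos _) (Real.rpow_pos_of_pos (S.V_pos t θ) _)

lemma G_pos (S : Cyl M μ) (t : ℝ) (θ : M) : 0 < S.G t θ := by
  unfold Cyl.G
  exact mul_pos (Real.exp_pos _) (Real.rpow_pos_of_pos (S.U_pos t θ) _)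

/-- the integrand -/
noncomputable def Zf (S : Cyl M μ) (W : ℝ → ℝ → ℝ → ℝ≥0∞) (θ θ' : M) (ρ t s : ℝ) : ℝ≥0∞ :=
  ENNReal.ofReal (S.H ρ θ θ') * (ENNReal.ofReal (S.F t θ) *
    (q ρ t s * (W ρ t s * ENNReal.ofReal (S.G s θ'))))

lemma Zf_meas (S : Cyl M μ) {W : ℝ → ℝ → ℝ → ℝ≥0∞}
    (hW : Measurable (fun z : ℝ × ℝ × ℝ => W z.1 z.2.1 z.2.2)) :
    Measurable (fun y : M × M × ℝ × ℝ × ℝ => Zf S W y.1 y.2.1 y.2.2.1 y.2.2.2.1 y.2.2.2.2) := by
  unfold Zf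
  have h1 : Measurable fun y : M × M × ℝ × ℝ × ℝ => S.H y.2.2.1 y.1 y.2.1 :=
    S.H_meas.comp (show Measurable fun y : M × M × ℝ × ℝ × ℝ => (y.2.2.1, y.1, y.2.1) by fun_prop)
  have h2 : Measurable fun y : M × M × ℝ × ℝ × ℝ => S.F y.2.2.2.1 y.1 :=
    (F_meas S).comp (show Measurable fun y : M × M × ℝ × ℝ × ℝ => (y.2.2.2.1, y.1) by fun_prop)
  have h3 : Measurable fun y : M × M × ℝ × ℝ × ℝ => S.G y.2.2.2.2 y.2.1 :=
    (G_meas S).comp (show Measurable fun y : M × M × ℝ × ℝ × ℝ => (y.2.2.2.2, y.2.1) by fun_prop)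
  have h4 : Measurable fun y : M × M × ℝ × ℝ × ℝ => q y.2.2.1 y.2.2.2.1 y.2.2.2.2 :=
    q_meas.comp (show Measurable fun y : M × M × ℝ × ℝ × ℝ => (y.2.2.1, y.2.2.2.1, y.2.2.2.2)
      by fun_prop)
  have h5 : Measurable fun y : M × M × ℝ × ℝ × ℝ => W y.2.2.1 y.2.2.2.1 y.2.2.2.2 :=
    hW.comp (show Measurable fun y : M × M × ℝ × ℝ × ℝ => (y.2.2.1, y.2.2.2.1, y.2.2.2.2)
      by fun_prop)
  exact h1.ennreal_ofReal.mul (h2.ennreal_ofReal.mul (h4.mul (h5.mul h3.ennreal_ofReal)))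

/-- the energy with weight `W ρ t s` -/
noncomputable def Q (S : Cyl M μ) (W : ℝ → ℝ → ℝ → ℝ≥0∞) : ℝ≥0∞ :=
  ∫⁻ θ, ∫⁻ θ', ∫⁻ ρ in Ioi (0:ℝ), ∫⁻ t, ∫⁻ s, Zf S W θ θ' ρ t s ∂volume ∂volume ∂volume ∂μ ∂μ

/-- `∫∫ a(t) F V` -/
lemma Q_F [SFinite μ] (S : Cyl M μ) {a : ℝ → ℝ≥0∞} (ha : Measurable a) :
    ∫⁻ θ, ∫⁻ t, a t * (ENNReal.ofReal (S.F t θ) * ENNReal.ofReal (S.V t θ)) ∂volume ∂μ
      = Q S (fun _ t _ => a t) := by
  have hW : Measurable (fun z : ℝ × ℝ × ℝ => a z.2.1) := ha.comp (by fun_prop)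
  have hZ := Zf_meas S (W := fun _ t _ => a t) hW
  unfold Q
  rw [← swapA (μ := μ) (volume.restrict (Ioi (0:ℝ))) hZ]
  refine lintegral_congr fun θ => lintegral_congr fun t => ?_
  rw [S.repV t θ]
  have hm2 : Measurable (fun y : (M × ℝ) × ℝ => Zf S (fun _ t _ => a t) θ y.1.1 y.1.2 t y.2) :=
    hZ.comp (show Measurable fun z : (M × ℝ) × ℝ => (θ, z.1.1, z.1.2, t, z.2) by fun_prop)
  have hq : Measurable (fun y : (M × ℝ) × ℝ => q y.1.2 t y.2 * ENNReal.ofReal (S.G y.2 y.1.1)) :=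
    (q_meas.comp (show Measurable fun z : (M × ℝ) × ℝ => (z.1.2, t, z.2) by fun_prop)).mul
      ((G_meas S).comp (show Measurable fun z : (M × ℝ) × ℝ => (z.2, z.1.1) by fun_prop)).ennreal_ofReal
  have hm3 : Measurable (fun y : M × ℝ => ENNReal.ofReal (S.H y.2 θ y.1) *
      ∫⁻ s, q y.2 t s * ENNReal.ofReal (S.G s y.1)) := by
    refine Measurable.mul ?_ ?_
    · exact (S.H_meas.comp (show Measurable fun y : M × ℝ => (y.2, θ, y.1) by fun_prop)).ennreal_ofReal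
    · exact part_meas (f := fun (y : M × ℝ) s => q y.2 t s * ENNReal.ofReal (S.G s y.1)) volume hq
  have hm4 : Measurable (fun θ' : M => ∫⁻ ρ in Ioi (0:ℝ), ENNReal.ofReal (S.H ρ θ θ') *
      ∫⁻ s, q ρ t s * ENNReal.ofReal (S.G s θ')) :=
    part_meas (f := fun (θ' : M) ρ => ENNReal.ofReal (S.H ρ θ θ') *
      ∫⁻ s, q ρ t s * ENNReal.ofReal (S.G s θ')) _ hm3
  have e1 : ∀ θ' ρ, (∫⁻ s in Ioo (t - ρ) (t + ρ),
      ENNReal.ofReal (Real.exp (S.b₂ * s) * S.U s θ' ^ S.q)) =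
      ∫⁻ s, q ρ t s * ENNReal.ofReal (S.G s θ') := by
    intro θ' ρ
    rw [set_lint]
    rfl
  simp only [e1]
  rw [← mul_assoc, ← lintegral_const_mul _ hm4]
  refine lintegral_congr fun θ' => ?_
  have hm3' : Measurable (fun ρ : ℝ => ENNReal.ofReal (S.H ρ θ θ') *
      ∫⁻ s, q ρ t s * ENNReal.ofReal (S.G s θ')) :=
    hm3.comp (show Measurable fun ρ : ℝ => (θ', ρ) by fun_prop)
  rw [← lintegral_const_mul _ hm3']
  refine lintegral_congr fun ρ => ?_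
  have hq' : Measurable (fun s : ℝ => q ρ t s * ENNReal.ofReal (S.G s θ')) :=
    hq.comp (show Measurable fun s : ℝ => ((θ', ρ), s) by fun_prop)
  rw [← lintegral_const_mul _ hq', ← lintegral_const_mul]
  · refine lintegral_congr fun s => ?_
    unfold Zf
    ring
  · exact measurable_const.mul hq'

/-- `∫∫ a(s) G U` -/
lemma Q_G [SFinite μ] (S : Cyl M μ) {a : ℝ → ℝ≥0∞} (ha : Measurable a) :
    ∫⁻ θ, ∫⁻ t, a t * (ENNReal.ofReal (S.G t θ) * ENNReal.ofReal (S.U t θ)) ∂volume ∂μ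
      = Q S (fun _ _ s => a s) := by
  have hW : Measurable (fun z : ℝ × ℝ × ℝ => a z.2.2) := ha.comp (by fun_prop)
  have hZ := Zf_meas S (W := fun _ _ s => a s) hW
  unfold Q
  rw [← swapB (μ := μ) (volume.restrict (Ioi (0:ℝ))) hZ]
  refine lintegral_congr fun θ' => lintegral_congr fun s => ?_
  rw [S.repU s θ']
  have hq : Measurable (fun y : (M × ℝ) × ℝ => q y.1.2 s y.2 * ENNReal.ofReal (S.F y.2 y.1.1)) :=
    (q_meas.comp (show Measurable fun z : (M × ℝ) × ℝ => (z.1.2, s, z.2) by fun_prop)).mul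
      ((F_meas S).comp (show Measurable fun z : (M × ℝ) × ℝ => (z.2, z.1.1) by fun_prop)).ennreal_ofReal
  have hm3 : Measurable (fun y : M × ℝ => ENNReal.ofReal (S.H y.2 θ' y.1) *
      ∫⁻ t, q y.2 s t * ENNReal.ofReal (S.F t y.1)) := by
    refine Measurable.mul ?_ ?_
    · exact (S.H_meas.comp (show Measurable fun y : M × ℝ => (y.2, θ', y.1) by fun_prop)).ennreal_ofReal
    · exact part_meas (f := fun (y : M × ℝ) t => q y.2 s t * ENNReal.ofReal (S.F t y.1)) volume hq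
  have hm4 : Measurable (fun θ : M => ∫⁻ ρ in Ioi (0:ℝ), ENNReal.ofReal (S.H ρ θ' θ) *
      ∫⁻ t, q ρ s t * ENNReal.ofReal (S.F t θ)) :=
    part_meas (f := fun (θ : M) ρ => ENNReal.ofReal (S.H ρ θ' θ) *
      ∫⁻ t, q ρ s t * ENNReal.ofReal (S.F t θ)) _ hm3
  have e1 : ∀ θ ρ, (∫⁻ t in Ioo (s - ρ) (s + ρ),
      ENNReal.ofReal (Real.exp (S.b₁ * t) * S.V t θ ^ S.p)) =
      ∫⁻ t, q ρ s t * ENNReal.ofReal (S.F t θ) := by
    intro θ ρ
    rw [set_lint]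
    rfl
  simp only [e1]
  rw [← mul_assoc, ← lintegral_const_mul _ hm4]
  refine lintegral_congr fun θ => ?_
  have hm3' : Measurable (fun ρ : ℝ => ENNReal.ofReal (S.H ρ θ' θ) *
      ∫⁻ t, q ρ s t * ENNReal.ofReal (S.F t θ)) :=
    hm3.comp (show Measurable fun ρ : ℝ => (θ, ρ) by fun_prop)
  rw [← lintegral_const_mul _ hm3']
  refine lintegral_congr fun ρ => ?_
  have hq' : Measurable (fun t : ℝ => q ρ s t * ENNReal.ofReal (S.F t θ)) :=
    hq.comp (show Measurable fun t : ℝ => ((θ, ρ), t) by fun_prop)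
  rw [← lintegral_const_mul _ hq', ← lintegral_const_mul]
  · refine lintegral_congr fun t => ?_
    unfold Zf
    rw [q_symm ρ s t, S.H_symm ρ θ' θ]
    ring
  · exact measurable_const.mul hq'

lemma iter_congr (S : Cyl M μ) (W : ℝ → ℝ → ℝ → ℝ≥0∞)
    (hW : Measurable (fun z : ℝ × ℝ × ℝ => W z.1 z.2.1 z.2.2)) (θ θ' : M) (ρ : ℝ) :
    ∫⁻ t, ∫⁻ s, Zf S W θ θ' ρ t s ∂volume ∂volume
      = ENNReal.ofReal (S.H ρ θ θ') * ∫⁻ t, ENNReal.ofReal (S.F t θ) *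
          ∫⁻ s, q ρ t s * (W ρ t s * ENNReal.ofReal (S.G s θ')) := by
  have h4 : Measurable fun y : ℝ × ℝ => q ρ y.1 y.2 :=
    q_meas.comp (show Measurable fun y : ℝ × ℝ => (ρ, y.1, y.2) by fun_prop)
  have h5 : Measurable fun y : ℝ × ℝ => W ρ y.1 y.2 :=
    hW.comp (show Measurable fun y : ℝ × ℝ => (ρ, y.1, y.2) by fun_prop)
  have h3 : Measurable fun y : ℝ × ℝ => S.G y.2 θ' :=
    (G_meas S).comp (show Measurable fun y : ℝ × ℝ => (y.2, θ') by fun_prop)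
  have hin : Measurable fun y : ℝ × ℝ => q ρ y.1 y.2 * (W ρ y.1 y.2 * ENNReal.ofReal (S.G y.2 θ')) :=
    h4.mul (h5.mul h3.ennreal_ofReal)
  have h2 : Measurable fun t : ℝ => S.F t θ :=
    (F_meas S).comp (show Measurable fun t : ℝ => (t, θ) by fun_prop)
  have hout : Measurable fun t : ℝ => ENNReal.ofReal (S.F t θ) *
      ∫⁻ s, q ρ t s * (W ρ t s * ENNReal.ofReal (S.G s θ')) :=
    h2.ennreal_ofReal.mul (part_meas (f := fun t s => q ρ t s * (W ρ t s *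
      ENNReal.ofReal (S.G s θ'))) volume hin)
  rw [← lintegral_const_mul _ hout]
  refine lintegral_congr fun t => ?_
  have hin' : Measurable fun s : ℝ => q ρ t s * (W ρ t s * ENNReal.ofReal (S.G s θ')) :=
    hin.comp (show Measurable fun s : ℝ => (t, s) by fun_prop)
  have hin2 : Measurable fun s : ℝ => ENNReal.ofReal (S.F t θ) *
      (q ρ t s * (W ρ t s * ENNReal.ofReal (S.G s θ'))) := measurable_const.mul hin'
  rw [← lintegral_const_mul _ hin', ← lintegral_const_mul _ hin2]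
  rfl

/-- indicator of `δ < ρ` -/
noncomputable def far (δ : ℝ) (ρ : ℝ) : ℝ≥0∞ := if δ < ρ then 1 else 0

lemma far_meas (δ : ℝ) : Measurable (far δ) := by
  unfold far
  exact Measurable.ite measurableSet_Ioi measurable_const measurable_const

/-- the far energy in `ℝ≥0∞` -/
noncomputable def BE (S : Cyl M μ) (δ : ℝ) : ℝ≥0∞ :=
  ∫⁻ θ, ∫⁻ θ', ∫⁻ ρ in Ioi δ, ENNReal.ofReal (S.H ρ θ θ') *
      ∫⁻ t, ENNReal.ofReal (S.F t θ) *
        ∫⁻ s in Ioo (t - ρ) (t + ρ), ENNReal.ofReal (S.G s θ')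
          ∂volume ∂volume ∂volume ∂μ ∂μ

lemma Bfar_eq (S : Cyl M μ) (δ : ℝ) : S.Bfar δ = (BE S δ).toReal := rfl

lemma Q_far (S : Cyl M μ) {δ : ℝ} (hδ : 0 < δ) : Q S (fun ρ _ _ => far δ ρ) = BE S δ := by
  unfold Q BE
  refine lintegral_congr fun θ => lintegral_congr fun θ' => ?_
  have hW : Measurable (fun z : ℝ × ℝ × ℝ => far δ z.1) := (far_meas δ).comp (by fun_prop)
  rw [← lintegral_indicator measurableSet_Ioi, ← lintegral_indicator measurableSet_Ioi]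
  refine lintegral_congr fun ρ => ?_
  by_cases h : δ < ρ
  · rw [Set.indicator_of_mem (show ρ ∈ Ioi (0:ℝ) from hδ.trans h),
      Set.indicator_of_mem (show ρ ∈ Ioi δ from h),
      iter_congr S (fun ρ _ _ => far δ ρ) hW θ θ' ρ]
    congr 1
    refine lintegral_congr fun t => ?_
    rw [set_lint]
    congr 1
    refine lintegral_congr fun s => ?_
    simp only [far, if_pos h, one_mul]
  · rw [Set.indicator_of_notMem (show ρ ∉ Ioi δ from h)]
    by_cases h0 : 0 < ρ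
    · rw [Set.indicator_of_mem (show ρ ∈ Ioi (0:ℝ) from h0)]
      have : ∀ t s, Zf S (fun ρ _ _ => far δ ρ) θ θ' ρ t s = 0 := by
        intro t s
        simp [Zf, far, h]
      simp [this]
    · rw [Set.indicator_of_notMem (show ρ ∉ Ioi (0:ℝ) from h0)]

lemma BE_ne_top (S : Cyl M μ) {δ : ℝ} (h0 : 0 < δ) (h1 : δ ≤ 1) : BE S δ ≠ ∞ := by
  obtain ⟨C, κ, hC, hκ, h⟩ := S.far
  exact ((h δ ⟨h0, h1⟩).trans_lt ENNReal.ofReal_lt_top).ne


/-- monotonicity in the weight -/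
lemma Q_mono (S : Cyl M μ) {W W' : ℝ → ℝ → ℝ → ℝ≥0∞}
    (h : ∀ ρ t s, 0 < ρ → t - ρ < s → s < t + ρ → W ρ t s ≤ W' ρ t s) : Q S W ≤ Q S W' := by
  unfold Q
  refine lintegral_mono fun θ => lintegral_mono fun θ' => ?_
  refine setLIntegral_mono' measurableSet_Ioi fun ρ hρ => ?_
  refine lintegral_mono fun t => lintegral_mono fun s => ?_
  unfold Zf
  unfold q
  by_cases hq : t - ρ < s ∧ s < t + ρ
  · rw [if_pos hq]
    have := h ρ t s hρ hq.1 hq.2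
    gcongr
  · rw [if_neg hq]; simp

lemma Q_add [SFinite μ] (S : Cyl M μ) {W W' : ℝ → ℝ → ℝ → ℝ≥0∞}
    (hW : Measurable (fun z : ℝ × ℝ × ℝ => W z.1 z.2.1 z.2.2)) :
    Q S (fun ρ t s => W ρ t s + W' ρ t s) = Q S W + Q S W' := by
  have hZ := Zf_meas S hW
  have e : ∀ θ θ' ρ t s, Zf S (fun ρ t s => W ρ t s + W' ρ t s) θ θ' ρ t s
      = Zf S W θ θ' ρ t s + Zf S W' θ θ' ρ t s := by
    intro θ θ' ρ t s
    unfold Zf
    ring
  have a0 : Measurable (fun y : ((((M × M) × ℝ) × ℝ) × ℝ) =>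
      Zf S W y.1.1.1.1 y.1.1.1.2 y.1.1.2 y.1.2 y.2) := by
    exact hZ.comp (show Measurable fun z : (((M × M) × ℝ) × ℝ) × ℝ =>
      (z.1.1.1.1, z.1.1.1.2, z.1.1.2, z.1.2, z.2) by fun_prop)
  have a1 : Measurable (fun y : (((M × M) × ℝ) × ℝ) => ∫⁻ s, Zf S W y.1.1.1 y.1.1.2 y.1.2 y.2 s
      ∂volume) :=
    part_meas (f := fun (y : (((M × M) × ℝ) × ℝ)) s => Zf S W y.1.1.1 y.1.1.2 y.1.2 y.2 s)
      volume a0
  have a2 : Measurable (fun y : ((M × M) × ℝ) => ∫⁻ t, ∫⁻ s, Zf S W y.1.1 y.1.2 y.2 t s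
      ∂volume ∂volume) :=
    part_meas (f := fun (y : ((M × M) × ℝ)) t => ∫⁻ s, Zf S W y.1.1 y.1.2 y.2 t s ∂volume) volume a1
  have a3 : Measurable (fun y : (M × M) => ∫⁻ ρ in Ioi (0:ℝ), ∫⁻ t, ∫⁻ s, Zf S W y.1 y.2 ρ t s
      ∂volume ∂volume) :=
    part_meas (f := fun (y : M × M) ρ => ∫⁻ t, ∫⁻ s, Zf S W y.1 y.2 ρ t s ∂volume ∂volume) _ a2
  have a4 : Measurable (fun θ : M => ∫⁻ θ', ∫⁻ ρ in Ioi (0:ℝ), ∫⁻ t, ∫⁻ s, Zf S W θ θ' ρ t s
      ∂volume ∂volume ∂volume ∂μ) :=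
    part_meas (f := fun (θ : M) θ' => ∫⁻ ρ in Ioi (0:ℝ), ∫⁻ t, ∫⁻ s, Zf S W θ θ' ρ t s
      ∂volume ∂volume ∂volume) μ a3
  unfold Q
  rw [← lintegral_add_left a4]
  refine lintegral_congr fun θ => ?_
  have b3 : Measurable fun θ' : M => ∫⁻ ρ in Ioi (0:ℝ), ∫⁻ t, ∫⁻ s, Zf S W θ θ' ρ t s
      ∂volume ∂volume := a3.comp (show Measurable fun θ' : M => (θ, θ') by fun_prop)
  rw [← lintegral_add_left b3]
  refine lintegral_congr fun θ' => ?_
  have b2 : Measurable fun ρ : ℝ => ∫⁻ t, ∫⁻ s, Zf S W θ θ' ρ t s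
      ∂volume ∂volume := a2.comp (show Measurable fun ρ : ℝ => ((θ, θ'), ρ) by fun_prop)
  rw [← lintegral_add_left b2]
  refine lintegral_congr fun ρ => ?_
  have b1 : Measurable fun t : ℝ => ∫⁻ s, Zf S W θ θ' ρ t s ∂volume :=
    a1.comp (show Measurable fun t : ℝ => (((θ, θ'), ρ), t) by fun_prop)
  rw [← lintegral_add_left b1]
  refine lintegral_congr fun t => ?_
  have b0 : Measurable fun s : ℝ => Zf S W θ θ' ρ t s :=
    a0.comp (show Measurable fun s : ℝ => ((((θ, θ'), ρ), t), s) by fun_prop)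
  rw [← lintegral_add_left b0]
  refine lintegral_congr fun s => ?_
  exact e θ θ' ρ t s

/-- Bochner form of a finite iterated integral -/
lemma iter_toReal [SFinite μ] (r : Measure ℝ) [SFinite r] {g : ℝ → M → ℝ}
    (hg : Measurable (fun z : ℝ × M => g z.1 z.2)) (h0 : ∀ t θ, 0 ≤ g t θ)
    (hfin : ∫⁻ θ, ∫⁻ t, ENNReal.ofReal (g t θ) ∂r ∂μ ≠ ∞) :
    ∫ θ, ∫ t, g t θ ∂r ∂μ = (∫⁻ θ, ∫⁻ t, ENNReal.ofReal (g t θ) ∂r ∂μ).toReal := by
  have hm : Measurable fun θ : M => ∫⁻ t, ENNReal.ofReal (g t θ) ∂r :=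
    part_meas (f := fun (θ : M) t => ENNReal.ofReal (g t θ)) r
      (hg.comp (show Measurable fun z : M × ℝ => (z.2, z.1) by fun_prop)).ennreal_ofReal
  rw [← integral_toReal hm.aemeasurable (ae_lt_top hm hfin)]
  refine integral_congr_ae (Filter.Eventually.of_forall fun θ => ?_)
  exact integral_eq_lintegral_of_nonneg_ae (Filter.Eventually.of_forall fun t => h0 t θ)
    (hg.comp (show Measurable fun t : ℝ => (t, θ) by fun_prop)).aestronglyMeasurable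

lemma FV_meas (S : Cyl M μ) : Measurable (fun z : ℝ × M => S.F z.1 z.2 * S.V z.1 z.2) :=
  (F_meas S).mul S.V_meas

lemma GU_meas (S : Cyl M μ) : Measurable (fun z : ℝ × M => S.G z.1 z.2 * S.U z.1 z.2) :=
  (G_meas S).mul S.U_meas

/-- indicator of `t ≤ T` -/
noncomputable def ind1 (T t : ℝ) : ℝ≥0∞ := if t ≤ T then 1 else 0

lemma ind1_meas (T : ℝ) : Measurable (ind1 T) := by
  unfold ind1
  exact Measurable.ite measurableSet_Iic measurable_const measurable_const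

/-- the energies in `ℝ≥0∞` -/
noncomputable def J1E (S : Cyl M μ) (T : ℝ) : ℝ≥0∞ :=
  ∫⁻ θ, ∫⁻ t in Iic T, ENNReal.ofReal (S.F t θ * S.V t θ) ∂volume ∂μ
noncomputable def J2E (S : Cyl M μ) (T : ℝ) : ℝ≥0∞ :=
  ∫⁻ θ, ∫⁻ t in Iic T, ENNReal.ofReal (S.G t θ * S.U t θ) ∂volume ∂μ

lemma J1E_ne_top (S : Cyl M μ) (T : ℝ) : J1E S T ≠ ∞ := S.fin1 T
lemma J2E_ne_top (S : Cyl M μ) (T : ℝ) : J2E S T ≠ ∞ := S.fin2 T

lemma J1_eq [SFinite μ] (S : Cyl M μ) (T : ℝ) : S.J1 T = (J1E S T).toReal :=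
  iter_toReal (μ := μ) (volume.restrict (Iic T)) (FV_meas S)
    (fun t θ => (mul_pos (F_pos S t θ) (S.V_pos t θ)).le) (J1E_ne_top S T)

lemma J2_eq [SFinite μ] (S : Cyl M μ) (T : ℝ) : S.J2 T = (J2E S T).toReal :=
  iter_toReal (μ := μ) (volume.restrict (Iic T)) (GU_meas S)
    (fun t θ => (mul_pos (G_pos S t θ) (S.U_pos t θ)).le) (J2E_ne_top S T)

lemma set_Iic (T : ℝ) (g : ℝ → ℝ≥0∞) : ∫⁻ t in Iic T, g t = ∫⁻ t, ind1 T t * g t := by
  rw [← lintegral_indicator measurableSet_Iic]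
  refine lintegral_congr fun s => ?_
  unfold ind1
  by_cases h : s ≤ T
  · rw [if_pos h, one_mul, Set.indicator_of_mem (show s ∈ Iic T from h)]
  · rw [if_neg h, zero_mul, Set.indicator_of_notMem (show s ∉ Iic T from h)]

lemma ofReal_FV (S : Cyl M μ) (t : ℝ) (θ : M) : ENNReal.ofReal (S.F t θ * S.V t θ)
    = ENNReal.ofReal (S.F t θ) * ENNReal.ofReal (S.V t θ) :=
  ENNReal.ofReal_mul (F_pos S t θ).le

lemma ofReal_GU (S : Cyl M μ) (t : ℝ) (θ : M) : ENNReal.ofReal (S.G t θ * S.U t θ)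
    = ENNReal.ofReal (S.G t θ) * ENNReal.ofReal (S.U t θ) :=
  ENNReal.ofReal_mul (G_pos S t θ).le



/-- weights which are nonnegative, bounded by `C` and vanish beyond `T` -/
lemma wFV_eq [SFinite μ] (S : Cyl M μ) {w : ℝ → ℝ} (hw : Measurable w) (h0 : ∀ t, 0 ≤ w t) {C T : ℝ}
    (hC : ∀ t, w t ≤ C) (hT : ∀ t, T < t → w t = 0) :
    Q S (fun _ t _ => ENNReal.ofReal (w t)) ≠ ∞ ∧
    ∫ θ, ∫ t, w t * (S.F t θ * S.V t θ) ∂volume ∂μ
      = (Q S (fun _ t _ => ENNReal.ofReal (w t))).toReal := by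
  have e : ∫⁻ θ, ∫⁻ t, ENNReal.ofReal (w t * (S.F t θ * S.V t θ)) ∂volume ∂μ
      = Q S (fun _ t _ => ENNReal.ofReal (w t)) := by
    rw [← Q_F S hw.ennreal_ofReal]
    refine lintegral_congr fun θ => lintegral_congr fun t => ?_
    rw [ENNReal.ofReal_mul (h0 t), ofReal_FV]
  have hfin : Q S (fun _ t _ => ENNReal.ofReal (w t)) ≠ ∞ := by
    rw [← e]
    have h1 : ∫⁻ θ, ∫⁻ t, ENNReal.ofReal (w t * (S.F t θ * S.V t θ)) ∂volume ∂μ
        ≤ ENNReal.ofReal C * J1E S T := by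
      unfold J1E
      rw [← lintegral_const_mul' _ _ ENNReal.ofReal_ne_top]
      refine lintegral_mono fun θ => ?_
      rw [← lintegral_const_mul' _ _ ENNReal.ofReal_ne_top, ← lintegral_indicator measurableSet_Iic]
      refine lintegral_mono fun t => ?_
      by_cases h : t ≤ T
      · rw [Set.indicator_of_mem (show t ∈ Iic T from h), ENNReal.ofReal_mul (h0 t)]
        gcongr
        exact hC t
      · have : w t = 0 := hT t (not_le.1 h)
        simp [this]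
    exact (h1.trans_lt (ENNReal.mul_lt_top ENNReal.ofReal_lt_top
      (lt_top_iff_ne_top.2 (J1E_ne_top S T)))).ne
  refine ⟨hfin, ?_⟩
  rw [← e]
  refine iter_toReal (μ := μ) volume ((hw.comp measurable_fst).mul (FV_meas S)) (fun t θ =>
    mul_nonneg (h0 t) (mul_pos (F_pos S t θ) (S.V_pos t θ)).le) ?_
  rw [e]; exact hfin

lemma wGU_eq [SFinite μ] (S : Cyl M μ) {w : ℝ → ℝ} (hw : Measurable w) (h0 : ∀ t, 0 ≤ w t) {C T : ℝ}
    (hC : ∀ t, w t ≤ C) (hT : ∀ t, T < t → w t = 0) :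
    Q S (fun _ _ s => ENNReal.ofReal (w s)) ≠ ∞ ∧
    ∫ θ, ∫ t, w t * (S.G t θ * S.U t θ) ∂volume ∂μ
      = (Q S (fun _ _ s => ENNReal.ofReal (w s))).toReal := by
  have e : ∫⁻ θ, ∫⁻ t, ENNReal.ofReal (w t * (S.G t θ * S.U t θ)) ∂volume ∂μ
      = Q S (fun _ _ s => ENNReal.ofReal (w s)) := by
    rw [← Q_G S hw.ennreal_ofReal]
    refine lintegral_congr fun θ => lintegral_congr fun t => ?_
    rw [ENNReal.ofReal_mul (h0 t), ofReal_GU]
  have hfin : Q S (fun _ _ s => ENNReal.ofReal (w s)) ≠ ∞ := by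
    rw [← e]
    have h1 : ∫⁻ θ, ∫⁻ t, ENNReal.ofReal (w t * (S.G t θ * S.U t θ)) ∂volume ∂μ
        ≤ ENNReal.ofReal C * J2E S T := by
      unfold J2E
      rw [← lintegral_const_mul' _ _ ENNReal.ofReal_ne_top]
      refine lintegral_mono fun θ => ?_
      rw [← lintegral_const_mul' _ _ ENNReal.ofReal_ne_top, ← lintegral_indicator measurableSet_Iic]
      refine lintegral_mono fun t => ?_
      by_cases h : t ≤ T
      · rw [Set.indicator_of_mem (show t ∈ Iic T from h), ENNReal.ofReal_mul (h0 t)]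
        gcongr
        exact hC t
      · have : w t = 0 := hT t (not_le.1 h)
        simp [this]
    exact (h1.trans_lt (ENNReal.mul_lt_top ENNReal.ofReal_lt_top
      (lt_top_iff_ne_top.2 (J2E_ne_top S T)))).ne
  refine ⟨hfin, ?_⟩
  rw [← e]
  refine iter_toReal (μ := μ) volume ((hw.comp measurable_fst).mul (GU_meas S)) (fun t θ =>
    mul_nonneg (h0 t) (mul_pos (G_pos S t θ) (S.U_pos t θ)).le) ?_
  rw [e]; exact hfin

/-- `∫∫ c 1_{t ≤ T} F V` -/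
lemma Q_const [SFinite μ] (S : Cyl M μ) (T : ℝ) {c : ℝ≥0∞} (hc : c ≠ ∞) :
    Q S (fun _ t _ => c * ind1 T t) = c * J1E S T := by
  have hm : Measurable fun t : ℝ => c * ind1 T t := measurable_const.mul (ind1_meas T)
  rw [← Q_F S hm]
  unfold J1E
  rw [← lintegral_const_mul' _ _ hc]
  refine lintegral_congr fun θ => ?_
  rw [set_Iic, ← lintegral_const_mul' _ _ hc]
  refine lintegral_congr fun t => ?_
  rw [ofReal_FV]; ring

end EnQ

open EnQ in
/-- the two cut off energies are close -/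
theorem AA : Stmt_AA := by
  intro M _ μ _ S lam a δ ha ha1 hδ hδa
  have hw := TP.phi_measurable lam a
  have h0 := TP.phi_nonneg (a := a) ha lam
  have hC := TP.phi_le_one lam a
  have hT : ∀ t, lam + a < t → phi lam a t = 0 := fun t ht => TP.phi_eq_zero ha ht.le
  obtain ⟨f1, e1⟩ := wFV_eq S hw h0 hC hT
  obtain ⟨f2, e2⟩ := wGU_eq S hw h0 hC hT
  have hB := BE_ne_top S hδ (hδa.trans ha1)
  have hJ := J1E_ne_top S (lam + 2 * a)
  set c : ℝ≥0∞ := ENNReal.ofReal (2 * δ / a) with hc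
  have hct : c ≠ ∞ := ENNReal.ofReal_ne_top
  have hcr : c.toReal = 2 * δ / a := ENNReal.toReal_ofReal (by positivity)
  -- pointwise inequalities
  have hfar : ∀ ρ : ℝ, ¬ δ < ρ → ∀ t s, t - ρ < s → s < t + ρ →
      ENNReal.ofReal (phi lam a t) ≤ ENNReal.ofReal (phi lam a s) + c * ind1 (lam + 2 * a) t ∧
      ENNReal.ofReal (phi lam a s) ≤ ENNReal.ofReal (phi lam a t) + c * ind1 (lam + 2 * a) t := by
    intro ρ hρ t s h1 h2
    push Not at hρ
    by_cases ht : t ≤ lam + 2 * a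
    · have hab : |phi lam a t - phi lam a s| ≤ 2 * δ / a := by
        refine (TP.phi_abs_sub_le ha lam t s).trans ?_
        have : |t - s| ≤ δ := by rw [abs_le]; constructor <;> linarith
        calc 2 / a * |t - s| ≤ 2 / a * δ := by gcongr
          _ = 2 * δ / a := by ring
      rw [abs_le] at hab
      simp only [ind1, if_pos ht, mul_one, hc]
      constructor
      · rw [← ENNReal.ofReal_add (h0 s) (by positivity)]
        exact ENNReal.ofReal_le_ofReal (by linarith)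
      · rw [← ENNReal.ofReal_add (h0 t) (by positivity)]
        exact ENNReal.ofReal_le_ofReal (by linarith)
    · push Not at ht
      have z1 : phi lam a t = 0 := TP.phi_eq_zero ha (by linarith)
      have z2 : phi lam a s = 0 := TP.phi_eq_zero ha (by linarith)
      rw [z1, z2]
      simp
  have hone : ∀ t, ENNReal.ofReal (phi lam a t) ≤ 1 := fun t => by
    rw [← ENNReal.ofReal_one]; exact ENNReal.ofReal_le_ofReal (hC t)
  have hp1 : Measurable (fun z : ℝ × ℝ × ℝ => ENNReal.ofReal (phi lam a z.2.1)) :=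
    (hw.comp (by fun_prop : Measurable fun z : ℝ × ℝ × ℝ => z.2.1)).ennreal_ofReal
  have hp2 : Measurable (fun z : ℝ × ℝ × ℝ => ENNReal.ofReal (phi lam a z.2.2)) :=
    (hw.comp (by fun_prop : Measurable fun z : ℝ × ℝ × ℝ => z.2.2)).ennreal_ofReal
  have hp3 : Measurable (fun z : ℝ × ℝ × ℝ => c * ind1 (lam + 2 * a) z.2.1) :=
    measurable_const.mul ((ind1_meas _).comp (by fun_prop))
  have k1 : Q S (fun _ t _ => ENNReal.ofReal (phi lam a t))
      ≤ Q S (fun _ _ s => ENNReal.ofReal (phi lam a s)) + (c * J1E S (lam + 2 * a) + BE S δ) := by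
    rw [← Q_far S hδ, ← Q_const S _ hct, ← Q_add S hp3, ← Q_add S hp2]
    refine Q_mono S fun ρ t s h h1 h2 => ?_
    by_cases hρ : δ < ρ
    · refine (hone t).trans ?_
      simp only [far, if_pos hρ]
      rw [← add_assoc]
      exact le_add_self
    · refine ((hfar ρ hρ t s h1 h2).1).trans ?_
      rw [← add_assoc]
      exact le_self_add
  have k2 : Q S (fun _ _ s => ENNReal.ofReal (phi lam a s))
      ≤ Q S (fun _ t _ => ENNReal.ofReal (phi lam a t)) + (c * J1E S (lam + 2 * a) + BE S δ) := by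
    rw [← Q_far S hδ, ← Q_const S _ hct, ← Q_add S hp3, ← Q_add S hp1]
    refine Q_mono S fun ρ t s h h1 h2 => ?_
    by_cases hρ : δ < ρ
    · refine (hone s).trans ?_
      simp only [far, if_pos hρ]
      rw [← add_assoc]
      exact le_add_self
    · refine ((hfar ρ hρ t s h1 h2).2).trans ?_
      rw [← add_assoc]
      exact le_self_add
  have hsum : c * J1E S (lam + 2 * a) + BE S δ ≠ ∞ :=
    ENNReal.add_ne_top.2 ⟨ENNReal.mul_ne_top hct hJ, hB⟩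
  have hsr : (c * J1E S (lam + 2 * a) + BE S δ).toReal
      = (2 * δ / a) * S.J1 (lam + 2 * a) + S.Bfar δ := by
    rw [ENNReal.toReal_add (ENNReal.mul_ne_top hct hJ) hB, ENNReal.toReal_mul, hcr, J1_eq, Bfar_eq]
  rw [e1, e2, abs_le]
  constructor
  · have := ENNReal.toReal_mono (ENNReal.add_ne_top.2 ⟨f1, hsum⟩) k2
    rw [ENNReal.toReal_add f1 hsum, hsr] at this
    linarith
  · have := ENNReal.toReal_mono (ENNReal.add_ne_top.2 ⟨f2, hsum⟩) k1
    rw [ENNReal.toReal_add f2 hsum, hsr] at this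
    linarith

end Crest.Agent.R077
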