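import Crest.Agent.R077.Defs

/-!
Row 77: frozen interface of the core (captain helper427).  Every `Stmt_*` is a `Prop`; the owner of a
module proves `theorem X : Stmt_X`.  Notation of the blueprint:
`w = tent lam a`, `φ = phi lam a`, `La = 4/a^2`, `h = msh a m`.
-/

set_option autoImplicit false
open MeasureTheory Set Real
open scoped ENNReal

namespace Crest.Agent.R077

/-! ### pure one dimensional statements -/

/-- admissible layer data for a function `f`: `x` vanishes outside `1..m`, is nonnegative and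
`x k ≤ f` on the cell `k` of the window. -/
structure Lay (f : ℝ → ℝ) (x : ℕ → ℝ) (lam a : ℝ) (m : ℕ) : Prop where
  f_cont : Continuous f
  f_nonneg : ∀ t, 0 ≤ f t
  x_nonneg : ∀ k, 0 ≤ x k
  x_zero : x 0 = 0
  x_out : ∀ k, m < k → x k = 0
  x_le : ∀ k, 1 ≤ k → k ≤ m → ∀ t, nd lam a m (k - 1) ≤ t → t ≤ nd lam a m k → x k ≤ f t

/-- (A) positivity of the pairing for every box kernel -/
def Stmt_Dpos : Prop :=
  ∀ (f g : ℝ → ℝ) (x y : ℕ → ℝ) (lam a : ℝ) (m : ℕ) (η ρ : ℝ),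
    0 < a → a ≤ 1 → 1 ≤ m → 0 < η → 8 * η ≤ a → 0 < ρ →
    Lay f x lam a m → Lay g y lam a m →
    0 ≤ dRho f g (omega f x (shortI a m η) lam a m) (omega g y (shortI a m η) lam a m) ρ

/-- (C) lower bound of the pairing for `ρ ≤ η/2` -/
def Stmt_Dkey : Prop :=
  ∀ (f g : ℝ → ℝ) (x y : ℕ → ℝ) (lam a : ℝ) (m : ℕ) (η ρ : ℝ),
    0 < a → a ≤ 1 → 1 ≤ m → 0 < η → 8 * η ≤ a → 0 < ρ → 2 * ρ ≤ η →
    Lay f x lam a m → Lay g y lam a m →
    (∫ t, tent lam a t * stepF x (longI a m η) lam a m t * box g ρ t)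
      + (∫ t, tent lam a t * stepF y (longI a m η) lam a m t * box f ρ t)
      - (∫ t, tent lam a t * stepF x (longI a m η) lam a m t *
            box (stepF y (longI a m η) lam a m) ρ t)
      - 2 * η * tvS (box g ρ) x (longI a m η) lam a m η
      - η * tvS (box f ρ) y (longI a m η) lam a m η
    ≤ dRho f g (omega f x (shortI a m η) lam a m) (omega g y (shortI a m η) lam a m) ρ

/-- one dimensional solution data on the window: `f = e^{bt} v^p`, everything in `[1/L, L]`,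
Lipschitz with constant `L` on `[lam-2, lam+4]`, `v` of class `C^1`. -/
structure Sol (b p : ℝ) (f v : ℝ → ℝ) (lam L : ℝ) : Prop where
  hp : 0 < p
  hL : 1 ≤ L
  feq : ∀ t, f t = Real.exp (b * t) * v t ^ p
  v_pos : ∀ t, 0 < v t
  v_C1 : ContDiff ℝ 1 v
  f_le : ∀ t ∈ Icc (lam - 2) (lam + 4), f t ≤ L
  f_ge : ∀ t ∈ Icc (lam - 2) (lam + 4), 1 ≤ L * f t
  v_le : ∀ t ∈ Icc (lam - 2) (lam + 4), v t ≤ L
  v_ge : ∀ t ∈ Icc (lam - 2) (lam + 4), 1 ≤ L * v t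
  f_lip : ∀ t ∈ Icc (lam - 2) (lam + 4), ∀ s ∈ Icc (lam - 2) (lam + 4), |f t - f s| ≤ L * |t - s|
  v_lip : ∀ t ∈ Icc (lam - 2) (lam + 4), ∀ s ∈ Icc (lam - 2) (lam + 4), |v t - v s| ≤ L * |t - s|

/-- `C_b` -/
noncomputable def cb (b p : ℝ) : ℝ := (|b| / p) * Real.exp (|b| / p)

/-- STEP W for one angle.  `K` depends only on `(b,p,lam,a,L)`. -/
def Stmt_W1 : Prop :=
  ∀ (b p lam a L : ℝ), 0 < a → a ≤ 1 → ∃ K : ℝ, 0 ≤ K ∧
    ∀ (f v : ℝ → ℝ) (m : ℕ) (η : ℝ), Sol b p f v lam L → 1 ≤ m → 4 * L ^ 2 * msh a m ≤ 1 →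
      0 < η → 8 * η ≤ a →
      (∑ i ∈ shortI a m η, rc (samp f lam a m L) i *
          ∫ t in (lft lam a m i)..(rgt lam a m i), (phi lam a (mid lam a m i) - phi lam a t) * deriv v t)
        + (1 / (p + 1)) * ∫ t, tent lam a t * (f t * v t)
      ≤ (∫ t, tent lam a t * (stepF (samp f lam a m L) (longI a m η) lam a m t * v t))
        - (∫ t, tent lam a t * psi b p t (stepF (samp f lam a m L) (longI a m η) lam a m t))
        + cb b p * η * (∫ t, tent lam a t * (f t * v t)) + K * msh a m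

/-- STEP TV for one angle (`η ≤ δ`, scales of the long pieces). -/
def Stmt_TV1 : Prop :=
  ∀ (b p lam a L : ℝ), 0 < a → a ≤ 1 → ∃ K : ℝ, 0 ≤ K ∧
    ∀ (f v : ℝ → ℝ) (m : ℕ) (η δ : ℝ), Sol b p f v lam L → 1 ≤ m → 4 * L ^ 2 * msh a m ≤ 1 →
      0 < η → η ≤ δ → 8 * δ ≤ a → cb b p * δ ≤ 1 → msh a m ≤ η →
      η * tvS v (samp f lam a m L) (longI a m η) lam a m η
      ≤ 4 * (η / δ) * (∫ t, tent lam a t * psi b p t (stepF (samp f lam a m L) (longI a m δ) lam a m t))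
        + 4 * ((∫ t, tent lam a t * psi b p t (stepF (samp f lam a m L) (longI a m η) lam a m t))
              - ∫ t, tent lam a t * psi b p t (stepF (samp f lam a m L) (longI a m δ) lam a m t))
        + 24 * (4 / a ^ 2) * δ * (∫ t in Icc (lam - a / 2) (lam + 3 * a / 2), f t * v t)
        + K * msh a m

/-- monotonicity and bound of the opening energy for one angle -/
def Stmt_E1 : Prop :=
  ∀ (b p lam a L : ℝ) (f v : ℝ → ℝ) (m : ℕ) (η δ : ℝ), 0 < a → a ≤ 1 → Sol b p f v lam L → 1 ≤ m →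
    4 * L ^ 2 * msh a m ≤ 1 → 0 < η → η ≤ δ →
    0 ≤ (∫ t, tent lam a t * psi b p t (stepF (samp f lam a m L) (longI a m δ) lam a m t)) ∧
    (∫ t, tent lam a t * psi b p t (stepF (samp f lam a m L) (longI a m δ) lam a m t))
      ≤ (∫ t, tent lam a t * psi b p t (stepF (samp f lam a m L) (longI a m η) lam a m t)) ∧
    (∫ t, tent lam a t * psi b p t (stepF (samp f lam a m L) (longI a m η) lam a m t))
      ≤ ∫ t, tent lam a t * (f t * v t)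

/-- X3: the opening bound, pointwise in `t` on the support of the tent: there is a node `k` within
`ζ` of `t` with `F^{L,η}(t) * v(nd k) ≤ (1+Cb ζ)((p+1)/p) ψ(t, F^{L,ζ}(t)) + K h`. -/
def Stmt_X3 : Prop :=
  ∀ (b p lam a L : ℝ), 0 < a → a ≤ 1 → ∃ K : ℝ, 0 ≤ K ∧
    ∀ (f v : ℝ → ℝ) (m : ℕ) (η ζ : ℝ), Sol b p f v lam L → 1 ≤ m → 4 * L ^ 2 * msh a m ≤ 1 →
      0 < ζ → ζ ≤ η → 8 * η ≤ a → msh a m ≤ ζ →
      ∀ t ∈ Icc lam (lam + a), ∃ s, |s - t| ≤ ζ ∧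
        stepF (samp f lam a m L) (longI a m η) lam a m t * v s
          ≤ (1 + cb b p * ζ) * ((p + 1) / p) *
              psi b p t (stepF (samp f lam a m L) (longI a m ζ) lam a m t) + K * msh a m

/-- the long layers shrunk by `ζ` at both ends -/
noncomputable def stepShr (x : ℕ → ℝ) (S : Finset (ℕ × ℕ)) (lam a : ℝ) (m : ℕ) (ζ t : ℝ) : ℝ :=
  ∑ i ∈ S, rc x i * (if lft lam a m i + ζ ≤ t ∧ t < rgt lam a m i - ζ then 1 else 0)

/-- X1: shrunk layers are dominated by all translates -/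
def Stmt_X1 : Prop :=
  ∀ (g : ℝ → ℝ) (y : ℕ → ℝ) (lam a : ℝ) (m : ℕ) (η ζ : ℝ), 0 < a → 1 ≤ m → 0 < η → 0 ≤ ζ →
    Lay g y lam a m → ∀ t s, |s| ≤ ζ → stepShr y (longI a m η) lam a m ζ t ≤ g (t + s)

/-- X4: the end parts, for one pair of angles and one `ρ`:
`f`-side long layers seen from the ends of the `g`-side long layers. -/
def Stmt_X4 : Prop :=
  ∀ (f g : ℝ → ℝ) (x y : ℕ → ℝ) (lam a : ℝ) (m : ℕ) (η ζ ρ : ℝ),
    0 < a → a ≤ 1 → 1 ≤ m → 8 * η ≤ a → 0 < ζ → 16 * ζ ≤ η → 0 < ρ → 16 * ρ ≤ ζ → msh a m ≤ ζ →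
    Lay f x lam a m → Lay g y lam a m →
    (∫ t, tent lam a t * stepF x (longI a m η) lam a m t *
        box (fun s => stepF y (longI a m η) lam a m s - stepShr y (longI a m η) lam a m ζ s) ρ t)
    ≤ ζ * tvS (box f ρ) y (longI a m η) lam a m η
      + 16 * (ζ / η) * (∫ t, tent lam a t * stepF y (longI a m η) lam a m t *
          box (stepF x (longI a m η) lam a m) ρ t)
      + 16 * (ζ / η) * (4 / a ^ 2) * η *
          (∫ t in Icc (lam - a / 2) (lam + 3 * a / 2), g t * box f ρ t)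

/-! ### statements on the cylinder -/

section cyl
variable {M : Type} [MeasurableSpace M] {μ : Measure M}

/-- both one dimensional data are admissible on the window, uniformly in the angle -/
structure WinOK (S : Cyl M μ) (lam a : ℝ) (m : ℕ) (L : ℝ) : Prop where
  ha : 0 < a
  ha1 : a ≤ 1
  hm : 1 ≤ m
  hLm : 4 * L ^ 2 * msh a m ≤ 1
  solF : ∀ θ, Sol S.b₁ S.p (fun t => S.F t θ) (fun t => S.V t θ) lam L
  solG : ∀ θ, Sol S.b₂ S.q (fun t => S.G t θ) (fun t => S.U t θ) lam L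


end cyl

/-- existence of `L` -/
def Stmt_Win : Prop :=
  ∀ (M : Type) [MeasurableSpace M] (μ : Measure M) [IsFiniteMeasure μ] (S : Cyl M μ) (lam a : ℝ),
    0 < a → a ≤ 1 → ∃ L : ℝ, ∃ m₀ : ℕ, ∀ m : ℕ, m₀ ≤ m → WinOK S lam a m L

/-- `S'` is `S` with the two functions exchanged -/
structure IsSwap {M : Type} [MeasurableSpace M] {μ : Measure M} (S S' : Cyl M μ) : Prop where
  p_eq : S'.p = S.q
  q_eq : S'.q = S.p
  b1_eq : S'.b₁ = S.b₂
  b2_eq : S'.b₂ = S.b₁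
  U_eq : S'.U = S.V
  V_eq : S'.V = S.U
  H_eq : S'.H = S.H

/-- the swapped cylinder -/
def Stmt_Swap : Prop :=
  ∀ (M : Type) [MeasurableSpace M] (μ : Measure M) [IsFiniteMeasure μ] (S : Cyl M μ),
    ∃ S' : Cyl M μ, IsSwap S S'

/-- behaviour of the nontrivial functionals under the swap -/
def Stmt_SwapX : Prop :=
  ∀ (M : Type) [MeasurableSpace M] (μ : Measure M) [IsFiniteMeasure μ] (S S' : Cyl M μ),
    IsSwap S S' →
    (∀ lam a m L η δ, S'.X0 lam a m L η δ = S.X0' lam a m L η δ ∧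
      S'.X0' lam a m L η δ = S.X0 lam a m L η δ) ∧ (∀ δ, S'.Bfar δ = S.Bfar δ) ∧
    (∀ lam a m L η, S'.EF lam a m L η = S.EG lam a m L η ∧ S'.EG lam a m L η = S.EF lam a m L η ∧
      S'.TVF lam a m L η = S.TVG lam a m L η ∧ S'.TVG lam a m L η = S.TVF lam a m L η) ∧
    (∀ T, S'.J1 T = S.J2 T ∧ S'.J2 T = S.J1 T) ∧ S'.D = S.D

/-- the weak identity (*) -/
def Stmt_Ident : Prop :=
  ∀ (M : Type) [MeasurableSpace M] (μ : Measure M) [IsFiniteMeasure μ] (S : Cyl M μ)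
    (lam a L : ℝ) (m : ℕ) (η : ℝ), WinOK S lam a m L → 0 < η → 8 * η ≤ a →
    (∫ θ, ∫ t, S.OmF lam a m L η t θ * deriv (fun s => S.V s θ) t ∂volume ∂μ)
      + (∫ θ, ∫ t, S.OmG lam a m L η t θ * deriv (fun s => S.U s θ) t ∂volume ∂μ)
    = (∫ z, dRho (fun t => S.F t z.2.1) (fun t => S.G t z.2.2)
          (fun t => S.OmF lam a m L η t z.2.1) (fun t => S.OmG lam a m L η t z.2.2) z.1 ∂S.nu)
    ∧ Integrable (fun z : ℝ × M × M => dRho (fun t => S.F t z.2.1) (fun t => S.G t z.2.2)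
          (fun t => S.OmF lam a m L η t z.2.1) (fun t => S.OmG lam a m L η t z.2.2) z.1) S.nu

/-- work of the `F` side, integrated -/
def Stmt_WF : Prop :=
  ∀ (M : Type) [MeasurableSpace M] (μ : Measure M) [IsFiniteMeasure μ] (S : Cyl M μ)
    (lam a L : ℝ), 0 < a → a ≤ 1 → ∃ K : ℝ, 0 ≤ K ∧ ∀ (m : ℕ) (η : ℝ), WinOK S lam a m L → 0 < η → 8 * η ≤ a →
    (∫ θ, ∫ t, S.OmF lam a m L η t θ * deriv (fun s => S.V s θ) t ∂volume ∂μ)
    ≤ - (S.b₁ / (S.p + 1)) * (∫ θ, ∫ t, phi lam a t * (S.F t θ * S.V t θ) ∂volume ∂μ)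
      + (∫ θ, ∫ t, tent lam a t * (S.FLo lam a m L η t θ * S.V t θ) ∂volume ∂μ)
      - S.EF lam a m L η
      + cb S.b₁ S.p * η * (∫ θ, ∫ t, tent lam a t * (S.F t θ * S.V t θ) ∂volume ∂μ) + K * msh a m

/-- lower bound of the right side of (*) -/
def Stmt_R : Prop :=
  ∀ (M : Type) [MeasurableSpace M] (μ : Measure M) [IsFiniteMeasure μ] (S : Cyl M μ)
    (lam a L : ℝ) (m : ℕ) (η δ : ℝ), WinOK S lam a m L → 0 < δ → 2 * δ ≤ η → 8 * η ≤ a →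
    (∫ θ, ∫ t, tent lam a t * (S.FLo lam a m L η t θ * S.V t θ) ∂volume ∂μ)
      + (∫ θ, ∫ t, tent lam a t * (S.GLo lam a m L η t θ * S.U t θ) ∂volume ∂μ)
      - S.X0 lam a m L η δ - 2 * η * S.TVF lam a m L η - η * S.TVG lam a m L η
      - (4 / a) * S.Bfar δ
    ≤ (∫ z, dRho (fun t => S.F t z.2.1) (fun t => S.G t z.2.2)
          (fun t => S.OmF lam a m L η t z.2.1) (fun t => S.OmG lam a m L η t z.2.2) z.1 ∂S.nu)

/-- the two cut off energies are close -/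
def Stmt_AA : Prop :=
  ∀ (M : Type) [MeasurableSpace M] (μ : Measure M) [IsFiniteMeasure μ] (S : Cyl M μ)
    (lam a δ : ℝ), 0 < a → a ≤ 1 → 0 < δ → δ ≤ a →
    |(∫ θ, ∫ t, phi lam a t * (S.F t θ * S.V t θ) ∂volume ∂μ)
        - (∫ θ, ∫ t, phi lam a t * (S.G t θ * S.U t θ) ∂volume ∂μ)|
      ≤ (2 * δ / a) * S.J1 (lam + 2 * a) + S.Bfar δ

/-- `J2(T) ≤ J1(T+δ) + Bfar δ` and conversely; monotone, nonnegative, unbounded -/
def Stmt_J : Prop :=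
  ∀ (M : Type) [MeasurableSpace M] (μ : Measure M) [IsFiniteMeasure μ] (S : Cyl M μ), μ ≠ 0 →
    (∀ T δ : ℝ, 0 < δ → δ ≤ 1 → S.J2 T ≤ S.J1 (T + δ) + S.Bfar δ ∧ S.J1 T ≤ S.J2 (T + δ) + S.Bfar δ) ∧
    Monotone S.J1 ∧ Monotone S.J2 ∧ (∀ T, 0 ≤ S.J1 T) ∧ (∀ T, 0 ≤ S.J2 T) ∧
    (∀ C : ℝ, ∃ T : ℝ, C ≤ S.J1 T) ∧
    (∃ C κ : ℝ, 0 ≤ C ∧ 0 ≤ κ ∧ ∀ δ ∈ Ioc (0:ℝ) 1, 0 ≤ S.Bfar δ ∧ S.Bfar δ ≤ C * δ ^ (-κ))

/-- integrated TV, `F` side -/
def Stmt_TVF : Prop :=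
  ∀ (M : Type) [MeasurableSpace M] (μ : Measure M) [IsFiniteMeasure μ] (S : Cyl M μ)
    (lam a L : ℝ), 0 < a → a ≤ 1 → ∃ K : ℝ, 0 ≤ K ∧ ∀ (m : ℕ) (η δ : ℝ), WinOK S lam a m L →
      0 < η → η ≤ δ → 8 * δ ≤ a → cb S.b₁ S.p * δ ≤ 1 → msh a m ≤ η →
      0 ≤ S.TVF lam a m L η ∧
      η * S.TVF lam a m L η ≤ 4 * (η / δ) * S.EF lam a m L δ
        + 4 * (S.EF lam a m L η - S.EF lam a m L δ)
        + 24 * (4 / a ^ 2) * δ * S.J1 (lam + 2 * a) + K * msh a m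

/-- monotonicity and bounds of the opening energies -/
def Stmt_EF : Prop :=
  ∀ (M : Type) [MeasurableSpace M] (μ : Measure M) [IsFiniteMeasure μ] (S : Cyl M μ)
    (lam a L : ℝ) (m : ℕ) (η δ : ℝ), WinOK S lam a m L → 0 < η → η ≤ δ →
      0 ≤ S.EF lam a m L δ ∧ S.EF lam a m L δ ≤ S.EF lam a m L η ∧
      S.EF lam a m L η ≤ (∫ θ, ∫ t, tent lam a t * (S.F t θ * S.V t θ) ∂volume ∂μ) ∧
      (∫ θ, ∫ t, tent lam a t * (S.F t θ * S.V t θ) ∂volume ∂μ) ≤ (2 / a) * S.J1 (lam + 2 * a) ∧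
      S.J1 lam ≤ (∫ θ, ∫ t, phi lam a t * (S.F t θ * S.V t θ) ∂volume ∂μ)

/-- STEP X, `F` side -/
def Stmt_XF : Prop :=
  ∀ (M : Type) [MeasurableSpace M] (μ : Measure M) [IsFiniteMeasure μ] (S : Cyl M μ)
    (lam a L : ℝ), 0 < a → a ≤ 1 → ∃ K : ℝ, 0 ≤ K ∧ ∀ (m : ℕ) (η ζ δ : ℝ), WinOK S lam a m L →
      0 < δ → 16 * δ ≤ ζ → 16 * ζ ≤ η → 8 * η ≤ a → msh a m ≤ δ →
      0 ≤ S.X0 lam a m L η δ ∧
      S.X0 lam a m L η δ ≤ (1 + cb S.b₁ S.p * ζ) * ((S.p + 1) / S.p) * S.EF lam a m L ζ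
        + ζ * S.TVG lam a m L η + 16 * (ζ / η) * S.X0' lam a m L η δ
        + 64 * (ζ / a ^ 2) * S.J2 (lam + 2 * a) + K * msh a m

/-- near symmetry of `X0` and its behaviour under the swap -/
def Stmt_Xs : Prop :=
  ∀ (M : Type) [MeasurableSpace M] (μ : Measure M) [IsFiniteMeasure μ] (S : Cyl M μ)
    (lam a L : ℝ) (m : ℕ) (η δ : ℝ), WinOK S lam a m L → 0 < δ → 2 * δ ≤ η → 8 * η ≤ a →
    |S.X0 lam a m L η δ - S.X0' lam a m L η δ| ≤ (4 / a ^ 2) * δ * S.J1 (lam + 2 * a)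

/-- THE CORE THEOREM (owner helper16 from all the statements above and `EndGame`) -/
def Stmt_Core : Prop :=
  ∀ (M : Type) [MeasurableSpace M] (μ : Measure M) [IsFiniteMeasure μ], μ ≠ 0 → Cyl M μ → False

end Crest.Agent.R077
namespace Crest.Agent.R077.Cyl
end Crest.Agent.R077.Cyl
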