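import Crest.Agent.R077.EndGame
import Crest.Agent.R077.Iface

-- ▼ part R077/Assemble
section

/-!
Row 77 (Hénon–Lane–Emden): real-arithmetic assembly of the core inequality over all scales.

Scales: `δ_j = ep ^ j * (c₀ * a ^ 2)`.  Inputs for every scale `j` (with `δ = δ_j`, `η = δ_{j+1}`,
`ζ = δ_{j+2}`, near range `δ' = δ_{j+3}`), `TV j` standing for `η * (TV_F + TV_G)`:
* `h1 : D * Jm ≤ X₀ j - E (j+1) + T * TV j + T * (δ_j / a) * JJ + (T / a) * B j + T * r`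
* `h2 : TV j ≤ T * (ep * E j + (E (j+1) - E j)) + T * (δ_j / a ^ 2) * JJ + T * r`
* `h3 : S * (1 - T * ep) * X₀ j ≤ (1 + T * δ_j) * E (j+2) + T * ep * TV j + T * c₀ * JJ + T * r`
* `hB : B j ≤ T * δ_{j+3} ^ (-m)`.
-/

set_option autoImplicit false

namespace Crest.Agent.R077

open Real

namespace Asm

theorem coefE {S T x : ℝ} (hS : 1 < S) (hT : 1 ≤ T) (hx : 0 < x) (hTx : T * x ≤ 1 / 4)
    (hTx2 : 10 * T ^ 2 * x ≤ 1 - 1 / S) :
    (1 / S) * (1 + 2 * (T * x)) * ((1 + x) * (1 + x) + T * x * (T * (2 * x)))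
      + T * (T * (2 * x)) ≤ 1 := by
  have hSpos : 0 < S := by linarith
  have hTpos : 0 < T := by linarith
  have hinvS : 1 / S ≤ 1 := by
    rw [div_le_one hSpos]; linarith
  have hinvS0 : 0 < 1 / S := by positivity
  obtain ⟨P, hP⟩ : ∃ P, P = T * x := ⟨_, rfl⟩
  have hPpos : 0 < P := by rw [hP]; positivity
  have hP4 : P ≤ 1 / 4 := by rw [hP]; exact hTx
  have hxP : x ≤ P := by rw [hP]; nlinarith
  rw [← hP]
  have h4 : (1 + x) * (1 + x) ≤ 1 + 3 * P := by nlinarith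
  have h5 : P * (T * (2 * x)) = 2 * P * P := by rw [hP]; ring
  have h8 : P * P ≤ P * (1 / 4) := mul_le_mul_of_nonneg_left hP4 hPpos.le
  have h9 : P * P * P ≤ P * (1 / 4) * (1 / 4) := mul_le_mul h8 hP4 hPpos.le (by positivity)
  have h6 : (1 + 2 * P) * ((1 + x) * (1 + x) + P * (T * (2 * x))) ≤ 1 + 8 * P := by
    rw [h5]
    have h7 : (1 + 2 * P) * ((1 + x) * (1 + x) + 2 * P * P)
        ≤ (1 + 2 * P) * (1 + 3 * P + 2 * P * P) :=
      mul_le_mul_of_nonneg_left (by linarith) (by linarith)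
    have h10 : (1 + 2 * P) * (1 + 3 * P + 2 * P * P) = 1 + 5 * P + 8 * (P * P) + 4 * (P * P * P) := by
      ring
    linarith
  have h7 : (1 / S) * (1 + 2 * P) * ((1 + x) * (1 + x) + P * (T * (2 * x)))
      ≤ (1 / S) * (1 + 8 * P) := by
    rw [mul_assoc]; exact mul_le_mul_of_nonneg_left h6 hinvS0.le
  have h11 : (1 / S) * P ≤ 1 * P := mul_le_mul_of_nonneg_right hinvS hPpos.le
  have h12 : (1 / S) * (1 + 8 * P) = 1 / S + 8 * ((1 / S) * P) := by ring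
  have h13 : T * (T * (2 * x)) = 2 * (T ^ 2 * x) := by ring
  have h14 : P ≤ T ^ 2 * x := by
    rw [hP]
    have : T ≤ T ^ 2 := by nlinarith
    exact mul_le_mul_of_nonneg_right this hx.le
  linarith

theorem coefJ {T x c₀ c₁ : ℝ} (hT : 1 ≤ T) (hx : 0 < x) (hTx : T * x ≤ 1 / 4)
    (hc₁ : 0 < c₁) (hc₀ : 0 < c₀) :
    (1 + x) * c₁ + T * x * (T * c₁ + T * c₀) + T * c₀ ≤
      2 * T ^ 2 * c₁ + 2 * T ^ 2 * c₀ := by
  have hTpos : 0 < T := by linarith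
  have hTT : T ≤ T ^ 2 := by nlinarith
  have hx4 : x ≤ 1 / 4 := by nlinarith
  have hT2 : 1 ≤ T ^ 2 := by nlinarith
  have h1 : c₁ ≤ T ^ 2 * c₁ := by nlinarith
  have h2 : (1 + x) * c₁ ≤ (5 / 4) * c₁ := mul_le_mul_of_nonneg_right (by linarith) hc₁.le
  have h3 : T * c₁ ≤ T ^ 2 * c₁ := mul_le_mul_of_nonneg_right hTT hc₁.le
  have h4 : T * c₀ ≤ T ^ 2 * c₀ := mul_le_mul_of_nonneg_right hTT hc₀.le
  have h5 : T * x * (T * c₁ + T * c₀) ≤ (1 / 4) * (T * c₁ + T * c₀) :=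
    mul_le_mul_of_nonneg_right hTx (by positivity)
  have h6 : 0 < T ^ 2 * c₁ := by positivity
  have h7 : 0 < T ^ 2 * c₀ := by positivity
  linarith

theorem x0_bound {S T x U x0 : ℝ} (hS : 1 < S) (hTx0 : 0 < T * x) (hTx : T * x ≤ 1 / 4)
    (hU : 0 ≤ U) (h : S * (1 - T * x) * x0 ≤ U) :
    x0 ≤ (1 / S) * (1 + 2 * (T * x)) * U := by
  have hSpos : 0 < S := by linarith
  obtain ⟨P, hP⟩ : ∃ P, P = T * x := ⟨_, rfl⟩
  rw [← hP] at hTx0 hTx h ⊢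
  have h4 : 0 < 1 - P := by linarith
  have h5 : x0 ≤ U / (S * (1 - P)) := by
    rw [le_div_iff₀ (by positivity)]; linarith
  have h6 : U / (S * (1 - P)) ≤ (1 / S) * (1 + 2 * P) * U := by
    rw [div_le_iff₀ (by positivity)]
    have h7 : 1 ≤ (1 + 2 * P) * (1 - P) := by nlinarith
    have h8 : (1 / S) * (1 + 2 * P) * U * (S * (1 - P)) =
        ((1 + 2 * P) * (1 - P)) * U := by
      field_simp
    rw [h8]
    have := mul_le_mul_of_nonneg_right h7 hU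
    linarith
  linarith

theorem core_num {S T x c₀ c₁ ε e e1 e2 tv x0 JJ r DJ d u u2 v : ℝ}
    (hS : 1 < S) (hT : 1 ≤ T) (hx : 0 < x) (hTx : T * x ≤ 1 / 4)
    (hTx2 : 10 * T ^ 2 * x ≤ 1 - 1 / S) (hc₁ : 0 < c₁) (hc₀ : 0 < c₀)
    (hε : 5 * T ^ 2 * c₁ + 6 * T ^ 2 * c₀ ≤ ε)
    (hJJ : 0 ≤ JJ) (hr : 0 ≤ r) (he : 0 ≤ e) (he1 : e ≤ e1) (he2 : e1 ≤ e2)
    (hpi : e2 ≤ (1 + x) * e + c₁ * JJ)
    (hTd : T * d ≤ x) (hu : u ≤ c₀) (hu2 : u2 ≤ c₀)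
    (h1 : DJ ≤ x0 - e1 + T * tv + T * u * JJ + v + T * r)
    (h2 : tv ≤ T * (x * e + (e1 - e)) + T * u2 * JJ + T * r)
    (h3 : S * (1 - T * x) * x0 ≤ (1 + T * d) * e2 + T * x * tv + T * c₀ * JJ + T * r) :
    DJ ≤ ε * JJ + v + 6 * T ^ 2 * r := by
  have hTpos : 0 < T := by linarith
  have hSpos : 0 < S := by linarith
  have hTT : T ≤ T ^ 2 := by nlinarith
  have hTxpos : 0 < T * x := by positivity
  -- tv
  obtain ⟨W, hW⟩ : ∃ W, W = T * (2 * x) * e + (T * c₁ + T * c₀) * JJ + T * r := ⟨_, rfl⟩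
  have hW0 : 0 ≤ W := by rw [hW]; positivity
  have htv' : tv ≤ W := by
    have h5 : T * (x * e + (e1 - e)) ≤ T * (x * e + (x * e + c₁ * JJ)) := by
      apply mul_le_mul_of_nonneg_left _ hTpos.le
      linarith
    have h6 : T * u2 * JJ ≤ T * c₀ * JJ :=
      mul_le_mul_of_nonneg_right (mul_le_mul_of_nonneg_left hu2 hTpos.le) hJJ
    have h7 : T * (x * e + (x * e + c₁ * JJ)) + T * c₀ * JJ + T * r = W := by
      rw [hW]; ring
    linarith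
  obtain ⟨U, hU⟩ : ∃ U, U = (1 + x) * ((1 + x) * e + c₁ * JJ) + T * x * W
      + T * c₀ * JJ + T * r := ⟨_, rfl⟩
  have hU0 : 0 ≤ U := by rw [hU]; positivity
  have hx0' : S * (1 - T * x) * x0 ≤ U := by
    have h5 : 0 ≤ e2 := by linarith
    have h6 : (1 + T * d) * e2 ≤ (1 + x) * e2 :=
      mul_le_mul_of_nonneg_right (by linarith) h5
    have h7 : (1 + x) * e2 ≤ (1 + x) * ((1 + x) * e + c₁ * JJ) :=
      mul_le_mul_of_nonneg_left hpi (by linarith)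
    have h8 : T * x * tv ≤ T * x * W := mul_le_mul_of_nonneg_left htv' hTxpos.le
    rw [hU]; linarith
  have hκ := x0_bound hS hTxpos hTx hU0 hx0'
  obtain ⟨κ, hκd⟩ : ∃ κ, κ = (1 / S) * (1 + 2 * (T * x)) := ⟨_, rfl⟩
  have hE := coefE hS hT hx hTx hTx2
  have hJ := coefJ hT hx hTx hc₁ hc₀
  rw [← hκd] at hκ hE
  have hκ0 : 0 ≤ κ := by rw [hκd]; positivity
  have hκ2 : κ ≤ 2 := by
    have hinvS : 1 / S ≤ 1 := by
      rw [div_le_one hSpos]; linarith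
    rw [hκd]
    calc (1 / S) * (1 + 2 * (T * x)) ≤ 1 * (1 + 2 * (T * x)) :=
          mul_le_mul_of_nonneg_right hinvS (by positivity)
      _ ≤ 2 := by linarith
  obtain ⟨α, hα⟩ : ∃ α, α = (1 + x) * (1 + x) + T * x * (T * (2 * x)) := ⟨_, rfl⟩
  obtain ⟨β, hβ⟩ : ∃ β, β = (1 + x) * c₁ + T * x * (T * c₁ + T * c₀) + T * c₀ := ⟨_, rfl⟩
  obtain ⟨γ, hγ⟩ : ∃ γ, γ = T * x * T + T := ⟨_, rfl⟩
  have hβ0 : 0 ≤ β := by rw [hβ]; positivity
  have hγ0 : 0 ≤ γ := by rw [hγ]; positivity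
  have hγ2 : γ ≤ 2 * T ^ 2 := by
    rw [hγ]
    have : T * x * T ≤ (1 / 4) * T := mul_le_mul_of_nonneg_right hTx hTpos.le
    linarith
  have hUexp : U = α * e + β * JJ + γ * r := by
    rw [hU, hW, hα, hβ, hγ]; ring
  rw [← hα] at hE
  rw [← hβ] at hJ
  have hκU : κ * U ≤ κ * α * e + (4 * T ^ 2 * c₁ + 4 * T ^ 2 * c₀) * JJ + 4 * T ^ 2 * r := by
    have h4 : κ * β ≤ 2 * (2 * T ^ 2 * c₁ + 2 * T ^ 2 * c₀) :=
      mul_le_mul hκ2 hJ hβ0 (by norm_num)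
    have h5 : κ * γ ≤ 2 * (2 * T ^ 2) := mul_le_mul hκ2 hγ2 hγ0 (by norm_num)
    have h6 : κ * β * JJ ≤ 2 * (2 * T ^ 2 * c₁ + 2 * T ^ 2 * c₀) * JJ :=
      mul_le_mul_of_nonneg_right h4 hJJ
    have h7 : κ * γ * r ≤ 2 * (2 * T ^ 2) * r := mul_le_mul_of_nonneg_right h5 hr
    have h8 : κ * U = κ * α * e + κ * β * JJ + κ * γ * r := by rw [hUexp]; ring
    rw [h8]; linarith
  have hTtv : T * tv ≤ T * (T * (2 * x)) * e + (T ^ 2 * c₁ + T ^ 2 * c₀) * JJ + T ^ 2 * r := by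
    have h4 := mul_le_mul_of_nonneg_left htv' hTpos.le
    have h5 : T * W = T * (T * (2 * x)) * e + (T ^ 2 * c₁ + T ^ 2 * c₀) * JJ + T ^ 2 * r := by
      rw [hW]; ring
    linarith
  have hTda : T * u * JJ ≤ T ^ 2 * c₀ * JJ := by
    apply mul_le_mul_of_nonneg_right _ hJJ
    calc T * u ≤ T * c₀ := mul_le_mul_of_nonneg_left hu hTpos.le
      _ ≤ T ^ 2 * c₀ := mul_le_mul_of_nonneg_right hTT hc₀.le
  have hTr : T * r ≤ T ^ 2 * r := mul_le_mul_of_nonneg_right hTT hr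
  have hEcoef : (κ * α + T * (T * (2 * x))) * e ≤ 1 * e :=
    mul_le_mul_of_nonneg_right hE he
  have hJfinal : (5 * T ^ 2 * c₁ + 6 * T ^ 2 * c₀) * JJ ≤ ε * JJ :=
    mul_le_mul_of_nonneg_right hε hJJ
  linarith

end Asm

theorem assemble {D S T m : ℝ} (hS : 1 < S) (hT : 1 ≤ T) (hm : 0 ≤ m) {ε : ℝ} (hε : 0 < ε) :
    ∃ ep c₀ C K a₀ C₀ : ℝ, 0 < ep ∧ ep ≤ 1 / (4 * T) ∧ 0 < c₀ ∧ c₀ ≤ 1 ∧ 0 < a₀ ∧ a₀ ≤ 1 / 2 ∧
      0 ≤ C ∧ 0 ≤ K ∧ 0 ≤ C₀ ∧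
      ∀ a : ℝ, 0 < a → a ≤ a₀ → ∀ (Jm JJ r : ℝ) (E TV X₀ B : ℕ → ℝ),
        0 ≤ JJ → 0 ≤ r → r ≤ 1 →
        (∀ j, 0 ≤ E j) → (∀ j, E j ≤ E (j + 1)) → (∀ j, E j ≤ (2 / a) * JJ) →
        (∀ j : ℕ, (j : ℝ) ≤ 2 * (C₀ * Real.log (1 / a)) →
          D * Jm ≤ X₀ j - E (j + 1) + T * TV j + T * (ep ^ j * (c₀ * a ^ 2) / a) * JJ
            + (T / a) * B j + T * r ∧
          TV j ≤ T * (ep * E j + (E (j + 1) - E j))
            + T * (ep ^ j * (c₀ * a ^ 2) / a ^ 2) * JJ + T * r ∧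
          S * (1 - T * ep) * X₀ j ≤ (1 + T * (ep ^ j * (c₀ * a ^ 2))) * E (j + 2)
            + T * ep * TV j + T * c₀ * JJ + T * r ∧
          B j ≤ T * (ep ^ (j + 3) * (c₀ * a ^ 2)) ^ (-m)) →
        D * Jm ≤ ε * JJ + C * a ^ (-K) := by
  have hTpos : 0 < T := by linarith
  have hSpos : 0 < S := by linarith
  have hg : 0 < 1 - 1 / S := by
    rw [sub_pos, div_lt_one hSpos]; exact hS
  -- the parameter x = ep = ε₁
  obtain ⟨x, hx⟩ : ∃ x, x = min (1 / (4 * T)) ((1 - 1 / S) / (10 * T ^ 2)) := ⟨_, rfl⟩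
  have hxpos : 0 < x := by rw [hx]; exact lt_min (by positivity) (by positivity)
  have hx1 : x ≤ 1 / (4 * T) := by rw [hx]; exact min_le_left _ _
  have hx2 : x ≤ (1 - 1 / S) / (10 * T ^ 2) := by rw [hx]; exact min_le_right _ _
  have hTx : T * x ≤ 1 / 4 := by
    calc T * x ≤ T * (1 / (4 * T)) := mul_le_mul_of_nonneg_left hx1 hTpos.le
      _ = 1 / 4 := by field_simp
  have hxle : x ≤ 1 / 4 := by nlinarith
  have hTx2 : 10 * T ^ 2 * x ≤ 1 - 1 / S := by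
    rw [le_div_iff₀ (by positivity)] at hx2
    linarith
  obtain ⟨c₁, hc₁⟩ : ∃ c₁, c₁ = ε / (14 * T ^ 2) := ⟨_, rfl⟩
  have hc₁pos : 0 < c₁ := by rw [hc₁]; positivity
  obtain ⟨c₀, hc₀⟩ : ∃ c₀, c₀ = min 1 (ε / (12 * T ^ 2)) := ⟨_, rfl⟩
  have hc₀pos : 0 < c₀ := by rw [hc₀]; exact lt_min one_pos (by positivity)
  have hc₀1 : c₀ ≤ 1 := by rw [hc₀]; exact min_le_left _ _
  have hc₀2 : c₀ ≤ ε / (12 * T ^ 2) := by rw [hc₀]; exact min_le_right _ _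
  have hεc : 5 * T ^ 2 * c₁ + 6 * T ^ 2 * c₀ ≤ ε := by
    have h4 : T ^ 2 * c₁ = ε / 14 := by rw [hc₁]; field_simp
    have h5 : T ^ 2 * c₀ ≤ ε / 12 := by
      rw [le_div_iff₀ (by positivity)] at hc₀2
      linarith
    linarith
  obtain ⟨C₀, hC₀, hpig⟩ := pigeon hxpos hc₁pos
  obtain ⟨K₀, hK₀, hscale⟩ := scale_lower hxpos (by linarith : x ≤ 1) hC₀ hc₀pos 3
  refine ⟨x, c₀, T ^ 2 + 6 * T ^ 2, K₀ * m + 1, min (1 / 2) (x / T), C₀, hxpos, hx1, hc₀pos, hc₀1,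
    lt_min (by norm_num) (by positivity),
    min_le_left _ _, by positivity, by positivity, hC₀, ?_⟩
  intro a ha haa₀ Jm JJ r E TV X₀ B hJJ hr hr1 hE0 hEmono hEle hall
  have ha2 : a ≤ 1 / 2 := haa₀.trans (min_le_left _ _)
  have haT : a ≤ x / T := haa₀.trans (min_le_right _ _)
  obtain ⟨i, hi, hpi⟩ := hpig a ha ha2 JJ E hJJ hE0 hEle
  have hi2 : (((2 * i : ℕ)) : ℝ) ≤ 2 * (C₀ * Real.log (1 / a)) := by
    push_cast; linarith
  obtain ⟨h1, h2, h3, hB⟩ := hall (2 * i) hi2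
  have hsc := hscale a ha ha2 i hi
  have hxpow : x ^ (2 * i) ≤ 1 := pow_le_one₀ hxpos.le (by linarith)
  have hca : 0 < c₀ * a ^ 2 := by positivity
  have haa : a ^ 2 ≤ a := by
    rw [pow_two]
    exact mul_le_of_le_one_right ha.le (by linarith)
  have hdle : x ^ (2 * i) * (c₀ * a ^ 2) ≤ 1 * (c₀ * a ^ 2) :=
    mul_le_mul_of_nonneg_right hxpow hca.le
  have hda2 : x ^ (2 * i) * (c₀ * a ^ 2) / a ^ 2 ≤ c₀ := by
    rw [div_le_iff₀ (by positivity)]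
    linarith
  have hda : x ^ (2 * i) * (c₀ * a ^ 2) / a ≤ c₀ := by
    rw [div_le_iff₀ ha]
    have : c₀ * a ^ 2 ≤ c₀ * a := mul_le_mul_of_nonneg_left haa hc₀pos.le
    linarith
  have hTd : T * (x ^ (2 * i) * (c₀ * a ^ 2)) ≤ x := by
    have h4 : x ^ (2 * i) * (c₀ * a ^ 2) ≤ a := by
      have h5 : c₀ * a ^ 2 ≤ 1 * a ^ 2 := mul_le_mul_of_nonneg_right hc₀1 (by positivity)
      linarith
    have h5 : T * a ≤ x := by
      rw [le_div_iff₀ hTpos] at haT; linarith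
    have h6 := mul_le_mul_of_nonneg_left h4 hTpos.le
    linarith
  have key := Asm.core_num hS hT hxpos hTx hTx2 hc₁pos hc₀pos hεc hJJ hr (hE0 (2 * i))
    (hEmono (2 * i)) (hEmono (2 * i + 1)) hpi hTd hda hda2 h1 h2 h3
  -- B
  have hBb : (T / a) * B (2 * i) ≤ T ^ 2 * a ^ (-(K₀ * m + 1)) := by
    have h4 : (x ^ (2 * i + 3) * (c₀ * a ^ 2)) ^ (-m) ≤ (a ^ K₀) ^ (-m) :=
      Real.rpow_le_rpow_of_nonpos (by positivity) hsc (by linarith)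
    have h5 : (a ^ K₀) ^ (-m) = a ^ (-(K₀ * m)) := by
      rw [← Real.rpow_mul ha.le]; congr 1; ring
    rw [h5] at h4
    have h6 : B (2 * i) ≤ T * a ^ (-(K₀ * m)) :=
      hB.trans (mul_le_mul_of_nonneg_left h4 hTpos.le)
    have h7 : a ^ (-(K₀ * m + 1)) = a ^ (-(K₀ * m)) * a⁻¹ := by
      rw [neg_add, Real.rpow_add ha, Real.rpow_neg_one]
    calc (T / a) * B (2 * i) ≤ (T / a) * (T * a ^ (-(K₀ * m))) :=
          mul_le_mul_of_nonneg_left h6 (by positivity)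
      _ = T ^ 2 * a ^ (-(K₀ * m + 1)) := by
          rw [h7]; field_simp
  have hone : 1 ≤ a ^ (-(K₀ * m + 1)) := by
    apply Real.one_le_rpow_of_pos_of_le_one_of_nonpos ha (by linarith)
    have : 0 ≤ K₀ * m := mul_nonneg hK₀ hm
    linarith
  have hrfinal : 6 * T ^ 2 * r ≤ 6 * T ^ 2 * a ^ (-(K₀ * m + 1)) :=
    mul_le_mul_of_nonneg_left (hr1.trans hone) (by positivity)
  have hexp : (T ^ 2 + 6 * T ^ 2) * a ^ (-(K₀ * m + 1)) =
      T ^ 2 * a ^ (-(K₀ * m + 1)) + 6 * T ^ 2 * a ^ (-(K₀ * m + 1)) := by ring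
  rw [hexp]
  linarith

end Crest.Agent.R077
end

-- ▼ part R077/Core

/-!
Row 77 (Hénon–Lane–Emden): the core theorem from the frozen statements of `Iface`
(owner helper16).
-/

set_option autoImplicit false
open MeasureTheory Set Real Filter
open scoped ENNReal

namespace Crest.Agent.R077

namespace CoreP

/-! ### behaviour under the swap -/

section swap
variable {M : Type} [MeasurableSpace M] {μ : Measure M} {S S' : Cyl M μ}

theorem swap_F (h : IsSwap S S') : S'.F = S.G := by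
  funext t θ
  simp only [Cyl.F, Cyl.G, h.b1_eq, h.p_eq, h.V_eq]

theorem swap_G (h : IsSwap S S') : S'.G = S.F := by
  funext t θ
  simp only [Cyl.F, Cyl.G, h.b2_eq, h.q_eq, h.U_eq]

theorem swap_xF (h : IsSwap S S') (lam a : ℝ) (m : ℕ) (L : ℝ) (θ : M) :
    S'.xF lam a m L θ = S.xG lam a m L θ := by
  simp only [Cyl.xF, Cyl.xG, swap_F h]

theorem swap_xG (h : IsSwap S S') (lam a : ℝ) (m : ℕ) (L : ℝ) (θ : M) :
    S'.xG lam a m L θ = S.xF lam a m L θ := by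
  simp only [Cyl.xF, Cyl.xG, swap_G h]

theorem swap_FLo (h : IsSwap S S') (lam a : ℝ) (m : ℕ) (L η t : ℝ) (θ : M) :
    S'.FLo lam a m L η t θ = S.GLo lam a m L η t θ := by
  simp only [Cyl.FLo, Cyl.GLo, swap_xF h]

theorem swap_OmF (h : IsSwap S S') (lam a : ℝ) (m : ℕ) (L η t : ℝ) (θ : M) :
    S'.OmF lam a m L η t θ = S.OmG lam a m L η t θ := by
  simp only [Cyl.OmF, Cyl.OmG, swap_xF h, swap_F h]

theorem swap_win (h : IsSwap S S') {lam a : ℝ} {m : ℕ} {L : ℝ} (hw : WinOK S lam a m L) :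
    WinOK S' lam a m L := by
  refine ⟨hw.ha, hw.ha1, hw.hm, hw.hLm, ?_, ?_⟩
  · intro θ
    have := hw.solG θ
    rw [swap_F h, h.b1_eq, h.p_eq, h.V_eq]
    exact this
  · intro θ
    have := hw.solF θ
    rw [swap_G h, h.b2_eq, h.q_eq, h.U_eq]
    exact this

end swap

/-! ### real arithmetic at one scale -/

theorem num_h1 {D A1 A2 β₁ β₂ X0 EF EG tvf tvg B T1 T2 cF cG η h K₁ K₂ Jl J1 J2 a δ δ' TF TG
    WF WG R T : ℝ}
    (ha : 0 < a) (ha1 : a ≤ 1) (hD : D = β₁ + β₂) (hDpos : 0 < D)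
    (hη : 0 ≤ η) (hηδ : η ≤ δ) (hδ' : δ' ≤ δ)
    (hcF : 0 ≤ cF) (hcG : 0 ≤ cG) (htvf : 0 ≤ tvf) (htvg : 0 ≤ tvg)
    (hJ1 : 0 ≤ J1) (hJ2 : 0 ≤ J2) (hB : 0 ≤ B)
    (hT : 8 + 2 * (cF + cG) + 2 * |β₂| ≤ T)
    (hid : WF + WG = R)
    (hWF : WF ≤ - β₁ * A1 + TF - EF + cF * η * T1 + K₁ * h)
    (hWG : WG ≤ - β₂ * A2 + TG - EG + cG * η * T2 + K₂ * h)
    (hR : TF + TG - X0 - 2 * η * tvf - η * tvg - (4 / a) * B ≤ R)
    (hAA : |A1 - A2| ≤ (2 * δ' / a) * J1 + B)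
    (hT1 : T1 ≤ (2 / a) * J1) (hT2 : T2 ≤ (2 / a) * J2) (hJl : Jl ≤ A1)
    (hK : (K₁ + K₂) * h ≤ 1) :
    D * Jl ≤ X0 - (EF + EG) + T * (η * (tvf + tvg)) + T * (δ / a) * (J1 + J2) + (T / a) * B
      + T * 1 := by
  have hβ : 0 ≤ |β₂| := abs_nonneg _
  have hT0 : 0 ≤ T := by linarith
  have hδ0 : 0 ≤ δ := hη.trans hηδ
  have hcc : 0 ≤ cF + cG := by linarith
  -- main combination
  have e1 : β₁ * A1 + β₂ * A2 ≤ X0 - EF - EG + 2 * (η * tvf) + η * tvg + (4 / a) * B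
      + cF * η * T1 + cG * η * T2 + (K₁ + K₂) * h := by
    have : (K₁ + K₂) * h = K₁ * h + K₂ * h := by ring
    have h2 : 2 * η * tvf = 2 * (η * tvf) := by ring
    have h3 : - β₁ * A1 = - (β₁ * A1) := by ring
    have h4 : - β₂ * A2 = - (β₂ * A2) := by ring
    rw [h2] at hR
    rw [h3] at hWF
    rw [h4] at hWG
    linarith
  have e2 : β₂ * (A1 - A2) ≤ |β₂| * ((2 * δ' / a) * J1 + B) := by
    calc β₂ * (A1 - A2) ≤ |β₂ * (A1 - A2)| := le_abs_self _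
      _ = |β₂| * |A1 - A2| := abs_mul _ _
      _ ≤ |β₂| * ((2 * δ' / a) * J1 + B) := mul_le_mul_of_nonneg_left hAA hβ
  have e3 : D * Jl ≤ D * A1 := mul_le_mul_of_nonneg_left hJl hDpos.le
  have e4 : D * A1 = β₁ * A1 + β₂ * A2 + β₂ * (A1 - A2) := by rw [hD]; ring
  have e5 : cF * η * T1 ≤ cF * η * ((2 / a) * J1) :=
    mul_le_mul_of_nonneg_left hT1 (mul_nonneg hcF hη)
  have e6 : cG * η * T2 ≤ cG * η * ((2 / a) * J2) :=
    mul_le_mul_of_nonneg_left hT2 (mul_nonneg hcG hη)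
  -- bounds of the single terms
  obtain ⟨y, hy⟩ : ∃ y, y = δ / a := ⟨_, rfl⟩
  have hy0 : 0 ≤ y := by rw [hy]; positivity
  have hηa : η / a ≤ y := by rw [hy]; exact div_le_div_of_nonneg_right hηδ ha.le
  have hδa : δ' / a ≤ y := by rw [hy]; exact div_le_div_of_nonneg_right hδ' ha.le
  have e7 : cF * η * ((2 / a) * J1) ≤ 2 * cF * (y * J1) := by
    have : cF * η * ((2 / a) * J1) = 2 * cF * ((η / a) * J1) := by ring
    rw [this]
    exact mul_le_mul_of_nonneg_left (mul_le_mul_of_nonneg_right hηa hJ1) (by linarith)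
  have e8 : cG * η * ((2 / a) * J2) ≤ 2 * cG * (y * J2) := by
    have : cG * η * ((2 / a) * J2) = 2 * cG * ((η / a) * J2) := by ring
    rw [this]
    exact mul_le_mul_of_nonneg_left (mul_le_mul_of_nonneg_right hηa hJ2) (by linarith)
  have e9 : |β₂| * ((2 * δ' / a) * J1 + B) ≤ 2 * |β₂| * (y * J1) + |β₂| * B := by
    have : |β₂| * ((2 * δ' / a) * J1 + B) = 2 * |β₂| * ((δ' / a) * J1) + |β₂| * B := by ring
    rw [this]
    have h2 := mul_le_mul_of_nonneg_left (mul_le_mul_of_nonneg_right hδa hJ1)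
      (by linarith : 0 ≤ 2 * |β₂|)
    linarith
  have yJ1 : 0 ≤ y * J1 := mul_nonneg hy0 hJ1
  have yJ2 : 0 ≤ y * J2 := mul_nonneg hy0 hJ2
  have e10 : 2 * cF * (y * J1) + 2 * cG * (y * J2) + 2 * |β₂| * (y * J1)
      ≤ T * y * (J1 + J2) := by
    have h1 : (2 * cF + 2 * |β₂|) * (y * J1) ≤ T * (y * J1) :=
      mul_le_mul_of_nonneg_right (by linarith) yJ1
    have h2 : (2 * cG) * (y * J2) ≤ T * (y * J2) :=
      mul_le_mul_of_nonneg_right (by linarith) yJ2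
    have h3 : T * y * (J1 + J2) = T * (y * J1) + T * (y * J2) := by ring
    have h4 : (2 * cF + 2 * |β₂|) * (y * J1) = 2 * cF * (y * J1) + 2 * |β₂| * (y * J1) := by ring
    linarith
  have e11 : (4 / a) * B + |β₂| * B ≤ (T / a) * B := by
    have h1 : |β₂| ≤ |β₂| / a := by
      rw [le_div_iff₀ ha]
      have := mul_le_mul_of_nonneg_left ha1 hβ
      linarith
    have h2 : 4 / a + |β₂| ≤ T / a := by
      have h3 : 4 / a + |β₂| / a = (4 + |β₂|) / a := by ring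
      have h4 : (4 + |β₂|) / a ≤ T / a := div_le_div_of_nonneg_right (by linarith) ha.le
      linarith
    have h5 := mul_le_mul_of_nonneg_right h2 hB
    have h6 : (4 / a + |β₂|) * B = (4 / a) * B + |β₂| * B := by ring
    linarith
  have hf0 : 0 ≤ η * tvf := mul_nonneg hη htvf
  have hg0 : 0 ≤ η * tvg := mul_nonneg hη htvg
  have e12 : 2 * (η * tvf) + η * tvg ≤ T * (η * (tvf + tvg)) := by
    have h1 : 2 * (η * tvf) ≤ T * (η * tvf) := mul_le_mul_of_nonneg_right (by linarith) hf0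
    have h2 : 1 * (η * tvg) ≤ T * (η * tvg) := mul_le_mul_of_nonneg_right (by linarith) hg0
    have h3 : T * (η * (tvf + tvg)) = T * (η * tvf) + T * (η * tvg) := by ring
    linarith
  rw [← hy]
  linarith

theorem num_h2 {tvf tvg ef ef1 eg eg1 J1 J2 a δ η h K₁ K₂ ep T : ℝ}
    (ha : 0 < a) (hδ : 0 < δ) (hη : η = ep * δ) (hep : 0 < ep)
    (hJ1 : 0 ≤ J1) (hJ2 : 0 ≤ J2) (hef : 0 ≤ ef) (heg : 0 ≤ eg) (hef1 : ef ≤ ef1)
    (heg1 : eg ≤ eg1) (hT : 96 ≤ T)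
    (h1 : η * tvf ≤ 4 * (η / δ) * ef + 4 * (ef1 - ef) + 24 * (4 / a ^ 2) * δ * J1 + K₁ * h)
    (h2 : η * tvg ≤ 4 * (η / δ) * eg + 4 * (eg1 - eg) + 24 * (4 / a ^ 2) * δ * J2 + K₂ * h)
    (hK : (K₁ + K₂) * h ≤ 1) :
    η * (tvf + tvg) ≤ T * (ep * (ef + eg) + ((ef1 + eg1) - (ef + eg)))
      + T * (δ / a ^ 2) * (J1 + J2) + T * 1 := by
  have hηδ : η / δ = ep := by rw [hη]; field_simp
  rw [hηδ] at h1 h2
  obtain ⟨y, hy⟩ : ∃ y, y = δ / a ^ 2 := ⟨_, rfl⟩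
  have hy0 : 0 ≤ y := by rw [hy]; positivity
  have e1 : 24 * (4 / a ^ 2) * δ * J1 = 96 * (y * J1) := by rw [hy]; ring
  have e2 : 24 * (4 / a ^ 2) * δ * J2 = 96 * (y * J2) := by rw [hy]; ring
  rw [e1] at h1
  rw [e2] at h2
  rw [← hy]
  have yJ1 : 0 ≤ y * J1 := mul_nonneg hy0 hJ1
  have yJ2 : 0 ≤ y * J2 := mul_nonneg hy0 hJ2
  have e3 : 96 * (y * J1) ≤ T * (y * J1) := mul_le_mul_of_nonneg_right hT yJ1
  have e4 : 96 * (y * J2) ≤ T * (y * J2) := mul_le_mul_of_nonneg_right hT yJ2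
  have e5 : T * y * (J1 + J2) = T * (y * J1) + T * (y * J2) := by ring
  have e6 : 4 * (ep * (ef + eg)) ≤ T * (ep * (ef + eg)) :=
    mul_le_mul_of_nonneg_right (by linarith) (mul_nonneg hep.le (by linarith))
  have e7 : 4 * ((ef1 + eg1) - (ef + eg)) ≤ T * ((ef1 + eg1) - (ef + eg)) :=
    mul_le_mul_of_nonneg_right (by linarith) (by linarith)
  have e8 : T * (ep * (ef + eg) + ((ef1 + eg1) - (ef + eg)))
      = T * (ep * (ef + eg)) + T * ((ef1 + eg1) - (ef + eg)) := by ring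
  have e9 : η * (tvf + tvg) = η * tvf + η * tvg := by ring
  have e10 : 4 * ep * ef + 4 * ep * eg = 4 * (ep * (ef + eg)) := by ring
  have e11 : (K₁ + K₂) * h = K₁ * h + K₂ * h := by ring
  linarith

theorem num_h3 {p q X X' ef2 eg2 tvf tvg J1 J2 a δ η ζ δ' h K₁ K₂ ep T c₀ cF cG : ℝ}
    (hp : 0 < p) (hq : 0 < q)
    (ha : 0 < a) (hη0 : 0 < η) (hζ : ζ = ep * η) (hep : 0 < ep) (hep1 : ep ≤ 1)
    (hζδ : ζ ≤ δ) (hζc : ζ / a ^ 2 ≤ c₀) (hδ'0 : 0 < δ') (hδ'c : δ' / a ^ 2 ≤ c₀)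
    (hcF : 0 ≤ cF) (hcG : 0 ≤ cG)
    (hJ1 : 0 ≤ J1) (hJ2 : 0 ≤ J2) (hef : 0 ≤ ef2) (heg : 0 ≤ eg2)
    (htvf : 0 ≤ tvf) (htvg : 0 ≤ tvg) (hc₀ : 0 < c₀)
    (hS : 1 < p / (p + 1) + q / (q + 1))
    (hK₁h : 0 ≤ K₁ * h) (hK₂h : 0 ≤ K₂ * h)
    (hT : 200 + cF + cG ≤ T) (hX : 0 ≤ X) (hX' : 0 ≤ X')
    (h1 : X ≤ (1 + cF * ζ) * ((p + 1) / p) * ef2 + ζ * tvg + 16 * (ζ / η) * X'
      + 64 * (ζ / a ^ 2) * J2 + K₁ * h)
    (h2 : X' ≤ (1 + cG * ζ) * ((q + 1) / q) * eg2 + ζ * tvf + 16 * (ζ / η) * X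
      + 64 * (ζ / a ^ 2) * J1 + K₂ * h)
    (hs : |X - X'| ≤ (4 / a ^ 2) * δ' * J1)
    (hK : (K₁ + K₂) * h ≤ 1) :
    (p / (p + 1) + q / (q + 1)) * (1 - T * ep) * X ≤ (1 + T * δ) * (ef2 + eg2)
      + T * ep * (η * (tvf + tvg)) + T * c₀ * (J1 + J2) + T * 1 := by
  have hζ0 : 0 < ζ := by rw [hζ]; positivity
  have hζη : ζ / η = ep := by rw [hζ]; field_simp
  rw [hζη] at h1 h2
  obtain ⟨P, hP⟩ : ∃ P, P = p / (p + 1) := ⟨_, rfl⟩
  obtain ⟨Q, hQ⟩ : ∃ Q, Q = q / (q + 1) := ⟨_, rfl⟩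
  have hP0 : 0 < P := by rw [hP]; positivity
  have hQ0 : 0 < Q := by rw [hQ]; positivity
  have hP1 : P ≤ 1 := by rw [hP, div_le_one (by positivity)]; linarith
  have hQ1 : Q ≤ 1 := by rw [hQ, div_le_one (by positivity)]; linarith
  have hPinv : P * ((p + 1) / p) = 1 := by rw [hP]; field_simp
  have hQinv : Q * ((q + 1) / q) = 1 := by rw [hQ]; field_simp
  rw [← hP, ← hQ] at hS ⊢
  obtain ⟨z, hz⟩ : ∃ z, z = ζ / a ^ 2 := ⟨_, rfl⟩
  have hz0 : 0 ≤ z := by rw [hz]; positivity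
  rw [← hz] at h1 h2 hζc
  obtain ⟨e, he⟩ : ∃ e, e = (4 / a ^ 2) * δ' * J1 := ⟨_, rfl⟩
  rw [← he] at hs
  have he0 : 0 ≤ e := by rw [he]; positivity
  have hec : e ≤ 4 * (c₀ * J1) := by
    have : e = 4 * ((δ' / a ^ 2) * J1) := by rw [he]; ring
    rw [this]
    exact mul_le_mul_of_nonneg_left (mul_le_mul_of_nonneg_right hδ'c hJ1) (by norm_num)
  have hs1 : X - X' ≤ e := (le_abs_self _).trans hs
  have hs2 : X' - X ≤ e := by
    have := (neg_abs_le (X - X')).trans' (neg_le_neg hs)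
    linarith
  -- first inequality times P
  have f1 : P * X ≤ (1 + cF * ζ) * ef2 + (ζ * tvg + 16 * ep * X' + 64 * z * J2 + K₁ * h) := by
    have g0 : 0 ≤ ζ * tvg + 16 * ep * X' + 64 * z * J2 + K₁ * h := by positivity
    have g1 := mul_le_mul_of_nonneg_left h1 hP0.le
    have g2 : P * ((1 + cF * ζ) * ((p + 1) / p) * ef2 + ζ * tvg + 16 * ep * X'
      + 64 * z * J2 + K₁ * h) = (P * ((p + 1) / p)) * ((1 + cF * ζ) * ef2)
        + P * (ζ * tvg + 16 * ep * X' + 64 * z * J2 + K₁ * h) := by ring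
    rw [g2, hPinv] at g1
    have g3 : P * (ζ * tvg + 16 * ep * X' + 64 * z * J2 + K₁ * h)
        ≤ 1 * (ζ * tvg + 16 * ep * X' + 64 * z * J2 + K₁ * h) :=
      mul_le_mul_of_nonneg_right hP1 g0
    linarith
  have f2 : Q * X' ≤ (1 + cG * ζ) * eg2 + (ζ * tvf + 16 * ep * X + 64 * z * J1 + K₂ * h) := by
    have g0 : 0 ≤ ζ * tvf + 16 * ep * X + 64 * z * J1 + K₂ * h := by positivity
    have g1 := mul_le_mul_of_nonneg_left h2 hQ0.le
    have g2 : Q * ((1 + cG * ζ) * ((q + 1) / q) * eg2 + ζ * tvf + 16 * ep * X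
      + 64 * z * J1 + K₂ * h) = (Q * ((q + 1) / q)) * ((1 + cG * ζ) * eg2)
        + Q * (ζ * tvf + 16 * ep * X + 64 * z * J1 + K₂ * h) := by ring
    rw [g2, hQinv] at g1
    have g3 : Q * (ζ * tvf + 16 * ep * X + 64 * z * J1 + K₂ * h)
        ≤ 1 * (ζ * tvf + 16 * ep * X + 64 * z * J1 + K₂ * h) :=
      mul_le_mul_of_nonneg_right hQ1 g0
    linarith
  have f3 : Q * X ≤ Q * X' + e := by
    have g1 : Q * (X - X') ≤ Q * e := mul_le_mul_of_nonneg_left hs1 hQ0.le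
    have g2 : Q * e ≤ 1 * e := mul_le_mul_of_nonneg_right hQ1 he0
    have g3 : Q * (X - X') = Q * X - Q * X' := by ring
    linarith
  have f4 : 16 * ep * X' ≤ 16 * ep * X + 16 * e := by
    have g1 : (16 * ep) * (X' - X) ≤ (16 * ep) * e :=
      mul_le_mul_of_nonneg_left hs2 (by positivity)
    have g2 : (16 * ep) * e ≤ 16 * e := mul_le_mul_of_nonneg_right (by linarith) he0
    have g3 : (16 * ep) * (X' - X) = 16 * ep * X' - 16 * ep * X := by ring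
    linarith
  -- energies
  have f5 : (1 + cF * ζ) * ef2 ≤ (1 + T * δ) * ef2 := by
    apply mul_le_mul_of_nonneg_right _ hef
    have := mul_le_mul (by linarith : cF ≤ T) hζδ hζ0.le (by linarith)
    linarith
  have f6 : (1 + cG * ζ) * eg2 ≤ (1 + T * δ) * eg2 := by
    apply mul_le_mul_of_nonneg_right _ heg
    have := mul_le_mul (by linarith : cG ≤ T) hζδ hζ0.le (by linarith)
    linarith
  -- tv
  have f7 : ζ * tvg + ζ * tvf ≤ T * ep * (η * (tvf + tvg)) := by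
    have g1 : ζ * tvg + ζ * tvf = 1 * (ep * (η * (tvf + tvg))) := by rw [hζ]; ring
    have g2 : T * ep * (η * (tvf + tvg)) = T * (ep * (η * (tvf + tvg))) := by ring
    rw [g1, g2]
    exact mul_le_mul_of_nonneg_right (by linarith) (by positivity)
  -- mass terms
  have f8 : 64 * z * J2 ≤ 64 * (c₀ * J2) := by
    have := mul_le_mul_of_nonneg_right hζc hJ2
    linarith
  have f9 : 64 * z * J1 ≤ 64 * (c₀ * J1) := by
    have := mul_le_mul_of_nonneg_right hζc hJ1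
    linarith
  have cJ1 : 0 ≤ c₀ * J1 := by positivity
  have cJ2 : 0 ≤ c₀ * J2 := by positivity
  have f10 : 132 * (c₀ * J1) + 64 * (c₀ * J2) ≤ T * c₀ * (J1 + J2) := by
    have g1 : 132 * (c₀ * J1) ≤ T * (c₀ * J1) := mul_le_mul_of_nonneg_right (by linarith) cJ1
    have g2 : 64 * (c₀ * J2) ≤ T * (c₀ * J2) := mul_le_mul_of_nonneg_right (by linarith) cJ2
    have g3 : T * c₀ * (J1 + J2) = T * (c₀ * J1) + T * (c₀ * J2) := by ring
    linarith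
  -- the left side
  have f11 : (P + Q) * (1 - T * ep) * X ≤ (P + Q) * X - 32 * ep * X := by
    have g1 : (P + Q) * (1 - T * ep) * X = (P + Q) * X - (P + Q) * (T * (ep * X)) := by ring
    have hepX : 0 ≤ ep * X := by positivity
    have g2 : 32 * (ep * X) ≤ T * (ep * X) := mul_le_mul_of_nonneg_right (by linarith) hepX
    have g3 : 1 * (T * (ep * X)) ≤ (P + Q) * (T * (ep * X)) :=
      mul_le_mul_of_nonneg_right hS.le (mul_nonneg (by linarith) hepX)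
    rw [g1]
    linarith
  have f12 : (P + Q) * X = P * X + Q * X := by ring
  have f13 : (1 + T * δ) * (ef2 + eg2) = (1 + T * δ) * ef2 + (1 + T * δ) * eg2 := by ring
  have f14 : (K₁ + K₂) * h = K₁ * h + K₂ * h := by ring
  rw [f13]
  have f15 : 16 * e ≤ 64 * (c₀ * J1) := by linarith
  linarith


/-! ### choice of the grid, constants -/

theorem exists_mesh {a bnd : ℝ} (ha : 0 < a) (hb : 0 < bnd) (m₀ : ℕ) :
    ∃ m : ℕ, m₀ ≤ m ∧ 0 < msh a m ∧ msh a m ≤ bnd := by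
  obtain ⟨n, hn⟩ := exists_nat_ge (2 * a / bnd)
  refine ⟨max m₀ (max n 1), le_max_left _ _, ?_, ?_⟩
  · have : (0 : ℝ) < ((max m₀ (max n 1) : ℕ) : ℝ) := by
      have : 0 < max m₀ (max n 1) := by
        have := le_max_right m₀ (max n 1)
        have := le_max_right n 1
        omega
      exact_mod_cast this
    unfold msh
    positivity
  · have h1 : 0 < max m₀ (max n 1) := by
      have := le_max_right m₀ (max n 1)
      have := le_max_right n 1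
      omega
    have h2 : (0 : ℝ) < ((max m₀ (max n 1) : ℕ) : ℝ) := by exact_mod_cast h1
    have h3 : (n : ℝ) ≤ ((max m₀ (max n 1) : ℕ) : ℝ) := by
      have : n ≤ max m₀ (max n 1) := (le_max_left n 1).trans (le_max_right _ _)
      exact_mod_cast this
    unfold msh
    rw [div_le_iff₀ h2]
    rw [div_le_iff₀ hb] at hn
    have := mul_le_mul_of_nonneg_right h3 hb.le
    linarith

theorem Sgt {p q : ℝ} (hp : 0 < p) (hq : 0 < q) (hpq : 1 < p * q) :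
    1 < p / (p + 1) + q / (q + 1) := by
  have h1 : p / (p + 1) + q / (q + 1) - 1 = (p * q - 1) / ((p + 1) * (q + 1)) := by
    field_simp
    ring
  have h2 : 0 < (p * q - 1) / ((p + 1) * (q + 1)) := by
    apply div_pos
    · linarith
    · positivity
  linarith

theorem cb_nonneg {b p : ℝ} (hp : 0 < p) : 0 ≤ cb b p := by
  unfold cb
  positivity

/-- everything about the scales -/
theorem scales {ep c₀ a : ℝ} (hep : 0 < ep) (hep16 : ep ≤ 1 / 16) (hc₀ : 0 < c₀) (hc₀1 : c₀ ≤ 1)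
    (ha : 0 < a) (ha8 : a ≤ 1 / 8) (j : ℕ) :
    0 < ep ^ j * (c₀ * a ^ 2) ∧
    ep ^ (j + 1) * (c₀ * a ^ 2) = ep * (ep ^ j * (c₀ * a ^ 2)) ∧
    ep ^ (j + 2) * (c₀ * a ^ 2) = ep * (ep ^ (j + 1) * (c₀ * a ^ 2)) ∧
    ep ^ (j + 3) * (c₀ * a ^ 2) = ep * (ep ^ (j + 2) * (c₀ * a ^ 2)) ∧
    ep ^ j * (c₀ * a ^ 2) / a ^ 2 ≤ c₀ ∧
    8 * (ep ^ j * (c₀ * a ^ 2)) ≤ a := by
  have hp1 : ep ^ j ≤ 1 := pow_le_one₀ hep.le (by linarith)
  have h2 : ep ^ j * (c₀ * a ^ 2) ≤ 1 * (c₀ * a ^ 2) :=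
    mul_le_mul_of_nonneg_right hp1 (by positivity)
  refine ⟨by positivity, by ring, by ring, by ring, ?_, ?_⟩
  · rw [div_le_iff₀ (by positivity)]
    linarith
  · have h3 : c₀ * a ^ 2 ≤ 1 * a ^ 2 := mul_le_mul_of_nonneg_right hc₀1 (by positivity)
    have h4 : a ^ 2 ≤ a * (1 / 8) := by
      rw [pow_two]
      exact mul_le_mul_of_nonneg_left ha8 ha.le
    linarith

/-- the inequality for all scales, at a fixed window -/
theorem window (hWin : Stmt_Win) (hSwap : Stmt_Swap) (hSwapX : Stmt_SwapX)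
    (hIdent : Stmt_Ident) (hWF : Stmt_WF) (hR : Stmt_R) (hAA : Stmt_AA) (hTVF : Stmt_TVF)
    (hEF : Stmt_EF) (hXF : Stmt_XF) (hXs : Stmt_Xs)
    (M : Type) [MeasurableSpace M] (μ : Measure M) [IsFiniteMeasure μ] (S : Cyl M μ)
    (hJ1nn : ∀ T, 0 ≤ S.J1 T) (hJ2nn : ∀ T, 0 ≤ S.J2 T)
    {T Cf κ : ℝ} (hBf : ∀ δ ∈ Ioc (0:ℝ) 1, 0 ≤ S.Bfar δ ∧ S.Bfar δ ≤ Cf * δ ^ (-κ))
    (hT : 200 + 2 * (cb S.b₁ S.p + cb S.b₂ S.q) + 2 * |S.b₂ / (S.q + 1)| + Cf ≤ T)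
    (hCf : 0 ≤ Cf)
    {ep c₀ : ℝ} (hep : 0 < ep) (hep16 : ep ≤ 1 / 16) (hc₀ : 0 < c₀) (hc₀1 : c₀ ≤ 1)
    {a : ℝ} (ha : 0 < a) (ha8 : a ≤ 1 / 8) (haT : a ≤ 1 / T) (lam N : ℝ) :
    ∃ E TV X₀ B : ℕ → ℝ,
        (∀ j, 0 ≤ E j) ∧ (∀ j, E j ≤ E (j + 1)) ∧
        (∀ j, E j ≤ (2 / a) * (S.J1 (lam + 2 * a) + S.J2 (lam + 2 * a))) ∧
        (∀ j : ℕ, (j : ℝ) ≤ N →
          S.D * S.J1 lam ≤ X₀ j - E (j + 1) + T * TV j
            + T * (ep ^ j * (c₀ * a ^ 2) / a) * (S.J1 (lam + 2 * a) + S.J2 (lam + 2 * a))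
            + (T / a) * B j + T * 1 ∧
          TV j ≤ T * (ep * E j + (E (j + 1) - E j))
            + T * (ep ^ j * (c₀ * a ^ 2) / a ^ 2) * (S.J1 (lam + 2 * a) + S.J2 (lam + 2 * a))
            + T * 1 ∧
          (S.p / (S.p + 1) + S.q / (S.q + 1)) * (1 - T * ep) * X₀ j
            ≤ (1 + T * (ep ^ j * (c₀ * a ^ 2))) * E (j + 2)
            + T * ep * TV j + T * c₀ * (S.J1 (lam + 2 * a) + S.J2 (lam + 2 * a)) + T * 1 ∧
          B j ≤ T * (ep ^ (j + 3) * (c₀ * a ^ 2)) ^ (-κ)) := by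
  obtain ⟨S', hS'⟩ := hSwap M μ S
  obtain ⟨hX0s, hBs, hEs, hJs, hDs⟩ := hSwapX M μ S S' hS'
  have ha1 : a ≤ 1 := by linarith
  obtain ⟨L, m₀, hwin⟩ := hWin M μ S lam a ha ha1
  obtain ⟨K₁, hK₁, hWF1⟩ := hWF M μ S lam a L ha ha1
  obtain ⟨K₂, hK₂, hWF2⟩ := hWF M μ S' lam a L ha ha1
  obtain ⟨K₃, hK₃, hTV1⟩ := hTVF M μ S lam a L ha ha1
  obtain ⟨K₄, hK₄, hTV2⟩ := hTVF M μ S' lam a L ha ha1
  obtain ⟨K₅, hK₅, hX1⟩ := hXF M μ S lam a L ha ha1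
  obtain ⟨K₆, hK₆, hX2⟩ := hXF M μ S' lam a L ha ha1
  obtain ⟨n, hn⟩ := exists_nat_ge N
  obtain ⟨Ks, hKs⟩ : ∃ Ks, Ks = K₁ + K₂ + K₃ + K₄ + K₅ + K₆ := ⟨_, rfl⟩
  have hKs0 : 0 ≤ Ks := by rw [hKs]; positivity
  have hbnd : 0 < min (ep ^ (n + 3) * (c₀ * a ^ 2)) (1 / (1 + Ks)) :=
    lt_min (by positivity) (by positivity)
  obtain ⟨m, hm₀, hmpos, hmle⟩ := exists_mesh ha hbnd m₀
  have hm1 : msh a m ≤ ep ^ (n + 3) * (c₀ * a ^ 2) := hmle.trans (min_le_left _ _)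
  have hm2 : msh a m ≤ 1 / (1 + Ks) := hmle.trans (min_le_right _ _)
  have hKm : ∀ K : ℝ, K ≤ Ks → K * msh a m ≤ 1 := by
    intro K hK
    rw [le_div_iff₀ (by positivity)] at hm2
    have := mul_le_mul_of_nonneg_right hK hmpos.le
    have h2 : msh a m * (1 + Ks) = msh a m + Ks * msh a m := by ring
    linarith
  have hw : WinOK S lam a m L := hwin m hm₀
  have hw' : WinOK S' lam a m L := swap_win hS' hw
  have hcF : 0 ≤ cb S.b₁ S.p := cb_nonneg S.hp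
  have hcG : 0 ≤ cb S.b₂ S.q := cb_nonneg S.hq
  have hβ : 0 ≤ |S.b₂ / (S.q + 1)| := abs_nonneg _
  have hTpos : 0 < T := by linarith
  have hep1 : ep ≤ 1 := by linarith
  -- the energies
  have hEFall : ∀ j : ℕ, 0 ≤ S.EF lam a m L (ep ^ j * (c₀ * a ^ 2)) ∧
      S.EF lam a m L (ep ^ j * (c₀ * a ^ 2)) ≤ S.EF lam a m L (ep ^ (j + 1) * (c₀ * a ^ 2)) ∧
      S.EF lam a m L (ep ^ j * (c₀ * a ^ 2)) ≤ (2 / a) * S.J1 (lam + 2 * a) := by
    intro j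
    obtain ⟨s1, s2, s3, s4, s5, s6⟩ := scales hep hep16 hc₀ hc₀1 ha ha8 j
    have s7 : 0 < ep ^ (j + 1) * (c₀ * a ^ 2) := by positivity
    have s8 : ep ^ (j + 1) * (c₀ * a ^ 2) ≤ ep ^ j * (c₀ * a ^ 2) := by
      rw [s2]
      have := mul_le_mul_of_nonneg_right hep1 s1.le
      linarith
    obtain ⟨t1, t2, t3, t4, t5⟩ := hEF M μ S lam a L m _ _ hw s7 s8
    exact ⟨t1, t2, t2.trans (t3.trans t4)⟩
  have hEGall : ∀ j : ℕ, 0 ≤ S.EG lam a m L (ep ^ j * (c₀ * a ^ 2)) ∧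
      S.EG lam a m L (ep ^ j * (c₀ * a ^ 2)) ≤ S.EG lam a m L (ep ^ (j + 1) * (c₀ * a ^ 2)) ∧
      S.EG lam a m L (ep ^ j * (c₀ * a ^ 2)) ≤ (2 / a) * S.J2 (lam + 2 * a) := by
    intro j
    obtain ⟨s1, s2, s3, s4, s5, s6⟩ := scales hep hep16 hc₀ hc₀1 ha ha8 j
    have s7 : 0 < ep ^ (j + 1) * (c₀ * a ^ 2) := by positivity
    have s8 : ep ^ (j + 1) * (c₀ * a ^ 2) ≤ ep ^ j * (c₀ * a ^ 2) := by
      rw [s2]
      have := mul_le_mul_of_nonneg_right hep1 s1.le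
      linarith
    obtain ⟨t1, t2, t3, t4, t5⟩ := hEF M μ S' lam a L m _ _ hw' s7 s8
    rw [(hEs lam a m L _).1] at t1 t2 t3
    rw [(hEs lam a m L _).1] at t2
    rw [(hJs _).1] at t4
    exact ⟨t1, t2, t2.trans (t3.trans t4)⟩
  refine ⟨fun j => S.EF lam a m L (ep ^ j * (c₀ * a ^ 2)) + S.EG lam a m L (ep ^ j * (c₀ * a ^ 2)),
    fun j => (ep ^ (j + 1) * (c₀ * a ^ 2)) * (S.TVF lam a m L (ep ^ (j + 1) * (c₀ * a ^ 2))
      + S.TVG lam a m L (ep ^ (j + 1) * (c₀ * a ^ 2))),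
    fun j => S.X0 lam a m L (ep ^ (j + 1) * (c₀ * a ^ 2)) (ep ^ (j + 3) * (c₀ * a ^ 2)),
    fun j => S.Bfar (ep ^ (j + 3) * (c₀ * a ^ 2)), ?_, ?_, ?_, ?_⟩
  · intro j
    have h1 := (hEFall j).1
    have h2 := (hEGall j).1
    simp only
    linarith
  · intro j
    have h1 := (hEFall j).2.1
    have h2 := (hEGall j).2.1
    simp only
    linarith
  · intro j
    have h1 := (hEFall j).2.2
    have h2 := (hEGall j).2.2
    simp only
    rw [mul_add]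
    linarith
  · intro j hj
    simp only
    -- scales
    obtain ⟨s1, s2, s3, s4, s5, s6⟩ := scales hep hep16 hc₀ hc₀1 ha ha8 j
    obtain ⟨-, -, -, -, s5', -⟩ := scales hep hep16 hc₀ hc₀1 ha ha8 (j + 2)
    obtain ⟨-, -, -, -, s5'', -⟩ := scales hep hep16 hc₀ hc₀1 ha ha8 (j + 3)
    have hmδ' : msh a m ≤ ep ^ (j + 3) * (c₀ * a ^ 2) := by
      have hjn : j ≤ n := by
        have : (j : ℝ) ≤ n := hj.trans hn
        exact_mod_cast this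
      have h1 : ep ^ (n + 3) ≤ ep ^ (j + 3) :=
        pow_le_pow_of_le_one hep.le hep1 (by omega)
      have h2 := mul_le_mul_of_nonneg_right h1 (by positivity : 0 ≤ c₀ * a ^ 2)
      linarith
    obtain ⟨ef, eg, hEFj, hEGj⟩ : ∃ ef eg, S.EF lam a m L (ep ^ j * (c₀ * a ^ 2)) = ef ∧
      S.EG lam a m L (ep ^ j * (c₀ * a ^ 2)) = eg := ⟨_, _, rfl, rfl⟩
    obtain ⟨f1, f2, -⟩ := hEFall j
    obtain ⟨f3, f4, -⟩ := hEFall (j + 1)
    obtain ⟨f5, f6, -⟩ := hEFall (j + 2)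
    obtain ⟨g1, g2, -⟩ := hEGall j
    obtain ⟨g3, g4, -⟩ := hEGall (j + 1)
    obtain ⟨g5, g6, -⟩ := hEGall (j + 2)
    obtain ⟨δ, hδ⟩ : ∃ δ, δ = ep ^ j * (c₀ * a ^ 2) := ⟨_, rfl⟩
    obtain ⟨η, hη⟩ : ∃ η, η = ep ^ (j + 1) * (c₀ * a ^ 2) := ⟨_, rfl⟩
    obtain ⟨ζ, hζ⟩ : ∃ ζ, ζ = ep ^ (j + 2) * (c₀ * a ^ 2) := ⟨_, rfl⟩
    obtain ⟨δ', hδ'⟩ : ∃ δ', δ' = ep ^ (j + 3) * (c₀ * a ^ 2) := ⟨_, rfl⟩
    have e2 : j + 1 + 1 = j + 2 := rfl
    have e3 : j + 2 + 1 = j + 3 := rfl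
    rw [e2] at f4 g4
    rw [e3] at f6 g6
    rw [← hδ] at s1 s2 s5 s6 f1 f2 g1 g2 hEFj hEGj
    rw [← hη] at s2 s3 f2 f3 f4 g2 g3 g4
    rw [← hζ] at s3 s4 s5' f4 f5 f6 g4 g5 g6
    rw [← hδ'] at s4 s5'' hmδ' f6 g6
    rw [← hδ, ← hη, ← hζ, ← hδ']
    have hη0 : 0 < η := by rw [s2]; positivity
    have hζ0 : 0 < ζ := by rw [s3]; positivity
    have hδ'0 : 0 < δ' := by rw [s4]; positivity
    have hηδ : η ≤ δ := by
      rw [s2]
      have := mul_le_mul_of_nonneg_right hep1 s1.le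
      linarith
    have hζη : 16 * ζ ≤ η := by
      rw [s3]
      have := mul_le_mul_of_nonneg_right hep16 hη0.le
      linarith
    have hδ'ζ : 16 * δ' ≤ ζ := by
      rw [s4]
      have := mul_le_mul_of_nonneg_right hep16 hζ0.le
      linarith
    have hη8 : 8 * η ≤ a := by linarith
    have hδ'1 : δ' ∈ Ioc (0:ℝ) 1 := ⟨hδ'0, by linarith⟩
    obtain ⟨hB0, hB1⟩ := hBf δ' hδ'1
    have hδT : T * δ ≤ 1 := by
      rw [le_div_iff₀ hTpos] at haT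
      have h1 : δ ≤ a := by linarith
      have h2 := mul_le_mul_of_nonneg_left h1 hTpos.le
      linarith
    have hcFδ : cb S.b₁ S.p * δ ≤ 1 := by
      have := mul_le_mul_of_nonneg_right (by linarith : cb S.b₁ S.p ≤ T) s1.le
      linarith
    have hcGδ : cb S.b₂ S.q * δ ≤ 1 := by
      have := mul_le_mul_of_nonneg_right (by linarith : cb S.b₂ S.q ≤ T) s1.le
      linarith
    -- TV
    obtain ⟨v1, v2⟩ := hTV1 m η δ hw hη0 hηδ s6 hcFδ (by linarith)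
    obtain ⟨v3, v4⟩ := hTV2 m η δ hw' hη0 hηδ s6 (by rw [hS'.b1_eq, hS'.p_eq]; exact hcGδ)
      (by linarith)
    rw [(hEs lam a m L _).2.2.1] at v3 v4
    rw [(hEs lam a m L _).1, (hEs lam a m L _).1, (hJs _).1] at v4
    refine ⟨?_, ?_, ?_, ?_⟩
    · -- h1
      have hid := (hIdent M μ S lam a L m η hw hη0 hη8).1
      have w1 := hWF1 m η hw hη0 hη8
      have w2 := hWF2 m η hw' hη0 hη8
      simp only [swap_OmF hS', swap_F hS', swap_FLo hS', hS'.V_eq, hS'.b1_eq, hS'.p_eq,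
        (hEs lam a m L _).1] at w2
      have r1 := hR M μ S lam a L m η δ' hw hδ'0 (by linarith) hη8
      have aa := hAA M μ S lam a δ' ha ha1 hδ'0 (by linarith)
      obtain ⟨t1, t2, t3, t4, t5⟩ := hEF M μ S lam a L m η η hw hη0 le_rfl
      obtain ⟨u1, u2, u3, u4, u5⟩ := hEF M μ S' lam a L m η η hw' hη0 le_rfl
      simp only [swap_F hS', hS'.V_eq, (hJs _).1] at u4
      exact num_h1 ha ha1 rfl S.hD hη0.le hηδ (by linarith) hcF hcG v1 v3 (hJ1nn _) (hJ2nn _)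
        hB0 (by linarith) hid w1 w2 r1 aa t4 u4 t5 (hKm _ (by linarith))
    · -- h2
      exact num_h2 ha s1 s2 hep (hJ1nn _) (hJ2nn _) f1 g1 f2 g2 (by linarith) v2 v4
        (hKm _ (by linarith))
    · -- h3
      obtain ⟨x1, x2⟩ := hX1 m η ζ δ' hw hδ'0 hδ'ζ hζη hη8 hmδ'
      obtain ⟨x3, x4⟩ := hX2 m η ζ δ' hw' hδ'0 hδ'ζ hζη hη8 hmδ'
      rw [(hX0s lam a m L η δ').1] at x3 x4
      rw [(hX0s lam a m L η δ').2, (hEs lam a m L _).1, (hEs lam a m L _).2.2.2, (hJs _).2,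
        hS'.b1_eq, hS'.p_eq] at x4
      have xs := hXs M μ S lam a L m η δ' hw hδ'0 (by linarith) hη8
      exact num_h3 S.hp S.hq ha hη0 s3 hep hep1 (by linarith) s5' hδ'0 s5'' hcF hcG
        (hJ1nn _) (hJ2nn _) f5 g5 v1 v3 hc₀ (Sgt S.hp S.hq S.hpq) (by positivity) (by positivity)
        (by linarith) x1 x3 x2 x4 xs (hKm _ (by linarith))
    · -- hB
      have h2 : 0 ≤ δ' ^ (-κ) := Real.rpow_nonneg hδ'0.le _
      have h3 := mul_le_mul_of_nonneg_right (by linarith : Cf ≤ T) h2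
      linarith

end CoreP

open CoreP in
/-- THE CORE from the frozen statements -/
theorem core_of (hWin : Stmt_Win) (hSwap : Stmt_Swap) (hSwapX : Stmt_SwapX)
    (hIdent : Stmt_Ident) (hWF : Stmt_WF) (hR : Stmt_R) (hAA : Stmt_AA) (hJ : Stmt_J)
    (hTVF : Stmt_TVF) (hEF : Stmt_EF) (hXF : Stmt_XF) (hXs : Stmt_Xs) : Stmt_Core := by
  intro M _ μ _ hμ S
  obtain ⟨hJJ, hmono, hmono2, hJ1nn, hJ2nn, hunb, Cf, κ, hCf, hκ, hBf⟩ := hJ M μ S hμ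
  have htend : Tendsto S.J1 atTop atTop :=
    tendsto_atTop_atTop_of_monotone hmono (fun b => hunb b)
  have hcF : 0 ≤ cb S.b₁ S.p := cb_nonneg S.hp
  have hcG : 0 ≤ cb S.b₂ S.q := cb_nonneg S.hq
  have hβ : 0 ≤ |S.b₂ / (S.q + 1)| := abs_nonneg _
  obtain ⟨T, hT⟩ : ∃ T, T = 200 + 2 * (cb S.b₁ S.p + cb S.b₂ S.q) + 2 * |S.b₂ / (S.q + 1)| + Cf :=
    ⟨_, rfl⟩
  have hT1 : 200 ≤ T := by rw [hT]; linarith
  have hTpos : 0 < T := by linarith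
  refine endgame (J₂ := S.J2) (D := S.D) S.hD hmono htend ?_ ?_
  · intro ε hε
    obtain ⟨ep, c₀, C, K, a₀, C₀, hep, hepT, hc₀, hc₀1, ha₀, ha₀2, hC, hK, hC₀, hmain⟩ :=
      assemble (D := S.D) (S := S.p / (S.p + 1) + S.q / (S.q + 1)) (T := T) (m := κ)
        (Sgt S.hp S.hq S.hpq) (by linarith) hκ hε
    refine ⟨C, K, min a₀ (min (1 / 8) (1 / T)), 0, lt_min ha₀ (lt_min (by norm_num) (by positivity)),
      ?_⟩
    intro lam _ a ha haa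
    have h1 : a ≤ a₀ := haa.trans (min_le_left _ _)
    have h2 : a ≤ 1 / 8 := haa.trans ((min_le_right _ _).trans (min_le_left _ _))
    have h3 : a ≤ 1 / T := haa.trans ((min_le_right _ _).trans (min_le_right _ _))
    have hep16 : ep ≤ 1 / 16 := by
      refine hepT.trans ?_
      apply one_div_le_one_div_of_le (by norm_num)
      linarith
    obtain ⟨E, TV, X₀, B, k1, k2, k3, k4⟩ := window hWin hSwap hSwapX hIdent hWF hR hAA hTVF hEF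
      hXF hXs M μ S hJ1nn hJ2nn hBf hT.ge hCf hep hep16 hc₀ hc₀1 ha h2 h3 lam
      (2 * (C₀ * Real.log (1 / a)))
    exact hmain a ha h1 (S.J1 lam) (S.J1 (lam + 2 * a) + S.J2 (lam + 2 * a)) 1 E TV X₀ B
      (add_nonneg (hJ1nn _) (hJ2nn _)) zero_le_one le_rfl k1 k2 k3 k4
  · refine ⟨Cf, κ, 0, fun T _ a ha ha1 => ?_⟩
    have h1 := (hJJ T a ha ha1).1
    have h2 := (hBf a ⟨ha, ha1⟩).2
    linarith

end Crest.Agent.R077
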