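import Mathlib

-- ▼ part R077/Polar
section

/-!
Row 77 (Henon-Lane-Emden): cylinder coordinates `x = exp t • θ` on `EuclideanSpace ℝ (Fin n)`.
-/

set_option autoImplicit false

open MeasureTheory Metric Set Real
open scoped ENNReal

namespace Crest.Agent.R077

noncomputable section

/-- The exponential map as a measure preserving map onto `(0,∞)` with `r^(m) dr`. -/
theorem mp_exp (m : ℕ) :
    MeasurePreserving (fun t : ℝ => (⟨Real.exp t, Real.exp_pos t⟩ : Ioi (0 : ℝ)))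
      ((volume : Measure ℝ).withDensity fun t => ENNReal.ofReal (Real.exp (((m : ℝ) + 1) * t)))
      (Measure.volumeIoiPow m) := by
  have hmeas : Measurable (fun t : ℝ => (⟨Real.exp t, Real.exp_pos t⟩ : Ioi (0 : ℝ))) :=
    Real.measurable_exp.subtype_mk
  refine ⟨hmeas, ?_⟩
  ext s hs
  rw [Measure.map_apply hmeas hs, withDensity_apply _ (hmeas hs), Measure.volumeIoiPow,
    withDensity_apply _ hs]
  rw [MeasureTheory.setLIntegral_subtype measurableSet_Ioi s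
    (fun a : ℝ => ENNReal.ofReal (a ^ m))]
  have himg : Subtype.val '' s = Real.exp '' ((fun t : ℝ =>
      (⟨Real.exp t, Real.exp_pos t⟩ : Ioi (0 : ℝ))) ⁻¹' s) := by
    ext x
    constructor
    · rintro ⟨⟨y, hy⟩, hys, rfl⟩
      refine ⟨Real.log y, ?_, Real.exp_log hy⟩
      simp only [mem_preimage]
      have : (⟨Real.exp (Real.log y), Real.exp_pos _⟩ : Ioi (0 : ℝ)) = ⟨y, hy⟩ :=
        Subtype.ext (Real.exp_log hy)
      rw [this]; exact hys
    · rintro ⟨t, ht, rfl⟩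
      exact ⟨⟨Real.exp t, Real.exp_pos t⟩, ht, rfl⟩
  rw [himg, lintegral_image_eq_lintegral_abs_deriv_mul (hmeas hs)
    (fun t _ => (Real.hasDerivAt_exp t).hasDerivWithinAt) (Real.exp_injective.injOn)]
  refine lintegral_congr fun t => ?_
  rw [abs_of_pos (Real.exp_pos t), ← ENNReal.ofReal_mul (Real.exp_pos t).le, ← Real.exp_nat_mul,
    ← Real.exp_add]
  ring_nf

variable {n : ℕ}

local notation "𝔼" => EuclideanSpace ℝ (Fin n)

/-- surface measure on the unit sphere -/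
def sph (n : ℕ) : Measure (sphere (0 : EuclideanSpace ℝ (Fin n)) 1) :=
  (volume : Measure (EuclideanSpace ℝ (Fin n))).toSphere

instance : IsFiniteMeasure (sph n) := by unfold sph; infer_instance

/-- Cylinder coordinates. -/
theorem mp_cyl (hn : 1 ≤ n) :
    MeasurePreserving (fun z : ℝ × sphere (0 : 𝔼) 1 => Real.exp z.1 • (z.2 : 𝔼))
      ((((volume : Measure ℝ).withDensity fun t => ENNReal.ofReal (Real.exp ((n : ℝ) * t)))).prod
        (sph n)) (volume : Measure 𝔼) := by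
  have : Nonempty (Fin n) := ⟨⟨0, hn⟩⟩
  have h1 := mp_exp (n - 1)
  have hcast : (((n - 1 : ℕ) : ℝ) + 1) = n := by
    rw [Nat.cast_sub hn]; simp
  rw [hcast] at h1
  have hfr : Module.finrank ℝ 𝔼 = n := by simp
  have h2 := Measure.measurePreserving_homeomorphUnitSphereProd (volume : Measure 𝔼)
  rw [hfr] at h2
  have h3 : MeasurePreserving (homeomorphUnitSphereProd 𝔼).symm
      ((sph n).prod (Measure.volumeIoiPow (n - 1))) ((volume : Measure 𝔼).comap (↑)) :=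
    h2.symm (homeomorphUnitSphereProd 𝔼).toMeasurableEquiv
  have h4 : MeasurePreserving (Subtype.val : ({0}ᶜ : Set 𝔼) → 𝔼)
      ((volume : Measure 𝔼).comap (↑)) ((volume : Measure 𝔼).restrict {0}ᶜ) :=
    ⟨measurable_subtype_coe, map_comap_subtype_coe (measurableSet_singleton _).compl _⟩
  have h5 : (volume : Measure 𝔼).restrict {0}ᶜ = volume :=
    Measure.restrict_eq_self_of_ae_mem (by
      rw [ae_iff]; simp)
  rw [h5] at h4
  have h6 : MeasurePreserving (Prod.swap : ℝ × sphere (0 : 𝔼) 1 → sphere (0 : 𝔼) 1 × ℝ)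
      ((((volume : Measure ℝ).withDensity fun t => ENNReal.ofReal (Real.exp ((n : ℝ) * t)))).prod
        (sph n)) ((sph n).prod
        ((volume : Measure ℝ).withDensity fun t => ENNReal.ofReal (Real.exp ((n : ℝ) * t)))) :=
    Measure.measurePreserving_swap
  have h7 : MeasurePreserving (Prod.map id (fun t : ℝ => (⟨Real.exp t, Real.exp_pos t⟩ : Ioi (0 : ℝ))))
      ((sph n).prod
        ((volume : Measure ℝ).withDensity fun t => ENNReal.ofReal (Real.exp ((n : ℝ) * t))))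
      ((sph n).prod (Measure.volumeIoiPow (n - 1))) :=
    (MeasurePreserving.id _).prod h1
  have := h4.comp (h3.comp (h7.comp h6))
  have hfun : (fun z : ℝ × sphere (0 : 𝔼) 1 => Real.exp z.1 • (z.2 : 𝔼)) =
      (Subtype.val ∘ (homeomorphUnitSphereProd 𝔼).symm ∘
        (Prod.map id (fun t : ℝ => (⟨Real.exp t, Real.exp_pos t⟩ : Ioi (0 : ℝ)))) ∘ Prod.swap) := by
    funext z
    rcases z with ⟨t, θ⟩
    simp [homeomorphUnitSphereProd]
  rw [hfun]
  exact this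

theorem meas_cyl {h : 𝔼 → ℝ≥0∞} (hn : 1 ≤ n) (hh : Measurable h) :
    Measurable fun z : ℝ × sphere (0 : 𝔼) 1 => h (Real.exp z.1 • (z.2 : 𝔼)) :=
  hh.comp (mp_cyl hn).measurable

theorem meas_cyl_left {h : 𝔼 → ℝ≥0∞} (hn : 1 ≤ n) (hh : Measurable h) (t : ℝ) :
    Measurable fun θ : sphere (0 : 𝔼) 1 => h (Real.exp t • (θ : 𝔼)) :=
  (meas_cyl hn hh).comp (measurable_prodMk_left (x := t))

/-- Lebesgue integral in cylinder coordinates, `t` outside. -/
theorem lintegral_cyl (hn : 1 ≤ n) {h : 𝔼 → ℝ≥0∞} (hh : Measurable h) :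
    ∫⁻ x, h x = ∫⁻ t : ℝ, ∫⁻ θ, ENNReal.ofReal (Real.exp ((n : ℝ) * t)) *
      h (Real.exp t • (θ : 𝔼)) ∂(sph n) := by
  have hm := mp_cyl hn
  rw [← hm.lintegral_comp hh,
    lintegral_prod (fun z : ℝ × sphere (0 : 𝔼) 1 => h (Real.exp z.1 • (z.2 : 𝔼)))
      (meas_cyl hn hh).aemeasurable]
  have hmeas : Measurable fun t : ℝ => ∫⁻ θ, h (Real.exp t • (θ : 𝔼)) ∂(sph n) :=
    (meas_cyl hn hh).lintegral_prod_right'
  rw [lintegral_withDensity_eq_lintegral_mul _ (by fun_prop) hmeas]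
  refine lintegral_congr fun t => ?_
  simp only [Pi.mul_apply]
  rw [lintegral_const_mul _ (meas_cyl_left hn hh t)]


theorem norm_cyl (t : ℝ) (θ : sphere (0 : 𝔼) 1) : ‖Real.exp t • (θ : 𝔼)‖ = Real.exp t := by
  rw [norm_smul, Real.norm_of_nonneg (Real.exp_pos t).le]
  simp

/-- Lebesgue integral over `{‖x‖ ∈ s}` in cylinder coordinates. -/
theorem setLIntegral_cyl (hn : 1 ≤ n) {h : 𝔼 → ℝ≥0∞} (hh : Measurable h) {s : Set ℝ}
    (hs : MeasurableSet s) :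
    ∫⁻ x in {x : 𝔼 | ‖x‖ ∈ s}, h x = ∫⁻ t in Real.exp ⁻¹' s, ∫⁻ θ,
      ENNReal.ofReal (Real.exp ((n : ℝ) * t)) * h (Real.exp t • (θ : 𝔼)) ∂(sph n) := by
  have hS : MeasurableSet {x : 𝔼 | ‖x‖ ∈ s} := measurable_norm hs
  rw [← lintegral_indicator hS, lintegral_cyl hn (hh.indicator hS),
    ← lintegral_indicator (Real.measurable_exp hs)]
  refine lintegral_congr fun t => ?_
  by_cases ht : Real.exp t ∈ s
  · rw [indicator_of_mem (show t ∈ Real.exp ⁻¹' s from ht)]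
    refine lintegral_congr fun θ => ?_
    rw [indicator_of_mem]
    show ‖Real.exp t • (θ : 𝔼)‖ ∈ s
    rw [norm_cyl]; exact ht
  · rw [indicator_of_notMem (show t ∉ Real.exp ⁻¹' s from ht)]
    have hz : ∀ θ : sphere (0 : 𝔼) 1, ENNReal.ofReal (Real.exp ((n : ℝ) * t)) *
        {x : 𝔼 | ‖x‖ ∈ s}.indicator h (Real.exp t • (θ : 𝔼)) = 0 := fun θ => by
      have : Real.exp t • (θ : 𝔼) ∉ {x : 𝔼 | ‖x‖ ∈ s} := by
        show ¬ ‖Real.exp t • (θ : 𝔼)‖ ∈ s
        rw [norm_cyl]; exact ht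
      rw [indicator_of_notMem this, mul_zero]
    simp only [hz, lintegral_zero]

end

end Crest.Agent.R077
end

-- ▼ part R077/Kern

/-! Row 77: the cylinder kernel. -/

set_option autoImplicit false

open MeasureTheory Set Filter Topology
open scoped ENNReal RealInnerProductSpace

namespace Crest.Agent.R077.Kern

variable {n : ℕ}

/-- the unit sphere -/
abbrev Sph (n : ℕ) : Type := Metric.sphere (0 : EuclideanSpace ℝ (Fin n)) 1

/-- `2 cosh τ - 2 ⟪θ, θ'⟫` -/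
noncomputable def base (τ : ℝ) (θ θ' : Sph n) : ℝ :=
  2 * Real.cosh τ - 2 * ⟪(θ : EuclideanSpace ℝ (Fin n)), (θ' : EuclideanSpace ℝ (Fin n))⟫

lemma norm_sph (θ : Sph n) : ‖(θ : EuclideanSpace ℝ (Fin n))‖ = 1 := by
  simp

lemma base_eq (τ : ℝ) (θ θ' : Sph n) :
    base τ θ θ' = (2 * Real.sinh (τ / 2)) ^ 2 +
      ‖(θ : EuclideanSpace ℝ (Fin n)) - (θ' : EuclideanSpace ℝ (Fin n))‖ ^ 2 := by
  have h1 : Real.cosh τ = Real.cosh (τ / 2) ^ 2 + Real.sinh (τ / 2) ^ 2 := by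
    rw [← Real.cosh_two_mul]; congr 1; ring
  have h2 := Real.cosh_sq (τ / 2)
  rw [norm_sub_sq_real, norm_sph, norm_sph, base, h1, h2]
  ring

lemma norm_sub_sq_exp (t s : ℝ) (θ θ' : Sph n) :
    ‖Real.exp t • (θ : EuclideanSpace ℝ (Fin n)) -
      Real.exp s • (θ' : EuclideanSpace ℝ (Fin n))‖ ^ 2 =
      Real.exp (t + s) * base (t - s) θ θ' := by
  rw [norm_sub_sq_real, norm_smul, norm_smul, norm_sph, norm_sph, real_inner_smul_left,
    real_inner_smul_right, base, Real.cosh_eq]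
  simp only [Real.norm_eq_abs, Real.abs_exp, mul_one]
  have e1 : Real.exp (t + s) * Real.exp (t - s) = Real.exp t ^ 2 := by
    rw [← Real.exp_add, ← Real.exp_nat_mul]; congr 1; push_cast; ring
  have e2 : Real.exp (t + s) * Real.exp (-(t - s)) = Real.exp s ^ 2 := by
    rw [← Real.exp_add, ← Real.exp_nat_mul]; congr 1; push_cast; ring
  have e3 : Real.exp (t + s) = Real.exp t * Real.exp s := Real.exp_add t s
  linear_combination (-1 : ℝ) * e1 - e2 + 2 * ⟪(θ : EuclideanSpace ℝ (Fin n)),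
    (θ' : EuclideanSpace ℝ (Fin n))⟫ * e3

lemma base_nonneg (τ : ℝ) (θ θ' : Sph n) : 0 ≤ base τ θ θ' := by
  rw [base_eq]; positivity

lemma base_pos_of_ne {τ : ℝ} (h : τ ≠ 0) (θ θ' : Sph n) : 0 < base τ θ θ' := by
  rw [base_eq]
  have : Real.sinh (τ / 2) ≠ 0 := by
    rw [Ne, Real.sinh_eq_zero]; intro h'; apply h; linarith
  positivity


lemma base_symm (τ : ℝ) (θ θ' : Sph n) : base τ θ θ' = base τ θ' θ := by
  rw [base, base, real_inner_comm]


lemma base_abs (τ : ℝ) (θ θ' : Sph n) : base |τ| θ θ' = base τ θ θ' := by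
  rw [base, base, Real.cosh_abs]

lemma base_mono {τ τ' : ℝ} (h : |τ| ≤ |τ'|) (θ θ' : Sph n) : base τ θ θ' ≤ base τ' θ θ' := by
  rw [base, base]
  have := Real.cosh_le_cosh.2 h
  linarith

/-- the exponent `c = (n-2)/2` -/
noncomputable def cc (n : ℕ) : ℝ := ((n : ℝ) - 2) / 2

lemma cc_pos (hn : 3 ≤ n) : 0 < cc n := by
  have : (3 : ℝ) ≤ n := by exact_mod_cast hn
  unfold cc; linarith

/-- the kernel (without the constant `κ⁻¹`) -/
noncomputable def kk (τ : ℝ) (θ θ' : Sph n) : ℝ := (base τ θ θ') ^ (-(cc n))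

/-- minus its derivative -/
noncomputable def HH (ρ : ℝ) (θ θ' : Sph n) : ℝ :=
  2 * cc n * Real.sinh ρ * (base ρ θ θ') ^ (-(cc n) - 1)

lemma kk_nonneg (τ : ℝ) (θ θ' : Sph n) : 0 ≤ kk τ θ θ' :=
  Real.rpow_nonneg (base_nonneg _ _ _) _



lemma kk_abs (τ : ℝ) (θ θ' : Sph n) : kk |τ| θ θ' = kk τ θ θ' := by
  rw [kk, kk, base_abs]

lemma HH_symm (τ : ℝ) (θ θ' : Sph n) : HH τ θ θ' = HH τ θ' θ := by
  rw [HH, HH, base_symm]

lemma HH_nonneg (hn : 3 ≤ n) {ρ : ℝ} (hρ : 0 ≤ ρ) (θ θ' : Sph n) : 0 ≤ HH ρ θ θ' := by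
  unfold HH
  have h1 := cc_pos hn
  have h2 : 0 ≤ Real.sinh ρ := Real.sinh_nonneg_iff.2 hρ
  have h3 := Real.rpow_nonneg (base_nonneg ρ θ θ') (-(cc n) - 1)
  positivity

lemma kk_anti (hn : 3 ≤ n) {τ τ' : ℝ} (h : |τ| ≤ |τ'|) {θ θ' : Sph n} (hp : 0 < base τ θ θ') :
    kk τ' θ θ' ≤ kk τ θ θ' := by
  unfold kk
  exact Real.rpow_le_rpow_of_nonpos hp (base_mono h θ θ') (by linarith [cc_pos hn])

/-- the Newtonian kernel in cylinder coordinates -/
lemma norm_rpow_eq (t s : ℝ) (θ θ' : Sph n) :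
    ‖Real.exp t • (θ : EuclideanSpace ℝ (Fin n)) -
      Real.exp s • (θ' : EuclideanSpace ℝ (Fin n))‖ ^ (2 - (n : ℝ)) =
      Real.exp (-(cc n) * (t + s)) * kk (t - s) θ θ' := by
  have h := norm_sub_sq_exp t s θ θ'
  have hN : 0 ≤ ‖Real.exp t • (θ : EuclideanSpace ℝ (Fin n)) -
      Real.exp s • (θ' : EuclideanSpace ℝ (Fin n))‖ := norm_nonneg _
  have e1 : ‖Real.exp t • (θ : EuclideanSpace ℝ (Fin n)) -
      Real.exp s • (θ' : EuclideanSpace ℝ (Fin n))‖ ^ (2 - (n : ℝ)) =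
      (‖Real.exp t • (θ : EuclideanSpace ℝ (Fin n)) -
      Real.exp s • (θ' : EuclideanSpace ℝ (Fin n))‖ ^ (2 : ℕ)) ^ (-(cc n)) := by
    rw [← Real.rpow_natCast, ← Real.rpow_mul hN]
    congr 1; unfold cc; push_cast; ring
  rw [e1, h, Real.mul_rpow (Real.exp_pos _).le (base_nonneg _ _ _), ← Real.exp_mul, kk]
  congr 2; ring

lemma hasDerivAt_base (ρ : ℝ) (θ θ' : Sph n) :
    HasDerivAt (fun r => base r θ θ') (2 * Real.sinh ρ) ρ := by
  unfold base
  exact ((Real.hasDerivAt_cosh ρ).const_mul 2).sub_const _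

lemma hasDerivAt_kk {ρ : ℝ} {θ θ' : Sph n} (h : 0 < base ρ θ θ') :
    HasDerivAt (fun r => kk r θ θ') (-(HH ρ θ θ')) ρ := by
  unfold kk HH
  have := (hasDerivAt_base ρ θ θ').rpow_const (p := -(cc n)) (Or.inl h.ne')
  convert this using 1
  ring

lemma sq_le_base (τ : ℝ) (θ θ' : Sph n) : τ ^ 2 ≤ base τ θ θ' := by
  rw [base_eq]
  have h1 : |τ| ≤ 2 * Real.sinh (|τ| / 2) := by
    have := Real.self_le_sinh_iff.2 (show 0 ≤ |τ| / 2 by positivity)
    linarith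
  have h2 : (2 * Real.sinh (τ / 2)) ^ 2 = (2 * Real.sinh (|τ| / 2)) ^ 2 := by
    rcases abs_cases τ with ⟨h, _⟩ | ⟨h, _⟩
    · rw [h]
    · rw [h, neg_div, Real.sinh_neg]; ring
  rw [h2]
  have h3 : τ ^ 2 = |τ| ^ 2 := (sq_abs τ).symm
  rw [h3]
  nlinarith [abs_nonneg τ, sq_nonneg ‖(θ : EuclideanSpace ℝ (Fin n)) - (θ' : EuclideanSpace ℝ (Fin n))‖]


/-- `exp |τ| / 4 ≤ base` for `|τ| ≥ 1` -/
lemma exp_le_base {τ : ℝ} (h : 1 ≤ |τ|) (θ θ' : Sph n) : Real.exp |τ| / 4 ≤ base τ θ θ' := by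
  rw [← base_abs, base, Real.cosh_eq]
  have h1 : ⟪(θ : EuclideanSpace ℝ (Fin n)), (θ' : EuclideanSpace ℝ (Fin n))⟫ ≤ 1 := by
    have := real_inner_le_norm (θ : EuclideanSpace ℝ (Fin n)) (θ' : EuclideanSpace ℝ (Fin n))
    rwa [norm_sph, norm_sph, one_mul] at this
  have h2 : Real.exp 1 ≤ Real.exp |τ| := Real.exp_le_exp.2 h
  have h3 : (2.7182818283 : ℝ) < Real.exp 1 := Real.exp_one_gt_d9
  have h4 := (Real.exp_pos (-|τ|)).le
  nlinarith

lemma kk_le_exp (hn : 3 ≤ n) {τ : ℝ} (h : 1 ≤ |τ|) (θ θ' : Sph n) :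
    kk τ θ θ' ≤ 4 ^ (cc n) * Real.exp (-(cc n) * |τ|) := by
  unfold kk
  have h1 := exp_le_base h θ θ'
  have h2 : 0 < Real.exp |τ| / 4 := by positivity
  calc (base τ θ θ') ^ (-(cc n)) ≤ (Real.exp |τ| / 4) ^ (-(cc n)) :=
        Real.rpow_le_rpow_of_nonpos h2 h1 (by linarith [cc_pos hn])
    _ = 4 ^ (cc n) * Real.exp (-(cc n) * |τ|) := by
        rw [Real.div_rpow (Real.exp_pos _).le (by norm_num), ← Real.exp_mul,
          Real.rpow_neg (by norm_num : (0:ℝ) ≤ 4), div_inv_eq_mul, mul_comm, mul_comm |τ|]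

lemma HH_le_exp (hn : 3 ≤ n) {ρ : ℝ} (h : 1 ≤ ρ) (θ θ' : Sph n) :
    HH ρ θ θ' ≤ (cc n * 4 ^ (cc n + 1)) * Real.exp (-(cc n) * ρ) := by
  unfold HH
  have hρ : |ρ| = ρ := abs_of_pos (by linarith)
  have h1 := exp_le_base (by rw [hρ]; exact h) θ θ'
  rw [hρ] at h1
  have h2 : 0 < Real.exp ρ / 4 := by positivity
  have hc := cc_pos hn
  have h3 : (base ρ θ θ') ^ (-(cc n) - 1) ≤ 4 ^ (cc n + 1) * Real.exp (-(cc n + 1) * ρ) := by
    calc (base ρ θ θ') ^ (-(cc n) - 1) ≤ (Real.exp ρ / 4) ^ (-(cc n) - 1) :=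
          Real.rpow_le_rpow_of_nonpos h2 h1 (by linarith)
      _ = 4 ^ (cc n + 1) * Real.exp (-(cc n + 1) * ρ) := by
          have e : -(cc n) - 1 = -(cc n + 1) := by ring
          rw [e, Real.div_rpow (Real.exp_pos _).le (by norm_num), ← Real.exp_mul,
            Real.rpow_neg (by norm_num : (0:ℝ) ≤ 4), div_inv_eq_mul, mul_comm, mul_comm ρ]
  have h4 : Real.sinh ρ ≤ Real.exp ρ / 2 := by
    rw [Real.sinh_eq]; have := (Real.exp_pos (-ρ)).le; linarith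
  have h5 : 0 ≤ Real.sinh ρ := Real.sinh_nonneg_iff.2 (by linarith)
  have h6 := Real.rpow_nonneg (base_nonneg ρ θ θ') (-(cc n) - 1)
  have h7 : Real.exp ρ * Real.exp (-(cc n + 1) * ρ) = Real.exp (-(cc n) * ρ) := by
    rw [← Real.exp_add]; congr 1; ring
  calc 2 * cc n * Real.sinh ρ * (base ρ θ θ') ^ (-(cc n) - 1)
      ≤ 2 * cc n * (Real.exp ρ / 2) * (4 ^ (cc n + 1) * Real.exp (-(cc n + 1) * ρ)) := by
        gcongr
    _ = (cc n * 4 ^ (cc n + 1)) * (Real.exp ρ * Real.exp (-(cc n + 1) * ρ)) := by ring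
    _ = _ := by rw [h7]

lemma kk_le_rpow (hn : 3 ≤ n) {δ : ℝ} (h : 0 < δ) (θ θ' : Sph n) :
    kk δ θ θ' ≤ δ ^ (-((n : ℝ) - 2)) := by
  unfold kk
  have h1 := sq_le_base δ θ θ'
  have h2 : 0 < δ ^ 2 := by positivity
  calc (base δ θ θ') ^ (-(cc n)) ≤ (δ ^ 2) ^ (-(cc n)) :=
        Real.rpow_le_rpow_of_nonpos h2 h1 (by linarith [cc_pos hn])
    _ = δ ^ (-((n : ℝ) - 2)) := by
        rw [← Real.rpow_natCast, ← Real.rpow_mul h.le]
        congr 1; unfold cc; push_cast; ring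

/-- near the diagonal the derivative is controlled by `base ^ (-(n-1)/2)` -/
lemma HH_le_base (hn : 3 ≤ n) {ρ : ℝ} (h0 : 0 < ρ) (h1 : ρ ≤ 1) (θ θ' : Sph n) :
    HH ρ θ θ' ≤ (4 * cc n) * (base ρ θ θ') ^ (-(((n : ℝ) - 1) / 2)) := by
  have hc := cc_pos hn
  have hb : 0 < base ρ θ θ' := base_pos_of_ne h0.ne' θ θ'
  have h2 : Real.sinh ρ ≤ 2 * (base ρ θ θ') ^ (1 / 2 : ℝ) := by
    have e : Real.sinh ρ = 2 * Real.sinh (ρ / 2) * Real.cosh (ρ / 2) := by
      rw [← Real.sinh_two_mul]; congr 1; ring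
    have h3 : 0 ≤ Real.sinh (ρ / 2) := Real.sinh_nonneg_iff.2 (by linarith)
    have h4 : 2 * Real.sinh (ρ / 2) ≤ (base ρ θ θ') ^ (1 / 2 : ℝ) := by
      rw [← Real.sqrt_eq_rpow]
      apply Real.le_sqrt_of_sq_le
      rw [base_eq]; nlinarith [sq_nonneg ‖(θ : EuclideanSpace ℝ (Fin n)) - (θ' : EuclideanSpace ℝ (Fin n))‖]
    have h5 : Real.cosh (ρ / 2) ≤ 2 := by
      have h6 : Real.cosh (ρ / 2) ≤ Real.cosh 1 := Real.cosh_le_cosh.2 (by
        rw [abs_of_pos (by linarith), abs_one]; linarith)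
      have h7 : Real.cosh 1 ≤ 2 := by
        rw [Real.cosh_eq]
        have a1 := Real.exp_one_lt_d9
        have a2 : Real.exp (-1) ≤ 1 := Real.exp_le_one_iff.2 (by norm_num)
        linarith
      linarith
    have h8 : 0 < Real.cosh (ρ / 2) := Real.cosh_pos _
    rw [e]
    calc 2 * Real.sinh (ρ / 2) * Real.cosh (ρ / 2) ≤ (base ρ θ θ') ^ (1 / 2 : ℝ) * 2 := by
          apply mul_le_mul h4 h5 h8.le (Real.rpow_nonneg hb.le _)
      _ = _ := by ring
  have h9 : (base ρ θ θ') ^ (1 / 2 : ℝ) * (base ρ θ θ') ^ (-(cc n) - 1) =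
      (base ρ θ θ') ^ (-(((n : ℝ) - 1) / 2)) := by
    rw [← Real.rpow_add hb]; congr 1; unfold cc; ring
  unfold HH
  calc 2 * cc n * Real.sinh ρ * (base ρ θ θ') ^ (-(cc n) - 1)
      ≤ 2 * cc n * (2 * (base ρ θ θ') ^ (1 / 2 : ℝ)) * (base ρ θ θ') ^ (-(cc n) - 1) := by
        have := Real.rpow_nonneg hb.le (-(cc n) - 1)
        gcongr
    _ = (4 * cc n) * ((base ρ θ θ') ^ (1 / 2 : ℝ) * (base ρ θ θ') ^ (-(cc n) - 1)) := by ring
    _ = _ := by rw [h9]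

lemma continuous_base : Continuous fun p : ℝ × Sph n × Sph n => base p.1 p.2.1 p.2.2 := by
  unfold base
  fun_prop

lemma measurable_kk : Measurable fun p : ℝ × Sph n × Sph n => kk p.1 p.2.1 p.2.2 := by
  unfold kk
  exact (continuous_base.measurable).pow_const _

lemma measurable_HH : Measurable fun p : ℝ × Sph n × Sph n => HH p.1 p.2.1 p.2.2 := by
  unfold HH
  exact ((measurable_const.mul (Real.measurable_sinh.comp measurable_fst))).mul
    ((continuous_base.measurable).pow_const _)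

/-- box form of the kernel -/
lemma lintegral_HH (hn : 3 ≤ n) {τ : ℝ} (hτ : 0 ≤ τ) {θ θ' : Sph n} (hp : 0 < base τ θ θ') :
    ∫⁻ ρ in Ioi τ, ENNReal.ofReal (HH ρ θ θ') = ENNReal.ofReal (kk τ θ θ') := by
  have hpos : ∀ ρ ∈ Ici τ, 0 < base ρ θ θ' := fun ρ hρ =>
    lt_of_lt_of_le hp (base_mono (by rw [abs_of_nonneg hτ, abs_of_nonneg (hτ.trans hρ)]; exact hρ) _ _)
  have hd : ∀ ρ ∈ Ici τ, HasDerivAt (fun r => kk r θ θ') (-(HH ρ θ θ')) ρ := fun ρ hρ =>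
    hasDerivAt_kk (hpos ρ hρ)
  have hneg : ∀ ρ ∈ Ioi τ, -(HH ρ θ θ') ≤ 0 := fun ρ hρ => by
    have := HH_nonneg hn (hτ.trans (le_of_lt hρ)) θ θ'
    linarith
  have hlim : Tendsto (fun r => kk r θ θ') atTop (𝓝 0) := by
    have h1 : Tendsto (fun r : ℝ => 4 ^ (cc n) * Real.exp (-(cc n) * r)) atTop (𝓝 0) := by
      have : Tendsto (fun r : ℝ => Real.exp (-(cc n) * r)) atTop (𝓝 0) := by
        apply Real.tendsto_exp_atBot.comp
        exact (tendsto_id.const_mul_atTop_of_neg (by linarith [cc_pos hn]))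
      simpa using this.const_mul (4 ^ (cc n))
    refine squeeze_zero' (Eventually.of_forall fun r => kk_nonneg _ _ _) ?_ h1
    filter_upwards [eventually_ge_atTop 1] with r hr
    have hr' : |r| = r := abs_of_pos (by linarith)
    have := kk_le_exp hn (by rw [hr']; exact hr) θ θ'
    rwa [hr'] at this
  have hint := integrableOn_Ioi_deriv_of_nonpos' hd hneg hlim
  have hval := integral_Ioi_of_hasDerivAt_of_nonpos' hd hneg hlim
  have hint' : IntegrableOn (fun ρ => HH ρ θ θ') (Ioi τ) := by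
    simpa using hint.neg
  rw [← ofReal_integral_eq_lintegral_ofReal hint' ?_]
  · congr 1
    have : ∫ ρ in Ioi τ, HH ρ θ θ' = -∫ ρ in Ioi τ, -(HH ρ θ θ') := by
      rw [integral_neg, neg_neg]
    rw [this, hval]; ring
  · filter_upwards [ae_restrict_mem measurableSet_Ioi] with ρ hρ
    exact HH_nonneg hn (hτ.trans (le_of_lt hρ)) θ θ'

end Crest.Agent.R077.Kern
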