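import Mathlib

/-!
R077 / Mass: elementary mass bounds for positive supersolutions of the Hénon–Lane–Emden system.
-/

set_option autoImplicit false
open MeasureTheory Metric Set Filter
open scoped ENNReal Topology

namespace Crest.Agent.R077.Mass

variable {n : ℕ}

/-- the source density `‖y‖^A * v y^p` -/
noncomputable def den (A p : ℝ) (v : EuclideanSpace ℝ (Fin n) → ℝ)
    (y : EuclideanSpace ℝ (Fin n)) : ℝ :=
  ‖y‖ ^ A * v y ^ p

/-- mass of the ball of radius `R` -/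
noncomputable def mass (f : EuclideanSpace ℝ (Fin n) → ℝ) (R : ℝ) : ℝ≥0∞ :=
  ∫⁻ y in ball 0 R, ENNReal.ofReal (f y)

/-- real valued mass -/
noncomputable def mr (f : EuclideanSpace ℝ (Fin n) → ℝ) (R : ℝ) : ℝ := (mass f R).toReal

/-- positive supersolution pair in integral form -/
structure Sup (n : ℕ) (p q A B κ : ℝ) (u v : EuclideanSpace ℝ (Fin n) → ℝ) : Prop where
  hn : 3 ≤ n
  hp : 0 < p
  hq : 0 < q
  hκ : 0 < κ
  hu : Continuous u
  hv : Continuous v
  hu0 : ∀ x, 0 < u x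
  hv0 : ∀ x, 0 < v x
  repu : ∀ x, ∫⁻ y, ENNReal.ofReal (‖x - y‖ ^ ((2 : ℝ) - n) * den A p v y)
    ≤ ENNReal.ofReal (κ * u x)
  repv : ∀ x, ∫⁻ y, ENNReal.ofReal (‖x - y‖ ^ ((2 : ℝ) - n) * den B q u y)
    ≤ ENNReal.ofReal (κ * v x)

variable {p q A B κ : ℝ} {u v : EuclideanSpace ℝ (Fin n) → ℝ}

theorem Sup.symm (h : Sup n p q A B κ u v) : Sup n q p B A κ v u :=
  ⟨h.hn, h.hq, h.hp, h.hκ, h.hv, h.hu, h.hv0, h.hu0, h.repv, h.repu⟩

theorem den_nonneg (hv0 : ∀ x, 0 < v x) (y : EuclideanSpace ℝ (Fin n)) : 0 ≤ den A p v y :=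
  mul_nonneg (Real.rpow_nonneg (norm_nonneg _) _) (Real.rpow_nonneg (hv0 y).le _)

theorem den_measurable (hv : Continuous v) : Measurable (den A p v) :=
  (measurable_norm.pow_const A).mul (hv.measurable.pow_const p)

theorem ae_ne_point (hn : 3 ≤ n) (x : EuclideanSpace ℝ (Fin n)) :
    ∀ᵐ y : EuclideanSpace ℝ (Fin n), y ≠ x := by
  have : Nonempty (Fin n) := ⟨⟨0, by omega⟩⟩
  have : Nontrivial (EuclideanSpace ℝ (Fin n)) := inferInstance
  rw [ae_iff]
  simp only [ne_eq, not_not, Set.ofPred_eq_eq_singleton]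
  exact measure_singleton x

/-- `u ≥ c R^{2-n} m(R)` on the ball of radius `R` (extended form) -/
theorem basic1 (h : Sup n p q A B κ u v) {R : ℝ} (hR : 0 < R) {x : EuclideanSpace ℝ (Fin n)}
    (hx : ‖x‖ ≤ R) :
    ENNReal.ofReal ((2 * R) ^ ((2 : ℝ) - n)) * mass (den A p v) R ≤ ENNReal.ofReal (κ * u x) := by
  refine le_trans ?_ (h.repu x)
  unfold mass
  rw [← lintegral_const_mul _ (den_measurable h.hv).ennreal_ofReal]
  refine le_trans ?_ (setLIntegral_le_lintegral (ball 0 R) _)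
  refine lintegral_mono_ae ?_
  have h1 : ∀ᵐ y ∂(volume.restrict (ball (0 : EuclideanSpace ℝ (Fin n)) R)), y ≠ x :=
    ae_restrict_of_ae (ae_ne_point h.hn x)
  filter_upwards [h1, ae_restrict_mem measurableSet_ball] with y hy hyR
  rw [← ENNReal.ofReal_mul (Real.rpow_nonneg (by positivity) _)]
  refine ENNReal.ofReal_le_ofReal ?_
  refine mul_le_mul_of_nonneg_right ?_ (den_nonneg h.hv0 y)
  have hpos : 0 < ‖x - y‖ := norm_pos_iff.2 (sub_ne_zero.2 (Ne.symm hy))
  have hle : ‖x - y‖ ≤ 2 * R := by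
    have := norm_sub_le x y
    have h2 : ‖y‖ < R := by simpa using hyR
    linarith
  have hn3 : (3 : ℝ) ≤ n := by exact_mod_cast h.hn
  exact Real.rpow_le_rpow_of_nonpos hpos hle (by linarith)

theorem mass_lt_top (h : Sup n p q A B κ u v) (R : ℝ) : mass (den A p v) R < ⊤ := by
  rcases le_or_gt R 0 with hR | hR
  · simp [mass, ball_eq_empty.2 hR]
  · have h1 := basic1 h hR (x := 0) (by simpa using hR.le)
    by_contra hcon
    have h2 : mass (den A p v) R = ⊤ := not_lt_top_iff.1 hcon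
    rw [h2, ENNReal.mul_top] at h1
    · exact absurd h1 (by simp)
    · simp only [ne_eq, ENNReal.ofReal_eq_zero, not_le]
      exact Real.rpow_pos_of_pos (by positivity) _

theorem ofReal_mr (h : Sup n p q A B κ u v) (R : ℝ) :
    ENNReal.ofReal (mr (den A p v) R) = mass (den A p v) R :=
  ENNReal.ofReal_toReal (mass_lt_top h R).ne

theorem mr_nonneg (f : EuclideanSpace ℝ (Fin n) → ℝ) (R : ℝ) : 0 ≤ mr f R :=
  ENNReal.toReal_nonneg


/-- `u ≥ c R^{2-n} m(R)` on the ball of radius `R` -/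
theorem basic2 (h : Sup n p q A B κ u v) {R : ℝ} (hR : 0 < R) {x : EuclideanSpace ℝ (Fin n)}
    (hx : ‖x‖ ≤ R) :
    (2 * R) ^ ((2 : ℝ) - n) * mr (den A p v) R ≤ κ * u x := by
  have h1 := basic1 h hR hx
  rw [← ofReal_mr h, ← ENNReal.ofReal_mul (Real.rpow_nonneg (by positivity) _)] at h1
  exact (ENNReal.ofReal_le_ofReal_iff (mul_nonneg h.hκ.le (h.hu0 x).le)).1 h1

/-- mass near the origin -/
theorem mr_le_near (h : Sup n p q A B κ u v) {R : ℝ} (hR : 0 < R) :
    mr (den A p v) R ≤ κ * u 0 * 2 ^ ((n : ℝ) - 2) * R ^ ((n : ℝ) - 2) := by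
  have h1 := basic2 h hR (x := 0) (by simpa using hR.le)
  have h2 : (0 : ℝ) < (2 * R) ^ ((2 : ℝ) - n) := Real.rpow_pos_of_pos (by positivity) _
  have h3 : (2 * R) ^ ((n : ℝ) - 2) * (2 * R) ^ ((2 : ℝ) - n) = 1 := by
    rw [← Real.rpow_add (by positivity)]; simp
  have h4 : (2 * R) ^ ((n : ℝ) - 2) = 2 ^ ((n : ℝ) - 2) * R ^ ((n : ℝ) - 2) :=
    Real.mul_rpow (by norm_num) hR.le
  have h5 : 0 < (2 * R) ^ ((n : ℝ) - 2) := Real.rpow_pos_of_pos (by positivity) _
  calc mr (den A p v) R = (2 * R) ^ ((n : ℝ) - 2) * ((2 * R) ^ ((2 : ℝ) - n) * mr (den A p v) R) := by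
        rw [← mul_assoc, h3, one_mul]
    _ ≤ (2 * R) ^ ((n : ℝ) - 2) * (κ * u 0) := mul_le_mul_of_nonneg_left h1 h5.le
    _ = _ := by rw [h4]; ring

/-- annulus -/
def ann (n : ℕ) (R : ℝ) : Set (EuclideanSpace ℝ (Fin n)) := ball 0 R \ ball 0 (R / 2)

theorem ann_measurableSet (R : ℝ) : MeasurableSet (ann n R) :=
  measurableSet_ball.diff measurableSet_ball

theorem mem_ann {R : ℝ} {y : EuclideanSpace ℝ (Fin n)} (hy : y ∈ ann n R) :
    R / 2 ≤ ‖y‖ ∧ ‖y‖ < R := by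
  simp only [ann, Set.mem_sdiff, mem_ball, dist_zero_right, not_lt] at hy
  exact ⟨hy.2, hy.1⟩

/-- volume of the unit ball -/
noncomputable def om (n : ℕ) : ℝ := (volume (ball (0 : EuclideanSpace ℝ (Fin n)) 1)).toReal

theorem om_pos : 0 < om n := by
  refine ENNReal.toReal_pos ?_ ?_
  · exact (measure_ball_pos _ _ one_pos).ne'
  · exact measure_ball_lt_top.ne

theorem vol_ann (hn : 3 ≤ n) {R : ℝ} (hR : 0 < R) :
    ENNReal.ofReal (R ^ (n : ℝ) * (om n / 2)) ≤ volume (ann n R) := by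
  have hb : ∀ r : ℝ, 0 < r → volume (ball (0 : EuclideanSpace ℝ (Fin n)) r)
      = ENNReal.ofReal (r ^ (n : ℝ) * om n) := by
    intro r hr
    rw [Measure.addHaar_ball_of_pos _ _ hr]
    rw [ENNReal.ofReal_mul (by positivity)]
    congr 1
    · simp
    · rw [om, ENNReal.ofReal_toReal measure_ball_lt_top.ne]
  have hsub : volume (ann n R) = volume (ball (0 : EuclideanSpace ℝ (Fin n)) R)
      - volume (ball (0 : EuclideanSpace ℝ (Fin n)) (R / 2)) := by
    rw [ann]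
    exact measure_sdiff (ball_subset_ball (by linarith)) measurableSet_ball.nullMeasurableSet
      measure_ball_lt_top.ne
  rw [hsub, hb R hR, hb (R / 2) (by positivity), ← ENNReal.ofReal_sub _ (mul_nonneg (by positivity) om_pos.le)]
  refine ENNReal.ofReal_le_ofReal ?_
  have h1 : (R / 2) ^ (n : ℝ) ≤ R ^ (n : ℝ) * (1 / 2) := by
    rw [div_eq_mul_one_div, Real.mul_rpow hR.le (by norm_num)]
    refine mul_le_mul_of_nonneg_left ?_ (by positivity)
    have : (1 / 2 : ℝ) ^ (n : ℝ) ≤ (1 / 2 : ℝ) ^ (1 : ℝ) :=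
      Real.rpow_le_rpow_of_exponent_ge (by norm_num) (by norm_num) (by
        have : (3 : ℝ) ≤ n := by exact_mod_cast hn
        linarith)
    simpa using this
  have h2 := om_pos (n := n)
  nlinarith

/-- the constant `min 1 (2^{-B})` -/
noncomputable def cB (B : ℝ) : ℝ := min 1 ((2 : ℝ) ^ (-B))

theorem cB_pos (B : ℝ) : 0 < cB B := lt_min one_pos (Real.rpow_pos_of_pos (by norm_num) _)

theorem rpow_ann (B : ℝ) {R r : ℝ} (hR : 0 < R) (h1 : R / 2 ≤ r) (h2 : r < R) :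
    cB B * R ^ B ≤ r ^ B := by
  have hr : 0 < r := lt_of_lt_of_le (by positivity) h1
  rcases le_or_gt 0 B with hB | hB
  · have h3 : (R / 2) ^ B ≤ r ^ B := Real.rpow_le_rpow (by positivity) h1 hB
    have h4 : (R / 2) ^ B = (2 : ℝ) ^ (-B) * R ^ B := by
      rw [Real.div_rpow hR.le (by norm_num), Real.rpow_neg (by norm_num)]
      field_simp
    calc cB B * R ^ B ≤ (2 : ℝ) ^ (-B) * R ^ B :=
          mul_le_mul_of_nonneg_right (min_le_right _ _) (Real.rpow_nonneg hR.le _)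
      _ = (R / 2) ^ B := h4.symm
      _ ≤ r ^ B := h3
  · have h3 : R ^ B ≤ r ^ B := Real.rpow_le_rpow_of_nonpos hr h2.le hB.le
    calc cB B * R ^ B ≤ 1 * R ^ B :=
          mul_le_mul_of_nonneg_right (min_le_left _ _) (Real.rpow_nonneg hR.le _)
      _ = R ^ B := one_mul _
      _ ≤ r ^ B := h3

/-- lower bound of the mass of an annulus -/
theorem ann_mass (hn : 3 ≤ n) {B q : ℝ} (hq : 0 < q) {w : EuclideanSpace ℝ (Fin n) → ℝ}
    {R L : ℝ} (hR : 0 < R) (hL : 0 ≤ L) (hw : ∀ y ∈ ann n R, L ≤ w y) :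
    ENNReal.ofReal (cB B * (om n / 2) * R ^ ((n : ℝ) + B) * L ^ q)
      ≤ ∫⁻ y in ann n R, ENNReal.ofReal (den B q w y) := by
  calc ENNReal.ofReal (cB B * (om n / 2) * R ^ ((n : ℝ) + B) * L ^ q)
      = ENNReal.ofReal (cB B * R ^ B * L ^ q) * ENNReal.ofReal (R ^ (n : ℝ) * (om n / 2)) := by
        rw [← ENNReal.ofReal_mul (by
          have := cB_pos B
          positivity)]
        congr 1
        rw [Real.rpow_add hR]
        ring
    _ ≤ ENNReal.ofReal (cB B * R ^ B * L ^ q) * volume (ann n R) := by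
        gcongr
        exact vol_ann hn hR
    _ = ∫⁻ y in ann n R, ENNReal.ofReal (cB B * R ^ B * L ^ q) := by
        rw [setLIntegral_const]
    _ ≤ ∫⁻ y in ann n R, ENNReal.ofReal (den B q w y) := by
        refine setLIntegral_mono' (ann_measurableSet R) fun y hy => ?_
        refine ENNReal.ofReal_le_ofReal ?_
        obtain ⟨h1, h2⟩ := mem_ann hy
        unfold den
        refine mul_le_mul (rpow_ann B hR h1 h2) (Real.rpow_le_rpow hL (hw y hy) hq.le)
          (Real.rpow_nonneg hL _) (Real.rpow_nonneg (norm_nonneg _) _)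

/-! ### consequences for supersolution pairs -/

theorem exists_lower (hv : Continuous v) (hv0 : ∀ x, 0 < v x) (R : ℝ) :
    ∃ L : ℝ, 0 < L ∧ ∀ y ∈ ball (0 : EuclideanSpace ℝ (Fin n)) R, L ≤ v y := by
  rcases le_or_gt R 0 with hR | hR
  · exact ⟨1, one_pos, by simp [ball_eq_empty.2 hR]⟩
  · obtain ⟨y0, _, hy0⟩ := (isCompact_closedBall (0 : EuclideanSpace ℝ (Fin n)) R).exists_isMinOn
      ⟨0, by simpa using hR.le⟩ hv.continuousOn
    exact ⟨v y0, hv0 y0, fun y hy => hy0 (ball_subset_closedBall hy)⟩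

/-- the exponent `A` is larger than `-2` -/
theorem A_gt (h : Sup n p q A B κ u v) : -2 < A := by
  by_contra hcon
  have hA : A ≤ -2 := not_lt.1 hcon
  have hn3 : (3 : ℝ) ≤ n := by exact_mod_cast h.hn
  obtain ⟨L, hL, hLv⟩ := exists_lower (n := n) h.hv h.hv0 1
  set g : EuclideanSpace ℝ (Fin n) → ℝ≥0∞ :=
    fun y => ENNReal.ofReal (‖(0 : EuclideanSpace ℝ (Fin n)) - y‖ ^ ((2 : ℝ) - n) * den A p v y)
    with hg
  have hfin : ∫⁻ y, g y ≠ ⊤ := (lt_of_le_of_lt (h.repu 0) ENNReal.ofReal_lt_top).ne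
  set c : ℝ := cB (A + 2 - n) * (om n / 2) * L ^ p with hc
  have hc0 : 0 < c := by
    have h1 := cB_pos (A + 2 - n)
    have h2 := om_pos (n := n)
    have h3 : 0 < L ^ p := Real.rpow_pos_of_pos hL _
    positivity
  have hlow : ∀ R : ℝ, 0 < R → R ≤ 1 → ENNReal.ofReal c ≤ ∫⁻ y in ball 0 R, g y := by
    intro R hR hR1
    have h1 := ann_mass (B := A + 2 - n) h.hn h.hp (w := v) (R := R) (L := L) hR hL.le
      (fun y hy => hLv y (ball_subset_ball hR1 hy.1))
    have h2 : c ≤ cB (A + 2 - n) * (om n / 2) * R ^ ((n : ℝ) + (A + 2 - n)) * L ^ p := by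
      have h3 : (1 : ℝ) ≤ R ^ ((n : ℝ) + (A + 2 - n)) := by
        have : (n : ℝ) + (A + 2 - n) = A + 2 := by ring
        rw [this]
        exact Real.one_le_rpow_of_pos_of_le_one_of_nonpos hR hR1 (by linarith)
      have h4 := cB_pos (A + 2 - n)
      have h5 := om_pos (n := n)
      have h6 : 0 < L ^ p := Real.rpow_pos_of_pos hL _
      calc c = cB (A + 2 - n) * (om n / 2) * 1 * L ^ p := by rw [hc]; ring
        _ ≤ _ := by gcongr
    calc ENNReal.ofReal c ≤ _ := ENNReal.ofReal_le_ofReal h2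
      _ ≤ ∫⁻ y in ann n R, ENNReal.ofReal (den (A + 2 - n) p v y) := h1
      _ ≤ ∫⁻ y in ann n R, g y := by
          refine setLIntegral_mono' (ann_measurableSet R) fun y hy => ?_
          refine ENNReal.ofReal_le_ofReal (le_of_eq ?_)
          have hy0 : 0 < ‖y‖ := lt_of_lt_of_le (by positivity) (mem_ann hy).1
          simp only [den, zero_sub, norm_neg]
          rw [← mul_assoc, ← Real.rpow_add hy0]
          congr 2
          ring
      _ ≤ ∫⁻ y in ball 0 R, g y := lintegral_mono_set Set.sdiff_subset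
  have hμ : Tendsto (fun R : ℝ => volume (ball (0 : EuclideanSpace ℝ (Fin n)) R))
      (𝓝[>] 0) (𝓝 0) := by
    have h1 : Tendsto (fun R : ℝ => ENNReal.ofReal (R ^ n) *
        volume (ball (0 : EuclideanSpace ℝ (Fin n)) 1)) (𝓝[>] 0) (𝓝 0) := by
      have h2 : Tendsto (fun R : ℝ => ENNReal.ofReal (R ^ n)) (𝓝[>] 0) (𝓝 (ENNReal.ofReal 0)) := by
        refine (ENNReal.continuous_ofReal.tendsto _).comp ?_
        have h3 : Tendsto (fun R : ℝ => R ^ n) (𝓝 0) (𝓝 (0 ^ n)) := (continuous_pow n).tendsto 0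
        rw [zero_pow (by have := h.hn; omega)] at h3
        exact h3.mono_left nhdsWithin_le_nhds
      rw [ENNReal.ofReal_zero] at h2
      have h4 := ENNReal.Tendsto.mul_const (b := volume (ball (0 : EuclideanSpace ℝ (Fin n)) 1))
        h2 (Or.inr measure_ball_lt_top.ne)
      simpa using h4
    refine h1.congr' ?_
    filter_upwards [self_mem_nhdsWithin] with R hR
    rw [Measure.addHaar_ball_of_pos _ _ (mem_Ioi.1 hR)]
    simp
  have hlim := tendsto_setLIntegral_zero hfin hμ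
  have h2 : ENNReal.ofReal c ≤ 0 := by
    refine ge_of_tendsto hlim ?_
    filter_upwards [Ioc_mem_nhdsGT (one_pos : (0 : ℝ) < 1)] with R hR
    exact hlow R hR.1 hR.2
  exact absurd (ENNReal.ofReal_pos.2 hc0) (not_lt.2 h2)

/-- normalised mass -/
noncomputable def rho (f : EuclideanSpace ℝ (Fin n) → ℝ) (R : ℝ) : ℝ :=
  R ^ ((2 : ℝ) - n) * mr f R

theorem mr_eq_rho (f : EuclideanSpace ℝ (Fin n) → ℝ) {R : ℝ} (hR : 0 < R) :
    mr f R = R ^ ((n : ℝ) - 2) * rho f R := by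
  rw [rho, ← mul_assoc, ← Real.rpow_add hR]
  simp

theorem mr_lower (h : Sup n p q A B κ u v) {R L : ℝ} (hR : 0 < R) (hL : 0 ≤ L)
    (hw : ∀ y ∈ ann n R, L ≤ v y) :
    cB A * (om n / 2) * R ^ ((n : ℝ) + A) * L ^ p ≤ mr (den A p v) R := by
  have h1 := ann_mass (B := A) h.hn h.hp (w := v) hR hL hw
  have h2 : ENNReal.ofReal (cB A * (om n / 2) * R ^ ((n : ℝ) + A) * L ^ p)
      ≤ ENNReal.ofReal (mr (den A p v) R) := by
    rw [ofReal_mr h]
    exact h1.trans (lintegral_mono_set Set.sdiff_subset)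
  exact (ENNReal.ofReal_le_ofReal_iff (mr_nonneg _ _)).1 h2

theorem rho_pos (h : Sup n p q A B κ u v) {R : ℝ} (hR : 0 < R) : 0 < rho (den A p v) R := by
  obtain ⟨L, hL, hLv⟩ := exists_lower (n := n) h.hv h.hv0 R
  have h1 := mr_lower h hR hL.le (fun y hy => hLv y hy.1)
  have h2 : 0 < cB A * (om n / 2) * R ^ ((n : ℝ) + A) * L ^ p := by
    have h4 := cB_pos A
    have h5 := om_pos (n := n)
    have h6 : 0 < L ^ p := Real.rpow_pos_of_pos hL _
    have h7 : 0 < R ^ ((n : ℝ) + A) := Real.rpow_pos_of_pos hR _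
    positivity
  exact mul_pos (Real.rpow_pos_of_pos hR _) (h2.trans_le h1)

theorem rho_le (h : Sup n p q A B κ u v) {R : ℝ} (hR : 0 < R) :
    rho (den A p v) R ≤ κ * u 0 * 2 ^ ((n : ℝ) - 2) := by
  have h1 := mr_le_near h hR
  have h2 : 0 < R ^ ((2 : ℝ) - n) := Real.rpow_pos_of_pos hR _
  calc rho (den A p v) R ≤ R ^ ((2 : ℝ) - n) * (κ * u 0 * 2 ^ ((n : ℝ) - 2) * R ^ ((n : ℝ) - 2)) :=
        mul_le_mul_of_nonneg_left h1 h2.le
    _ = κ * u 0 * 2 ^ ((n : ℝ) - 2) * (R ^ ((2 : ℝ) - n) * R ^ ((n : ℝ) - 2)) := by ring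
    _ = _ := by rw [← Real.rpow_add hR]; simp

theorem rho_chain (h : Sup n p q A B κ u v) :
    ∃ c : ℝ, 0 < c ∧ ∀ R : ℝ, 0 < R →
      c * R ^ (2 + B) * rho (den A p v) R ^ q ≤ rho (den B q u) R := by
  refine ⟨cB B * (om n / 2) * ((2 : ℝ) ^ ((2 : ℝ) - n) / κ) ^ q, ?_, fun R hR => ?_⟩
  · have h4 := cB_pos B
    have h5 := om_pos (n := n)
    have h6 : 0 < ((2 : ℝ) ^ ((2 : ℝ) - n) / κ) ^ q :=
      Real.rpow_pos_of_pos (div_pos (Real.rpow_pos_of_pos (by norm_num) _) h.hκ) _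
    positivity
  · set L : ℝ := (2 : ℝ) ^ ((2 : ℝ) - n) / κ * rho (den A p v) R with hLdef
    have hL : 0 ≤ L := mul_nonneg (div_nonneg (Real.rpow_nonneg (by norm_num) _) h.hκ.le)
      (rho_pos h hR).le
    have hu : ∀ y ∈ ann n R, L ≤ u y := by
      intro y hy
      have h1 := basic2 h hR (mem_ann hy).2.le
      rw [Real.mul_rpow (by norm_num) hR.le] at h1
      rw [hLdef, rho, div_mul_eq_mul_div, div_le_iff₀ h.hκ]
      calc (2 : ℝ) ^ ((2 : ℝ) - n) * (R ^ ((2 : ℝ) - n) * mr (den A p v) R)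
          = (2 : ℝ) ^ ((2 : ℝ) - n) * R ^ ((2 : ℝ) - n) * mr (den A p v) R := by ring
        _ ≤ κ * u y := h1
        _ = u y * κ := by ring
    have h2 := mr_lower h.symm hR hL hu
    have h3 : 0 < R ^ ((2 : ℝ) - n) := Real.rpow_pos_of_pos hR _
    calc cB B * (om n / 2) * ((2 : ℝ) ^ ((2 : ℝ) - n) / κ) ^ q * R ^ (2 + B) *
          rho (den A p v) R ^ q
        = R ^ ((2 : ℝ) - n) * (cB B * (om n / 2) * R ^ ((n : ℝ) + B) * L ^ q) := by
          rw [hLdef, Real.mul_rpow (div_nonneg (Real.rpow_nonneg (by norm_num) _) h.hκ.le)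
            (rho_pos h hR).le]
          have : R ^ (2 + B) = R ^ ((2 : ℝ) - n) * R ^ ((n : ℝ) + B) := by
            rw [← Real.rpow_add hR]; congr 1; ring
          rw [this]; ring
      _ ≤ R ^ ((2 : ℝ) - n) * mr (den B q u) R := mul_le_mul_of_nonneg_left h2 h3.le
      _ = rho (den B q u) R := rfl

theorem rho_self (h : Sup n p q A B κ u v) :
    ∃ c : ℝ, 0 < c ∧ ∀ R : ℝ, 0 < R →
      c * R ^ (2 + A + p * (2 + B)) * rho (den A p v) R ^ (p * q) ≤ rho (den A p v) R := by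
  obtain ⟨c1, hc1, h1⟩ := rho_chain h
  obtain ⟨c2, hc2, h2⟩ := rho_chain h.symm
  refine ⟨c2 * c1 ^ p, mul_pos hc2 (Real.rpow_pos_of_pos hc1 _), fun R hR => ?_⟩
  have h3 := h1 R hR
  have h4 := h2 R hR
  have h5 : (c1 * R ^ (2 + B) * rho (den A p v) R ^ q) ^ p ≤ rho (den B q u) R ^ p := by
    refine Real.rpow_le_rpow ?_ h3 h.hp.le
    have := rho_pos h hR
    positivity
  calc c2 * c1 ^ p * R ^ (2 + A + p * (2 + B)) * rho (den A p v) R ^ (p * q)
      = c2 * R ^ (2 + A) * (c1 * R ^ (2 + B) * rho (den A p v) R ^ q) ^ p := by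
        have hr := rho_pos h hR
        rw [Real.mul_rpow (by positivity) (by positivity), Real.mul_rpow (by positivity)
          (by positivity), ← Real.rpow_mul hR.le, ← Real.rpow_mul hr.le, Real.rpow_add hR,
          mul_comm p (2 + B), mul_comm p q]
        ring
    _ ≤ c2 * R ^ (2 + A) * rho (den B q u) R ^ p := by gcongr
    _ ≤ rho (den A p v) R := h4

/-- the system is superlinear -/
theorem pq_gt (h : Sup n p q A B κ u v) : 1 < p * q := by
  by_contra hcon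
  have hpq : p * q ≤ 1 := not_lt.1 hcon
  obtain ⟨c, hc, h1⟩ := rho_self h
  have hA := A_gt h
  have hB := A_gt h.symm
  have hγ : 0 < 2 + A + p * (2 + B) := by
    have := h.hp
    nlinarith
  set C0 : ℝ := κ * u 0 * 2 ^ ((n : ℝ) - 2) with hC0
  have hC0pos : 0 < C0 := by
    have h2 := h.hκ
    have h3 := h.hu0 0
    positivity
  have hkey : ∀ R : ℝ, 0 < R → R ^ (2 + A + p * (2 + B)) ≤ C0 ^ (1 - p * q) / c := by
    intro R hR
    have hr := rho_pos h hR
    have h2 := h1 R hR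
    have h3 : rho (den A p v) R = rho (den A p v) R ^ (1 - p * q) * rho (den A p v) R ^ (p * q) := by
      rw [← Real.rpow_add hr]; simp
    have h4 : 0 < rho (den A p v) R ^ (p * q) := Real.rpow_pos_of_pos hr _
    have h5 : c * R ^ (2 + A + p * (2 + B)) ≤ rho (den A p v) R ^ (1 - p * q) := by
      have h6 : c * R ^ (2 + A + p * (2 + B)) * rho (den A p v) R ^ (p * q)
          ≤ rho (den A p v) R ^ (1 - p * q) * rho (den A p v) R ^ (p * q) := h2.trans h3.le
      exact le_of_mul_le_mul_right h6 h4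
    have h7 : rho (den A p v) R ^ (1 - p * q) ≤ C0 ^ (1 - p * q) :=
      Real.rpow_le_rpow hr.le (rho_le h hR) (by linarith)
    rw [le_div_iff₀ hc]
    linarith
  have hlim : Tendsto (fun R : ℝ => R ^ (2 + A + p * (2 + B))) atTop atTop :=
    tendsto_rpow_atTop hγ
  obtain ⟨R, hR1, hR2⟩ := ((hlim.eventually_gt_atTop (C0 ^ (1 - p * q) / c)).and
    (eventually_gt_atTop 0)).exists
  exact absurd (hkey R hR2) (not_le.2 hR1)

/-- decay exponent -/
noncomputable def al (p q A B : ℝ) : ℝ := (2 + A + p * (2 + B)) / (p * q - 1)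

theorem al_pos (h : Sup n p q A B κ u v) : 0 < al p q A B := by
  have hA := A_gt h
  have hB := A_gt h.symm
  have hp := h.hp
  have := pq_gt h
  exact div_pos (by nlinarith) (by linarith)

theorem rho_decay (h : Sup n p q A B κ u v) :
    ∃ C : ℝ, 0 < C ∧ ∀ R : ℝ, 0 < R → rho (den A p v) R ≤ C * R ^ (-al p q A B) := by
  obtain ⟨c, hc, h1⟩ := rho_self h
  have hpq := pq_gt h
  have hpq' : 0 < p * q - 1 := by linarith
  refine ⟨(1 / c) ^ (1 / (p * q - 1)), Real.rpow_pos_of_pos (by positivity) _, fun R hR => ?_⟩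
  have hr := rho_pos h hR
  have h2 := h1 R hR
  have hRg : 0 < R ^ (2 + A + p * (2 + B)) := Real.rpow_pos_of_pos hR _
  have h3 : rho (den A p v) R ^ (p * q) = rho (den A p v) R ^ (p * q - 1) * rho (den A p v) R := by
    conv_rhs => rw [← Real.rpow_one (rho (den A p v) R), ← Real.rpow_mul hr.le, ← Real.rpow_add hr]
    congr 1; ring
  have h4 : c * R ^ (2 + A + p * (2 + B)) * rho (den A p v) R ^ (p * q - 1) ≤ 1 := by
    rw [h3] at h2
    have h5 : c * R ^ (2 + A + p * (2 + B)) * rho (den A p v) R ^ (p * q - 1) *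
        rho (den A p v) R ≤ 1 * rho (den A p v) R := by
      rw [one_mul]
      calc _ = _ := by ring
        _ ≤ _ := h2
    exact le_of_mul_le_mul_right h5 hr
  have h5 : rho (den A p v) R ^ (p * q - 1) ≤ 1 / c * R ^ (-(2 + A + p * (2 + B))) := by
    rw [Real.rpow_neg hR.le, ← div_eq_mul_inv, div_div, le_div_iff₀ (by positivity)]
    calc _ = _ := by ring
      _ ≤ _ := h4
  have h6 : (rho (den A p v) R ^ (p * q - 1)) ^ (1 / (p * q - 1))
      ≤ (1 / c * R ^ (-(2 + A + p * (2 + B)))) ^ (1 / (p * q - 1)) :=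
    Real.rpow_le_rpow (by positivity) h5 (by positivity)
  rw [← Real.rpow_mul hr.le, mul_one_div_cancel hpq'.ne', Real.rpow_one,
    Real.mul_rpow (by positivity) (by positivity), ← Real.rpow_mul hR.le] at h6
  convert h6 using 3
  rw [al]; ring

/-- main mass bound -/
theorem mr_decay (h : Sup n p q A B κ u v) :
    ∃ C : ℝ, 0 < C ∧ ∀ R : ℝ, 0 < R → mr (den A p v) R ≤ C * R ^ ((n : ℝ) - 2 - al p q A B) := by
  obtain ⟨C, hC, h1⟩ := rho_decay h
  refine ⟨C, hC, fun R hR => ?_⟩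
  rw [mr_eq_rho _ hR]
  calc R ^ ((n : ℝ) - 2) * rho (den A p v) R ≤ R ^ ((n : ℝ) - 2) * (C * R ^ (-al p q A B)) :=
        mul_le_mul_of_nonneg_left (h1 R hR) (Real.rpow_nonneg hR.le _)
    _ = C * (R ^ ((n : ℝ) - 2) * R ^ (-al p q A B)) := by ring
    _ = _ := by rw [← Real.rpow_add hR]; rfl

/-- there is no positive lower bound -/
theorem no_lower (h : Sup n p q A B κ u v) (hu : ∃ c : ℝ, 0 < c ∧ ∀ x, c ≤ u x) : False := by
  obtain ⟨c, hc, hcu⟩ := hu
  have hB := A_gt h.symm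
  set c1 : ℝ := cB B * (om n / 2) * c ^ q with hc1
  have hc1pos : 0 < c1 := by
    have h4 := cB_pos B
    have h5 := om_pos (n := n)
    have h6 : 0 < c ^ q := Real.rpow_pos_of_pos hc _
    positivity
  have hkey : ∀ R : ℝ, 0 < R → R ^ (2 + B) ≤ κ * v 0 * 2 ^ ((n : ℝ) - 2) / c1 := by
    intro R hR
    have h1 := mr_lower h.symm hR hc.le (fun y _ => hcu y)
    have h2 := rho_le h.symm hR
    rw [le_div_iff₀ hc1pos]
    refine le_trans ?_ h2
    rw [rho]
    have h3 : 0 < R ^ ((2 : ℝ) - n) := Real.rpow_pos_of_pos hR _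
    calc R ^ (2 + B) * c1 = R ^ ((2 : ℝ) - n) * (cB B * (om n / 2) * R ^ ((n : ℝ) + B) * c ^ q) := by
          have : R ^ (2 + B) = R ^ ((2 : ℝ) - n) * R ^ ((n : ℝ) + B) := by
            rw [← Real.rpow_add hR]; congr 1; ring
          rw [this, hc1]; ring
      _ ≤ _ := mul_le_mul_of_nonneg_left h1 h3.le
  have hlim : Tendsto (fun R : ℝ => R ^ (2 + B)) atTop atTop :=
    tendsto_rpow_atTop (by linarith)
  obtain ⟨R, hR1, hR2⟩ := ((hlim.eventually_gt_atTop (κ * v 0 * 2 ^ ((n : ℝ) - 2) / c1)).and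
    (eventually_gt_atTop 0)).exists
  exact absurd (hkey R hR2) (not_le.2 hR1)

end Crest.Agent.R077.Mass
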