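import Mathlib
import Crest.Agent.R077.Kern_Mg
import Crest.Agent.R077.Mass

-- ▼ part R077/Lift
section

/-!
Row 77 (Henon-Lane-Emden): lifting functions from `EuclideanSpace ℝ (Fin n)` to the cylinder
`ℝ × sphere`, regularity in `t`.
-/

set_option autoImplicit false

open MeasureTheory Metric Set Real

namespace Crest.Agent.R077.CylOf

noncomputable section

/-- `W` is jointly continuous, differentiable in `t` with jointly continuous derivative. -/
def C1t {M : Type*} [TopologicalSpace M] (W : ℝ → M → ℝ) : Prop :=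
  Continuous (Function.uncurry W) ∧ ∃ W' : ℝ → M → ℝ, Continuous (Function.uncurry W') ∧
    ∀ t θ, HasDerivAt (fun s => W s θ) (W' t θ) t

section
variable {M : Type*} [TopologicalSpace M]



/-- uniform bound on windows -/
theorem C1t.bounded [CompactSpace M] {W : ℝ → M → ℝ} (hW : C1t W) (a b : ℝ) :
    ∃ L : ℝ, 0 ≤ L ∧ ∀ θ, ∀ s ∈ Icc a b, |W s θ| ≤ L := by
  have hK : IsCompact (Icc a b ×ˢ (univ : Set M)) := isCompact_Icc.prod isCompact_univ
  obtain ⟨L, hL⟩ := hK.exists_bound_of_continuousOn (f := fun z : ℝ × M => W z.1 z.2)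
    (Continuous.continuousOn hW.1)
  exact ⟨max L 0, le_max_right _ _, fun θ s hs => (hL (s, θ) ⟨hs, mem_univ _⟩).trans
    (le_max_left _ _)⟩

/-- uniform positive lower bound on windows -/
theorem C1t.lower [CompactSpace M] [Nonempty M] {W : ℝ → M → ℝ} (hW : C1t W)
    (hpos : ∀ t θ, 0 < W t θ) (a b : ℝ) :
    ∃ L : ℝ, 0 < L ∧ ∀ θ, ∀ s ∈ Icc a b, L ≤ W s θ := by
  rcases le_or_gt a b with hab | hab
  · have hK : IsCompact (Icc a b ×ˢ (univ : Set M)) := isCompact_Icc.prod isCompact_univ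
    have hne : (Icc a b ×ˢ (univ : Set M)).Nonempty :=
      ⟨(a, Classical.arbitrary M), ⟨left_mem_Icc.2 hab, mem_univ _⟩⟩
    obtain ⟨z, hz, hmin⟩ := hK.exists_isMinOn hne
      (f := fun z : ℝ × M => W z.1 z.2) (Continuous.continuousOn hW.1)
    exact ⟨W z.1 z.2, hpos _ _, fun θ s hs => hmin (show (s, θ) ∈ _ from ⟨hs, mem_univ _⟩)⟩
  · exact ⟨1, one_pos, fun θ s hs => absurd (hs.1.trans hs.2) (not_le.2 hab)⟩

end

variable {n : ℕ}

local notation "𝔼" => EuclideanSpace ℝ (Fin n)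

/-- The cylinder lift `exp (c t) * w (exp t • θ)`. -/
def lf (c : ℝ) (w : EuclideanSpace ℝ (Fin n) → ℝ) (t : ℝ)
    (θ : sphere (0 : EuclideanSpace ℝ (Fin n)) 1) : ℝ :=
  Real.exp (c * t) * w (Real.exp t • (θ : EuclideanSpace ℝ (Fin n)))

theorem cyl_ne_zero (t : ℝ) (θ : sphere (0 : 𝔼) 1) : Real.exp t • (θ : 𝔼) ≠ 0 := by
  refine smul_ne_zero (Real.exp_pos t).ne' ?_
  intro h
  have := θ.2
  rw [mem_sphere_zero_iff_norm] at this
  rw [h] at this
  simp at this

theorem lf_pos {c : ℝ} {w : 𝔼 → ℝ} (hw : ∀ x, x ≠ 0 → 0 < w x) (t : ℝ)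
    (θ : sphere (0 : 𝔼) 1) : 0 < lf c w t θ :=
  mul_pos (Real.exp_pos _) (hw _ (cyl_ne_zero t θ))

theorem C1t_lf {c : ℝ} {w : 𝔼 → ℝ} (hw : ContDiffOn ℝ 2 w {0}ᶜ) : C1t (lf c w) := by
  have hopen : IsOpen ({0}ᶜ : Set 𝔼) := isOpen_compl_singleton
  have hcont : ContinuousOn w {0}ᶜ := hw.continuousOn
  have hfd : ContinuousOn (fderiv ℝ w) {0}ᶜ :=
    hw.continuousOn_fderiv_of_isOpen hopen (by norm_num)
  have hmap : Continuous fun z : ℝ × sphere (0 : 𝔼) 1 => Real.exp z.1 • (z.2 : 𝔼) := by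
    fun_prop
  have hmem : ∀ z : ℝ × sphere (0 : 𝔼) 1, Real.exp z.1 • (z.2 : 𝔼) ∈ ({0}ᶜ : Set 𝔼) :=
    fun z => cyl_ne_zero z.1 z.2
  have hwc : Continuous fun z : ℝ × sphere (0 : 𝔼) 1 => w (Real.exp z.1 • (z.2 : 𝔼)) :=
    hcont.comp_continuous hmap hmem
  have hdc : Continuous fun z : ℝ × sphere (0 : 𝔼) 1 =>
      fderiv ℝ w (Real.exp z.1 • (z.2 : 𝔼)) :=
    hfd.comp_continuous hmap hmem
  refine ⟨?_, fun t θ => Real.exp (c * t) * c * w (Real.exp t • (θ : 𝔼)) +
    Real.exp (c * t) * (fderiv ℝ w (Real.exp t • (θ : 𝔼)) (Real.exp t • (θ : 𝔼))), ?_, ?_⟩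
  · exact Continuous.mul (by fun_prop) hwc
  · have e3 : Continuous fun z : ℝ × sphere (0 : 𝔼) 1 => Real.exp (c * z.1) := by fun_prop
    exact ((e3.mul continuous_const).mul hwc).add (e3.mul (hdc.clm_apply hmap))
  · intro t θ
    have d1 : HasDerivAt (fun s => Real.exp (c * s)) (Real.exp (c * t) * c) t := by
      have := ((hasDerivAt_id t).const_mul c).exp
      simpa using this
    have d2 : HasDerivAt (fun s => Real.exp s • (θ : 𝔼)) (Real.exp t • (θ : 𝔼)) t :=
      (Real.hasDerivAt_exp t).smul_const _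
    have d3 : HasFDerivAt w (fderiv ℝ w (Real.exp t • (θ : 𝔼))) (Real.exp t • (θ : 𝔼)) :=
      ((hw.differentiableOn (by norm_num)).differentiableAt
        (hopen.mem_nhds (cyl_ne_zero t θ))).hasFDerivAt
    have d4 := d3.comp_hasDerivAt t d2
    exact d1.mul d4

end

end Crest.Agent.R077.CylOf
end

-- ▼ part R077/CylA

/-!
Row 77 (Henon-Lane-Emden): from `ℝⁿ` to the cylinder.
-/

set_option autoImplicit false

open MeasureTheory Metric Set Real
open scoped ENNReal

namespace Crest.Agent.R077.CylOf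

noncomputable section

open Kern Mass

variable {n : ℕ}

local notation "𝔼" => EuclideanSpace ℝ (Fin n)

/-- `exp (b t) * V ^ p` -/
def src (b p : ℝ) (V : ℝ → Sph n → ℝ) (t : ℝ) (θ : Sph n) : ℝ :=
  Real.exp (b * t) * V t θ ^ p

/-- `b = c + 2 + A - p c` -/
def bb (n : ℕ) (A p : ℝ) : ℝ := cc n + 2 + A - p * cc n

theorem src_eq {A p : ℝ} {v : 𝔼 → ℝ} (hv : ∀ x, 0 < v x) (t : ℝ) (θ : Sph n) :
    src (bb n A p) p (lf (cc n) v) t θ =
      Real.exp (((n : ℝ) - cc n) * t) * den A p v (Real.exp t • (θ : 𝔼)) := by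
  have h1 : (0 : ℝ) < v (Real.exp t • (θ : 𝔼)) := hv _
  unfold src lf den bb
  rw [norm_cyl, Real.mul_rpow (Real.exp_pos _).le h1.le, ← Real.exp_mul, ← Real.exp_mul,
    ← mul_assoc, ← mul_assoc, ← Real.exp_add, ← Real.exp_add]
  congr 2
  unfold cc; ring

/-- Newtonian potential in cylinder coordinates. -/
theorem pot_cyl (hn : 3 ≤ n) {f : 𝔼 → ℝ} (hf : Measurable f) (t : ℝ) (θ : Sph n) :
    ENNReal.ofReal (Real.exp (cc n * t)) *
      ∫⁻ y, ENNReal.ofReal (‖Real.exp t • (θ : 𝔼) - y‖ ^ ((2 : ℝ) - n) * f y) =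
    ∫⁻ s : ℝ, ∫⁻ θ', ENNReal.ofReal (kk (t - s) θ θ') *
      ENNReal.ofReal (Real.exp (((n : ℝ) - cc n) * s) * f (Real.exp s • (θ' : 𝔼))) ∂(sph n) := by
  have hn1 : 1 ≤ n := by omega
  have hm : Measurable fun y : 𝔼 =>
      ENNReal.ofReal (‖Real.exp t • (θ : 𝔼) - y‖ ^ ((2 : ℝ) - n) * f y) := by
    refine Measurable.ennreal_ofReal ?_
    exact ((measurable_const.sub measurable_id).norm.pow_const _).mul hf
  rw [lintegral_cyl hn1 hm, ← lintegral_const_mul]
  · refine lintegral_congr fun s => ?_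
    rw [← lintegral_const_mul]
    · refine lintegral_congr fun θ' => ?_
      have hk := kk_nonneg (t - s) θ θ'
      rw [norm_rpow_eq, ← ENNReal.ofReal_mul (Real.exp_pos _).le,
        ← ENNReal.ofReal_mul (Real.exp_pos _).le, ← ENNReal.ofReal_mul hk]
      congr 1
      have e1 : Real.exp (cc n * t) * (Real.exp ((n : ℝ) * s) * Real.exp (-(cc n) * (t + s))) =
          Real.exp (((n : ℝ) - cc n) * s) := by
        rw [← Real.exp_add, ← Real.exp_add]; congr 1; ring
      rw [← e1]; ring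
    · exact (measurable_const.mul (meas_cyl_left hn1 hm s))
  · have : Measurable (fun z : ℝ × Sph n => ENNReal.ofReal (Real.exp ((n : ℝ) * z.1)) *
        ENNReal.ofReal (‖Real.exp t • (θ : 𝔼) - Real.exp z.1 • (z.2 : 𝔼)‖ ^ ((2 : ℝ) - n) *
          f (Real.exp z.1 • (z.2 : 𝔼)))) := by
      refine Measurable.mul ?_ (meas_cyl hn1 hm)
      fun_prop
    exact this.lintegral_prod_right'

/-- box form, one angle -/
theorem box_one (hn : 3 ≤ n) {g : ℝ → ℝ≥0∞} (hG : Measurable g) (t : ℝ) (θ θ' : Sph n) :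
    ∫⁻ s : ℝ, ENNReal.ofReal (kk (t - s) θ θ') * g s =
    ∫⁻ ρ in Ioi (0 : ℝ), ENNReal.ofReal (HH ρ θ θ') * ∫⁻ s in Ioo (t - ρ) (t + ρ), g s := by
  have hHm : Measurable fun ρ : ℝ => ENNReal.ofReal (HH ρ θ θ') := by
    refine Measurable.ennreal_ofReal ?_
    exact measurable_HH.comp (measurable_id.prodMk (measurable_const.prodMk measurable_const))
  have hset : MeasurableSet {z : ℝ × ℝ | 0 < z.2 ∧ z.1 ∈ Ioo (t - z.2) (t + z.2)} := by
    refine (measurableSet_lt measurable_const measurable_snd).inter ?_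
    exact (measurableSet_lt (measurable_const.sub measurable_snd) measurable_fst).inter
      (measurableSet_lt measurable_fst (measurable_const.add measurable_snd))
  set Φ : ℝ → ℝ → ℝ≥0∞ := fun s ρ =>
    {z : ℝ × ℝ | 0 < z.2 ∧ z.1 ∈ Ioo (t - z.2) (t + z.2)}.indicator
      (fun z => ENNReal.ofReal (HH z.2 θ θ') * g z.1) (s, ρ) with hΦ
  have hΦm : Measurable (Function.uncurry Φ) := by
    have : Function.uncurry Φ = {z : ℝ × ℝ | 0 < z.2 ∧ z.1 ∈ Ioo (t - z.2) (t + z.2)}.indicator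
      (fun z => ENNReal.ofReal (HH z.2 θ θ') * g z.1) := by
      funext z; rfl
    rw [this]
    exact ((hHm.comp measurable_snd).mul (hG.comp measurable_fst)).indicator hset
  have h1 : ∀ᵐ s : ℝ, ENNReal.ofReal (kk (t - s) θ θ') * g s = ∫⁻ ρ, Φ s ρ := by
    have hne : ∀ᵐ s : ℝ, s ≠ t := by
      rw [ae_iff]; simp
    filter_upwards [hne] with s hs
    have hpos : 0 < base |t - s| θ θ' := by
      rw [base_abs]; exact base_pos_of_ne (sub_ne_zero.2 (Ne.symm hs)) _ _
    rw [← kk_abs, ← lintegral_HH hn (abs_nonneg _) hpos, ← lintegral_mul_const _ hHm,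
      ← lintegral_indicator measurableSet_Ioi]
    refine lintegral_congr fun ρ => ?_
    by_cases hρ : |t - s| < ρ
    · have hρ0 : 0 < ρ := (abs_nonneg _).trans_lt hρ
      have h2 : s ∈ Ioo (t - ρ) (t + ρ) := by
        rw [abs_lt] at hρ; constructor <;> linarith [hρ.1, hρ.2]
      rw [indicator_of_mem (show ρ ∈ Ioi |t - s| from hρ), hΦ]
      simp only
      rw [indicator_of_mem]
      exact ⟨hρ0, h2⟩
    · rw [indicator_of_notMem (show ρ ∉ Ioi |t - s| from hρ), hΦ]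
      simp only
      rw [indicator_of_notMem]
      rintro ⟨_, h⟩
      simp only at h
      apply hρ; rw [abs_lt]; constructor <;> linarith [h.1, h.2]
  rw [lintegral_congr_ae h1, lintegral_lintegral_swap hΦm.aemeasurable,
    ← lintegral_indicator measurableSet_Ioi]
  refine lintegral_congr fun ρ => ?_
  by_cases hρ0 : 0 < ρ
  · rw [indicator_of_mem (show ρ ∈ Ioi (0 : ℝ) from hρ0), ← lintegral_const_mul _ hG,
      ← lintegral_indicator measurableSet_Ioo]
    refine lintegral_congr fun s => ?_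
    by_cases h2 : s ∈ Ioo (t - ρ) (t + ρ)
    · rw [indicator_of_mem h2, hΦ]
      simp only
      rw [indicator_of_mem]
      exact ⟨hρ0, h2⟩
    · rw [indicator_of_notMem h2, hΦ]
      simp only
      rw [indicator_of_notMem]
      exact fun h => h2 h.2
  · rw [indicator_of_notMem (show ρ ∉ Ioi (0 : ℝ) from hρ0)]
    have : ∀ s, Φ s ρ = 0 := fun s => by
      rw [hΦ]; simp only
      rw [indicator_of_notMem]
      exact fun h => hρ0 h.1
    simp [this]

/-- box form of an integral against the kernel -/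
theorem box_cyl (hn : 3 ≤ n) {G : ℝ → Sph n → ℝ≥0∞} (hG : Measurable (Function.uncurry G))
    (t : ℝ) (θ : Sph n) :
    ∫⁻ s : ℝ, ∫⁻ θ', ENNReal.ofReal (kk (t - s) θ θ') * G s θ' ∂(sph n) =
    ∫⁻ θ', (∫⁻ ρ in Ioi (0 : ℝ), ENNReal.ofReal (HH ρ θ θ') *
      ∫⁻ s in Ioo (t - ρ) (t + ρ), G s θ') ∂(sph n) := by
  have e0 : Continuous fun z : ℝ × Sph n => ((t - z.1, θ, z.2) : ℝ × Sph n × Sph n) := by
    fun_prop
  have hkm : Measurable fun z : ℝ × Sph n => ENNReal.ofReal (kk (t - z.1) θ z.2) :=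
    (measurable_kk.comp e0.measurable).ennreal_ofReal
  have hkm2 : Measurable (Function.uncurry fun (s : ℝ) (θ' : Sph n) =>
      ENNReal.ofReal (kk (t - s) θ θ') * G s θ') := hkm.mul hG
  rw [lintegral_lintegral_swap hkm2.aemeasurable]
  refine lintegral_congr fun θ' => ?_
  exact box_one hn (hG.comp (measurable_id.prodMk measurable_const)) t θ θ'

/-- integrals over `t < T` -/
theorem lintegral_Iio_cyl (hn : 1 ≤ n) {h : 𝔼 → ℝ≥0∞} (hh : Measurable h) (T : ℝ) :
    ∫⁻ t in Iio T, ∫⁻ θ, ENNReal.ofReal (Real.exp ((n : ℝ) * t)) *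
      h (Real.exp t • (θ : 𝔼)) ∂(sph n) = ∫⁻ x in ball 0 (Real.exp T), h x := by
  have h1 := setLIntegral_cyl hn hh (s := Iio (Real.exp T)) measurableSet_Iio
  have h2 : {x : 𝔼 | ‖x‖ ∈ Iio (Real.exp T)} = ball 0 (Real.exp T) := by
    ext x; simp
  have h3 : Real.exp ⁻¹' Iio (Real.exp T) = Iio T := by
    ext t; simp
  rw [h2, h3] at h1
  exact h1.symm

/-- `J₁(T) < ∞` -/
theorem J_lt_top {p q A B κ : ℝ} {u v : 𝔼 → ℝ} (h : Sup n p q A B κ u v) (T : ℝ) :
    ∫⁻ t in Iio T, ∫⁻ θ, ENNReal.ofReal (src (bb n A p) p (lf (cc n) v) t θ *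
      lf (cc n) v t θ) ∂(sph n) < ⊤ := by
  have hn1 : 1 ≤ n := by have := h.hn; omega
  have hm : Measurable fun x : 𝔼 => ENNReal.ofReal (den A p v x * v x) :=
    ((den_measurable h.hv).mul h.hv.measurable).ennreal_ofReal
  have h1 := lintegral_Iio_cyl hn1 hm T
  have h2 : ∫⁻ t in Iio T, ∫⁻ θ, ENNReal.ofReal (src (bb n A p) p (lf (cc n) v) t θ *
      lf (cc n) v t θ) ∂(sph n) = ∫⁻ x in ball 0 (Real.exp T), ENNReal.ofReal (den A p v x * v x) := by
    rw [← h1]
    refine lintegral_congr fun t => lintegral_congr fun θ => ?_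
    rw [src_eq h.hv0, ← ENNReal.ofReal_mul (Real.exp_pos _).le]
    congr 1
    unfold lf
    have e1 : Real.exp ((n : ℝ) * t) = Real.exp (((n : ℝ) - cc n) * t) * Real.exp (cc n * t) := by
      rw [← Real.exp_add]; congr 1; ring
    rw [e1]; ring
  rw [h2]
  obtain ⟨C, hC⟩ := (isCompact_closedBall (0 : 𝔼) (Real.exp T)).exists_bound_of_continuousOn
    h.hv.continuousOn
  calc ∫⁻ x in ball 0 (Real.exp T), ENNReal.ofReal (den A p v x * v x)
      ≤ ∫⁻ x in ball 0 (Real.exp T), ENNReal.ofReal (den A p v x) * ENNReal.ofReal C := by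
        refine setLIntegral_mono' measurableSet_ball fun x hx => ?_
        rw [ENNReal.ofReal_mul (den_nonneg h.hv0 x)]
        gcongr
        exact (le_abs_self _).trans (hC x (ball_subset_closedBall hx))
    _ = (∫⁻ x in ball 0 (Real.exp T), ENNReal.ofReal (den A p v x)) * ENNReal.ofReal C := by
        rw [lintegral_mul_const _ (den_measurable h.hv).ennreal_ofReal]
    _ < ⊤ := ENNReal.mul_lt_top (mass_lt_top h _) ENNReal.ofReal_lt_top

/-- the far interaction in cylinder coordinates -/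
theorem far_cyl (hn : 3 ≤ n) {f g : 𝔼 → ℝ} (hf : Measurable f) (hg : Measurable g) :
    ∫⁻ t : ℝ, ∫⁻ θ, (∫⁻ s : ℝ, ∫⁻ θ', ENNReal.ofReal
      (Real.exp (((n : ℝ) - cc n) * t) * f (Real.exp t • (θ : 𝔼)) *
        (Real.exp (((n : ℝ) - cc n) * s) * g (Real.exp s • (θ' : 𝔼))) *
        Real.exp (-(cc n) * |t - s|)) ∂(sph n)) ∂(sph n) =
    ∫⁻ x : 𝔼, ∫⁻ y : 𝔼, ENNReal.ofReal (f x * g y * (max ‖x‖ ‖y‖) ^ ((2 : ℝ) - n)) := by
  have hn1 : 1 ≤ n := by omega
  have hm2 : Measurable fun z : 𝔼 × 𝔼 =>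
      ENNReal.ofReal (f z.1 * g z.2 * (max ‖z.1‖ ‖z.2‖) ^ ((2 : ℝ) - n)) := by
    refine Measurable.ennreal_ofReal ?_
    refine ((hf.comp measurable_fst).mul (hg.comp measurable_snd)).mul ?_
    exact (measurable_fst.norm.max measurable_snd.norm).pow_const _
  have hm1 : ∀ x : 𝔼, Measurable fun y : 𝔼 =>
      ENNReal.ofReal (f x * g y * (max ‖x‖ ‖y‖) ^ ((2 : ℝ) - n)) := fun x =>
    hm2.comp (measurable_const.prodMk measurable_id)
  rw [lintegral_cyl hn1 hm2.lintegral_prod_right']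
  refine lintegral_congr fun t => lintegral_congr fun θ => ?_
  simp only
  rw [lintegral_cyl hn1 (hm1 _), ← lintegral_const_mul]
  · refine lintegral_congr fun s => ?_
    rw [← lintegral_const_mul]
    · refine lintegral_congr fun θ' => ?_
      rw [norm_cyl, norm_cyl, ← ENNReal.ofReal_mul (Real.exp_pos _).le,
        ← ENNReal.ofReal_mul (Real.exp_pos _).le]
      congr 1
      have e0 : max (Real.exp t) (Real.exp s) = Real.exp (max t s) :=
        (Real.exp_monotone.map_max).symm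
      have e1 : max t s = (t + s + |t - s|) / 2 := by
        rcases le_total t s with hts | hts
        · rw [max_eq_right hts, abs_of_nonpos (by linarith)]; ring
        · rw [max_eq_left hts, abs_of_nonneg (by linarith)]; ring
      rw [e0, ← Real.exp_mul]
      have e2 : Real.exp (((n : ℝ) - cc n) * t) * Real.exp (((n : ℝ) - cc n) * s) *
          Real.exp (-(cc n) * |t - s|) =
          Real.exp ((n : ℝ) * t) * Real.exp ((n : ℝ) * s) * Real.exp (max t s * ((2 : ℝ) - n)) := by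
        rw [← Real.exp_add, ← Real.exp_add, ← Real.exp_add, ← Real.exp_add, e1]
        congr 1; unfold cc; ring
      linear_combination (f (Real.exp t • (θ : 𝔼)) * g (Real.exp s • (θ' : 𝔼))) * e2
    · exact measurable_const.mul (meas_cyl_left hn1 (hm1 _) s)
  · have : Measurable (fun z : ℝ × Sph n => ENNReal.ofReal (Real.exp ((n : ℝ) * z.1)) *
        ENNReal.ofReal (f (Real.exp t • (θ : 𝔼)) * g (Real.exp z.1 • (z.2 : 𝔼)) *
          (max ‖Real.exp t • (θ : 𝔼)‖ ‖Real.exp z.1 • (z.2 : 𝔼)‖) ^ ((2 : ℝ) - n))) := by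
      refine Measurable.mul ?_ (meas_cyl hn1 (hm1 (Real.exp t • (θ : 𝔼))))
      fun_prop
    exact this.lintegral_prod_right'


end

end Crest.Agent.R077.CylOf
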