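import Mathlib

/-!
# Row 77, discrete layer combinatorics (helper201)

`x : ℕ → ℝ` is a finite non-negative sequence on `1..m` with `x 0 = 0`, `x (m+1) = 0`.
For `1 ≤ l ≤ r ≤ m` the *layer* `(l,r)` has `top = min_{l..r} x`, `base = max (x (l-1)) (x (r+1))` and
thickness `cc = (top - base)^+`.  At every level `σ ≥ 0` the maximal runs of `{x > σ}` are exactly the
`(l,r)` with `base ≤ σ < top`.
-/

set_option autoImplicit false

open MeasureTheory Set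

namespace Crest.Agent.R077.Layers

/-- minimum of `x` over `l..r` (junk value `0` if `r < l`) -/
noncomputable def top (x : ℕ → ℝ) (l r : ℕ) : ℝ :=
  if h : l ≤ r then (Finset.Icc l r).inf' (Finset.nonempty_Icc.2 h) x else 0

/-- the larger of the two neighbouring values -/
noncomputable def base (x : ℕ → ℝ) (l r : ℕ) : ℝ := max (x (l - 1)) (x (r + 1))

/-- thickness of the layer `(l,r)` -/
noncomputable def cc (x : ℕ → ℝ) (l r : ℕ) : ℝ := max (top x l r - base x l r) 0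

/-- all pairs `1 ≤ l ≤ r ≤ m` -/
def pairs (m : ℕ) : Finset (ℕ × ℕ) :=
  ((Finset.Icc 1 m) ×ˢ (Finset.Icc 1 m)).filter (fun p => p.1 ≤ p.2)

/-- all pairs `1 ≤ l ≤ k ≤ r ≤ m` -/
def pairsAt (m k : ℕ) : Finset (ℕ × ℕ) :=
  (pairs m).filter (fun p => p.1 ≤ k ∧ k ≤ p.2)

lemma mem_pairs {m : ℕ} {p : ℕ × ℕ} : p ∈ pairs m ↔ 1 ≤ p.1 ∧ p.1 ≤ p.2 ∧ p.2 ≤ m := by
  unfold pairs
  simp only [Finset.mem_filter, Finset.mem_product, Finset.mem_Icc]
  omega

lemma mem_pairsAt {m k : ℕ} {p : ℕ × ℕ} :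
    p ∈ pairsAt m k ↔ 1 ≤ p.1 ∧ p.1 ≤ k ∧ k ≤ p.2 ∧ p.2 ≤ m := by
  unfold pairsAt
  simp only [Finset.mem_filter, mem_pairs]
  omega

lemma lt_top_iff {x : ℕ → ℝ} {l r : ℕ} (h : l ≤ r) {σ : ℝ} :
    σ < top x l r ↔ ∀ j, l ≤ j → j ≤ r → σ < x j := by
  unfold top
  rw [dif_pos h, Finset.lt_inf'_iff]
  simp only [Finset.mem_Icc, and_imp]

lemma le_top_iff {x : ℕ → ℝ} {l r : ℕ} (h : l ≤ r) {σ : ℝ} :
    σ ≤ top x l r ↔ ∀ j, l ≤ j → j ≤ r → σ ≤ x j := by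
  unfold top
  rw [dif_pos h, Finset.le_inf'_iff]
  simp only [Finset.mem_Icc, and_imp]

lemma top_le {x : ℕ → ℝ} {l r j : ℕ} (h1 : l ≤ j) (h2 : j ≤ r) : top x l r ≤ x j :=
  (le_top_iff (h1.trans h2)).1 le_rfl j h1 h2

lemma base_le_iff {x : ℕ → ℝ} {l r : ℕ} {σ : ℝ} :
    base x l r ≤ σ ↔ x (l - 1) ≤ σ ∧ x (r + 1) ≤ σ := by
  unfold base; exact max_le_iff

lemma cc_nonneg (x : ℕ → ℝ) (l r : ℕ) : 0 ≤ cc x l r := le_max_right _ _

/-- the level set of the layer -/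
def lay (x : ℕ → ℝ) (p : ℕ × ℕ) : Set ℝ := Ico (base x p.1 p.2) (top x p.1 p.2)

lemma mem_lay {x : ℕ → ℝ} {p : ℕ × ℕ} (h : p.1 ≤ p.2) {σ : ℝ} :
    σ ∈ lay x p ↔ (x (p.1 - 1) ≤ σ ∧ x (p.2 + 1) ≤ σ) ∧ ∀ j, p.1 ≤ j → j ≤ p.2 → σ < x j := by
  unfold lay
  rw [Set.mem_Ico, base_le_iff, lt_top_iff h]

lemma measurableSet_lay (x : ℕ → ℝ) (p : ℕ × ℕ) : MeasurableSet (lay x p) := measurableSet_Ico

lemma volume_lay (x : ℕ → ℝ) (p : ℕ × ℕ) :
    (volume (lay x p)) = ENNReal.ofReal (cc x p.1 p.2) := by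
  unfold lay cc
  rw [Real.volume_Ico]
  rcases le_total (top x p.1 p.2 - base x p.1 p.2) 0 with h | h
  · rw [max_eq_right h, ENNReal.ofReal_of_nonpos h, ENNReal.ofReal_zero]
  · rw [max_eq_left h]

lemma lay_unique {x : ℕ → ℝ} {m k : ℕ} {p q : ℕ × ℕ} (hp : p ∈ pairsAt m k) (hq : q ∈ pairsAt m k)
    {σ : ℝ} (h1 : σ ∈ lay x p) (h2 : σ ∈ lay x q) : p = q := by
  rw [mem_pairsAt] at hp hq
  rw [mem_lay (by omega)] at h1 h2
  obtain ⟨⟨a1, a2⟩, a3⟩ := h1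
  obtain ⟨⟨b1, b2⟩, b3⟩ := h2
  have e1 : p.1 = q.1 := by
    rcases lt_trichotomy p.1 q.1 with h | h | h
    · have := a3 (q.1 - 1) (by omega) (by omega); linarith
    · exact h
    · have := b3 (p.1 - 1) (by omega) (by omega); linarith
  have e2 : p.2 = q.2 := by
    rcases lt_trichotomy p.2 q.2 with h | h | h
    · have := b3 (p.2 + 1) (by omega) (by omega); linarith
    · exact h
    · have := a3 (q.2 + 1) (by omega) (by omega); linarith
  exact Prod.ext e1 e2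

/-- existence of the maximal run of `{x > σ}` containing a given run `[a,b]`. -/
lemma exists_run {x : ℕ → ℝ} {m a b : ℕ} (h1 : 1 ≤ a) (hab : a ≤ b) (h2 : b ≤ m) {σ : ℝ}
    (hx0 : x 0 ≤ σ) (hxm : x (m + 1) ≤ σ) (hk : ∀ j, a ≤ j → j ≤ b → σ < x j) :
    ∃ p : ℕ × ℕ, p ∈ pairs m ∧ p.1 ≤ a ∧ b ≤ p.2 ∧ σ ∈ lay x p := by
  classical
  -- left end
  have hl : ∃ l, 1 ≤ l ∧ l ≤ a ∧ x (l - 1) ≤ σ ∧ ∀ j, l ≤ j → j ≤ a → σ < x j := by
    induction a, h1 using Nat.le_induction with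
    | base => exact ⟨1, le_rfl, le_rfl, by simpa using hx0, fun j hj1 hj2 => hk j hj1 (by omega)⟩
    | succ n hn ih =>
      by_cases h : x n ≤ σ
      · exact ⟨n + 1, by omega, le_rfl, by simpa using h, fun j hj1 hj2 => hk j hj1 (by omega)⟩
      · push Not at h
        obtain ⟨l, hl1, hl2, hl3, hl4⟩ := ih (by omega)
          (fun j hj1 hj2 => by
            rcases eq_or_lt_of_le hj1 with h' | h'
            · rw [← h']; exact h
            · exact hk j h' hj2)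
        refine ⟨l, hl1, by omega, hl3, fun j hj1 hj2 => ?_⟩
        rcases Nat.lt_or_ge j (n + 1) with h' | h'
        · exact hl4 j hj1 (by omega)
        · exact hk j h' (by omega)
  have hr : ∃ r, b ≤ r ∧ r ≤ m ∧ x (r + 1) ≤ σ ∧ ∀ j, b ≤ j → j ≤ r → σ < x j := by
    have key : ∀ d, ∀ b', b' + d = m → a ≤ b' → (∀ j, a ≤ j → j ≤ b' → σ < x j) →
        ∃ r, b' ≤ r ∧ r ≤ m ∧ x (r + 1) ≤ σ ∧ ∀ j, b' ≤ j → j ≤ r → σ < x j := by
      intro d
      induction d with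
      | zero =>
        intro b' hb' hab' hk'
        refine ⟨b', le_rfl, by omega, ?_, fun j hj1 hj2 => hk' j (by omega) (by omega)⟩
        have : b' = m := by omega
        rw [this]; exact hxm
      | succ d ih =>
        intro b' hb' hab' hk'
        by_cases h : x (b' + 1) ≤ σ
        · exact ⟨b', le_rfl, by omega, h, fun j hj1 hj2 => hk' j (by omega) (by omega)⟩
        · push Not at h
          obtain ⟨r, hr1, hr2, hr3, hr4⟩ := ih (b' + 1) (by omega) (by omega)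
            (fun j hj1 hj2 => by
              rcases Nat.lt_or_ge j (b' + 1) with h' | h'
              · exact hk' j hj1 (by omega)
              · have : j = b' + 1 := by omega
                rw [this]; exact h)
          refine ⟨r, by omega, hr2, hr3, fun j hj1 hj2 => ?_⟩
          rcases Nat.lt_or_ge j (b' + 1) with h' | h'
          · exact hk' j (by omega) (by omega)
          · exact hr4 j h' hj2
    exact key (m - b) b (by omega) hab hk
  obtain ⟨l, hl1, hl2, hl3, hl4⟩ := hl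
  obtain ⟨r, hr1, hr2, hr3, hr4⟩ := hr
  refine ⟨(l, r), mem_pairs.2 ⟨hl1, by simp only; omega, hr2⟩, hl2, hr1, ?_⟩
  rw [mem_lay (by simp only; omega)]
  refine ⟨⟨hl3, hr3⟩, fun j hj1 hj2 => ?_⟩
  simp only at hj1 hj2
  rcases le_total j a with h | h
  · exact hl4 j hj1 h
  · rcases le_total j b with h' | h'
    · exact hk j h h'
    · exact hr4 j h' hj2

/-- standing assumptions on the sequence -/
structure Seq (x : ℕ → ℝ) (m : ℕ) : Prop where
  zero : x 0 = 0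
  last : x (m + 1) = 0
  nonneg : ∀ k, 0 ≤ x k

/-- the layers containing `k` tile `[0, x k)` -/
lemma iUnion_lay {x : ℕ → ℝ} {m k : ℕ} (hx : Seq x m) (h1 : 1 ≤ k) (h2 : k ≤ m) :
    (⋃ p ∈ pairsAt m k, lay x p) = Ico 0 (x k) := by
  ext σ
  simp only [Set.mem_iUnion, exists_prop]
  constructor
  · rintro ⟨p, hp, hσ⟩
    rw [mem_pairsAt] at hp
    rw [mem_lay (by omega)] at hσ
    exact ⟨(hx.nonneg _).trans hσ.1.1, hσ.2 k hp.2.1 hp.2.2.1⟩
  · rintro ⟨h0, hk⟩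
    obtain ⟨p, hp1, hp2, hp3, hp4⟩ := exists_run (x := x) (m := m) (σ := σ) h1 le_rfl h2
      (by rw [hx.zero]; exact h0) (by rw [hx.last]; exact h0)
      (fun j hj1 hj2 => by rwa [le_antisymm hj2 hj1])
    exact ⟨p, mem_pairsAt.2 (by rw [mem_pairs] at hp1; omega), hp4⟩

lemma pairwise_disjoint_lay (x : ℕ → ℝ) (m k : ℕ) :
    (↑(pairsAt m k) : Set (ℕ × ℕ)).PairwiseDisjoint (lay x) := by
  intro p hp q hq hpq
  rw [Function.onFun, Set.disjoint_left]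
  intro σ h1 h2
  exact hpq (lay_unique hp hq h1 h2)


/-- the thick part with respect to a class `Lg` of pairs -/
noncomputable def xL (Lg : ℕ × ℕ → Prop) [DecidablePred Lg] (x : ℕ → ℝ) (m k : ℕ) : ℝ :=
  ∑ p ∈ (pairsAt m k).filter Lg, cc x p.1 p.2

/-- `Lg` is closed under enlarging the interval inside `1..m` -/
def UpClosed (Lg : ℕ × ℕ → Prop) (m : ℕ) : Prop :=
  ∀ p ∈ pairs m, ∀ q ∈ pairs m, q.1 ≤ p.1 → p.2 ≤ q.2 → Lg p → Lg q

lemma pairsAt_subset (m k : ℕ) : pairsAt m k ⊆ pairs m := Finset.filter_subset _ _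

lemma mem_iUnion_long {x : ℕ → ℝ} {m k : ℕ} {Lg : ℕ × ℕ → Prop} [DecidablePred Lg]
    (hx : Seq x m) (hL : UpClosed Lg m) {σ : ℝ} :
    σ ∈ (⋃ p ∈ (pairsAt m k).filter Lg, lay x p) ↔
      0 ≤ σ ∧ ∃ p ∈ pairsAt m k, Lg p ∧ ∀ j, p.1 ≤ j → j ≤ p.2 → σ < x j := by
  simp only [Set.mem_iUnion, exists_prop, Finset.mem_filter]
  constructor
  · rintro ⟨p, ⟨hp, hLp⟩, hσ⟩
    have hp' := hp
    rw [mem_pairsAt] at hp'
    rw [mem_lay (by omega)] at hσ
    exact ⟨(hx.nonneg _).trans hσ.1.1, p, hp, hLp, hσ.2⟩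
  · rintro ⟨h0, p, hp, hLp, hσ⟩
    have hp' := hp
    rw [mem_pairsAt] at hp'
    obtain ⟨q, hq1, hq2, hq3, hq4⟩ := exists_run (x := x) (m := m) (a := p.1) (b := p.2)
      (by omega) (by omega) (by omega)
      (by rw [hx.zero]; exact h0) (by rw [hx.last]; exact h0) hσ
    refine ⟨q, ⟨mem_pairsAt.2 ?_, hL p (pairsAt_subset m k hp) q hq1 hq2 hq3 hLp⟩, hq4⟩
    rw [mem_pairs] at hq1; omega

/-- volume of the union of the long layers at `k` is `xL` -/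
lemma volume_long {x : ℕ → ℝ} {m k : ℕ} {Lg : ℕ × ℕ → Prop} [DecidablePred Lg] :
    volume (⋃ p ∈ (pairsAt m k).filter Lg, lay x p) = ENNReal.ofReal (xL Lg x m k) := by
  rw [measure_biUnion_finset
    ((pairwise_disjoint_lay x m k).subset (by
      intro p hp; exact (Finset.mem_filter.1 (Finset.mem_coe.1 hp)).1))
    (fun p _ => measurableSet_lay x p)]
  unfold xL
  rw [ENNReal.ofReal_sum_of_nonneg (fun p _ => cc_nonneg x p.1 p.2)]
  exact Finset.sum_congr rfl (fun p _ => volume_lay x p)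

/-- the long layers containing `k` tile `[0, xL k)` -/
lemma iUnion_long {x : ℕ → ℝ} {m k : ℕ} {Lg : ℕ × ℕ → Prop} [DecidablePred Lg]
    (hx : Seq x m) (hL : UpClosed Lg m) :
    (⋃ p ∈ (pairsAt m k).filter Lg, lay x p) = Ico 0 (xL Lg x m k) := by
  classical
  -- the set is `Ico 0 X` for some `X ≥ 0`
  obtain ⟨X, hX0, hX⟩ : ∃ X : ℝ, 0 ≤ X ∧
      (⋃ p ∈ (pairsAt m k).filter Lg, lay x p) = Ico 0 X := by
    by_cases hne : ((pairsAt m k).filter Lg).Nonempty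
    · refine ⟨max (((pairsAt m k).filter Lg).sup' hne (fun p => top x p.1 p.2)) 0,
        le_max_right _ _, ?_⟩
      ext σ
      rw [mem_iUnion_long hx hL, Set.mem_Ico, lt_max_iff, Finset.lt_sup'_iff]
      constructor
      · rintro ⟨h0, p, hp, hLp, hσ⟩
        have hp' := hp
        rw [mem_pairsAt] at hp'
        exact ⟨h0, Or.inl ⟨p, Finset.mem_filter.2 ⟨hp, hLp⟩, (lt_top_iff (by omega)).2 hσ⟩⟩
      · rintro ⟨h0, h | h⟩
        · obtain ⟨p, hp, hσ⟩ := h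
          obtain ⟨hp, hLp⟩ := Finset.mem_filter.1 hp
          have hp' := hp
          rw [mem_pairsAt] at hp'
          exact ⟨h0, p, hp, hLp, (lt_top_iff (by omega)).1 hσ⟩
        · exact absurd h (not_lt.2 h0)
    · refine ⟨0, le_rfl, ?_⟩
      rw [Finset.not_nonempty_iff_eq_empty] at hne
      rw [hne]
      simp
  have hv := volume_long (x := x) (m := m) (k := k) (Lg := Lg)
  rw [hX, Real.volume_Ico, sub_zero] at hv
  have h0 : 0 ≤ xL Lg x m k := Finset.sum_nonneg (fun p _ => cc_nonneg x p.1 p.2)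
  rw [ENNReal.ofReal_eq_ofReal_iff hX0 h0] at hv
  rw [hX, hv]

lemma xL_nonneg (Lg : ℕ × ℕ → Prop) [DecidablePred Lg] (x : ℕ → ℝ) (m k : ℕ) :
    0 ≤ xL Lg x m k := Finset.sum_nonneg (fun p _ => cc_nonneg x p.1 p.2)

/-- (L4) `σ < xL k` iff some long run of `{x > σ}` contains `k` -/
lemma lt_xL_iff {x : ℕ → ℝ} {m k : ℕ} {Lg : ℕ × ℕ → Prop} [DecidablePred Lg]
    (hx : Seq x m) (hL : UpClosed Lg m) {σ : ℝ} (h0 : 0 ≤ σ) :
    σ < xL Lg x m k ↔ ∃ p ∈ pairsAt m k, Lg p ∧ ∀ j, p.1 ≤ j → j ≤ p.2 → σ < x j := by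
  have h := mem_iUnion_long (k := k) (σ := σ) hx hL
  rw [iUnion_long hx hL] at h
  rw [Set.mem_Ico] at h
  constructor
  · intro h'; exact (h.1 ⟨h0, h'⟩).2
  · intro h'; exact (h.2 ⟨h0, h'⟩).2

/-- (L1') the layers containing `k` add up to `x k` -/
lemma sum_cc {x : ℕ → ℝ} {m k : ℕ} (hx : Seq x m) (h1 : 1 ≤ k) (h2 : k ≤ m) :
    ∑ p ∈ pairsAt m k, cc x p.1 p.2 = x k := by
  have h := congrArg volume (iUnion_lay hx h1 h2)
  rw [measure_biUnion_finset (pairwise_disjoint_lay x m k) (fun p _ => measurableSet_lay x p),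
    Real.volume_Ico, sub_zero] at h
  simp only [volume_lay] at h
  rw [← ENNReal.ofReal_sum_of_nonneg (fun p _ => cc_nonneg x p.1 p.2),
    ENNReal.ofReal_eq_ofReal_iff (Finset.sum_nonneg (fun p _ => cc_nonneg x p.1 p.2))
      (hx.nonneg k)] at h
  exact h

lemma xL_le {x : ℕ → ℝ} {m k : ℕ} {Lg : ℕ × ℕ → Prop} [DecidablePred Lg]
    (hx : Seq x m) (h1 : 1 ≤ k) (h2 : k ≤ m) : xL Lg x m k ≤ x k := by
  rw [← sum_cc hx h1 h2]
  exact Finset.sum_le_sum_of_subset_of_nonneg (Finset.filter_subset _ _)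
    (fun p _ _ => cc_nonneg x p.1 p.2)

lemma xL_mono {x : ℕ → ℝ} {m k : ℕ} {Lg Lg' : ℕ × ℕ → Prop} [DecidablePred Lg]
    [DecidablePred Lg'] (h : ∀ p ∈ pairs m, Lg p → Lg' p) : xL Lg x m k ≤ xL Lg' x m k := by
  unfold xL
  refine Finset.sum_le_sum_of_subset_of_nonneg ?_ (fun p _ _ => cc_nonneg x p.1 p.2)
  intro p hp
  rw [Finset.mem_filter] at hp ⊢
  exact ⟨hp.1, h p (pairsAt_subset m k hp.1) hp.2⟩

lemma sum_short_cc {x : ℕ → ℝ} {m k : ℕ} {Lg : ℕ × ℕ → Prop} [DecidablePred Lg]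
    (hx : Seq x m) (h1 : 1 ≤ k) (h2 : k ≤ m) :
    ∑ p ∈ (pairsAt m k).filter (fun p => ¬ Lg p), cc x p.1 p.2 = x k - xL Lg x m k := by
  have := Finset.sum_filter_add_sum_filter_not (pairsAt m k) Lg (fun p => cc x p.1 p.2)
  rw [sum_cc hx h1 h2] at this
  unfold xL
  linarith

/-- (L4') a window `[a,b] ∋ k` which is long and on which `x ≥ v` gives `xL k ≥ v` -/
lemma le_xL {x : ℕ → ℝ} {m k : ℕ} {Lg : ℕ × ℕ → Prop} [DecidablePred Lg]
    (hx : Seq x m) (hL : UpClosed Lg m) {p : ℕ × ℕ} (hp : p ∈ pairsAt m k) (hLp : Lg p) {v : ℝ}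
    (hv : ∀ j, p.1 ≤ j → j ≤ p.2 → v ≤ x j) : v ≤ xL Lg x m k := by
  by_contra hlt
  push Not at hlt
  have h0 := xL_nonneg Lg x m k
  have : xL Lg x m k < xL Lg x m k :=
    (lt_xL_iff hx hL h0).2 ⟨p, hp, hLp, fun j h1 h2 => hlt.trans_le (hv j h1 h2)⟩
  exact lt_irrefl _ this

/-- (L1g) integration over the layers at `k` -/
lemma sum_integral {x : ℕ → ℝ} {m k : ℕ} (hx : Seq x m) (h1 : 1 ≤ k) (h2 : k ≤ m)
    {g : ℝ → ℝ} (hg : IntegrableOn g (Ico 0 (x k))) :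
    ∑ p ∈ pairsAt m k, ∫ σ in lay x p, g σ = ∫ σ in Ico 0 (x k), g σ := by
  rw [← iUnion_lay hx h1 h2]
  rw [← iUnion_lay hx h1 h2] at hg
  rw [integral_biUnion_finset _ (fun p _ => measurableSet_lay x p)
    (pairwise_disjoint_lay x m k)]
  intro p hp
  exact hg.mono_set (Set.subset_biUnion_of_mem (u := fun p => lay x p) hp)

/-- (L1g), long part -/
lemma sum_integral_long {x : ℕ → ℝ} {m k : ℕ} {Lg : ℕ × ℕ → Prop} [DecidablePred Lg]
    (hx : Seq x m) (hL : UpClosed Lg m)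
    {g : ℝ → ℝ} (hg : IntegrableOn g (Ico 0 (xL Lg x m k))) :
    ∑ p ∈ (pairsAt m k).filter Lg, ∫ σ in lay x p, g σ = ∫ σ in Ico 0 (xL Lg x m k), g σ := by
  rw [← iUnion_long hx hL]
  rw [← iUnion_long hx hL] at hg
  rw [integral_biUnion_finset _ (fun p _ => measurableSet_lay x p)
    ((pairwise_disjoint_lay x m k).subset (by
      intro p hp; exact (Finset.mem_filter.1 (Finset.mem_coe.1 hp)).1))]
  intro p hp
  exact hg.mono_set (Set.subset_biUnion_of_mem (u := fun p => lay x p) hp)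




/-- Fubini: sum over layers of sums over their cells -/
lemma sum_pairs_comm (m : ℕ) (P : ℕ × ℕ → Prop) [DecidablePred P] (f : ℕ × ℕ → ℕ → ℝ) :
    ∑ p ∈ (pairs m).filter P, ∑ k ∈ Finset.Icc p.1 p.2, f p k
      = ∑ k ∈ Finset.Icc 1 m, ∑ p ∈ (pairsAt m k).filter P, f p k := by
  refine Finset.sum_comm' ?_
  intro p k
  simp only [Finset.mem_filter, mem_pairs, mem_pairsAt, Finset.mem_Icc]
  constructor
  · rintro ⟨⟨h1, h2⟩, h3⟩
    exact ⟨⟨⟨h1.1, h3.1, h3.2, h1.2.2⟩, h2⟩, by omega, by omega⟩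
  · rintro ⟨⟨h1, h2⟩, h3⟩
    exact ⟨⟨⟨h1.1, by omega, h1.2.2.2⟩, h2⟩, h1.2.1, h1.2.2.1⟩

end Crest.Agent.R077.Layers
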