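import Mathlib
import Crest.Agent.R077.Layers
import Crest.Agent.R077.TentPhi
import Crest.Agent.R077.Iface

-- ▼ part R077/StepR1
section

set_option autoImplicit false

namespace Crest.Agent.R077.StepR1

open MeasureTheory Set

/-- box sum `G_ρ(t) = ∫_{t-ρ}^{t+ρ} G` -/
noncomputable def bx (ρ : ℝ) (G : ℝ → ℝ) (t : ℝ) : ℝ := ∫ s in (t - ρ)..(t + ρ), G s

/-- `z_ρ(t) = ∫_{t-ρ}^{t+ρ} (φ(t) G(s) - Ω_G(s)) ds` -/
noncomputable def zz (ρ : ℝ) (φ G Om : ℝ → ℝ) (t : ℝ) : ℝ :=
  ∫ s in (t - ρ)..(t + ρ), (φ t * G s - Om s)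

lemma ii_of_loc {g : ℝ → ℝ} (hg : LocallyIntegrable g volume) (a b : ℝ) :
    IntervalIntegrable g volume a b :=
  intervalIntegrable_iff.mpr <|
    (hg.integrableOn_isCompact isCompact_uIcc).mono_set uIoc_subset_uIcc

/-- by parts against a locally integrable function -/
lemma parts {φ w g : ℝ → ℝ} (hφ : ∀ t, HasDerivAt φ (-w t) t) (hw : Continuous w)
    (hg : LocallyIntegrable g volume) (c A B : ℝ) :
    ∫ t in A..B, φ t * g t
      = φ B * (∫ s in c..B, g s) - φ A * (∫ s in c..A, g s) +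
        ∫ t in A..B, w t * ∫ s in c..t, g s := by
  have hii := ii_of_loc hg
  have hφc : ContDiff ℝ 1 φ := by
    rw [contDiff_one_iff_deriv]
    refine ⟨fun t => (hφ t).differentiableAt, ?_⟩
    have : deriv φ = fun t => -w t := funext fun t => (hφ t).deriv
    rw [this]; exact hw.neg
  have hac1 : AbsolutelyContinuousOnInterval φ A B :=
    ContDiffOn.absolutelyContinuousOnInterval hφc.contDiffOn
  -- first with `c = A`
  have key : ∫ t in A..B, φ t * g t
      = φ B * (∫ s in A..B, g s) + ∫ t in A..B, w t * ∫ s in A..t, g s := by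
    have hac2 : AbsolutelyContinuousOnInterval (fun x => ∫ v in A..x, g v) A B :=
      (hii A B).absolutelyContinuousOnInterval_intervalIntegral left_mem_uIcc
    have h := hac1.integral_mul_deriv_eq_deriv_mul hac2
    have e1 : ∫ t in A..B, φ t * deriv (fun x => ∫ v in A..x, g v) t
        = ∫ t in A..B, φ t * g t := by
      apply intervalIntegral.integral_congr_ae
      have := LocallyIntegrable.ae_hasDerivAt_integral hg
      filter_upwards [this] with t ht _
      rw [(ht A).deriv]
    have e2 : ∫ t in A..B, deriv φ t * (∫ v in A..t, g v)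
        = - ∫ t in A..B, w t * (∫ v in A..t, g v) := by
      rw [← intervalIntegral.integral_neg]
      apply intervalIntegral.integral_congr
      intro t _
      simp only [(hφ t).deriv]; ring
    rw [e1, e2] at h
    rw [h]
    simp
  have hwint : ∫ t in A..B, w t = φ A - φ B := by
    have := intervalIntegral.integral_eq_sub_of_hasDerivAt (f := φ) (f' := fun t => -w t)
      (a := A) (b := B) (fun t _ => hφ t) (hw.neg.intervalIntegrable _ _)
    rw [intervalIntegral.integral_neg] at this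
    linarith
  have hcon : ∫ t in A..B, w t * ∫ s in A..t, g s
      = (∫ t in A..B, w t * ∫ s in c..t, g s) - (∫ s in c..A, g s) * (φ A - φ B) := by
    rw [← hwint, ← intervalIntegral.integral_const_mul, ← intervalIntegral.integral_sub]
    · apply intervalIntegral.integral_congr
      intro t _
      simp only
      have : (∫ s in c..t, g s) = (∫ s in c..A, g s) + ∫ s in A..t, g s :=
        (intervalIntegral.integral_add_adjacent_intervals (hii _ _) (hii _ _)).symm
      rw [this]; ring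
    · apply ContinuousOn.intervalIntegrable
      apply hw.continuousOn.mul
      exact (intervalIntegral.continuous_primitive (fun a b => hii a b) c).continuousOn
    · exact (continuous_const.mul hw).intervalIntegrable _ _
  have hsplit : (∫ s in c..B, g s) = (∫ s in c..A, g s) + ∫ s in A..B, g s :=
    (intervalIntegral.integral_add_adjacent_intervals (hii _ _) (hii _ _)).symm
  rw [key, hcon, hsplit]
  ring

lemma loc_shift {g : ℝ → ℝ} (hg : LocallyIntegrable g volume) (r : ℝ) :
    LocallyIntegrable (fun t => g (t + r)) volume := by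
  rw [MeasureTheory.locallyIntegrable_iff]
  intro K hK
  have h1 : IntegrableOn g ((fun t => t + r) '' K) volume :=
    hg.integrableOn_isCompact (hK.image (by fun_prop))
  have hmp : MeasurePreserving (fun t : ℝ => t + r) volume volume :=
    measurePreserving_add_right volume r
  have h2 := (hmp.integrableOn_comp_preimage (MeasurableEquiv.addRight r).measurableEmbedding
    (f := g) (s := (fun t => t + r) '' K)).mpr h1
  refine h2.mono_set ?_
  intro t ht
  exact ⟨t, ht, rfl⟩

lemma loc_shift_sub {g : ℝ → ℝ} (hg : LocallyIntegrable g volume) (r : ℝ) :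
    LocallyIntegrable (fun t => g (t - r)) volume := by
  simpa only [sub_eq_add_neg] using loc_shift hg (-r)

lemma loc_diff {g : ℝ → ℝ} (hg : LocallyIntegrable g volume) (r : ℝ) :
    LocallyIntegrable (fun t => g (t + r) - g (t - r)) volume :=
  (loc_shift hg r).sub (loc_shift_sub hg r)

/-- shift difference integral -/
lemma int_shift_diff {G : ℝ → ℝ} (hG : LocallyIntegrable G volume) (ρ A B : ℝ) :
    ∫ t in A..B, (G (t + ρ) - G (t - ρ)) = bx ρ G B - bx ρ G A := by
  have hii := ii_of_loc hG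
  have h1 := ii_of_loc (loc_shift hG ρ)
  have h2 := ii_of_loc (loc_shift hG (-ρ))
  have h2' : ∀ a b, IntervalIntegrable (fun t => G (t - ρ)) volume a b := by
    intro a b; simpa [sub_eq_add_neg] using h2 a b
  rw [intervalIntegral.integral_sub (h1 A B) (h2' A B)]
  rw [intervalIntegral.integral_comp_add_right (fun x => G x),
    intervalIntegral.integral_comp_sub_right (fun x => G x)]
  unfold bx
  have e1 : (∫ s in (B - ρ)..(B + ρ), G s)
      = (∫ s in (B - ρ)..(A - ρ), G s) + (∫ s in (A - ρ)..(A + ρ), G s)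
        + ∫ s in (A + ρ)..(B + ρ), G s := by
    rw [intervalIntegral.integral_add_adjacent_intervals (hii _ _) (hii _ _),
      intervalIntegral.integral_add_adjacent_intervals (hii _ _) (hii _ _)]
  rw [e1, intervalIntegral.integral_symm (A - ρ) (B - ρ)]
  ring

lemma continuous_bx {G : ℝ → ℝ} (hG : LocallyIntegrable G volume) (ρ : ℝ) :
    Continuous (bx ρ G) := by
  have : bx ρ G = fun t => (∫ s in (0:ℝ)..(t + ρ), G s) - ∫ s in (0:ℝ)..(t - ρ), G s := by
    funext t
    unfold bx
    rw [intervalIntegral.integral_interval_sub_left (ii_of_loc hG _ _) (ii_of_loc hG _ _)]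
  rw [this]
  have hc := intervalIntegral.continuous_primitive (fun a b => ii_of_loc hG a b) (0:ℝ)
  exact (hc.comp (continuous_id.add continuous_const)).sub
    (hc.comp (continuous_id.sub continuous_const))

lemma zz_eq {φ G Om : ℝ → ℝ} (hG : LocallyIntegrable G volume)
    (hOm : LocallyIntegrable Om volume) (ρ t : ℝ) :
    zz ρ φ G Om t = φ t * bx ρ G t - bx ρ Om t := by
  unfold zz bx
  rw [intervalIntegral.integral_sub ((ii_of_loc hG _ _).const_mul _) (ii_of_loc hOm _ _),
    intervalIntegral.integral_const_mul]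

/-- the identity on one interval: velocity `φ(t)` against arbitrary `(G, Ω_G)`. -/
lemma ident_interval {φ w G Om : ℝ → ℝ} (hφ : ∀ t, HasDerivAt φ (-w t) t) (hw : Continuous w)
    (hG : LocallyIntegrable G volume) (hOm : LocallyIntegrable Om volume) (ρ A B : ℝ) :
    ∫ t in A..B, (φ t * (G (t + ρ) - G (t - ρ)) - (Om (t + ρ) - Om (t - ρ)))
      = (∫ t in A..B, w t * bx ρ G t) + (zz ρ φ G Om B - zz ρ φ G Om A) := by
  have hφc : Continuous φ := continuous_iff_continuousAt.mpr fun t => (hφ t).continuousAt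
  have hsG : LocallyIntegrable (fun t => G (t + ρ) - G (t - ρ)) volume := loc_diff hG ρ
  have hsO : LocallyIntegrable (fun t => Om (t + ρ) - Om (t - ρ)) volume := loc_diff hOm ρ
  rw [intervalIntegral.integral_sub ((ii_of_loc hsG A B).continuousOn_mul hφc.continuousOn)
    (ii_of_loc hsO A B)]
  rw [parts hφ hw hsG A A B, int_shift_diff hG, int_shift_diff hOm]
  have hwint : ∫ t in A..B, w t = φ A - φ B := by
    have := intervalIntegral.integral_eq_sub_of_hasDerivAt (f := φ) (f' := fun t => -w t)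
      (a := A) (b := B) (fun t _ => hφ t) (hw.neg.intervalIntegrable _ _)
    rw [intervalIntegral.integral_neg] at this
    linarith
  have hbc : Continuous (bx ρ G) := continuous_bx hG ρ
  have e3 : ∫ t in A..B, w t * ∫ s in A..t, (G (s + ρ) - G (s - ρ))
      = (∫ t in A..B, w t * bx ρ G t) - bx ρ G A * (φ A - φ B) := by
    rw [← hwint, ← intervalIntegral.integral_const_mul, ← intervalIntegral.integral_sub]
    · apply intervalIntegral.integral_congr
      intro t _
      simp only
      rw [int_shift_diff hG]; ring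
    · exact (hw.mul hbc).intervalIntegrable _ _
    · exact (continuous_const.mul hw).intervalIntegrable _ _
  rw [e3, zz_eq hG hOm, zz_eq hG hOm]
  simp
  ring

/-- step function of a finite family of intervals -/
noncomputable def st {ι : Type*} (S : Finset ι) (c A B : ι → ℝ) (t : ℝ) : ℝ :=
  ∑ i ∈ S, (Ico (A i) (B i)).indicator (fun _ => c i) t

lemma st_nonneg {ι : Type*} {S : Finset ι} {c A B : ι → ℝ} (hc : ∀ i ∈ S, 0 ≤ c i) (t : ℝ) :
    0 ≤ st S c A B t :=
  Finset.sum_nonneg fun i hi => indicator_nonneg (fun _ _ => hc i hi) _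


lemma integrable_st {ι : Type*} (S : Finset ι) (c A B : ι → ℝ) : Integrable (st S c A B) volume := by
  unfold st
  apply integrable_finsetSum
  intro i _
  rw [integrable_indicator_iff measurableSet_Ico]
  exact integrableOn_const (by simp)

lemma loc_st {ι : Type*} (S : Finset ι) (c A B : ι → ℝ) :
    LocallyIntegrable (st S c A B) volume := (integrable_st S c A B).locallyIntegrable

/-- integral of step function times locally integrable function -/
lemma integrable_st_mul {ι : Type*} (S : Finset ι) (c A B : ι → ℝ) {g : ℝ → ℝ}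
    (hg : LocallyIntegrable g volume) : Integrable (fun t => st S c A B t * g t) volume := by
  have : (fun t => st S c A B t * g t)
      = fun t => ∑ i ∈ S, (Ico (A i) (B i)).indicator (fun t => c i * g t) t := by
    funext t
    unfold st
    rw [Finset.sum_mul]
    apply Finset.sum_congr rfl
    intro i _
    by_cases h : t ∈ Ico (A i) (B i)
    · simp [h]
    · simp [h]
  rw [this]
  apply integrable_finsetSum
  intro i _
  rw [integrable_indicator_iff measurableSet_Ico]
  have h1 : IntegrableOn g (Icc (A i) (B i)) volume := hg.integrableOn_isCompact isCompact_Icc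
  exact (h1.mono_set Ico_subset_Icc_self).const_mul _

lemma integral_st_mul {ι : Type*} (S : Finset ι) (c A B : ι → ℝ) (hAB : ∀ i ∈ S, A i ≤ B i)
    {g : ℝ → ℝ} (hg : LocallyIntegrable g volume) :
    ∫ t, st S c A B t * g t = ∑ i ∈ S, c i * ∫ t in (A i)..(B i), g t := by
  have : (fun t => st S c A B t * g t)
      = fun t => ∑ i ∈ S, (Ico (A i) (B i)).indicator (fun t => c i * g t) t := by
    funext t
    unfold st
    rw [Finset.sum_mul]
    apply Finset.sum_congr rfl
    intro i _
    by_cases h : t ∈ Ico (A i) (B i)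
    · simp [h]
    · simp [h]
  rw [this, integral_finsetSum]
  · apply Finset.sum_congr rfl
    intro i hi
    rw [integral_indicator measurableSet_Ico, integral_Ico_eq_integral_Ioc,
      ← intervalIntegral.integral_of_le (hAB i hi), intervalIntegral.integral_const_mul]
  · intro i _
    rw [integrable_indicator_iff measurableSet_Ico]
    have h1 : IntegrableOn g (Icc (A i) (B i)) volume := hg.integrableOn_isCompact isCompact_Icc
    exact (h1.mono_set Ico_subset_Icc_self).const_mul _

/-- the "one-sided" form `∫ f {φ (G(·+ρ) - G(·-ρ)) - (Ω_G(·+ρ) - Ω_G(·-ρ))}` -/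
noncomputable def hf (ρ : ℝ) (φ f G Om : ℝ → ℝ) : ℝ :=
  ∫ t, f t * (φ t * (G (t + ρ) - G (t - ρ)) - (Om (t + ρ) - Om (t - ρ)))

/-- exact identity `D^{L*} = ∫ w F^L G_ρ + Σ c_I [z_ρ]_I`. -/
theorem hf_st {ι : Type*} (S : Finset ι) (c A B : ι → ℝ) (hAB : ∀ i ∈ S, A i ≤ B i)
    {φ w G Om : ℝ → ℝ} (hφ : ∀ t, HasDerivAt φ (-w t) t) (hw : Continuous w)
    (hG : LocallyIntegrable G volume) (hOm : LocallyIntegrable Om volume) (ρ : ℝ) :
    hf ρ φ (st S c A B) G Om
      = (∫ t, w t * st S c A B t * bx ρ G t) +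
        ∑ i ∈ S, c i * (zz ρ φ G Om (B i) - zz ρ φ G Om (A i)) := by
  have hφc : Continuous φ := continuous_iff_continuousAt.mpr fun t => (hφ t).continuousAt
  unfold hf
  have hsG := loc_diff hG ρ
  have hsO := loc_diff hOm ρ
  have hloc : LocallyIntegrable
      (fun t => φ t * (G (t + ρ) - G (t - ρ)) - (Om (t + ρ) - Om (t - ρ))) volume := by
    refine LocallyIntegrable.sub ?_ hsO
    exact hsG.continuous_mul hφc
  rw [integral_st_mul S c A B hAB hloc]
  have e1 : (fun t => w t * st S c A B t * bx ρ G t)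
      = fun t => st S c A B t * (w t * bx ρ G t) := by
    funext t; ring
  have hbc := continuous_bx hG ρ
  rw [e1, integral_st_mul S c A B hAB (g := fun t => w t * bx ρ G t)
    (hw.mul hbc).locallyIntegrable]
  rw [← Finset.sum_add_distrib]
  apply Finset.sum_congr rfl
  intro i _
  rw [ident_interval hφ hw hG hOm]
  ring

/-- Lipschitz control of `φ` differences. -/
lemma phi_sub_abs {φ w : ℝ → ℝ} (hφ : ∀ t, HasDerivAt φ (-w t) t) (hw : Continuous w)
    {La : ℝ} (hw0 : ∀ t, 0 ≤ w t) (hLip : ∀ s t, |w s - w t| ≤ La * |s - t|) (hLa : 0 ≤ La)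
    {t r m : ℝ} (hm : |r - t| ≤ m) : |φ t - φ r| ≤ m * (w t + La * m) := by
  have hm0 : 0 ≤ m := (abs_nonneg _).trans hm
  have hint : ∫ x in t..r, w x = φ t - φ r := by
    have := intervalIntegral.integral_eq_sub_of_hasDerivAt (f := φ) (f' := fun t => -w t)
      (a := t) (b := r) (fun t _ => hφ t) (hw.neg.intervalIntegrable _ _)
    rw [intervalIntegral.integral_neg] at this
    linarith
  rw [← hint]
  have h1 : ‖∫ x in t..r, w x‖ ≤ (w t + La * m) * |r - t| := by
    apply intervalIntegral.norm_integral_le_of_norm_le_const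
    intro x hx
    rw [Real.norm_eq_abs, abs_of_nonneg (hw0 x)]
    have h2 := hLip x t
    have h3 : |x - t| ≤ |r - t| := by
      rw [uIoc_eq_union] at hx
      rcases hx with hx | hx
      · rw [abs_of_nonneg (by linarith [hx.1]), abs_of_nonneg (by linarith [hx.1, hx.2])]
        linarith [hx.2]
      · rw [abs_of_nonpos (by linarith [hx.2]), abs_of_nonpos (by linarith [hx.1, hx.2])]
        linarith [hx.1]
    have h4 : w x - w t ≤ La * |x - t| := (le_abs_self _).trans h2
    have h5 : La * |x - t| ≤ La * m := mul_le_mul_of_nonneg_left (h3.trans hm) hLa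
    linarith
  rw [Real.norm_eq_abs] at h1
  refine h1.trans ?_
  have h6 : 0 ≤ w t + La * m := add_nonneg (hw0 t) (mul_nonneg hLa hm0)
  rw [mul_comm]
  exact mul_le_mul_of_nonneg_right hm h6

/-- velocity-weighted function: `Ω_F = φ F` except on the short layers, which move rigidly with
velocity `φ(centre)`. -/
noncomputable def omv {ι : Type*} (φ : ℝ → ℝ) (S : Finset ι) (c A B : ι → ℝ) (F : ℝ → ℝ) (t : ℝ) :
    ℝ :=
  φ t * (F t - st S c A B t) + st S (fun i => c i * φ ((A i + B i) / 2)) A B t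

lemma loc_omv {ι : Type*} {φ : ℝ → ℝ} (hφc : Continuous φ) (S : Finset ι) (c A B : ι → ℝ)
    {F : ℝ → ℝ} (hF : LocallyIntegrable F volume) :
    LocallyIntegrable (omv φ S c A B F) volume := by
  unfold omv
  exact ((hF.sub (loc_st S c A B)).continuous_mul hφc).add (loc_st S _ A B)

/-- pointwise bound behind the `z` bound -/
lemma omv_diff_abs {ι : Type*} {φ w : ℝ → ℝ} (hφ : ∀ t, HasDerivAt φ (-w t) t)
    (hw : Continuous w) {La : ℝ} (hw0 : ∀ t, 0 ≤ w t)
    (hLip : ∀ s t, |w s - w t| ≤ La * |s - t|) (hLa : 0 ≤ La) (S : Finset ι) (c A B : ι → ℝ)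
    (hc : ∀ i ∈ S, 0 ≤ c i) {η ρ : ℝ} (hη : 0 ≤ η)
    (hsh : ∀ i ∈ S, B i - A i ≤ η) {F : ℝ → ℝ} (hFS : ∀ t, st S c A B t ≤ F t)
    {t s : ℝ} (hts : |s - t| ≤ ρ) :
    |φ t * F s - omv φ S c A B F s| ≤ (η / 2 + ρ) * (w t + La * (η / 2 + ρ)) * F s := by
  have hρ : 0 ≤ ρ := (abs_nonneg _).trans hts
  set K := (η / 2 + ρ) * (w t + La * (η / 2 + ρ)) with hK
  have e : φ t * F s - omv φ S c A B F s
      = (φ t - φ s) * (F s - st S c A B s)
        + ∑ i ∈ S, (Ico (A i) (B i)).indicator (fun _ => c i * (φ t - φ ((A i + B i) / 2))) s := by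
    have e1 : ∑ i ∈ S, (Ico (A i) (B i)).indicator
          (fun _ => c i * (φ t - φ ((A i + B i) / 2))) s
        = φ t * st S c A B s - st S (fun i => c i * φ ((A i + B i) / 2)) A B s := by
      unfold st
      rw [Finset.mul_sum, ← Finset.sum_sub_distrib]
      apply Finset.sum_congr rfl
      intro i _
      by_cases h : s ∈ Ico (A i) (B i)
      · simp [h]; ring
      · simp [h]
    rw [e1]; unfold omv; ring
  rw [e]
  have h1 : |(φ t - φ s) * (F s - st S c A B s)| ≤ K * (F s - st S c A B s) := by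
    rw [abs_mul, abs_of_nonneg (sub_nonneg.mpr (hFS s))]
    apply mul_le_mul_of_nonneg_right _ (sub_nonneg.mpr (hFS s))
    rw [hK]
    apply phi_sub_abs hφ hw hw0 hLip hLa
    linarith
  have h2 : |∑ i ∈ S, (Ico (A i) (B i)).indicator
        (fun _ => c i * (φ t - φ ((A i + B i) / 2))) s| ≤ K * st S c A B s := by
    refine (Finset.abs_sum_le_sum_abs _ _).trans ?_
    unfold st
    rw [Finset.mul_sum]
    apply Finset.sum_le_sum
    intro i hi
    by_cases h : s ∈ Ico (A i) (B i)
    · simp only [h, indicator_of_mem]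
      rw [abs_mul, abs_of_nonneg (hc i hi), mul_comm]
      apply mul_le_mul_of_nonneg_right _ (hc i hi)
      rw [hK]
      apply phi_sub_abs hφ hw hw0 hLip hLa
      have hm : |(A i + B i) / 2 - s| ≤ η / 2 := by
        have := hsh i hi
        rw [abs_le]; constructor <;> linarith [h.1, h.2]
      calc |(A i + B i) / 2 - t| = |((A i + B i) / 2 - s) + (s - t)| := by ring_nf
        _ ≤ |(A i + B i) / 2 - s| + |s - t| := abs_add_le _ _
        _ ≤ η / 2 + ρ := by linarith
    · simp [h]
  calc |(φ t - φ s) * (F s - st S c A B s) + ∑ i ∈ S, (Ico (A i) (B i)).indicator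
          (fun _ => c i * (φ t - φ ((A i + B i) / 2))) s|
      ≤ |(φ t - φ s) * (F s - st S c A B s)| + |∑ i ∈ S, (Ico (A i) (B i)).indicator
          (fun _ => c i * (φ t - φ ((A i + B i) / 2))) s| := abs_add_le _ _
    _ ≤ K * (F s - st S c A B s) + K * st S c A B s := add_le_add h1 h2
    _ = K * F s := by ring

/-- far from the support of `w` the difference vanishes -/
lemma omv_diff_zero {ι : Type*} {φ : ℝ → ℝ} (S : Finset ι) (c A B : ι → ℝ)
    {η ρ : ℝ} (hη : 0 ≤ η)
    (hsh : ∀ i ∈ S, B i - A i ≤ η) {F : ℝ → ℝ}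
    {t s : ℝ} (hts : |s - t| ≤ ρ) (hcon : ∀ r, |r - t| ≤ η / 2 + ρ → φ r = φ t) :
    φ t * F s - omv φ S c A B F s = 0 := by
  have hs : φ s = φ t := hcon s (by linarith)
  have e1 : st S (fun i => c i * φ ((A i + B i) / 2)) A B s = φ t * st S c A B s := by
    unfold st
    rw [Finset.mul_sum]
    apply Finset.sum_congr rfl
    intro i hi
    by_cases h : s ∈ Ico (A i) (B i)
    · simp only [h, indicator_of_mem]
      rw [hcon]
      · ring
      have hm : |(A i + B i) / 2 - s| ≤ η / 2 := by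
        have := hsh i hi
        rw [abs_le]; constructor <;> linarith [h.1, h.2]
      calc |(A i + B i) / 2 - t| = |((A i + B i) / 2 - s) + (s - t)| := by ring_nf
        _ ≤ |(A i + B i) / 2 - s| + |s - t| := abs_add_le _ _
        _ ≤ η / 2 + ρ := by linarith
    · simp [h]
  unfold omv
  rw [e1, hs]; ring

lemma bx_nonneg {ρ : ℝ} (hρ : 0 ≤ ρ) {G : ℝ → ℝ} (hG : ∀ t, 0 ≤ G t) (t : ℝ) :
    0 ≤ bx ρ G t :=
  intervalIntegral.integral_nonneg (by linarith) fun s _ => hG s

lemma bx_mono {ρ : ℝ} (hρ : 0 ≤ ρ) {G H : ℝ → ℝ} (hG : LocallyIntegrable G volume)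
    (hH : LocallyIntegrable H volume) (h : ∀ t, G t ≤ H t) (t : ℝ) :
    bx ρ G t ≤ bx ρ H t :=
  intervalIntegral.integral_mono_on (by linarith) (ii_of_loc hG _ _) (ii_of_loc hH _ _)
    fun s _ => h s

/-- the weight at an end: `1_R(t) (w(t) + La η)` -/
noncomputable def qw (w : ℝ → ℝ) (La η : ℝ) (R : Set ℝ) (t : ℝ) : ℝ :=
  R.indicator (fun t => w t + La * η) t

lemma qw_nonneg {w : ℝ → ℝ} {La η : ℝ} {R : Set ℝ} (hw0 : ∀ t, 0 ≤ w t) (hLa : 0 ≤ La)
    (hη : 0 ≤ η) (t : ℝ) : 0 ≤ qw w La η R t :=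
  indicator_nonneg (fun t _ => add_nonneg (hw0 t) (mul_nonneg hLa hη)) t

/-- **the `z` bound.** -/
theorem zz_abs {ι : Type*} {φ w : ℝ → ℝ} (hφ : ∀ t, HasDerivAt φ (-w t) t)
    (hw : Continuous w) {La : ℝ} (hw0 : ∀ t, 0 ≤ w t)
    (hLip : ∀ s t, |w s - w t| ≤ La * |s - t|) (hLa : 0 ≤ La) (S : Finset ι) (c A B : ι → ℝ)
    (hc : ∀ i ∈ S, 0 ≤ c i) {η ρ : ℝ} (hη : 0 ≤ η) (hρ : 0 ≤ ρ) (hρη : ρ ≤ η / 2)
    (hsh : ∀ i ∈ S, B i - A i ≤ η) {F : ℝ → ℝ} (hF : LocallyIntegrable F volume)
    (hFS : ∀ t, st S c A B t ≤ F t) {R : Set ℝ}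
    (hR : ∀ t, t ∉ R → ∀ r, |r - t| ≤ η → φ r = φ t) (t : ℝ) :
    |zz ρ φ F (omv φ S c A B F) t| ≤ η * qw w La η R t * bx ρ F t := by
  have hφc : Continuous φ := continuous_iff_continuousAt.mpr fun t => (hφ t).continuousAt
  have hF0 : ∀ t, 0 ≤ F t := fun t => (st_nonneg hc t).trans (hFS t)
  have hOm := loc_omv hφc S c A B hF
  have hii1 : IntervalIntegrable (fun s => φ t * F s - omv φ S c A B F s) volume
      (t - ρ) (t + ρ) := ((ii_of_loc hF _ _).const_mul _).sub (ii_of_loc hOm _ _)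
  by_cases ht : t ∈ R
  · have h1 : |zz ρ φ F (omv φ S c A B F) t|
        ≤ ∫ s in (t - ρ)..(t + ρ), |φ t * F s - omv φ S c A B F s| := by
      unfold zz
      exact intervalIntegral.abs_integral_le_integral_abs (by linarith)
    have h2 : ∫ s in (t - ρ)..(t + ρ), |φ t * F s - omv φ S c A B F s|
        ≤ ∫ s in (t - ρ)..(t + ρ), (η * (w t + La * η)) * F s := by
      apply intervalIntegral.integral_mono_on (by linarith) hii1.abs
        ((ii_of_loc hF _ _).const_mul _)
      intro s hs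
      have hts : |s - t| ≤ ρ := by rw [abs_le]; constructor <;> linarith [hs.1, hs.2]
      refine (omv_diff_abs hφ hw hw0 hLip hLa S c A B hc hη hsh hFS hts).trans ?_
      apply mul_le_mul_of_nonneg_right _ (hF0 s)
      have h3 : η / 2 + ρ ≤ η := by linarith
      have h4 : 0 ≤ η / 2 + ρ := by linarith
      have h5 : La * (η / 2 + ρ) ≤ La * η := mul_le_mul_of_nonneg_left h3 hLa
      have h6 : 0 ≤ La * (η / 2 + ρ) := mul_nonneg hLa h4
      apply mul_le_mul h3 (by linarith) (add_nonneg (hw0 t) h6) hη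
    rw [intervalIntegral.integral_const_mul] at h2
    unfold qw
    rw [indicator_of_mem ht]
    exact h1.trans h2
  · have h1 : zz ρ φ F (omv φ S c A B F) t = 0 := by
      unfold zz
      rw [intervalIntegral.integral_congr (g := fun _ => (0:ℝ)), intervalIntegral.integral_zero]
      intro s hs
      rw [uIcc_of_le (by linarith)] at hs
      have hts : |s - t| ≤ ρ := by rw [abs_le]; constructor <;> linarith [hs.1, hs.2]
      exact omv_diff_zero S c A B hη hsh hts fun r hr => hR t ht r (hr.trans (by linarith))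
    rw [h1, abs_zero]
    unfold qw
    rw [indicator_of_notMem ht]
    simp

/-! ### the bilinear form `D_ρ` -/

/-- `D_ρ((F,Ω_F),(G,Ω_G))` for two densities moving with velocities `Ω_F/F`, `Ω_G/G` -/
noncomputable def DD (ρ : ℝ) (F OF G OG : ℝ → ℝ) : ℝ :=
  (∫ t, (OF t * G (t + ρ) - F t * OG (t + ρ))) - ∫ t, (OF t * G (t - ρ) - F t * OG (t - ρ))

lemma DD_left {ι : Type*} (S : Finset ι) (c A B : ι → ℝ) {φ G OG : ℝ → ℝ}
    (hφc : Continuous φ) (hG : LocallyIntegrable G volume) (hOG : LocallyIntegrable OG volume)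
    (ρ : ℝ) :
    DD ρ (st S c A B) (fun t => φ t * st S c A B t) G OG = hf ρ φ (st S c A B) G OG ∧
    Integrable (fun t => φ t * st S c A B t * G (t + ρ) - st S c A B t * OG (t + ρ)) volume ∧
    Integrable (fun t => φ t * st S c A B t * G (t - ρ) - st S c A B t * OG (t - ρ)) volume := by
  have e1 : (fun t => φ t * st S c A B t * G (t + ρ) - st S c A B t * OG (t + ρ))
      = fun t => st S c A B t * (φ t * G (t + ρ) - OG (t + ρ)) := by
    funext t; ring
  have e2 : (fun t => φ t * st S c A B t * G (t - ρ) - st S c A B t * OG (t - ρ))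
      = fun t => st S c A B t * (φ t * G (t - ρ) - OG (t - ρ)) := by
    funext t; ring
  have l1 : LocallyIntegrable (fun t => φ t * G (t + ρ) - OG (t + ρ)) volume :=
    ((loc_shift hG ρ).continuous_mul hφc).sub (loc_shift hOG ρ)
  have l2 : LocallyIntegrable (fun t => φ t * G (t - ρ) - OG (t - ρ)) volume :=
    ((loc_shift_sub hG ρ).continuous_mul hφc).sub (loc_shift_sub hOG ρ)
  have i1 := integrable_st_mul S c A B l1
  have i2 := integrable_st_mul S c A B l2
  refine ⟨?_, e1 ▸ i1, e2 ▸ i2⟩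
  unfold DD hf
  rw [e1, e2, ← integral_sub i1 i2]
  apply integral_congr_ae
  filter_upwards with t
  ring

lemma DD_right {ι : Type*} (S : Finset ι) (c A B : ι → ℝ) {φ F OF : ℝ → ℝ}
    (hφc : Continuous φ) (hF : LocallyIntegrable F volume) (hOF : LocallyIntegrable OF volume)
    (ρ : ℝ) :
    DD ρ F OF (st S c A B) (fun t => φ t * st S c A B t) = hf ρ φ (st S c A B) F OF ∧
    Integrable (fun t => OF t * st S c A B (t + ρ) - F t * (φ (t + ρ) * st S c A B (t + ρ)))
      volume ∧
    Integrable (fun t => OF t * st S c A B (t - ρ) - F t * (φ (t - ρ) * st S c A B (t - ρ)))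
      volume := by
  have l1 : LocallyIntegrable (fun s => OF (s - ρ) - φ s * F (s - ρ)) volume :=
    (loc_shift_sub hOF ρ).sub ((loc_shift_sub hF ρ).continuous_mul hφc)
  have l2 : LocallyIntegrable (fun s => OF (s + ρ) - φ s * F (s + ρ)) volume :=
    (loc_shift hOF ρ).sub ((loc_shift hF ρ).continuous_mul hφc)
  have i1 := integrable_st_mul S c A B l1
  have i2 := integrable_st_mul S c A B l2
  have e1 : (fun t => OF t * st S c A B (t + ρ) - F t * (φ (t + ρ) * st S c A B (t + ρ)))
      = fun t => (fun s => st S c A B s * (OF (s - ρ) - φ s * F (s - ρ))) (t + ρ) := by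
    funext t
    simp only [add_sub_cancel_right]
    ring
  have e2 : (fun t => OF t * st S c A B (t - ρ) - F t * (φ (t - ρ) * st S c A B (t - ρ)))
      = fun t => (fun s => st S c A B s * (OF (s + ρ) - φ s * F (s + ρ))) (t - ρ) := by
    funext t
    simp only [sub_add_cancel]
    ring
  have j1 := i1.comp_add_right ρ
  have j2 := i2.comp_sub_right ρ
  refine ⟨?_, e1 ▸ j1, e2 ▸ j2⟩
  unfold DD hf
  rw [e1, e2, integral_add_right_eq_self (fun s => st S c A B s * (OF (s - ρ) - φ s * F (s - ρ))) ρ,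
    integral_sub_right_eq_self (fun s => st S c A B s * (OF (s + ρ) - φ s * F (s + ρ))) ρ,
    ← integral_sub i1 i2]
  apply integral_congr_ae
  filter_upwards with t
  ring

lemma int4 {f1 f2 f3 f4 g : ℝ → ℝ} (h1 : Integrable f1 volume) (h2 : Integrable f2 volume)
    (h3 : Integrable f3 volume) (h4 : Integrable f4 volume)
    (hg : ∀ t, g t = f1 t - f2 t - f3 t + f4 t) :
    ∫ t, g t = (∫ t, f1 t) - (∫ t, f2 t) - (∫ t, f3 t) + ∫ t, f4 t := by
  have h12 : Integrable (fun t => f1 t - f2 t) volume := h1.sub h2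
  have h123 : Integrable (fun t => f1 t - f2 t - f3 t) volume := h12.sub h3
  rw [← integral_sub h1 h2, ← integral_sub h12 h3, ← integral_add h123 h4]
  exact integral_congr_ae (Filter.Eventually.of_forall hg)

/-- decomposition `D = D' + D^{L*} + D^{*L} - D^{LL}` -/
theorem DD_decomp {ι κ : Type*} (S : Finset ι) (c A B : ι → ℝ) (T : Finset κ) (d A' B' : κ → ℝ)
    {φ F OF G OG : ℝ → ℝ} (hφc : Continuous φ)
    (hF : LocallyIntegrable F volume) (hOF : LocallyIntegrable OF volume)
    (hG : LocallyIntegrable G volume) (hOG : LocallyIntegrable OG volume) (ρ : ℝ)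
    (hI1 : Integrable (fun t => OF t * G (t + ρ) - F t * OG (t + ρ)) volume)
    (hI2 : Integrable (fun t => OF t * G (t - ρ) - F t * OG (t - ρ)) volume) :
    DD ρ F OF G OG
      = DD ρ (fun t => F t - st S c A B t) (fun t => OF t - φ t * st S c A B t)
          (fun t => G t - st T d A' B' t) (fun t => OG t - φ t * st T d A' B' t)
        + hf ρ φ (st S c A B) G OG + hf ρ φ (st T d A' B') F OF
        - hf ρ φ (st S c A B) (st T d A' B') (fun t => φ t * st T d A' B' t) := by
  obtain ⟨a1, a2, a3⟩ := DD_left S c A B hφc hG hOG ρ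
  obtain ⟨b1, b2, b3⟩ := DD_right T d A' B' hφc hF hOF ρ
  have hT := loc_st T d A' B'
  have hφT : LocallyIntegrable (fun t => φ t * st T d A' B' t) volume := hT.continuous_mul hφc
  obtain ⟨c1, c2, c3⟩ := DD_left S c A B hφc hT hφT ρ
  rw [← a1, ← b1, ← c1]
  unfold DD
  have e1 : ∫ t, ((OF t - φ t * st S c A B t) * (G (t + ρ) - st T d A' B' (t + ρ))
        - (F t - st S c A B t) * (OG (t + ρ) - φ (t + ρ) * st T d A' B' (t + ρ)))
      = (∫ t, (OF t * G (t + ρ) - F t * OG (t + ρ)))
        - (∫ t, (φ t * st S c A B t * G (t + ρ) - st S c A B t * OG (t + ρ)))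
        - (∫ t, (OF t * st T d A' B' (t + ρ) - F t * (φ (t + ρ) * st T d A' B' (t + ρ))))
        + ∫ t, (φ t * st S c A B t * st T d A' B' (t + ρ)
            - st S c A B t * (φ (t + ρ) * st T d A' B' (t + ρ))) := by
    exact int4 hI1 a2 b2 c2 fun t => by ring
  have e2 : ∫ t, ((OF t - φ t * st S c A B t) * (G (t - ρ) - st T d A' B' (t - ρ))
        - (F t - st S c A B t) * (OG (t - ρ) - φ (t - ρ) * st T d A' B' (t - ρ)))
      = (∫ t, (OF t * G (t - ρ) - F t * OG (t - ρ)))
        - (∫ t, (φ t * st S c A B t * G (t - ρ) - st S c A B t * OG (t - ρ)))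
        - (∫ t, (OF t * st T d A' B' (t - ρ) - F t * (φ (t - ρ) * st T d A' B' (t - ρ))))
        + ∫ t, (φ t * st S c A B t * st T d A' B' (t - ρ)
            - st S c A B t * (φ (t - ρ) * st T d A' B' (t - ρ))) := by
    exact int4 hI2 a3 b3 c3 fun t => by ring
  rw [e1, e2]
  ring

/-- end sums -/
noncomputable def ends {ι : Type*} (S : Finset ι) (c A B : ι → ℝ) (g : ℝ → ℝ) : ℝ :=
  ∑ i ∈ S, c i * (g (A i) + g (B i))

lemma hf_st_ge {ι : Type*} (S : Finset ι) (c A B : ι → ℝ) (hAB : ∀ i ∈ S, A i ≤ B i)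
    (hc : ∀ i ∈ S, 0 ≤ c i)
    {φ w G Om : ℝ → ℝ} (hφ : ∀ t, HasDerivAt φ (-w t) t) (hw : Continuous w)
    (hG : LocallyIntegrable G volume) (hOm : LocallyIntegrable Om volume) (ρ : ℝ)
    {q : ℝ → ℝ} (hq : ∀ t, |zz ρ φ G Om t| ≤ q t) :
    |hf ρ φ (st S c A B) G Om - ∫ t, w t * st S c A B t * bx ρ G t| ≤ ends S c A B q := by
  rw [hf_st S c A B hAB hφ hw hG hOm, add_sub_cancel_left]
  refine (Finset.abs_sum_le_sum_abs _ _).trans ?_
  unfold ends
  apply Finset.sum_le_sum
  intro i hi
  rw [abs_mul, abs_of_nonneg (hc i hi)]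
  apply mul_le_mul_of_nonneg_left _ (hc i hi)
  calc |zz ρ φ G Om (B i) - zz ρ φ G Om (A i)|
      ≤ |zz ρ φ G Om (B i)| + |zz ρ φ G Om (A i)| := abs_sub _ _
    _ ≤ q (A i) + q (B i) := by linarith [hq (A i), hq (B i)]


lemma ends_const_mul {ι : Type*} (S : Finset ι) (c A B : ι → ℝ) (k : ℝ) (g : ℝ → ℝ) :
    ends S c A B (fun t => k * g t) = k * ends S c A B g := by
  unfold ends
  rw [Finset.mul_sum]
  apply Finset.sum_congr rfl
  intro i _
  ring

lemma omv_empty {ι : Type*} (φ : ℝ → ℝ) (c A B : ι → ℝ) (F : ℝ → ℝ) :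
    omv φ ∅ c A B F = fun t => φ t * F t := by
  funext t; simp [omv, st]

lemma omv_sub {ι : Type*} (φ : ℝ → ℝ) (S : Finset ι) (c A B : ι → ℝ) (F H : ℝ → ℝ) (t : ℝ) :
    omv φ S c A B (fun t => F t - H t) t = omv φ S c A B F t - φ t * H t := by
  simp only [omv]; ring

/-- **STEP R, one `(θ, θ', ρ)`.**  `F ≥ F^S + F^L`, `G ≥ G^S + G^L` (short layers move rigidly with
velocity `φ(centre)`, everything else with velocity `φ(t)`); `hpos` = positivity of the remaining
part. -/
theorem stepR1 {ι κ : Type*} {φ w : ℝ → ℝ} (hφ : ∀ t, HasDerivAt φ (-w t) t)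
    (hw : Continuous w) {La : ℝ} (hw0 : ∀ t, 0 ≤ w t)
    (hLip : ∀ s t, |w s - w t| ≤ La * |s - t|) (hLa : 0 ≤ La)
    {η ρ : ℝ} (hη : 0 ≤ η) (hρ : 0 ≤ ρ) (hρη : ρ ≤ η / 2) {R : Set ℝ}
    (hR : ∀ t, t ∉ R → ∀ r, |r - t| ≤ η → φ r = φ t)
    (SF LF : Finset ι) (c A B : ι → ℝ) (hcS : ∀ i ∈ SF, 0 ≤ c i) (hcL : ∀ i ∈ LF, 0 ≤ c i)
    (hsh : ∀ i ∈ SF, B i - A i ≤ η) (hAB : ∀ i ∈ LF, A i ≤ B i)
    (SG LG : Finset κ) (d A' B' : κ → ℝ) (hdS : ∀ i ∈ SG, 0 ≤ d i) (hdL : ∀ i ∈ LG, 0 ≤ d i)
    (hsh' : ∀ i ∈ SG, B' i - A' i ≤ η) (hAB' : ∀ i ∈ LG, A' i ≤ B' i)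
    {F G : ℝ → ℝ} (hF : LocallyIntegrable F volume) (hG : LocallyIntegrable G volume)
    (hFS : ∀ t, st SF c A B t + st LF c A B t ≤ F t)
    (hGS : ∀ t, st SG d A' B' t + st LG d A' B' t ≤ G t)
    (hI1 : Integrable (fun t => omv φ SF c A B F t * G (t + ρ)
      - F t * omv φ SG d A' B' G (t + ρ)) volume)
    (hI2 : Integrable (fun t => omv φ SF c A B F t * G (t - ρ)
      - F t * omv φ SG d A' B' G (t - ρ)) volume)
    (hpos : 0 ≤ DD ρ (fun t => F t - st LF c A B t)
      (omv φ SF c A B (fun t => F t - st LF c A B t))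
      (fun t => G t - st LG d A' B' t) (omv φ SG d A' B' (fun t => G t - st LG d A' B' t))) :
    (∫ t, w t * st LF c A B t * bx ρ G t) + (∫ t, w t * st LG d A' B' t * bx ρ F t)
      - (∫ t, w t * st LF c A B t * bx ρ (st LG d A' B') t)
      - η * (2 * ends LF c A B (fun y => qw w La η R y * bx ρ G y)
        + ends LG d A' B' (fun y => qw w La η R y * bx ρ F y))
    ≤ DD ρ F (omv φ SF c A B F) G (omv φ SG d A' B' G) := by
  have hφc : Continuous φ := continuous_iff_continuousAt.mpr fun t => (hφ t).continuousAt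
  have hOF := loc_omv hφc SF c A B hF
  have hOG := loc_omv hφc SG d A' B' hG
  have hGL := loc_st LG d A' B'
  have hφGL : LocallyIntegrable (fun t => φ t * st LG d A' B' t) volume :=
    hGL.continuous_mul hφc
  have hFL0 : ∀ t, 0 ≤ st LF c A B t := st_nonneg hcL
  have hGL0 : ∀ t, 0 ≤ st LG d A' B' t := st_nonneg hdL
  have hFS0 : ∀ t, 0 ≤ st SF c A B t := st_nonneg hcS
  have hGS0 : ∀ t, 0 ≤ st SG d A' B' t := st_nonneg hdS
  have hdec := DD_decomp LF c A B LG d A' B' hφc hF hOF hG hOG ρ hI1 hI2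
  have eF : omv φ SF c A B (fun t => F t - st LF c A B t)
      = fun t => omv φ SF c A B F t - φ t * st LF c A B t := by
    funext t; exact omv_sub φ SF c A B F _ t
  have eG : omv φ SG d A' B' (fun t => G t - st LG d A' B' t)
      = fun t => omv φ SG d A' B' G t - φ t * st LG d A' B' t := by
    funext t; exact omv_sub φ SG d A' B' G _ t
  rw [eF, eG] at hpos
  -- z bounds
  have z1 : ∀ t, |zz ρ φ G (omv φ SG d A' B' G) t| ≤ η * (qw w La η R t * bx ρ G t) := by
    intro t
    have := zz_abs hφ hw hw0 hLip hLa SG d A' B' hdS hη hρ hρη hsh' hG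
      (fun t => by linarith [hGS t, hGL0 t]) hR t
    linarith
  have z2 : ∀ t, |zz ρ φ F (omv φ SF c A B F) t| ≤ η * (qw w La η R t * bx ρ F t) := by
    intro t
    have := zz_abs hφ hw hw0 hLip hLa SF c A B hcS hη hρ hρη hsh hF
      (fun t => by linarith [hFS t, hFL0 t]) hR t
    linarith
  have z3 : ∀ t, |zz ρ φ (st LG d A' B') (fun t => φ t * st LG d A' B' t) t|
      ≤ η * (qw w La η R t * bx ρ G t) := by
    intro t
    have h := zz_abs hφ hw hw0 hLip hLa (∅ : Finset κ) d A' B' (by simp) hη hρ hρη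
      (by simp) hGL (fun t => by simpa [st] using hGL0 t) hR t
    rw [omv_empty] at h
    refine h.trans ?_
    have h2 : bx ρ (st LG d A' B') t ≤ bx ρ G t :=
      bx_mono hρ hGL hG (fun t => by linarith [hGS t, hGS0 t]) t
    have h3 : 0 ≤ η * qw w La η R t := mul_nonneg hη (qw_nonneg hw0 hLa hη t)
    calc η * qw w La η R t * bx ρ (st LG d A' B') t ≤ η * qw w La η R t * bx ρ G t :=
          mul_le_mul_of_nonneg_left h2 h3
      _ = η * (qw w La η R t * bx ρ G t) := by ring
  have h1 := hf_st_ge LF c A B hAB hcL hφ hw hG hOG ρ z1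
  have h2 := hf_st_ge LG d A' B' hAB' hdL hφ hw hF hOF ρ z2
  have h3 := hf_st_ge LF c A B hAB hcL hφ hw hGL hφGL ρ z3
  rw [ends_const_mul] at h1 h2 h3
  have h1' := (abs_le.mp h1).1
  have h2' := (abs_le.mp h2).1
  have h3' := (abs_le.mp h3).2
  rw [hdec]
  linarith

end Crest.Agent.R077.StepR1
end

-- ▼ part R077/DPos
section

set_option autoImplicit false

namespace Crest.Agent.R077.StepR1

open MeasureTheory Set

/-! ### positivity of the pairing (SS, SL, LS, LL) -/

/-- unit indicator of `[a,b)` -/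
noncomputable def un (a b t : ℝ) : ℝ := (Ico a b).indicator (fun _ => (1:ℝ)) t

lemma un_of_mem {a b t : ℝ} (h : t ∈ Ico a b) : un a b t = 1 := by simp [un, h]
lemma un_of_notMem {a b t : ℝ} (h : t ∉ Ico a b) : un a b t = 0 := by simp [un, h]
lemma un_nonneg (a b t : ℝ) : 0 ≤ un a b t := indicator_nonneg (fun _ _ => zero_le_one) _
lemma un_le_one (a b t : ℝ) : un a b t ≤ 1 := by
  by_cases h : t ∈ Ico a b
  · rw [un_of_mem h]
  · rw [un_of_notMem h]; exact zero_le_one

lemma st_eq {ι : Type*} (S : Finset ι) (c A B : ι → ℝ) (t : ℝ) :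
    st S c A B t = ∑ i ∈ S, c i * un (A i) (B i) t := by
  unfold st un
  apply Finset.sum_congr rfl
  intro i _
  by_cases h : t ∈ Ico (A i) (B i)
  · simp [h]
  · simp [h]

lemma vel_sign {φ : ℝ → ℝ} (hφ : Antitone φ) {a b t ρ : ℝ} (hρ : 0 ≤ ρ) :
    0 ≤ (φ t - φ ((a + b) / 2)) * (un a b (t + ρ) - un a b (t - ρ)) := by
  rcases lt_trichotomy t ((a + b) / 2) with h | h | h
  · apply mul_nonneg (sub_nonneg.mpr (hφ h.le))
    rw [sub_nonneg]
    by_cases h1 : t - ρ ∈ Ico a b
    · have h2 : t + ρ ∈ Ico a b := ⟨by linarith [h1.1], by linarith [h1.1]⟩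
      rw [un_of_mem h1, un_of_mem h2]
    · rw [un_of_notMem h1]; exact un_nonneg _ _ _
  · rw [h]; simp
  · apply mul_nonneg_of_nonpos_of_nonpos (sub_nonpos.mpr (hφ h.le))
    rw [sub_nonpos]
    by_cases h1 : t + ρ ∈ Ico a b
    · have h2 : t - ρ ∈ Ico a b := ⟨by linarith [h1.2], by linarith [h1.2]⟩
      rw [un_of_mem h1, un_of_mem h2]
    · rw [un_of_notMem h1]; exact un_nonneg _ _ _

lemma K_nonneg {ι : Type*} {φ : ℝ → ℝ} (hφ : Antitone φ) (S : Finset ι) (c A B : ι → ℝ)
    (hc : ∀ i ∈ S, 0 ≤ c i) {ρ : ℝ} (hρ : 0 ≤ ρ) (t : ℝ) :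
    0 ≤ φ t * (st S c A B (t + ρ) - st S c A B (t - ρ))
      - (st S (fun i => c i * φ ((A i + B i) / 2)) A B (t + ρ)
        - st S (fun i => c i * φ ((A i + B i) / 2)) A B (t - ρ)) := by
  have e : φ t * (st S c A B (t + ρ) - st S c A B (t - ρ))
      - (st S (fun i => c i * φ ((A i + B i) / 2)) A B (t + ρ)
        - st S (fun i => c i * φ ((A i + B i) / 2)) A B (t - ρ))
      = ∑ i ∈ S, c i * ((φ t - φ ((A i + B i) / 2)) *
          (un (A i) (B i) (t + ρ) - un (A i) (B i) (t - ρ))) := by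
    simp only [st_eq]
    rw [← Finset.sum_sub_distrib, ← Finset.sum_sub_distrib, Finset.mul_sum,
      ← Finset.sum_sub_distrib]
    apply Finset.sum_congr rfl
    intro i _
    ring
  rw [e]
  exact Finset.sum_nonneg fun i hi => mul_nonneg (hc i hi) (vel_sign hφ hρ)

/-- overlap of `[a,b)` with the translate of `[c,d)` -/
noncomputable def ovl (a b c d x : ℝ) : ℝ := ∫ t, un a b t * un c d (t + x)

lemma un_mul_un (a b c d x t : ℝ) :
    un a b t * un c d (t + x) = un (max a (c - x)) (min b (d - x)) t := by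
  by_cases h1 : t ∈ Ico a b
  · by_cases h2 : t + x ∈ Ico c d
    · have h3 : t ∈ Ico (max a (c - x)) (min b (d - x)) :=
        ⟨max_le h1.1 (by linarith [h2.1]), lt_min h1.2 (by linarith [h2.2])⟩
      rw [un_of_mem h1, un_of_mem h2, un_of_mem h3, one_mul]
    · have h3 : t ∉ Ico (max a (c - x)) (min b (d - x)) := by
        intro h
        apply h2
        exact ⟨by linarith [le_of_max_le_right h.1], by linarith [lt_of_lt_of_le h.2 (min_le_right _ _)]⟩
      rw [un_of_notMem h2, un_of_notMem h3, mul_zero]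
  · have h3 : t ∉ Ico (max a (c - x)) (min b (d - x)) := by
      intro h
      apply h1
      exact ⟨le_of_max_le_left h.1, lt_of_lt_of_le h.2 (min_le_left _ _)⟩
    rw [un_of_notMem h1, un_of_notMem h3, zero_mul]

lemma integrable_un (a b : ℝ) : Integrable (un a b) volume := by
  unfold un
  rw [integrable_indicator_iff measurableSet_Ico]
  exact integrableOn_const (by simp)

lemma integral_un (a b : ℝ) : ∫ t, un a b t = max 0 (b - a) := by
  unfold un
  rw [integral_indicator measurableSet_Ico]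
  simp [Measure.real, Real.volume_Ico, ENNReal.toReal_ofReal']
  rw [max_comm]

lemma integrable_ovl (a b c d x : ℝ) :
    Integrable (fun t => un a b t * un c d (t + x)) volume := by
  simp only [un_mul_un]
  exact integrable_un _ _

lemma ovl_eq (a b c d x : ℝ) : ovl a b c d x = max 0 (min b (d - x) - max a (c - x)) := by
  unfold ovl
  simp only [un_mul_un]
  exact integral_un _ _

lemma ovl_le {a b c d ρ : ℝ} (hρ : 0 ≤ ρ) (h : a + b ≤ c + d) :
    ovl a b c d (-ρ) ≤ ovl a b c d ρ := by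
  rw [ovl_eq, ovl_eq]
  apply max_le_max le_rfl
  simp only [sub_neg_eq_add]
  rcases min_cases b (d - ρ) with h1 | h1 <;> rcases max_cases a (c - ρ) with h2 | h2 <;>
  rcases min_cases b (d + ρ) with h3 | h3 <;> rcases max_cases a (c + ρ) with h4 | h4 <;>
  linarith

lemma ovl_ge {a b c d ρ : ℝ} (hρ : 0 ≤ ρ) (h : c + d ≤ a + b) :
    ovl a b c d ρ ≤ ovl a b c d (-ρ) := by
  rw [ovl_eq, ovl_eq]
  apply max_le_max le_rfl
  simp only [sub_neg_eq_add]
  rcases min_cases b (d - ρ) with h1 | h1 <;> rcases max_cases a (c - ρ) with h2 | h2 <;>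
  rcases min_cases b (d + ρ) with h3 | h3 <;> rcases max_cases a (c + ρ) with h4 | h4 <;>
  linarith

lemma ovl_sign {φ : ℝ → ℝ} (hφ : Antitone φ) {a b c d ρ : ℝ} (hρ : 0 ≤ ρ) :
    0 ≤ (φ ((a + b) / 2) - φ ((c + d) / 2)) * (ovl a b c d ρ - ovl a b c d (-ρ)) := by
  rcases le_total (a + b) (c + d) with h | h
  · exact mul_nonneg (sub_nonneg.mpr (hφ (by linarith))) (sub_nonneg.mpr (ovl_le hρ h))
  · exact mul_nonneg_of_nonpos_of_nonpos (sub_nonpos.mpr (hφ (by linarith)))
      (sub_nonpos.mpr (ovl_ge hρ h))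

lemma SS_integral {ι κ : Type*} {φ : ℝ → ℝ} (S : Finset ι) (c A B : ι → ℝ)
    (T : Finset κ) (d A' B' : κ → ℝ) (x : ℝ) :
    Integrable (fun t => st S (fun i => c i * φ ((A i + B i) / 2)) A B t * st T d A' B' (t + x)
      - st S c A B t * st T (fun j => d j * φ ((A' j + B' j) / 2)) A' B' (t + x)) volume ∧
    ∫ t, (st S (fun i => c i * φ ((A i + B i) / 2)) A B t * st T d A' B' (t + x)
      - st S c A B t * st T (fun j => d j * φ ((A' j + B' j) / 2)) A' B' (t + x))
      = ∑ i ∈ S, ∑ j ∈ T, c i * d j * ((φ ((A i + B i) / 2) - φ ((A' j + B' j) / 2)) *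
          ovl (A i) (B i) (A' j) (B' j) x) := by
  have e : (fun t => st S (fun i => c i * φ ((A i + B i) / 2)) A B t * st T d A' B' (t + x)
      - st S c A B t * st T (fun j => d j * φ ((A' j + B' j) / 2)) A' B' (t + x))
      = fun t => ∑ i ∈ S, ∑ j ∈ T, c i * d j * ((φ ((A i + B i) / 2) - φ ((A' j + B' j) / 2)) *
          (un (A i) (B i) t * un (A' j) (B' j) (t + x))) := by
    funext t
    simp only [st_eq, Finset.sum_mul_sum]
    rw [← Finset.sum_sub_distrib]
    apply Finset.sum_congr rfl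
    intro i _
    rw [← Finset.sum_sub_distrib]
    apply Finset.sum_congr rfl
    intro j _
    ring
  have hint : ∀ i ∈ S, ∀ j ∈ T, Integrable (fun t => c i * d j *
      ((φ ((A i + B i) / 2) - φ ((A' j + B' j) / 2)) *
          (un (A i) (B i) t * un (A' j) (B' j) (t + x)))) volume := by
    intro i _ j _
    exact ((integrable_ovl _ _ _ _ _).const_mul _).const_mul _
  rw [e]
  refine ⟨integrable_finsetSum _ fun i hi => integrable_finsetSum _ fun j hj => hint i hi j hj, ?_⟩
  rw [integral_finsetSum _ fun i hi => integrable_finsetSum _ fun j hj => hint i hi j hj]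
  apply Finset.sum_congr rfl
  intro i hi
  rw [integral_finsetSum _ fun j hj => hint i hi j hj]
  apply Finset.sum_congr rfl
  intro j _
  rw [integral_const_mul, integral_const_mul]
  rfl

/-- integrability of the integrands after removing the long parts -/
lemma decomp_integrable {ι κ : Type*} (S : Finset ι) (c A B : ι → ℝ) (T : Finset κ)
    (d A' B' : κ → ℝ)
    {φ F OF G OG : ℝ → ℝ} (hφc : Continuous φ)
    (hF : LocallyIntegrable F volume) (hOF : LocallyIntegrable OF volume)
    (hG : LocallyIntegrable G volume) (hOG : LocallyIntegrable OG volume) (ρ : ℝ)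
    (hI1 : Integrable (fun t => OF t * G (t + ρ) - F t * OG (t + ρ)) volume)
    (hI2 : Integrable (fun t => OF t * G (t - ρ) - F t * OG (t - ρ)) volume) :
    Integrable (fun t => (OF t - φ t * st S c A B t) * (G (t + ρ) - st T d A' B' (t + ρ))
        - (F t - st S c A B t) * (OG (t + ρ) - φ (t + ρ) * st T d A' B' (t + ρ))) volume ∧
    Integrable (fun t => (OF t - φ t * st S c A B t) * (G (t - ρ) - st T d A' B' (t - ρ))
        - (F t - st S c A B t) * (OG (t - ρ) - φ (t - ρ) * st T d A' B' (t - ρ))) volume := by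
  obtain ⟨-, a2, a3⟩ := DD_left S c A B hφc hG hOG ρ
  obtain ⟨-, b2, b3⟩ := DD_right T d A' B' hφc hF hOF ρ
  have hT := loc_st T d A' B'
  have hφT : LocallyIntegrable (fun t => φ t * st T d A' B' t) volume := hT.continuous_mul hφc
  obtain ⟨-, c2, c3⟩ := DD_left S c A B hφc hT hφT ρ
  constructor
  · refine (((hI1.sub a2).sub b2).add c2).congr (Filter.Eventually.of_forall fun t => ?_)
    simp only [Pi.sub_apply, Pi.add_apply]
    ring
  · refine (((hI2.sub a3).sub b3).add c3).congr (Filter.Eventually.of_forall fun t => ?_)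
    simp only [Pi.sub_apply, Pi.add_apply]
    ring

/-- four-term splitting -/
lemma split4 {x1 x2 x3 x4 a : ℝ → ℝ} (h2 : Integrable x2 volume) (h3 : Integrable x3 volume)
    (h4 : Integrable x4 volume) (ha : Integrable a volume)
    (e : ∀ t, a t = x1 t + x2 t + x3 t + x4 t) :
    ∫ t, a t = (∫ t, x1 t) + (∫ t, x2 t) + (∫ t, x3 t) + ∫ t, x4 t := by
  have h1 : Integrable x1 volume := by
    refine (((ha.sub h2).sub h3).sub h4).congr (Filter.Eventually.of_forall fun t => ?_)
    simp only [Pi.sub_apply]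
    rw [e t]; ring
  have h12 : Integrable (fun t => x1 t + x2 t) volume := h1.add h2
  have h123 : Integrable (fun t => x1 t + x2 t + x3 t) volume := h12.add h3
  rw [← integral_add h1 h2, ← integral_add h12 h3, ← integral_add h123 h4]
  exact integral_congr_ae (Filter.Eventually.of_forall e)

/-- **positivity of the pairing**: rigid short layers (velocity `φ(centre)`), the rest with
velocity `φ(t)`. -/
theorem DD_nonneg {ι κ : Type*} {φ : ℝ → ℝ} (hφa : Antitone φ) (hφc : Continuous φ)
    (S : Finset ι) (c A B : ι → ℝ) (hc : ∀ i ∈ S, 0 ≤ c i)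
    (T : Finset κ) (d A' B' : κ → ℝ) (hd : ∀ i ∈ T, 0 ≤ d i)
    {F G : ℝ → ℝ} (hF : LocallyIntegrable F volume) (hG : LocallyIntegrable G volume)
    (hFS : ∀ t, st S c A B t ≤ F t) (hGS : ∀ t, st T d A' B' t ≤ G t) {ρ : ℝ} (hρ : 0 ≤ ρ)
    (hI1 : Integrable (fun t => omv φ S c A B F t * G (t + ρ)
      - F t * omv φ T d A' B' G (t + ρ)) volume)
    (hI2 : Integrable (fun t => omv φ S c A B F t * G (t - ρ)
      - F t * omv φ T d A' B' G (t - ρ)) volume) :
    0 ≤ DD ρ F (omv φ S c A B F) G (omv φ T d A' B' G) := by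
  set FS := st S c A B with hFSd
  set GS := st T d A' B' with hGSd
  set FR := st S (fun i => c i * φ ((A i + B i) / 2)) A B with hFRd
  set GR := st T (fun j => d j * φ ((A' j + B' j) / 2)) A' B' with hGRd
  have eF : ∀ t, omv φ S c A B F t = φ t * (F t - FS t) + FR t := fun t => rfl
  have eG : ∀ t, omv φ T d A' B' G t = φ t * (G t - GS t) + GR t := fun t => rfl
  have hPF0 : ∀ t, 0 ≤ F t - FS t := fun t => sub_nonneg.mpr (hFS t)
  have hPG0 : ∀ t, 0 ≤ G t - GS t := fun t => sub_nonneg.mpr (hGS t)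
  have lPF : LocallyIntegrable (fun t => F t - FS t) volume := hF.sub (loc_st S c A B)
  have lPG : LocallyIntegrable (fun t => G t - GS t) volume := hG.sub (loc_st T d A' B')
  have lφPF : LocallyIntegrable (fun t => φ t * (F t - FS t)) volume := lPF.continuous_mul hφc
  have lφPG : LocallyIntegrable (fun t => φ t * (G t - GS t)) volume := lPG.continuous_mul hφc
  -- LS terms
  have LSi : ∀ x : ℝ, Integrable (fun t => φ t * (F t - FS t) * GS (t + x)
      - (F t - FS t) * GR (t + x)) volume := by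
    intro x
    have l1 : LocallyIntegrable (fun s => φ (s - x) * (F (s - x) - FS (s - x))) volume :=
      loc_shift_sub lφPF x
    have l2 : LocallyIntegrable (fun s => F (s - x) - FS (s - x)) volume :=
      loc_shift_sub lPF x
    have i1 := (integrable_st_mul T d A' B' l1).comp_add_right x
    have i2 := (integrable_st_mul T (fun j => d j * φ ((A' j + B' j) / 2)) A' B' l2).comp_add_right x
    refine (i1.sub i2).congr (Filter.Eventually.of_forall fun t => ?_)
    simp only [Pi.sub_apply, add_sub_cancel_right, hGSd, hGRd]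
    ring
  -- SL terms
  have SLi : ∀ x : ℝ, Integrable (fun t => FR t * (G (t + x) - GS (t + x))
      - FS t * (φ (t + x) * (G (t + x) - GS (t + x)))) volume := by
    intro x
    have i1 := integrable_st_mul S (fun i => c i * φ ((A i + B i) / 2)) A B (loc_shift lPG x)
    have i2 := integrable_st_mul S c A B (loc_shift lφPG x)
    exact i1.sub i2
  -- SS terms
  obtain ⟨SS1, SSv1⟩ := SS_integral (φ := φ) S c A B T d A' B' ρ
  obtain ⟨SS2, SSv2⟩ := SS_integral (φ := φ) S c A B T d A' B' (-ρ)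
  simp only [← sub_eq_add_neg] at SS2 SSv2
  have LS1 := LSi ρ
  have LS2 := LSi (-ρ)
  have SL1 := SLi ρ
  have SL2 := SLi (-ρ)
  simp only [← sub_eq_add_neg] at LS2 SL2
  have s1 := split4
    (x1 := fun t => φ t * (F t - FS t) * (G (t + ρ) - GS (t + ρ))
      - (F t - FS t) * (φ (t + ρ) * (G (t + ρ) - GS (t + ρ)))) LS1 SL1 SS1 hI1
    (fun t => by rw [eF, eG]; ring)
  have s2 := split4
    (x1 := fun t => φ t * (F t - FS t) * (G (t - ρ) - GS (t - ρ))
      - (F t - FS t) * (φ (t - ρ) * (G (t - ρ) - GS (t - ρ)))) LS2 SL2 SS2 hI2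
    (fun t => by rw [eF, eG]; ring)
  unfold DD
  rw [s1, s2]
  -- LL
  have h1 : 0 ≤ ∫ t, (φ t * (F t - FS t) * (G (t + ρ) - GS (t + ρ))
      - (F t - FS t) * (φ (t + ρ) * (G (t + ρ) - GS (t + ρ)))) := by
    apply integral_nonneg
    intro t
    have e : φ t * (F t - FS t) * (G (t + ρ) - GS (t + ρ))
      - (F t - FS t) * (φ (t + ρ) * (G (t + ρ) - GS (t + ρ)))
      = (φ t - φ (t + ρ)) * ((F t - FS t) * (G (t + ρ) - GS (t + ρ))) := by ring
    simp only [Pi.zero_apply]
    rw [e]
    exact mul_nonneg (sub_nonneg.mpr (hφa (by linarith))) (mul_nonneg (hPF0 _) (hPG0 _))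
  have h2 : ∫ t, (φ t * (F t - FS t) * (G (t - ρ) - GS (t - ρ))
      - (F t - FS t) * (φ (t - ρ) * (G (t - ρ) - GS (t - ρ)))) ≤ 0 := by
    apply integral_nonpos
    intro t
    have e : φ t * (F t - FS t) * (G (t - ρ) - GS (t - ρ))
      - (F t - FS t) * (φ (t - ρ) * (G (t - ρ) - GS (t - ρ)))
      = (φ t - φ (t - ρ)) * ((F t - FS t) * (G (t - ρ) - GS (t - ρ))) := by ring
    simp only [Pi.zero_apply]
    rw [e]
    exact mul_nonpos_of_nonpos_of_nonneg (sub_nonpos.mpr (hφa (by linarith)))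
      (mul_nonneg (hPF0 _) (hPG0 _))
  -- LS
  have h3 : 0 ≤ (∫ t, (φ t * (F t - FS t) * GS (t + ρ) - (F t - FS t) * GR (t + ρ)))
      - ∫ t, (φ t * (F t - FS t) * GS (t - ρ) - (F t - FS t) * GR (t - ρ)) := by
    rw [← integral_sub LS1 LS2]
    apply integral_nonneg
    intro t
    have hK := K_nonneg hφa T d A' B' hd hρ t
    rw [← hGSd, ← hGRd] at hK
    have e : φ t * (F t - FS t) * GS (t + ρ) - (F t - FS t) * GR (t + ρ)
      - (φ t * (F t - FS t) * GS (t - ρ) - (F t - FS t) * GR (t - ρ))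
      = (F t - FS t) * (φ t * (GS (t + ρ) - GS (t - ρ)) - (GR (t + ρ) - GR (t - ρ))) := by ring
    simp only [Pi.zero_apply]
    rw [e]
    exact mul_nonneg (hPF0 t) hK
  -- SL
  have h4 : 0 ≤ (∫ t, (FR t * (G (t + ρ) - GS (t + ρ))
      - FS t * (φ (t + ρ) * (G (t + ρ) - GS (t + ρ)))))
      - ∫ t, (FR t * (G (t - ρ) - GS (t - ρ))
      - FS t * (φ (t - ρ) * (G (t - ρ) - GS (t - ρ)))) := by
    have t1 : ∫ t, (FR t * (G (t + ρ) - GS (t + ρ))
        - FS t * (φ (t + ρ) * (G (t + ρ) - GS (t + ρ))))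
        = ∫ s, (FR (s - ρ) * (G s - GS s) - FS (s - ρ) * (φ s * (G s - GS s))) := by
      rw [← integral_add_right_eq_self (fun s => FR (s - ρ) * (G s - GS s)
        - FS (s - ρ) * (φ s * (G s - GS s))) ρ]
      simp only [add_sub_cancel_right]
    have t2 : ∫ t, (FR t * (G (t - ρ) - GS (t - ρ))
        - FS t * (φ (t - ρ) * (G (t - ρ) - GS (t - ρ))))
        = ∫ s, (FR (s + ρ) * (G s - GS s) - FS (s + ρ) * (φ s * (G s - GS s))) := by
      rw [← integral_sub_right_eq_self (fun s => FR (s + ρ) * (G s - GS s)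
        - FS (s + ρ) * (φ s * (G s - GS s))) ρ]
      simp only [sub_add_cancel]
    have i1 : Integrable (fun s => FR (s - ρ) * (G s - GS s)
        - FS (s - ρ) * (φ s * (G s - GS s))) volume := by
      have := SL1.comp_sub_right ρ
      simpa only [sub_add_cancel] using this
    have i2 : Integrable (fun s => FR (s + ρ) * (G s - GS s)
        - FS (s + ρ) * (φ s * (G s - GS s))) volume := by
      have := SL2.comp_add_right ρ
      simpa only [add_sub_cancel_right] using this
    rw [t1, t2, ← integral_sub i1 i2]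
    apply integral_nonneg
    intro t
    have hK := K_nonneg hφa S c A B hc hρ t
    rw [← hFSd, ← hFRd] at hK
    have e : FR (t - ρ) * (G t - GS t) - FS (t - ρ) * (φ t * (G t - GS t))
      - (FR (t + ρ) * (G t - GS t) - FS (t + ρ) * (φ t * (G t - GS t)))
      = (G t - GS t) * (φ t * (FS (t + ρ) - FS (t - ρ)) - (FR (t + ρ) - FR (t - ρ))) := by ring
    simp only [Pi.zero_apply]
    rw [e]
    exact mul_nonneg (hPG0 t) hK
  -- SS
  have h5 : 0 ≤ (∫ t, (FR t * GS (t + ρ) - FS t * GR (t + ρ)))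
      - ∫ t, (FR t * GS (t - ρ) - FS t * GR (t - ρ)) := by
    rw [SSv1, SSv2, ← Finset.sum_sub_distrib]
    apply Finset.sum_nonneg
    intro i hi
    rw [← Finset.sum_sub_distrib]
    apply Finset.sum_nonneg
    intro j hj
    have := ovl_sign hφa (a := A i) (b := B i) (c := A' j) (d := B' j) hρ
    have hcd : 0 ≤ c i * d j := mul_nonneg (hc i hi) (hd j hj)
    have e : c i * d j * ((φ ((A i + B i) / 2) - φ ((A' j + B' j) / 2)) *
          ovl (A i) (B i) (A' j) (B' j) ρ)
        - c i * d j * ((φ ((A i + B i) / 2) - φ ((A' j + B' j) / 2)) *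
          ovl (A i) (B i) (A' j) (B' j) (-ρ))
        = c i * d j * ((φ ((A i + B i) / 2) - φ ((A' j + B' j) / 2)) *
          (ovl (A i) (B i) (A' j) (B' j) ρ - ovl (A i) (B i) (A' j) (B' j) (-ρ))) := by ring
    rw [e]
    exact mul_nonneg hcd this
  linarith

end Crest.Agent.R077.StepR1
end

-- ▼ part R077/DFinal

set_option autoImplicit false

namespace Crest.Agent.R077.StepR1

open MeasureTheory Set

/-! ### adapter to the frozen definitions -/

lemma rc_nonneg (x : ℕ → ℝ) (i : ℕ × ℕ) : 0 ≤ rc x i := ENNReal.toReal_nonneg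

lemma mem_prs {m : ℕ} {i : ℕ × ℕ} : i ∈ prs m ↔ 1 ≤ i.1 ∧ i.1 ≤ i.2 ∧ i.2 ≤ m := by
  unfold prs
  simp only [Finset.mem_filter, Finset.mem_product, Finset.mem_Icc]
  omega

lemma rc_le_cc (x : ℕ → ℝ) {m : ℕ} {i : ℕ × ℕ} (hi : i ∈ prs m) :
    rc x i ≤ Layers.cc x i.1 i.2 := by
  rw [mem_prs] at hi
  have hsub : {σ : ℝ | 0 < σ ∧ IsRun x i.1 i.2 σ} ⊆ Layers.lay x i := by
    rintro σ ⟨-, h1, h2, h3, h4, h5⟩
    rw [Layers.mem_lay hi.2.1]
    exact ⟨⟨h3, h4⟩, h5⟩
  have h1 := measure_mono (μ := volume) hsub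
  rw [Layers.volume_lay] at h1
  unfold rc
  exact ENNReal.toReal_le_of_le_ofReal (Layers.cc_nonneg _ _ _) h1

lemma msh_pos {a : ℝ} {m : ℕ} (ha : 0 < a) (hm : 1 ≤ m) : 0 < msh a m := by
  unfold msh
  have : (0:ℝ) < m := by exact_mod_cast hm
  positivity

lemma nd_le {lam a : ℝ} {m : ℕ} (ha : 0 < a) (hm : 1 ≤ m) {j k : ℕ} (h : j ≤ k) :
    nd lam a m j ≤ nd lam a m k := by
  unfold nd
  have h1 := msh_pos ha hm
  have h2 : (j:ℝ) ≤ k := by exact_mod_cast h
  have := mul_le_mul_of_nonneg_right h2 h1.le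
  linarith

lemma stepF_eq (x : ℕ → ℝ) (S : Finset (ℕ × ℕ)) (lam a : ℝ) (m : ℕ) :
    stepF x S lam a m = st S (rc x) (lft lam a m) (rgt lam a m) := by
  funext t
  unfold stepF st ind
  apply Finset.sum_congr rfl
  intro i _
  by_cases h : lft lam a m i ≤ t ∧ t < rgt lam a m i
  · rw [if_pos h, indicator_of_mem (show t ∈ Ico _ _ from h), mul_one]
  · rw [if_neg h, indicator_of_notMem (show t ∉ Ico _ _ from h), mul_zero]

lemma omega_eq (f : ℝ → ℝ) (x : ℕ → ℝ) (S : Finset (ℕ × ℕ)) (lam a : ℝ) (m : ℕ) :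
    omega f x S lam a m = omv (phi lam a) S (rc x) (lft lam a m) (rgt lam a m) f := by
  funext t
  unfold omega omv
  simp only [st_eq]
  rw [mul_sub, Finset.mul_sum, sub_add, ← Finset.sum_sub_distrib, sub_eq_add_neg,
    ← Finset.sum_neg_distrib]
  congr 1
  apply Finset.sum_congr rfl
  intro i _
  have hind : ind lam a m i t = un (lft lam a m i) (rgt lam a m i) t := by
    unfold ind
    by_cases h : lft lam a m i ≤ t ∧ t < rgt lam a m i
    · rw [if_pos h, un_of_mem (show t ∈ Ico _ _ from h)]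
    · rw [if_neg h, un_of_notMem (show t ∉ Ico _ _ from h)]
  rw [hind]
  unfold mid
  ring

lemma st_add_of_sdiff {x : ℕ → ℝ} {m : ℕ} {A B : ℕ × ℕ → ℝ} (a η : ℝ) (t : ℝ) :
    st (shortI a m η) (rc x) A B t + st (longI a m η) (rc x) A B t = st (prs m) (rc x) A B t := by
  classical
  unfold st longI
  rw [add_comm]
  apply Finset.sum_sdiff
  unfold shortI
  exact Finset.filter_subset _ _

/-- the cell containing `t` -/
lemma exists_cell {lam a : ℝ} {m : ℕ} (ha : 0 < a) (hm : 1 ≤ m) {t : ℝ}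
    (h0 : nd lam a m 0 ≤ t) (h1 : t < nd lam a m m) :
    ∃ k, 1 ≤ k ∧ k ≤ m ∧ nd lam a m (k - 1) ≤ t ∧ t < nd lam a m k := by
  classical
  have hex : ∃ k, t < nd lam a m k := ⟨m, h1⟩
  refine ⟨Nat.find hex, ?_, Nat.find_min' hex h1, ?_, Nat.find_spec hex⟩
  · by_contra h
    have h2 : Nat.find hex = 0 := by omega
    have := Nat.find_spec hex
    rw [h2] at this
    linarith
  · have h2 : 1 ≤ Nat.find hex := by
      by_contra h
      have h2 : Nat.find hex = 0 := by omega
      have := Nat.find_spec hex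
      rw [h2] at this
      linarith
    have := Nat.find_min hex (m := Nat.find hex - 1) (by omega)
    exact not_lt.mp this

lemma nd_lt_imp {lam a : ℝ} {m : ℕ} (ha : 0 < a) (hm : 1 ≤ m) {j k : ℕ}
    (h : nd lam a m j < nd lam a m k) : j < k := by
  by_contra hc
  exact absurd (nd_le ha hm (not_lt.mp hc)) (not_le.mpr h)

lemma st_prs_le {f : ℝ → ℝ} {x : ℕ → ℝ} {lam a : ℝ} {m : ℕ} (ha : 0 < a) (hm : 1 ≤ m)
    (hx : Lay f x lam a m) (t : ℝ) :
    st (prs m) (rc x) (lft lam a m) (rgt lam a m) t ≤ f t := by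
  by_cases hw : nd lam a m 0 ≤ t ∧ t < nd lam a m m
  · obtain ⟨k, hk1, hk2, hk3, hk4⟩ := exists_cell ha hm hw.1 hw.2
    have hseq : Layers.Seq x m :=
      ⟨hx.x_zero, hx.x_out _ (Nat.lt_succ_self m), hx.x_nonneg⟩
    have h1 : st (prs m) (rc x) (lft lam a m) (rgt lam a m) t
        ≤ ∑ p ∈ Layers.pairsAt m k, Layers.cc x p.1 p.2 := by
      rw [st_eq]
      have h2 : ∑ i ∈ prs m, rc x i * un (lft lam a m i) (rgt lam a m i) t
          = ∑ i ∈ (prs m).filter (fun i => i.1 ≤ k ∧ k ≤ i.2),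
              rc x i * un (lft lam a m i) (rgt lam a m i) t := by
        symm
        apply Finset.sum_filter_of_ne
        intro i hi hne
        rw [mem_prs] at hi
        by_contra hcon
        apply hne
        have : t ∉ Ico (lft lam a m i) (rgt lam a m i) := by
          rintro ⟨g1, g2⟩
          unfold lft at g1
          unfold rgt at g2
          have g3 := nd_lt_imp ha hm (lt_of_le_of_lt g1 hk4)
          have g4 := nd_lt_imp ha hm (lt_of_le_of_lt hk3 g2)
          apply hcon
          omega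
        rw [un_of_notMem this, mul_zero]
      rw [h2]
      have h3 : (prs m).filter (fun i => i.1 ≤ k ∧ k ≤ i.2) = Layers.pairsAt m k := by
        ext i
        simp only [Finset.mem_filter, mem_prs, Layers.mem_pairsAt]
        omega
      rw [h3]
      apply Finset.sum_le_sum
      intro i hi
      have hi' : i ∈ prs m := by
        rw [← h3] at hi
        exact (Finset.mem_filter.mp hi).1
      calc rc x i * un (lft lam a m i) (rgt lam a m i) t ≤ rc x i * 1 :=
            mul_le_mul_of_nonneg_left (un_le_one _ _ _) (rc_nonneg x i)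
        _ = rc x i := mul_one _
        _ ≤ Layers.cc x i.1 i.2 := rc_le_cc x hi'
    rw [Layers.sum_cc hseq hk1 hk2] at h1
    exact h1.trans (hx.x_le k hk1 hk2 t hk3 hk4.le)
  · have h1 : st (prs m) (rc x) (lft lam a m) (rgt lam a m) t = 0 := by
      rw [st_eq]
      apply Finset.sum_eq_zero
      intro i hi
      rw [mem_prs] at hi
      have : t ∉ Ico (lft lam a m i) (rgt lam a m i) := by
        rintro ⟨g1, g2⟩
        unfold lft at g1
        unfold rgt at g2
        apply hw
        exact ⟨(nd_le ha hm (Nat.zero_le _)).trans g1, g2.trans_le (nd_le ha hm hi.2.2)⟩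
      rw [un_of_notMem this, mul_zero]
    rw [h1]
    exact hx.f_nonneg t

lemma short_len {lam a : ℝ} {m : ℕ} {η : ℝ} {i : ℕ × ℕ} (hi : i ∈ shortI a m η) :
    rgt lam a m i - lft lam a m i ≤ η := by
  classical
  unfold shortI at hi
  rw [Finset.mem_filter] at hi
  obtain ⟨h1, h2, h3, h4⟩ := hi
  rw [mem_prs] at h1
  unfold rgt lft nd
  rw [Nat.cast_sub (by omega)]
  push_cast
  have e : lam - a / 2 + (i.2:ℝ) * msh a m - (lam - a / 2 + ((i.1:ℝ) - 1) * msh a m)
      = ((i.2 : ℝ) - i.1 + 1) * msh a m := by ring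
  rw [e]
  exact h4.le

lemma long_le {lam a : ℝ} {m : ℕ} (ha : 0 < a) (hm : 1 ≤ m) {η : ℝ} {i : ℕ × ℕ}
    (hi : i ∈ longI a m η) : lft lam a m i ≤ rgt lam a m i := by
  classical
  unfold longI at hi
  rw [Finset.mem_sdiff, mem_prs] at hi
  unfold rgt lft
  exact nd_le ha hm (by omega)

/-- integrability of the pairing integrand for any shift -/
lemma pair_integrable {ι κ : Type*} {lam a : ℝ} (ha : 0 < a) (S : Finset ι) (c A B : ι → ℝ)
    (T : Finset κ) (d A' B' : κ → ℝ) {F G : ℝ → ℝ} (hF : Continuous F) (hG : Continuous G)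
    (x : ℝ) :
    Integrable (fun t => omv (phi lam a) S c A B F t * G (t + x)
      - F t * omv (phi lam a) T d A' B' G (t + x)) volume := by
  set φ := phi lam a with hφ
  have hφc : Continuous φ := TP.phi_continuous lam a
  have i1 : Integrable (fun t => (φ t - φ (t + x)) * (F t * G (t + x))) volume := by
    apply Continuous.integrable_of_hasCompactSupport
    · exact (hφc.sub (hφc.comp (continuous_id.add continuous_const))).mul
        (hF.mul (hG.comp (continuous_id.add continuous_const)))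
    · apply HasCompactSupport.of_support_subset_isCompact
        (isCompact_Icc (a := lam - |x|) (b := lam + a + |x|))
      intro t ht
      by_contra hc
      apply ht
      simp only
      have : φ t = φ (t + x) := by
        rw [mem_Icc, not_and_or, not_le, not_le] at hc
        rcases hc with hc | hc
        · rw [hφ, TP.phi_eq_one (by linarith [abs_nonneg x]),
            TP.phi_eq_one (by linarith [le_abs_self x])]
        · rw [hφ, TP.phi_eq_zero ha (by linarith [abs_nonneg x]),
            TP.phi_eq_zero ha (by linarith [neg_abs_le x])]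
      rw [this, sub_self, zero_mul]
  have lG := hG.locallyIntegrable (μ := volume)
  have lF := hF.locallyIntegrable (μ := volume)
  have i2 := integrable_st_mul S (fun i => c i * φ ((A i + B i) / 2)) A B (loc_shift lG x)
  have i3 := integrable_st_mul S c A B (g := fun t => φ t * G (t + x))
    ((loc_shift lG x).continuous_mul hφc)
  have i4 := (integrable_st_mul T (fun i => d i * φ ((A' i + B' i) / 2)) A' B'
    (loc_shift_sub lF x)).comp_add_right x
  have i5 := (integrable_st_mul T d A' B' (g := fun t => φ t * F (t - x))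
    ((loc_shift_sub lF x).continuous_mul hφc)).comp_add_right x
  refine ((((i1.add i2).sub i3).sub i4).add i5).congr (Filter.Eventually.of_forall fun t => ?_)
  simp only [Pi.sub_apply, Pi.add_apply, add_sub_cancel_right, omv]
  ring

lemma dRho_eq {f g o1 o2 : ℝ → ℝ} {ρ : ℝ}
    (h1 : Integrable (fun t => o1 t * g (t + ρ) - f t * o2 (t + ρ)) volume)
    (h2 : Integrable (fun t => o1 t * g (t - ρ) - f t * o2 (t - ρ)) volume) :
    dRho f g o1 o2 ρ = DD ρ f o1 g o2 := by
  unfold dRho DD
  exact integral_sub h1 h2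

lemma qw_le_wend (lam a η y : ℝ) (hη : 0 ≤ η) :
    qw (tent lam a) (4 / a ^ 2) η (Icc (lam - 2 * η) (lam + a + 2 * η)) y ≤ wend lam a η y := by
  unfold qw wend
  by_cases h : lam - 2 * η ≤ y ∧ y ≤ lam + a + 2 * η
  · rw [indicator_of_mem (show y ∈ Icc _ _ from h), if_pos h]
    have : 0 ≤ 4 / a ^ 2 * η := by positivity
    linarith
  · rw [indicator_of_notMem (show y ∉ Icc _ _ from h), if_neg h]

lemma ends_le_tvS {x : ℕ → ℝ} {S : Finset (ℕ × ℕ)} {lam a : ℝ} {m : ℕ} {η : ℝ} (hη : 0 ≤ η)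
    {v : ℝ → ℝ} (hv : ∀ t, 0 ≤ v t) :
    ends S (rc x) (lft lam a m) (rgt lam a m)
      (fun y => qw (tent lam a) (4 / a ^ 2) η (Icc (lam - 2 * η) (lam + a + 2 * η)) y * v y)
    ≤ tvS v x S lam a m η := by
  unfold ends tvS
  apply Finset.sum_le_sum
  intro i _
  apply mul_le_mul_of_nonneg_left _ (rc_nonneg x i)
  exact add_le_add (mul_le_mul_of_nonneg_right (qw_le_wend _ _ _ _ hη) (hv _))
    (mul_le_mul_of_nonneg_right (qw_le_wend _ _ _ _ hη) (hv _))

end Crest.Agent.R077.StepR1

namespace Crest.Agent.R077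

open MeasureTheory Set StepR1

/-- (A) positivity of the pairing for every box kernel -/
theorem Dpos : Stmt_Dpos := by
  intro f g x y lam a m η ρ ha ha1 hm hη hηa hρ hf hg
  have I1 := pair_integrable ha (shortI a m η) (rc x) (lft lam a m) (rgt lam a m)
    (shortI a m η) (rc y) (lft lam a m) (rgt lam a m) (lam := lam) hf.f_cont hg.f_cont ρ
  have I2 := pair_integrable ha (shortI a m η) (rc x) (lft lam a m) (rgt lam a m)
    (shortI a m η) (rc y) (lft lam a m) (rgt lam a m) (lam := lam) hf.f_cont hg.f_cont (-ρ)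
  simp only [← sub_eq_add_neg] at I2
  have hL : ∀ (z : ℕ → ℝ) (t : ℝ), 0 ≤ st (longI a m η) (rc z) (lft lam a m) (rgt lam a m) t :=
    fun z t => st_nonneg (fun i _ => rc_nonneg z i) t
  rw [omega_eq, omega_eq, dRho_eq I1 I2]
  refine DD_nonneg (TP.phi_antitone lam a) (TP.phi_continuous lam a) _ _ _ _
    (fun i _ => rc_nonneg x i) _ _ _ _ (fun i _ => rc_nonneg y i)
    hf.f_cont.locallyIntegrable hg.f_cont.locallyIntegrable ?_ ?_ hρ.le I1 I2
  · intro t
    have h1 := st_prs_le ha hm hf t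
    rw [← st_add_of_sdiff a η] at h1
    linarith [hL x t]
  · intro t
    have h1 := st_prs_le ha hm hg t
    rw [← st_add_of_sdiff a η] at h1
    linarith [hL y t]

/-- (C) lower bound of the pairing for `ρ ≤ η/2` -/
theorem Dkey : Stmt_Dkey := by
  intro f g x y lam a m η ρ ha ha1 hm hη hηa hρ hρη hf hg
  have I1 := pair_integrable ha (shortI a m η) (rc x) (lft lam a m) (rgt lam a m)
    (shortI a m η) (rc y) (lft lam a m) (rgt lam a m) (lam := lam) hf.f_cont hg.f_cont ρ
  have I2 := pair_integrable ha (shortI a m η) (rc x) (lft lam a m) (rgt lam a m)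
    (shortI a m η) (rc y) (lft lam a m) (rgt lam a m) (lam := lam) hf.f_cont hg.f_cont (-ρ)
  simp only [← sub_eq_add_neg] at I2
  have hφc := TP.phi_continuous lam a
  have lf : LocallyIntegrable f volume := hf.f_cont.locallyIntegrable
  have lg : LocallyIntegrable g volume := hg.f_cont.locallyIntegrable
  have hfS : ∀ t, st (shortI a m η) (rc x) (lft lam a m) (rgt lam a m) t
      + st (longI a m η) (rc x) (lft lam a m) (rgt lam a m) t ≤ f t := by
    intro t
    rw [st_add_of_sdiff a η]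
    exact st_prs_le ha hm hf t
  have hgS : ∀ t, st (shortI a m η) (rc y) (lft lam a m) (rgt lam a m) t
      + st (longI a m η) (rc y) (lft lam a m) (rgt lam a m) t ≤ g t := by
    intro t
    rw [st_add_of_sdiff a η]
    exact st_prs_le ha hm hg t
  rw [omega_eq, omega_eq, dRho_eq I1 I2, stepF_eq, stepF_eq]
  -- positivity of the remaining part
  obtain ⟨J1, J2⟩ := decomp_integrable (longI a m η) (rc x) (lft lam a m) (rgt lam a m)
    (longI a m η) (rc y) (lft lam a m) (rgt lam a m) hφc lf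
    (loc_omv hφc (shortI a m η) (rc x) (lft lam a m) (rgt lam a m) lf) lg
    (loc_omv hφc (shortI a m η) (rc y) (lft lam a m) (rgt lam a m) lg) ρ I1 I2
  simp only [← omv_sub] at J1 J2
  have hpos := DD_nonneg (TP.phi_antitone lam a) hφc (shortI a m η) (rc x) (lft lam a m)
    (rgt lam a m) (fun i _ => rc_nonneg x i) (shortI a m η) (rc y) (lft lam a m) (rgt lam a m)
    (fun i _ => rc_nonneg y i)
    (F := fun t => f t - st (longI a m η) (rc x) (lft lam a m) (rgt lam a m) t)
    (G := fun t => g t - st (longI a m η) (rc y) (lft lam a m) (rgt lam a m) t)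
    (lf.sub (loc_st _ _ _ _)) (lg.sub (loc_st _ _ _ _))
    (fun t => by linarith [hfS t]) (fun t => by linarith [hgS t]) hρ.le J1 J2
  have hR : ∀ t, t ∉ Icc (lam - 2 * η) (lam + a + 2 * η) → ∀ r, |r - t| ≤ η →
      phi lam a r = phi lam a t := by
    intro t ht r hr
    rw [abs_le] at hr
    rw [mem_Icc, not_and_or, not_le, not_le] at ht
    rcases ht with ht | ht
    · rw [TP.phi_eq_one (by linarith), TP.phi_eq_one (by linarith)]
    · rw [TP.phi_eq_zero ha (by linarith), TP.phi_eq_zero ha (by linarith)]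
  have key := stepR1 (fun t => TP.phi_hasDerivAt lam a t) (TP.tent_continuous lam a)
    (La := 4 / a ^ 2) (TP.tent_nonneg lam a) (fun s t => TP.tent_abs_sub_le lam a s t)
    (by positivity) hη.le hρ.le (by linarith) hR
    (shortI a m η) (longI a m η) (rc x) (lft lam a m) (rgt lam a m)
    (fun i _ => rc_nonneg x i) (fun i _ => rc_nonneg x i) (fun i hi => short_len hi)
    (fun i hi => long_le ha hm hi)
    (shortI a m η) (longI a m η) (rc y) (lft lam a m) (rgt lam a m)
    (fun i _ => rc_nonneg y i) (fun i _ => rc_nonneg y i) (fun i hi => short_len hi)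
    (fun i hi => long_le ha hm hi) lf lg hfS hgS I1 I2 hpos
  have hbg : ∀ t, 0 ≤ box g ρ t := fun t => bx_nonneg hρ.le hg.f_nonneg t
  have hbf : ∀ t, 0 ≤ box f ρ t := fun t => bx_nonneg hρ.le hf.f_nonneg t
  have e1 := ends_le_tvS (x := x) (S := longI a m η) (lam := lam) (a := a) (m := m) hη.le hbg
  have e2 := ends_le_tvS (x := y) (S := longI a m η) (lam := lam) (a := a) (m := m) hη.le hbf
  refine le_trans ?_ key
  have e1' := mul_le_mul_of_nonneg_left e1 hη.le
  have e2' := mul_le_mul_of_nonneg_left e2 hη.le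
  have bg : ∀ t, bx ρ g t = box g ρ t := fun _ => rfl
  have bf : ∀ t, bx ρ f t = box f ρ t := fun _ => rfl
  have bL : ∀ t, bx ρ (st (longI a m η) (rc y) (lft lam a m) (rgt lam a m)) t
      = box (st (longI a m η) (rc y) (lft lam a m) (rgt lam a m)) ρ t := fun _ => rfl
  simp only [bg, bf, bL]
  linarith

end Crest.Agent.R077
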