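import Crest.Agent.R077.Layers

/-!
# Row 77, measurability / continuity of the discrete layers in a parameter (helper201)
-/

set_option autoImplicit false

open MeasureTheory Set

namespace Crest.Agent.R077.Layers

variable {M : Type*}

section meas
variable [MeasurableSpace M]

lemma measurable_finset_inf' {ι : Type*} {s : Finset ι} (hs : s.Nonempty) {f : ι → M → ℝ}
    (hf : ∀ i ∈ s, Measurable (f i)) : Measurable (fun θ => s.inf' hs (fun i => f i θ)) := by
  classical
  induction hs using Finset.Nonempty.cons_induction with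
  | singleton a => simpa using hf a (Finset.mem_singleton_self a)
  | cons a s ha hs ih =>
    have h1 : Measurable (f a) := hf a (Finset.mem_cons_self a s)
    have h2 : Measurable (fun θ => s.inf' hs (fun i => f i θ)) :=
      ih (fun i hi => hf i (Finset.mem_cons_of_mem hi))
    have h3 : (fun θ => (Finset.cons a s ha).inf' (Finset.cons_nonempty ha) (fun i => f i θ))
        = fun θ => min (f a θ) (s.inf' hs (fun i => f i θ)) := by
      funext θ
      rw [Finset.inf'_cons hs]
    rw [h3]
    exact h1.min h2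

lemma measurable_top {x : M → ℕ → ℝ} (hx : ∀ k, Measurable fun θ => x θ k) (l r : ℕ) :
    Measurable fun θ => top (x θ) l r := by
  unfold top
  by_cases h : l ≤ r
  · simp only [dif_pos h]
    exact measurable_finset_inf' (f := fun k θ => x θ k) (Finset.nonempty_Icc.2 h)
      (fun i _ => hx i)
  · simp only [dif_neg h]
    exact measurable_const

lemma measurable_base {x : M → ℕ → ℝ} (hx : ∀ k, Measurable fun θ => x θ k) (l r : ℕ) :
    Measurable fun θ => base (x θ) l r := by
  unfold base
  exact (hx _).max (hx _)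

lemma measurable_cc {x : M → ℕ → ℝ} (hx : ∀ k, Measurable fun θ => x θ k) (l r : ℕ) :
    Measurable fun θ => cc (x θ) l r := by
  unfold cc
  exact ((measurable_top hx l r).sub (measurable_base hx l r)).max measurable_const


end meas

section cont
variable [TopologicalSpace M]





end cont

/-! ## The captain's conventions: `IsRun` and `rc` -/

/-- `[l,r]` is a maximal run of `{x > σ}` -/
def IsRunL (x : ℕ → ℝ) (l r : ℕ) (σ : ℝ) : Prop :=
  1 ≤ l ∧ l ≤ r ∧ x (l - 1) ≤ σ ∧ x (r + 1) ≤ σ ∧ ∀ k, l ≤ k → k ≤ r → σ < x k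

lemma isRunL_iff {x : ℕ → ℝ} {l r : ℕ} {σ : ℝ} :
    IsRunL x l r σ ↔ 1 ≤ l ∧ l ≤ r ∧ σ ∈ lay x (l, r) := by
  unfold IsRunL
  constructor
  · rintro ⟨h1, h2, h3, h4, h5⟩
    exact ⟨h1, h2, (mem_lay (p := (l, r)) h2).2 ⟨⟨h3, h4⟩, h5⟩⟩
  · rintro ⟨h1, h2, h3⟩
    rw [mem_lay (p := (l, r)) h2] at h3
    exact ⟨h1, h2, h3.1.1, h3.1.2, h3.2⟩

/-- volume of the positive levels of the run `(l,r)` -/
lemma volume_isRunL {x : ℕ → ℝ} (hx : ∀ k, 0 ≤ x k) {l r : ℕ} (h1 : 1 ≤ l) (h2 : l ≤ r) :
    (volume {σ : ℝ | 0 < σ ∧ IsRunL x l r σ}).toReal = cc x l r := by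
  have hv : volume {σ : ℝ | 0 < σ ∧ IsRunL x l r σ} = volume (lay x (l, r)) := by
    refine measure_congr ?_
    have : ∀ᵐ σ : ℝ ∂volume, σ ≠ 0 := by
      have := (measure_singleton (μ := (volume : Measure ℝ)) (0 : ℝ))
      rw [ae_iff]
      simpa using this
    filter_upwards [this] with σ hσ
    have : (σ ∈ {σ : ℝ | 0 < σ ∧ IsRunL x l r σ}) = (σ ∈ lay x (l, r)) := by
      apply propext
      rw [Set.mem_setOf_eq, isRunL_iff]
      constructor
      · exact fun h => h.2.2.2
      · intro h
        refine ⟨?_, h1, h2, h⟩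
        rw [mem_lay (p := (l, r)) h2] at h
        exact lt_of_le_of_ne ((hx _).trans h.1.1) (Ne.symm hσ)
    exact this
  rw [hv, volume_lay, ENNReal.toReal_ofReal (cc_nonneg x l r)]


end Crest.Agent.R077.Layers
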