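import Crest.Agent.R077.Iface
import Crest.Agent.R077.LayersMeas
import Crest.Agent.R077.TentPhi

/-!
# Row 77: measurability of the layer objects in the parameters (helper7)

Everything is stated in composition form: `Ω` is any measurable space, `τ ρ : Ω → ℝ`, `θ θ' : Ω → M`
measurable maps.
-/

set_option autoImplicit false
open MeasureTheory Set Real
open scoped ENNReal Topology

namespace Crest.Agent.R077.ML

/-! ### the thickness `rc` in closed form -/

/-- `rc` is always `(top - base⁺)⁺` (no sign assumption on `x`) -/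
lemma rc_eq (x : ℕ → ℝ) (i : ℕ × ℕ) :
    rc x i = if 1 ≤ i.1 ∧ i.1 ≤ i.2 then
      max (Layers.top x i.1 i.2 - max (Layers.base x i.1 i.2) 0) 0 else 0 := by
  unfold rc
  by_cases h : 1 ≤ i.1 ∧ i.1 ≤ i.2
  · rw [if_pos h]
    have hs : {σ : ℝ | 0 < σ ∧ IsRun x i.1 i.2 σ}
        = Ioi 0 ∩ Ico (Layers.base x i.1 i.2) (Layers.top x i.1 i.2) := by
      ext σ
      simp only [Set.mem_ofPred_eq, IsRun, Set.mem_inter_iff, Set.mem_Ioi, Set.mem_Ico,
        Layers.base_le_iff, Layers.lt_top_iff h.2]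
      constructor
      · rintro ⟨h0, _, _, h3, h4, h5⟩
        exact ⟨h0, ⟨h3, h4⟩, h5⟩
      · rintro ⟨h0, ⟨h3, h4⟩, h5⟩
        exact ⟨h0, h.1, h.2, h3, h4, h5⟩
    rw [hs]
    have hv : volume (Ioi (0:ℝ) ∩ Ico (Layers.base x i.1 i.2) (Layers.top x i.1 i.2))
        = volume (Ico (max (Layers.base x i.1 i.2) 0) (Layers.top x i.1 i.2)) := by
      refine measure_congr ?_
      have hne : ∀ᵐ σ : ℝ ∂volume, σ ≠ 0 := by
        rw [ae_iff]
        simp
      filter_upwards [hne] with σ hσ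
      apply propext
      show σ ∈ (Ioi (0:ℝ) ∩ Ico (Layers.base x i.1 i.2) (Layers.top x i.1 i.2)) ↔
        σ ∈ Ico (max (Layers.base x i.1 i.2) 0) (Layers.top x i.1 i.2)
      simp only [Set.mem_inter_iff, Set.mem_Ioi, Set.mem_Ico, max_le_iff]
      constructor
      · rintro ⟨h0, h1, h2⟩
        exact ⟨⟨h1, h0.le⟩, h2⟩
      · rintro ⟨⟨h1, h0⟩, h2⟩
        exact ⟨lt_of_le_of_ne h0 (Ne.symm hσ), h1, h2⟩
    rw [hv, Real.volume_Ico]
    rcases le_total (Layers.top x i.1 i.2 - max (Layers.base x i.1 i.2) 0) 0 with h' | h'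
    · rw [max_eq_right h', ENNReal.ofReal_of_nonpos h', ENNReal.toReal_zero]
    · rw [max_eq_left h', ENNReal.toReal_ofReal h']
  · rw [if_neg h]
    have hs : {σ : ℝ | 0 < σ ∧ IsRun x i.1 i.2 σ} = ∅ := by
      ext σ
      simp only [Set.mem_ofPred_eq, IsRun, Set.mem_empty_iff_false, iff_false]
      rintro ⟨_, h1, h2, _⟩
      exact h ⟨h1, h2⟩
    rw [hs, measure_empty, ENNReal.toReal_zero]

lemma rc_nonneg (x : ℕ → ℝ) (i : ℕ × ℕ) : 0 ≤ rc x i := ENNReal.toReal_nonneg


/-! ### the indicator -/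

lemma ind_eq (lam a : ℝ) (m : ℕ) (i : ℕ × ℕ) (t : ℝ) :
    ind lam a m i t = (Ico (lft lam a m i) (rgt lam a m i)).indicator (fun _ => (1:ℝ)) t := by
  unfold ind
  by_cases h : lft lam a m i ≤ t ∧ t < rgt lam a m i
  · rw [if_pos h, Set.indicator_of_mem (show t ∈ Ico _ _ from h)]
  · rw [if_neg h, Set.indicator_of_notMem (show t ∉ Ico _ _ from h)]

lemma ind_nonneg (lam a : ℝ) (m : ℕ) (i : ℕ × ℕ) (t : ℝ) : 0 ≤ ind lam a m i t := by
  unfold ind; split_ifs <;> norm_num


lemma measurable_ind (lam a : ℝ) (m : ℕ) (i : ℕ × ℕ) : Measurable (ind lam a m i) := by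
  have : ind lam a m i = (Ico (lft lam a m i) (rgt lam a m i)).indicator (fun _ => (1:ℝ)) := by
    funext t; exact ind_eq lam a m i t
  rw [this]
  exact measurable_const.indicator measurableSet_Ico

/-! ### measurability in a parameter `ω : Ω` -/

section param
variable {Ω : Type*} [MeasurableSpace Ω]

lemma measurable_rc {x : Ω → ℕ → ℝ} (hx : ∀ k, Measurable fun ω => x ω k) (i : ℕ × ℕ) :
    Measurable fun ω => rc (x ω) i := by
  simp only [rc_eq]
  by_cases h : 1 ≤ i.1 ∧ i.1 ≤ i.2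
  · simp only [if_pos h]
    exact ((Layers.measurable_top hx i.1 i.2).sub
      ((Layers.measurable_base hx i.1 i.2).max measurable_const)).max measurable_const
  · simp only [if_neg h]
    exact measurable_const

lemma measurable_stepF {x : Ω → ℕ → ℝ} (hx : ∀ k, Measurable fun ω => x ω k)
    (I : Finset (ℕ × ℕ)) (lam a : ℝ) (m : ℕ) {τ : Ω → ℝ} (hτ : Measurable τ) :
    Measurable fun ω => stepF (x ω) I lam a m (τ ω) := by
  unfold stepF
  exact Finset.measurable_fun_sum _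
    (fun i _ => (measurable_rc hx i).mul ((measurable_ind lam a m i).comp hτ))

lemma measurable_stepShr {x : Ω → ℕ → ℝ} (hx : ∀ k, Measurable fun ω => x ω k)
    (I : Finset (ℕ × ℕ)) (lam a : ℝ) (m : ℕ) (ζ : ℝ) {τ : Ω → ℝ} (hτ : Measurable τ) :
    Measurable fun ω => stepShr (x ω) I lam a m ζ (τ ω) := by
  unfold stepShr
  refine Finset.measurable_fun_sum _ (fun i _ => (measurable_rc hx i).mul ?_)
  have h1 : Measurable (fun t : ℝ =>
      if lft lam a m i + ζ ≤ t ∧ t < rgt lam a m i - ζ then (1:ℝ) else 0) :=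
    Measurable.ite (measurableSet_Ico (a := lft lam a m i + ζ) (b := rgt lam a m i - ζ))
      measurable_const measurable_const
  exact h1.comp hτ

lemma measurable_phi (lam a : ℝ) : Measurable (phi lam a) := TP.phi_measurable lam a

lemma measurable_tent (lam a : ℝ) : Measurable (tent lam a) := TP.tent_measurable lam a

lemma measurable_omega {f : Ω → ℝ → ℝ} {x : Ω → ℕ → ℝ} (hx : ∀ k, Measurable fun ω => x ω k)
    (I : Finset (ℕ × ℕ)) (lam a : ℝ) (m : ℕ) {τ : Ω → ℝ} (hτ : Measurable τ)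
    (hf : Measurable fun ω => f ω (τ ω)) :
    Measurable fun ω => omega (f ω) (x ω) I lam a m (τ ω) := by
  unfold omega
  have hphi : Measurable fun ω => phi lam a (τ ω) := (measurable_phi lam a).comp hτ
  refine (hphi.mul hf).add (Finset.measurable_fun_sum _ (fun i _ => (measurable_rc hx i).mul ?_))
  exact (measurable_const.sub hphi).mul ((measurable_ind lam a m i).comp hτ)

lemma measurable_tvS {v : Ω → ℝ → ℝ} {x : Ω → ℕ → ℝ} (hx : ∀ k, Measurable fun ω => x ω k)
    (I : Finset (ℕ × ℕ)) (lam a : ℝ) (m : ℕ) (η : ℝ) (hv : ∀ y, Measurable fun ω => v ω y) :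
    Measurable fun ω => tvS (v ω) (x ω) I lam a m η := by
  unfold tvS
  exact Finset.measurable_fun_sum _ (fun i _ => (measurable_rc hx i).mul
    ((measurable_const.mul (hv _)).add (measurable_const.mul (hv _))))

lemma measurable_psi (b p : ℝ) {τ X : Ω → ℝ} (hτ : Measurable τ) (hX : Measurable X) :
    Measurable fun ω => psi b p (τ ω) (X ω) := by
  unfold psi
  refine (measurable_const.mul ?_).mul (hX.pow_const _)
  exact Real.measurable_exp.comp (((measurable_const.mul hτ).neg).div_const p)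

/-- jointly measurable integrand with measurable end points -/
lemma measurable_intervalIntegral {f : Ω → ℝ → ℝ} (hf : Measurable fun z : Ω × ℝ => f z.1 z.2)
    {A B : Ω → ℝ} (hA : Measurable A) (hB : Measurable B) :
    Measurable fun ω => ∫ s in (A ω)..(B ω), f ω s := by
  have key : ∀ {A B : Ω → ℝ}, Measurable A → Measurable B →
      Measurable fun ω => ∫ s in Ioc (A ω) (B ω), f ω s := by
    intro A B hA hB
    have h1 : (fun ω => ∫ s in Ioc (A ω) (B ω), f ω s)
        = fun ω => ∫ s, ({z : Ω × ℝ | A z.1 < z.2 ∧ z.2 ≤ B z.1}.indicator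
            (fun z => f z.1 z.2)) (ω, s) := by
      funext ω
      rw [← integral_indicator measurableSet_Ioc]
      refine integral_congr_ae (Filter.Eventually.of_forall (fun s => ?_))
      by_cases h : A ω < s ∧ s ≤ B ω
      · simp only
        rw [Set.indicator_of_mem (show s ∈ Ioc _ _ from h),
          Set.indicator_of_mem (show (ω, s) ∈ {z : Ω × ℝ | A z.1 < z.2 ∧ z.2 ≤ B z.1} from h)]
      · simp only
        rw [Set.indicator_of_notMem (show s ∉ Ioc _ _ from h),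
          Set.indicator_of_notMem (show (ω, s) ∉ {z : Ω × ℝ | A z.1 < z.2 ∧ z.2 ≤ B z.1} from h)]
    rw [h1]
    have hms : MeasurableSet {z : Ω × ℝ | A z.1 < z.2 ∧ z.2 ≤ B z.1} :=
      (measurableSet_lt (hA.comp measurable_fst) measurable_snd).inter
        (measurableSet_le measurable_snd (hB.comp measurable_fst))
    exact ((hf.indicator hms).stronglyMeasurable.integral_prod_right').measurable
  unfold intervalIntegral
  exact (key hA hB).sub (key hB hA)

lemma measurable_box {f : Ω → ℝ → ℝ} (hf : Measurable fun z : Ω × ℝ => f z.1 z.2)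
    {ρ τ : Ω → ℝ} (hρ : Measurable ρ) (hτ : Measurable τ) :
    Measurable fun ω => box (f ω) (ρ ω) (τ ω) :=
  measurable_intervalIntegral hf (hτ.sub hρ) (hτ.add hρ)

/-- full-line integrals of jointly measurable functions -/
lemma measurable_integral {f : Ω → ℝ → ℝ} (hf : Measurable fun z : Ω × ℝ => f z.1 z.2)
    (ν : Measure ℝ) [SFinite ν] : Measurable fun ω => ∫ s, f ω s ∂ν :=
  (hf.stronglyMeasurable.integral_prod_right').measurable


/-- the derivative in `t` is jointly measurable -/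
lemma measurable_deriv {v : Ω → ℝ → ℝ} (hv : Measurable fun z : Ω × ℝ => v z.1 z.2)
    (hd : ∀ ω, Differentiable ℝ (v ω)) : Measurable fun z : Ω × ℝ => deriv (v z.1) z.2 := by
  have hseq : Filter.Tendsto (fun n : ℕ => (1:ℝ) / ((n:ℝ) + 1)) Filter.atTop (𝓝[≠] (0:ℝ)) := by
    rw [tendsto_nhdsWithin_iff]
    refine ⟨tendsto_one_div_add_atTop_nhds_zero_nat, Filter.Eventually.of_forall (fun n => ?_)⟩
    have : (0:ℝ) < 1 / ((n:ℝ) + 1) := by positivity
    exact this.ne'
  refine measurable_of_tendsto_metrizable (f := fun (n : ℕ) (z : Ω × ℝ) =>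
    (1 / ((n:ℝ) + 1))⁻¹ * (v z.1 (z.2 + 1 / ((n:ℝ) + 1)) - v z.1 z.2)) ?_ ?_
  · intro n
    have h1 : Measurable fun z : Ω × ℝ => v z.1 (z.2 + 1 / ((n:ℝ) + 1)) :=
      hv.comp (measurable_fst.prodMk (measurable_snd.add measurable_const))
    exact measurable_const.mul (h1.sub hv)
  · rw [tendsto_pi_nhds]
    intro z
    have h := ((hd z.1) z.2).hasDerivAt
    rw [hasDerivAt_iff_tendsto_slope_zero] at h
    have h' := h.comp hseq
    simpa [Function.comp_def, smul_eq_mul] using h'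

end param

/-! ### the cylinder -/

section cyl
variable {M : Type} [MeasurableSpace M] {μ : Measure M} (S : Cyl M μ)
variable {Ω : Type*} [MeasurableSpace Ω]

lemma meas_V {τ : Ω → ℝ} (hτ : Measurable τ) {θ : Ω → M} (hθ : Measurable θ) :
    Measurable fun ω => S.V (τ ω) (θ ω) := S.V_meas.comp (hτ.prodMk hθ)

lemma meas_U {τ : Ω → ℝ} (hτ : Measurable τ) {θ : Ω → M} (hθ : Measurable θ) :
    Measurable fun ω => S.U (τ ω) (θ ω) := S.U_meas.comp (hτ.prodMk hθ)

lemma meas_F {τ : Ω → ℝ} (hτ : Measurable τ) {θ : Ω → M} (hθ : Measurable θ) :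
    Measurable fun ω => S.F (τ ω) (θ ω) := by
  unfold Cyl.F
  exact (Real.measurable_exp.comp (measurable_const.mul hτ)).mul ((meas_V S hτ hθ).pow_const _)

lemma meas_G {τ : Ω → ℝ} (hτ : Measurable τ) {θ : Ω → M} (hθ : Measurable θ) :
    Measurable fun ω => S.G (τ ω) (θ ω) := by
  unfold Cyl.G
  exact (Real.measurable_exp.comp (measurable_const.mul hτ)).mul ((meas_U S hτ hθ).pow_const _)

lemma meas_H {ρ : Ω → ℝ} (hρ : Measurable ρ) {θ θ' : Ω → M} (hθ : Measurable θ)
    (hθ' : Measurable θ') : Measurable fun ω => S.H (ρ ω) (θ ω) (θ' ω) :=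
  S.H_meas.comp (hρ.prodMk (hθ.prodMk hθ'))

lemma meas_dV {τ : Ω → ℝ} (hτ : Measurable τ) {θ : Ω → M} (hθ : Measurable θ) :
    Measurable fun ω => deriv (fun s => S.V s (θ ω)) (τ ω) := by
  have h := measurable_deriv (v := fun (θ : M) (t : ℝ) => S.V t θ)
    (meas_V S measurable_snd measurable_fst)
    (fun θ => (S.V_C1 θ).differentiable (by norm_num))
  exact h.comp (hθ.prodMk hτ)

lemma meas_dU {τ : Ω → ℝ} (hτ : Measurable τ) {θ : Ω → M} (hθ : Measurable θ) :
    Measurable fun ω => deriv (fun s => S.U s (θ ω)) (τ ω) := by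
  have h := measurable_deriv (v := fun (θ : M) (t : ℝ) => S.U t θ)
    (meas_U S measurable_snd measurable_fst)
    (fun θ => (S.U_C1 θ).differentiable (by norm_num))
  exact h.comp (hθ.prodMk hτ)

lemma meas_xF (lam a : ℝ) (m : ℕ) (L : ℝ) {θ : Ω → M} (hθ : Measurable θ) (k : ℕ) :
    Measurable fun ω => S.xF lam a m L (θ ω) k := by
  unfold Cyl.xF samp
  by_cases h : 1 ≤ k ∧ k ≤ m
  · simp only [if_pos h]
    exact (meas_F S measurable_const hθ).sub measurable_const
  · simp only [if_neg h]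
    exact measurable_const

lemma meas_xG (lam a : ℝ) (m : ℕ) (L : ℝ) {θ : Ω → M} (hθ : Measurable θ) (k : ℕ) :
    Measurable fun ω => S.xG lam a m L (θ ω) k := by
  unfold Cyl.xG samp
  by_cases h : 1 ≤ k ∧ k ≤ m
  · simp only [if_pos h]
    exact (meas_G S measurable_const hθ).sub measurable_const
  · simp only [if_neg h]
    exact measurable_const

lemma meas_rcF (lam a : ℝ) (m : ℕ) (L : ℝ) (i : ℕ × ℕ) {θ : Ω → M} (hθ : Measurable θ) :
    Measurable fun ω => rc (S.xF lam a m L (θ ω)) i := measurable_rc (meas_xF S lam a m L hθ) i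

lemma meas_rcG (lam a : ℝ) (m : ℕ) (L : ℝ) (i : ℕ × ℕ) {θ : Ω → M} (hθ : Measurable θ) :
    Measurable fun ω => rc (S.xG lam a m L (θ ω)) i := measurable_rc (meas_xG S lam a m L hθ) i

lemma meas_stepF_xF (lam a : ℝ) (m : ℕ) (L : ℝ) (I : Finset (ℕ × ℕ)) {τ : Ω → ℝ}
    (hτ : Measurable τ) {θ : Ω → M} (hθ : Measurable θ) :
    Measurable fun ω => stepF (S.xF lam a m L (θ ω)) I lam a m (τ ω) :=
  measurable_stepF (meas_xF S lam a m L hθ) I lam a m hτ

lemma meas_stepF_xG (lam a : ℝ) (m : ℕ) (L : ℝ) (I : Finset (ℕ × ℕ)) {τ : Ω → ℝ}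
    (hτ : Measurable τ) {θ : Ω → M} (hθ : Measurable θ) :
    Measurable fun ω => stepF (S.xG lam a m L (θ ω)) I lam a m (τ ω) :=
  measurable_stepF (meas_xG S lam a m L hθ) I lam a m hτ


lemma meas_stepShr_xG (lam a : ℝ) (m : ℕ) (L : ℝ) (I : Finset (ℕ × ℕ)) (ζ : ℝ) {τ : Ω → ℝ}
    (hτ : Measurable τ) {θ : Ω → M} (hθ : Measurable θ) :
    Measurable fun ω => stepShr (S.xG lam a m L (θ ω)) I lam a m ζ (τ ω) :=
  measurable_stepShr (meas_xG S lam a m L hθ) I lam a m ζ hτ

lemma meas_FLo (lam a : ℝ) (m : ℕ) (L η : ℝ) {τ : Ω → ℝ} (hτ : Measurable τ) {θ : Ω → M}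
    (hθ : Measurable θ) : Measurable fun ω => S.FLo lam a m L η (τ ω) (θ ω) :=
  meas_stepF_xF S lam a m L _ hτ hθ

lemma meas_GLo (lam a : ℝ) (m : ℕ) (L η : ℝ) {τ : Ω → ℝ} (hτ : Measurable τ) {θ : Ω → M}
    (hθ : Measurable θ) : Measurable fun ω => S.GLo lam a m L η (τ ω) (θ ω) :=
  meas_stepF_xG S lam a m L _ hτ hθ

lemma meas_OmF (lam a : ℝ) (m : ℕ) (L η : ℝ) {τ : Ω → ℝ} (hτ : Measurable τ) {θ : Ω → M}
    (hθ : Measurable θ) : Measurable fun ω => S.OmF lam a m L η (τ ω) (θ ω) :=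
  measurable_omega (f := fun ω t => S.F t (θ ω)) (meas_xF S lam a m L hθ) _ lam a m hτ
    (meas_F S hτ hθ)

lemma meas_OmG (lam a : ℝ) (m : ℕ) (L η : ℝ) {τ : Ω → ℝ} (hτ : Measurable τ) {θ : Ω → M}
    (hθ : Measurable θ) : Measurable fun ω => S.OmG lam a m L η (τ ω) (θ ω) :=
  measurable_omega (f := fun ω t => S.G t (θ ω)) (meas_xG S lam a m L hθ) _ lam a m hτ
    (meas_G S hτ hθ)

/-! box averages -/

lemma meas_boxF {ρ τ : Ω → ℝ} (hρ : Measurable ρ) (hτ : Measurable τ) {θ : Ω → M}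
    (hθ : Measurable θ) : Measurable fun ω => box (fun t => S.F t (θ ω)) (ρ ω) (τ ω) :=
  measurable_box (f := fun ω t => S.F t (θ ω))
    (meas_F S measurable_snd (hθ.comp measurable_fst)) hρ hτ

lemma meas_boxG {ρ τ : Ω → ℝ} (hρ : Measurable ρ) (hτ : Measurable τ) {θ : Ω → M}
    (hθ : Measurable θ) : Measurable fun ω => box (fun t => S.G t (θ ω)) (ρ ω) (τ ω) :=
  measurable_box (f := fun ω t => S.G t (θ ω))
    (meas_G S measurable_snd (hθ.comp measurable_fst)) hρ hτ

lemma meas_boxFLo (lam a : ℝ) (m : ℕ) (L η : ℝ) {ρ τ : Ω → ℝ} (hρ : Measurable ρ)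
    (hτ : Measurable τ) {θ : Ω → M} (hθ : Measurable θ) :
    Measurable fun ω => box (fun t => S.FLo lam a m L η t (θ ω)) (ρ ω) (τ ω) :=
  measurable_box (f := fun ω t => S.FLo lam a m L η t (θ ω))
    (meas_FLo S lam a m L η measurable_snd (hθ.comp measurable_fst)) hρ hτ

lemma meas_boxGLo (lam a : ℝ) (m : ℕ) (L η : ℝ) {ρ τ : Ω → ℝ} (hρ : Measurable ρ)
    (hτ : Measurable τ) {θ : Ω → M} (hθ : Measurable θ) :
    Measurable fun ω => box (fun t => S.GLo lam a m L η t (θ ω)) (ρ ω) (τ ω) :=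
  measurable_box (f := fun ω t => S.GLo lam a m L η t (θ ω))
    (meas_GLo S lam a m L η measurable_snd (hθ.comp measurable_fst)) hρ hτ

/-! end terms -/

/-- `θ ↦ tvS (V(·,θ)) (xF θ)` -/
lemma meas_tvF (lam a : ℝ) (m : ℕ) (L : ℝ) (I : Finset (ℕ × ℕ)) (η : ℝ) {θ : Ω → M}
    (hθ : Measurable θ) :
    Measurable fun ω => tvS (fun t => S.V t (θ ω)) (S.xF lam a m L (θ ω)) I lam a m η :=
  measurable_tvS (v := fun ω t => S.V t (θ ω)) (meas_xF S lam a m L hθ) I lam a m η
    (fun _ => meas_V S measurable_const hθ)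

lemma meas_tvG (lam a : ℝ) (m : ℕ) (L : ℝ) (I : Finset (ℕ × ℕ)) (η : ℝ) {θ : Ω → M}
    (hθ : Measurable θ) :
    Measurable fun ω => tvS (fun t => S.U t (θ ω)) (S.xG lam a m L (θ ω)) I lam a m η :=
  measurable_tvS (v := fun ω t => S.U t (θ ω)) (meas_xG S lam a m L hθ) I lam a m η
    (fun _ => meas_U S measurable_const hθ)

/-- `(ρ,θ,θ') ↦ tvS (box (G(·,θ')) ρ) (xF θ)` -/
lemma meas_tvF_boxG (lam a : ℝ) (m : ℕ) (L : ℝ) (I : Finset (ℕ × ℕ)) (η : ℝ) {ρ : Ω → ℝ}
    (hρ : Measurable ρ) {θ θ' : Ω → M} (hθ : Measurable θ) (hθ' : Measurable θ') :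
    Measurable fun ω =>
      tvS (box (fun t => S.G t (θ' ω)) (ρ ω)) (S.xF lam a m L (θ ω)) I lam a m η :=
  measurable_tvS (v := fun ω => box (fun t => S.G t (θ' ω)) (ρ ω)) (meas_xF S lam a m L hθ)
    I lam a m η (fun _ => meas_boxG S hρ measurable_const hθ')

/-- `(ρ,θ,θ') ↦ tvS (box (F(·,θ)) ρ) (xG θ')` -/
lemma meas_tvG_boxF (lam a : ℝ) (m : ℕ) (L : ℝ) (I : Finset (ℕ × ℕ)) (η : ℝ) {ρ : Ω → ℝ}
    (hρ : Measurable ρ) {θ θ' : Ω → M} (hθ : Measurable θ) (hθ' : Measurable θ') :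
    Measurable fun ω =>
      tvS (box (fun t => S.F t (θ ω)) (ρ ω)) (S.xG lam a m L (θ' ω)) I lam a m η :=
  measurable_tvS (v := fun ω => box (fun t => S.F t (θ ω)) (ρ ω)) (meas_xG S lam a m L hθ')
    I lam a m η (fun _ => meas_boxF S hρ measurable_const hθ)

/-! opening energies -/

lemma meas_psiF (lam a : ℝ) (m : ℕ) (L η : ℝ) {τ : Ω → ℝ} (hτ : Measurable τ) {θ : Ω → M}
    (hθ : Measurable θ) :
    Measurable fun ω => psi S.b₁ S.p (τ ω) (S.FLo lam a m L η (τ ω) (θ ω)) :=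
  measurable_psi _ _ hτ (meas_FLo S lam a m L η hτ hθ)


/-! near energies; `z = (ρ, θ, θ')` -/

/-- integrand of `X0`, jointly in `(z,t)` -/
lemma meas_X0_joint (lam a : ℝ) (m : ℕ) (L η : ℝ) {ρ τ : Ω → ℝ} (hρ : Measurable ρ)
    (hτ : Measurable τ) {θ θ' : Ω → M} (hθ : Measurable θ) (hθ' : Measurable θ') :
    Measurable fun ω => tent lam a (τ ω) * S.FLo lam a m L η (τ ω) (θ ω) *
      box (fun s => S.GLo lam a m L η s (θ' ω)) (ρ ω) (τ ω) :=
  (((measurable_tent lam a).comp hτ).mul (meas_FLo S lam a m L η hτ hθ)).mul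
    (meas_boxGLo S lam a m L η hρ hτ hθ')

lemma meas_X0'_joint (lam a : ℝ) (m : ℕ) (L η : ℝ) {ρ τ : Ω → ℝ} (hρ : Measurable ρ)
    (hτ : Measurable τ) {θ θ' : Ω → M} (hθ : Measurable θ) (hθ' : Measurable θ') :
    Measurable fun ω => tent lam a (τ ω) * S.GLo lam a m L η (τ ω) (θ' ω) *
      box (fun s => S.FLo lam a m L η s (θ ω)) (ρ ω) (τ ω) :=
  (((measurable_tent lam a).comp hτ).mul (meas_GLo S lam a m L η hτ hθ')).mul
    (meas_boxFLo S lam a m L η hρ hτ hθ)

lemma meas_X0 (lam a : ℝ) (m : ℕ) (L η : ℝ) : Measurable fun z : ℝ × M × M =>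
    ∫ t, tent lam a t * S.FLo lam a m L η t z.2.1 *
      box (fun s => S.GLo lam a m L η s z.2.2) z.1 t :=
  measurable_integral (f := fun (z : ℝ × M × M) t => tent lam a t * S.FLo lam a m L η t z.2.1 *
      box (fun s => S.GLo lam a m L η s z.2.2) z.1 t)
    (meas_X0_joint S lam a m L η (measurable_fst.comp measurable_fst) measurable_snd
      (measurable_fst.comp (measurable_snd.comp measurable_fst))
      (measurable_snd.comp (measurable_snd.comp measurable_fst))) volume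

lemma meas_X0' (lam a : ℝ) (m : ℕ) (L η : ℝ) : Measurable fun z : ℝ × M × M =>
    ∫ t, tent lam a t * S.GLo lam a m L η t z.2.2 *
      box (fun s => S.FLo lam a m L η s z.2.1) z.1 t :=
  measurable_integral (f := fun (z : ℝ × M × M) t => tent lam a t * S.GLo lam a m L η t z.2.2 *
      box (fun s => S.FLo lam a m L η s z.2.1) z.1 t)
    (meas_X0'_joint S lam a m L η (measurable_fst.comp measurable_fst) measurable_snd
      (measurable_fst.comp (measurable_snd.comp measurable_fst))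
      (measurable_snd.comp (measurable_snd.comp measurable_fst))) volume


end cyl

end Crest.Agent.R077.ML
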