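import Crest.Agent.R077.Iface
import Crest.Agent.R077.LayersMeas

/-!
Row 77, IntE (helper544): integrated bounds of the opening energies, `Stmt_E1 → Stmt_EF`.
-/

set_option autoImplicit false
open MeasureTheory Set Real
open scoped ENNReal

namespace Crest.Agent.R077.IntE

/-! ### tent and cut-off -/

section tent
variable {lam a : ℝ}

lemma tent_nonneg (lam a t : ℝ) : 0 ≤ tent lam a t := by
  unfold tent
  positivity

lemma tent_continuous (lam a : ℝ) : Continuous (tent lam a) := by
  unfold tent
  fun_prop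

lemma tent_le (ha : 0 < a) (t : ℝ) : tent lam a t ≤ 2 / a := by
  unfold tent
  have h1 : max 0 (min (t - lam) (lam + a - t)) ≤ a / 2 := by
    refine max_le (by positivity) ?_
    rcases le_total (t - lam) (a / 2) with h | h
    · exact (min_le_left _ _).trans h
    · exact (min_le_right _ _).trans (by linarith)
  calc 4 / a ^ 2 * max 0 (min (t - lam) (lam + a - t)) ≤ 4 / a ^ 2 * (a / 2) := by gcongr
    _ = 2 / a := by field_simp; norm_num

lemma tent_zero_left {t : ℝ} (ht : t ≤ lam) : tent lam a t = 0 := by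
  unfold tent
  have : min (t - lam) (lam + a - t) ≤ 0 := (min_le_left _ _).trans (by linarith)
  rw [max_eq_left this, mul_zero]

lemma tent_zero_right {t : ℝ} (ht : lam + a ≤ t) : tent lam a t = 0 := by
  unfold tent
  have : min (t - lam) (lam + a - t) ≤ 0 := (min_le_right _ _).trans (by linarith)
  rw [max_eq_left this, mul_zero]

lemma integral_tent (ha : 0 < a) : ∫ s in lam..(lam + a), tent lam a s = 1 := by
  have hsplit : ∫ s in lam..(lam + a), tent lam a s =
      (∫ s in lam..(lam + a / 2), tent lam a s) + ∫ s in (lam + a / 2)..(lam + a), tent lam a s :=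
    (intervalIntegral.integral_add_adjacent_intervals
      ((tent_continuous lam a).intervalIntegrable _ _)
      ((tent_continuous lam a).intervalIntegrable _ _)).symm
  have h1 : ∫ s in lam..(lam + a / 2), tent lam a s
      = ∫ s in lam..(lam + a / 2), (4 / a ^ 2) * (s - lam) := by
    refine intervalIntegral.integral_congr ?_
    intro s hs
    rw [uIcc_of_le (by linarith)] at hs
    simp only [tent]
    rw [min_eq_left (by linarith [hs.1, hs.2]), max_eq_right (by linarith [hs.1])]
  have h2 : ∫ s in (lam + a / 2)..(lam + a), tent lam a s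
      = ∫ s in (lam + a / 2)..(lam + a), (4 / a ^ 2) * (lam + a - s) := by
    refine intervalIntegral.integral_congr ?_
    intro s hs
    rw [uIcc_of_le (by linarith)] at hs
    simp only [tent]
    rw [min_eq_right (by linarith [hs.1, hs.2]), max_eq_right (by linarith [hs.2])]
  rw [hsplit, h1, h2, intervalIntegral.integral_const_mul, intervalIntegral.integral_const_mul]
  have e1 : ∫ s in lam..(lam + a / 2), (s - lam) = a ^ 2 / 8 := by
    rw [intervalIntegral.integral_sub (by simp) (by simp)]
    simp only [integral_id, intervalIntegral.integral_const, smul_eq_mul]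
    ring
  have e2 : ∫ s in (lam + a / 2)..(lam + a), (lam + a - s) = a ^ 2 / 8 := by
    rw [intervalIntegral.integral_sub (by simp) (by simp)]
    simp only [integral_id, intervalIntegral.integral_const, smul_eq_mul]
    ring
  rw [e1, e2]
  field_simp
  norm_num

lemma phi_continuous (lam a : ℝ) : Continuous (phi lam a) := by
  unfold phi
  exact continuous_const.sub
    (intervalIntegral.continuous_primitive (fun _ _ => (tent_continuous lam a).intervalIntegrable _ _) _)

lemma phi_left {t : ℝ} (ht : t ≤ lam) : phi lam a t = 1 := by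
  unfold phi
  have : ∫ s in lam..t, tent lam a s = 0 := by
    rw [intervalIntegral.integral_symm]
    have : ∫ s in t..lam, tent lam a s = ∫ s in t..lam, (0 : ℝ) := by
      refine intervalIntegral.integral_congr ?_
      intro s hs
      rw [uIcc_of_le ht] at hs
      exact tent_zero_left hs.2
    rw [this]
    simp
  rw [this, sub_zero]

lemma phi_right (ha : 0 < a) {t : ℝ} (ht : lam + a ≤ t) : phi lam a t = 0 := by
  unfold phi
  have hsplit : ∫ s in lam..t, tent lam a s =
      (∫ s in lam..(lam + a), tent lam a s) + ∫ s in (lam + a)..t, tent lam a s :=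
    (intervalIntegral.integral_add_adjacent_intervals
      ((tent_continuous lam a).intervalIntegrable _ _)
      ((tent_continuous lam a).intervalIntegrable _ _)).symm
  have : ∫ s in (lam + a)..t, tent lam a s = 0 := by
    have : ∫ s in (lam + a)..t, tent lam a s = ∫ s in (lam + a)..t, (0 : ℝ) := by
      refine intervalIntegral.integral_congr ?_
      intro s hs
      rw [uIcc_of_le ht] at hs
      exact tent_zero_right hs.1
    rw [this]
    simp
  rw [hsplit, this, integral_tent ha]
  norm_num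

lemma phi_le_one (lam a t : ℝ) : phi lam a t ≤ 1 := by
  rcases le_total t lam with h | h
  · rw [phi_left h]
  · unfold phi
    have := intervalIntegral.integral_nonneg (f := tent lam a) (μ := volume) h
      (fun s _ => tent_nonneg lam a s)
    linarith

lemma phi_nonneg (ha : 0 < a) (t : ℝ) : 0 ≤ phi lam a t := by
  rcases le_total (lam + a) t with h | h
  · rw [phi_right ha h]
  · rcases le_total t lam with h' | h'
    · rw [phi_left h']; norm_num
    · unfold phi
      have hsplit : ∫ s in lam..(lam + a), tent lam a s =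
          (∫ s in lam..t, tent lam a s) + ∫ s in t..(lam + a), tent lam a s :=
        (intervalIntegral.integral_add_adjacent_intervals
          ((tent_continuous lam a).intervalIntegrable _ _)
          ((tent_continuous lam a).intervalIntegrable _ _)).symm
      have h1 := intervalIntegral.integral_nonneg (f := tent lam a) (μ := volume) h
        (fun s _ => tent_nonneg lam a s)
      rw [integral_tent ha] at hsplit
      linarith

end tent

/-! ### measurability -/

section meas
variable {M : Type} [MeasurableSpace M] {μ : Measure M}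

lemma F_meas (S : Cyl M μ) : Measurable (fun z : ℝ × M => S.F z.1 z.2) := by
  unfold Cyl.F
  have := S.V_meas
  exact (by fun_prop : Measurable (fun z : ℝ × M => Real.exp (S.b₁ * z.1))).mul
    (this.pow_const _)

lemma F_nonneg (S : Cyl M μ) (t : ℝ) (θ : M) : 0 ≤ S.F t θ :=
  mul_nonneg (Real.exp_pos _).le (Real.rpow_nonneg (S.V_pos t θ).le _)

lemma FV_meas (S : Cyl M μ) : Measurable (fun z : ℝ × M => S.F z.1 z.2 * S.V z.1 z.2) :=
  (F_meas S).mul S.V_meas

lemma FV_nonneg (S : Cyl M μ) (t : ℝ) (θ : M) : 0 ≤ S.F t θ * S.V t θ :=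
  mul_nonneg (F_nonneg S t θ) (S.V_pos t θ).le

lemma samp_nonneg {b p : ℝ} {f v : ℝ → ℝ} {lam a L : ℝ} {m : ℕ} (ha : 0 < a) (ha1 : a ≤ 1)
    (hm : 1 ≤ m) (hLm : 4 * L ^ 2 * msh a m ≤ 1) (hS : Sol b p f v lam L) (k : ℕ) :
    0 ≤ samp f lam a m L k := by
  unfold samp
  split_ifs with h
  · have hm' : (0:ℝ) < m := by exact_mod_cast hm
    have hmsh : msh a m * m = 2 * a := by unfold msh; field_simp
    have hmsh0 : 0 < msh a m := by unfold msh; positivity
    have hk : (k : ℝ) ≤ m := by exact_mod_cast h.2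
    have h2 : (k : ℝ) * msh a m ≤ 2 * a := by
      calc (k : ℝ) * msh a m ≤ m * msh a m := by gcongr
        _ = 2 * a := by rw [mul_comm]; exact hmsh
    have h3 : 0 ≤ (k : ℝ) * msh a m := by positivity
    have hmem : nd lam a m k ∈ Icc (lam - 2) (lam + 4) := by
      unfold nd
      constructor <;> linarith
    have h4 := hS.f_ge _ hmem
    have hL := hS.hL
    have hL0 : 0 < L := by linarith
    have h5 : L * (L * msh a m) ≤ L * f (nd lam a m k) := by nlinarith
    have := le_of_mul_le_mul_left h5 hL0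
    linarith
  · exact le_rfl

lemma rc_eq {x : ℕ → ℝ} (hx : ∀ k, 0 ≤ x k) {m : ℕ} {i : ℕ × ℕ} (hi : i ∈ prs m) :
    rc x i = Layers.cc x i.1 i.2 := by
  unfold prs at hi
  simp only [Finset.mem_filter, Finset.mem_product, Finset.mem_Icc] at hi
  have := Layers.volume_isRunL (x := x) hx (l := i.1) (r := i.2) hi.1.1.1 hi.2
  unfold rc
  exact this

lemma longI_sub (a : ℝ) (m : ℕ) (η : ℝ) {i : ℕ × ℕ} (hi : i ∈ longI a m η) : i ∈ prs m := by
  unfold longI at hi
  exact (Finset.mem_sdiff.1 hi).1

lemma xF_meas (S : Cyl M μ) (lam a : ℝ) (m : ℕ) (L : ℝ) (k : ℕ) :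
    Measurable fun θ => S.xF lam a m L θ k := by
  unfold Cyl.xF samp
  by_cases h : 1 ≤ k ∧ k ≤ m
  · simp only [h, and_self, if_true]
    have h1 : Measurable (fun θ : M => ((nd lam a m k, θ) : ℝ × M)) := measurable_prodMk_left
    exact ((F_meas S).comp h1).sub_const _
  · simp only [h, if_false]
    exact measurable_const

lemma ind_meas (lam a : ℝ) (m : ℕ) (i : ℕ × ℕ) : Measurable (ind lam a m i) := by
  unfold ind
  refine Measurable.ite ?_ measurable_const measurable_const
  exact (measurableSet_le measurable_const measurable_id).inter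
    (measurableSet_lt measurable_id measurable_const)

lemma FLo_meas (S : Cyl M μ) {lam a L : ℝ} {m : ℕ} (hW : WinOK S lam a m L) (η : ℝ) :
    Measurable (fun z : ℝ × M => S.FLo lam a m L η z.1 z.2) := by
  have hnn : ∀ θ k, 0 ≤ S.xF lam a m L θ k := fun θ k =>
    samp_nonneg hW.ha hW.ha1 hW.hm hW.hLm (hW.solF θ) k
  have heq : (fun z : ℝ × M => S.FLo lam a m L η z.1 z.2) = fun z : ℝ × M =>
      ∑ i ∈ longI a m η, Layers.cc (S.xF lam a m L z.2) i.1 i.2 * ind lam a m i z.1 := by
    funext z
    unfold Cyl.FLo stepF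
    refine Finset.sum_congr rfl fun i hi => ?_
    rw [rc_eq (hnn z.2) (longI_sub a m η hi)]
  rw [heq]
  refine Finset.measurable_fun_sum _ fun i _ => ?_
  refine Measurable.mul ?_ ?_
  · exact (Layers.measurable_cc (fun k => xF_meas S lam a m L k) i.1 i.2).comp measurable_snd
  · exact (ind_meas lam a m i).comp measurable_fst

lemma FLo_nonneg (S : Cyl M μ) (lam a L : ℝ) (m : ℕ) (η t : ℝ) (θ : M) :
    0 ≤ S.FLo lam a m L η t θ := by
  unfold Cyl.FLo stepF
  refine Finset.sum_nonneg fun i _ => mul_nonneg ENNReal.toReal_nonneg ?_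
  unfold ind
  split_ifs <;> norm_num

lemma psi_meas (b p : ℝ) : Measurable (fun z : ℝ × ℝ => psi b p z.1 z.2) := by
  unfold psi
  exact (by fun_prop : Measurable (fun z : ℝ × ℝ => (p / (p + 1)) * Real.exp (-(b * z.1) / p))).mul
    (measurable_snd.pow_const _)


/-- integrability of the energy density on `M × (-∞, T]` -/
lemma FV_int (S : Cyl M μ) [IsFiniteMeasure μ] (T : ℝ) :
    Integrable (fun z : M × ℝ => S.F z.2 z.1 * S.V z.2 z.1) (μ.prod (volume.restrict (Iic T))) := by
  have hm : Measurable (fun z : M × ℝ => S.F z.2 z.1 * S.V z.2 z.1) :=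
    (FV_meas S).comp measurable_swap
  refine ⟨hm.aestronglyMeasurable, ?_⟩
  rw [hasFiniteIntegral_iff_norm]
  have h1 : ∫⁻ z : M × ℝ, ENNReal.ofReal ‖S.F z.2 z.1 * S.V z.2 z.1‖ ∂(μ.prod (volume.restrict (Iic T)))
      = ∫⁻ θ, ∫⁻ t in Iic T, ENNReal.ofReal (S.F t θ * S.V t θ) ∂volume ∂μ := by
    rw [lintegral_prod _ (by exact (hm.norm.ennreal_ofReal).aemeasurable)]
    refine lintegral_congr fun θ => lintegral_congr fun t => ?_
    rw [Real.norm_of_nonneg (FV_nonneg S t θ)]
  rw [h1]
  exact lt_top_iff_ne_top.2 (S.fin1 T)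

/-- bounded weights -/
lemma wFV_int (S : Cyl M μ) [IsFiniteMeasure μ] (T : ℝ) {w : ℝ → ℝ} (hw : Measurable w) {C : ℝ}
    (h0 : ∀ t, 0 ≤ w t) (hC : ∀ t, w t ≤ C) :
    Integrable (fun z : M × ℝ => w z.2 * (S.F z.2 z.1 * S.V z.2 z.1))
      (μ.prod (volume.restrict (Iic T))) := by
  have hm : Measurable (fun z : M × ℝ => S.F z.2 z.1 * S.V z.2 z.1) :=
    (FV_meas S).comp measurable_swap
  refine Integrable.mono' ((FV_int S T).const_mul C)
    ((hw.comp measurable_snd).mul hm).aestronglyMeasurable ?_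
  refine Filter.Eventually.of_forall fun z => ?_
  rw [Real.norm_of_nonneg (mul_nonneg (h0 _) (FV_nonneg S _ _))]
  exact mul_le_mul_of_nonneg_right (hC _) (FV_nonneg S _ _)

/-- the iterated integral of a weight supported in `(-∞, T]` -/
lemma iter_eq (S : Cyl M μ) [IsFiniteMeasure μ] (T : ℝ) {w : ℝ → ℝ} (hw : Measurable w) {C : ℝ}
    (h0 : ∀ t, 0 ≤ w t) (hC : ∀ t, w t ≤ C) (hT : ∀ t, T < t → w t = 0) :
    (∫ θ, ∫ t, w t * (S.F t θ * S.V t θ) ∂volume ∂μ)
      = ∫ z : M × ℝ, w z.2 * (S.F z.2 z.1 * S.V z.2 z.1) ∂(μ.prod (volume.restrict (Iic T))) := by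
  rw [integral_prod _ (wFV_int S T hw h0 hC)]
  refine integral_congr_ae (Filter.Eventually.of_forall fun θ => ?_)
  show (∫ t, w t * (S.F t θ * S.V t θ) ∂volume) = ∫ t in Iic T, w t * (S.F t θ * S.V t θ)
  symm
  refine setIntegral_eq_integral_of_forall_compl_eq_zero fun t ht => ?_
  rw [hT t (by simpa using ht), zero_mul]

lemma inner_int (S : Cyl M μ) [IsFiniteMeasure μ] (T : ℝ) {w : ℝ → ℝ} (hw : Measurable w) {C : ℝ}
    (h0 : ∀ t, 0 ≤ w t) (hC : ∀ t, w t ≤ C) (hT : ∀ t, T < t → w t = 0) :
    Integrable (fun θ => ∫ t, w t * (S.F t θ * S.V t θ)) μ := by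
  have h := (wFV_int S T hw h0 hC).integral_prod_left
  refine h.congr (Filter.Eventually.of_forall fun θ => ?_)
  show (∫ t in Iic T, w t * (S.F t θ * S.V t θ)) = ∫ t, w t * (S.F t θ * S.V t θ)
  refine setIntegral_eq_integral_of_forall_compl_eq_zero fun t ht => ?_
  rw [hT t (by simpa using ht), zero_mul]

lemma sm_inner {g : M → ℝ → ℝ} (hg : Measurable (fun z : M × ℝ => g z.1 z.2)) :
    StronglyMeasurable (fun θ => ∫ t, g θ t) :=
  StronglyMeasurable.integral_prod_right' (f := fun z : M × ℝ => g z.1 z.2) hg.stronglyMeasurable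

lemma meas_wpsi {w : ℝ → ℝ} (hw : Measurable w) {Ψ : ℝ × ℝ → ℝ} (hΨ : Measurable Ψ)
    {h : ℝ → M → ℝ} (hh : Measurable (fun z : ℝ × M => h z.1 z.2)) :
    Measurable (fun z : M × ℝ => w z.2 * Ψ (z.2, h z.2 z.1)) := by
  have hA : Measurable (fun z : M × ℝ => w z.2) := hw.comp measurable_snd
  have h3 : Measurable (fun z : M × ℝ => h z.2 z.1) := hh.comp measurable_swap
  exact hA.mul (hΨ.comp (measurable_snd.prodMk h3))

/-- measurability in the angle of the opening energy -/
lemma psiFLo_sm (S : Cyl M μ) {lam a L : ℝ} {m : ℕ} (hW : WinOK S lam a m L) (η : ℝ) :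
    StronglyMeasurable
      (fun θ => ∫ t, tent lam a t * psi S.b₁ S.p t (S.FLo lam a m L η t θ)) := by
  have h := meas_wpsi (tent_continuous lam a).measurable (psi_meas S.b₁ S.p) (FLo_meas S hW η)
  exact sm_inner (g := fun θ t => tent lam a t * psi S.b₁ S.p t (S.FLo lam a m L η t θ)) h

end meas

end Crest.Agent.R077.IntE

namespace Crest.Agent.R077

open IntE

theorem EF_of (hE : Stmt_E1) : Stmt_EF := by
  intro M _ μ _ S lam a L m η δ hW hη hηδ
  have ha := hW.ha
  have ha1 := hW.ha1
  have hδ : 0 < δ := lt_of_lt_of_le hη hηδ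
  -- one angle
  have hE1 := fun θ => hE S.b₁ S.p lam a L (fun t => S.F t θ) (fun t => S.V t θ) m η δ ha ha1
    (hW.solF θ) hW.hm hW.hLm hη hηδ
  have htm : Measurable (tent lam a) := (tent_continuous lam a).measurable
  have hpm : Measurable (phi lam a) := (phi_continuous lam a).measurable
  have htT : ∀ t, lam + 2 * a < t → tent lam a t = 0 := fun t ht => tent_zero_right (by linarith)
  have hpT : ∀ t, lam + 2 * a < t → phi lam a t = 0 := fun t ht => phi_right ha (by linarith)
  have hIw := inner_int S (lam + 2 * a) htm (tent_nonneg lam a) (tent_le ha) htT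
  -- integrability of the opening energies
  have hint : ∀ η', (∀ θ, 0 ≤ (∫ t, tent lam a t * psi S.b₁ S.p t (S.FLo lam a m L η' t θ)) ∧
      (∫ t, tent lam a t * psi S.b₁ S.p t (S.FLo lam a m L η' t θ))
        ≤ ∫ t, tent lam a t * (S.F t θ * S.V t θ)) →
      Integrable (fun θ => ∫ t, tent lam a t * psi S.b₁ S.p t (S.FLo lam a m L η' t θ)) μ := by
    intro η' h
    refine Integrable.mono' hIw (psiFLo_sm S hW η').aestronglyMeasurable
      (Filter.Eventually.of_forall fun θ => ?_)
    rw [Real.norm_of_nonneg (h θ).1]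
    exact (h θ).2
  have hη0 : ∀ θ, 0 ≤ (∫ t, tent lam a t * psi S.b₁ S.p t (S.FLo lam a m L η t θ)) :=
    fun θ => (hE1 θ).1.trans (hE1 θ).2.1
  have hIη := hint η fun θ => ⟨hη0 θ, (hE1 θ).2.2⟩
  have hIδ := hint δ fun θ => ⟨(hE1 θ).1, (hE1 θ).2.1.trans (hE1 θ).2.2⟩
  refine ⟨?_, ?_, ?_, ?_, ?_⟩
  · exact integral_nonneg fun θ => (hE1 θ).1
  · exact integral_mono hIδ hIη fun θ => (hE1 θ).2.1
  · exact integral_mono hIη hIw fun θ => (hE1 θ).2.2
  · rw [iter_eq S (lam + 2 * a) htm (tent_nonneg lam a) (tent_le ha) htT]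
    have hJ : S.J1 (lam + 2 * a)
        = ∫ z : M × ℝ, (S.F z.2 z.1 * S.V z.2 z.1) ∂(μ.prod (volume.restrict (Iic (lam + 2 * a)))) := by
      rw [integral_prod _ (FV_int S _)]
      rfl
    rw [hJ, ← integral_const_mul]
    refine integral_mono (wFV_int S _ htm (tent_nonneg lam a) (tent_le ha))
      ((FV_int S _).const_mul _) fun z => ?_
    exact mul_le_mul_of_nonneg_right (tent_le ha _) (FV_nonneg S _ _)
  · rw [iter_eq S (lam + 2 * a) hpm (phi_nonneg ha) (phi_le_one lam a) hpT]
    have hwm : Measurable (fun t : ℝ => (Iic lam).indicator (fun _ => (1:ℝ)) t) :=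
      measurable_const.indicator measurableSet_Iic
    have hw0 : ∀ t : ℝ, 0 ≤ (Iic lam).indicator (fun _ => (1:ℝ)) t := fun t =>
      indicator_nonneg (fun _ _ => zero_le_one) t
    have hw1 : ∀ t : ℝ, (Iic lam).indicator (fun _ => (1:ℝ)) t ≤ 1 := fun t =>
      indicator_le' (fun _ _ => le_rfl) (fun _ _ => zero_le_one) t
    have hwT : ∀ t : ℝ, lam + 2 * a < t → (Iic lam).indicator (fun _ => (1:ℝ)) t = 0 := by
      intro t ht
      exact indicator_of_notMem (by simp only [mem_Iic, not_le]; linarith) _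
    have hJ : S.J1 lam = ∫ z : M × ℝ, (Iic lam).indicator (fun _ => (1:ℝ)) z.2 *
        (S.F z.2 z.1 * S.V z.2 z.1) ∂(μ.prod (volume.restrict (Iic (lam + 2 * a)))) := by
      rw [← iter_eq S (lam + 2 * a) hwm hw0 hw1 hwT]
      unfold Cyl.J1
      refine integral_congr_ae (Filter.Eventually.of_forall fun θ => ?_)
      show (∫ t in Iic lam, S.F t θ * S.V t θ)
        = ∫ t, (Iic lam).indicator (fun _ => (1:ℝ)) t * (S.F t θ * S.V t θ)
      rw [← integral_indicator measurableSet_Iic]
      refine integral_congr_ae (Filter.Eventually.of_forall fun t => ?_)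
      by_cases h : t ∈ Iic lam
      · simp [indicator_of_mem h]
      · simp [indicator_of_notMem h]
    rw [hJ]
    refine integral_mono (wFV_int S _ hwm hw0 hw1)
      (wFV_int S _ hpm (phi_nonneg ha) (phi_le_one lam a)) fun z => ?_
    refine mul_le_mul_of_nonneg_right ?_ (FV_nonneg S _ _)
    by_cases h : z.2 ∈ Iic lam
    · rw [indicator_of_mem h, phi_left h]
    · rw [indicator_of_notMem h]; exact phi_nonneg ha _

end Crest.Agent.R077
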