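import Crest.Agent.R077.StepW
import Crest.Agent.R077.Layers
import Crest.Agent.R077.Defs
import Crest.Agent.R077.Iface

-- ▼ part R077/StepW2
section

/-!
# Row 77: STEP W for the grid (one variable, one `θ`)
-/

set_option autoImplicit false

open Set MeasureTheory Filter Topology

noncomputable section

namespace Crest.Agent.R077

open Layers

/-- splitting an integral over a run into its cells -/
theorem integral_cells {nd : ℕ → ℝ} {g : ℝ → ℝ} {l r : ℕ} (hlr : l ≤ r)
    (hg : ∀ k, l ≤ k → k ≤ r → IntervalIntegrable g volume (nd (k - 1)) (nd k)) :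
    ∫ t in nd (l - 1)..nd r, g t = ∑ k ∈ Finset.Icc l r, ∫ t in nd (k - 1)..nd k, g t := by
  have h := intervalIntegral.sum_integral_adjacent_intervals_Ico (μ := volume) (f := g)
    (a := fun k => nd (k - 1)) (m := l) (n := r + 1) (by omega) (fun k hk => by
      have := hg k hk.1 (by have := hk.2; omega)
      simpa using this)
  simp only [Nat.add_sub_cancel] at h
  rw [← h]
  refine Finset.sum_congr ?_ fun k _ => rfl
  ext k
  simp only [Finset.mem_Ico, Finset.mem_Icc]
  omega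

theorem base_nonneg {x : ℕ → ℝ} {m : ℕ} (hx : Seq x m) (l r : ℕ) : 0 ≤ base x l r :=
  (hx.nonneg _).trans (le_max_left _ _)


theorem psi_hasDeriv {b p t : ℝ} (hp : 0 < p) {σ : ℝ} (hσ : 0 ≤ σ) :
    HasDerivAt (fun σ => psi b p t σ) (esg b p σ t) σ := by
  have hq1 : 1 ≤ (p + 1) / p := by rw [le_div_iff₀ hp]; linarith
  have h := (Real.hasDerivAt_rpow_const (x := σ) (p := (p + 1) / p) (Or.inr hq1)).const_mul
    (p / (p + 1) * Real.exp (-(b * t) / p))
  refine h.congr_deriv ?_
  rw [esg_eq hσ, show (p + 1) / p - 1 = 1 / p by field_simp; ring]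
  field_simp

theorem esg_cont {b p t : ℝ} (hp : 0 < p) : Continuous (fun σ : ℝ => esg b p σ t) := by
  unfold esg
  exact (continuous_const.mul continuous_id).rpow_const fun _ => Or.inr (by positivity)

theorem int_esg {b p t : ℝ} (hp : 0 < p) {x y : ℝ} (hx : 0 ≤ x) (hxy : x ≤ y) :
    ∫ σ in Ico x y, esg b p σ t = psi b p t y - psi b p t x := by
  rw [integral_Ico_eq_integral_Ioo, ← integral_Ioc_eq_integral_Ioo, ← intervalIntegral.integral_of_le hxy]
  refine intervalIntegral.integral_eq_sub_of_hasDerivAt (fun σ hσ => psi_hasDeriv hp ?_)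
    ((esg_cont hp).intervalIntegrable _ _)
  rw [uIcc_of_le hxy] at hσ
  exact hx.trans hσ.1

theorem int_lay {b p t : ℝ} (hp : 0 < p) {x : ℕ → ℝ} {m : ℕ} (hx : Seq x m) (q : ℕ × ℕ) :
    ∫ σ in lay x q, esg b p σ t =
      psi b p t (base x q.1 q.2 + cc x q.1 q.2) - psi b p t (base x q.1 q.2) := by
  unfold lay cc
  rcases le_total (base x q.1 q.2) (top x q.1 q.2) with h | h
  · rw [max_eq_left (by linarith), add_sub_cancel]
    exact int_esg hp (base_nonneg hx _ _) h
  · rw [max_eq_right (by linarith), Ico_eq_empty (not_lt.2 h)]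
    simp

theorem esg_intOn {b p t : ℝ} (hp : 0 < p) (y : ℝ) : IntegrableOn (fun σ => esg b p σ t) (Ico 0 y) :=
  ((esg_cont hp).integrableOn_Icc).mono_set Ico_subset_Icc_self

/-- `ψ` summed over the layers at `k` -/
theorem sum_psi {b p t : ℝ} (hp : 0 < p) {x : ℕ → ℝ} {m k : ℕ} (hx : Seq x m) (h1 : 1 ≤ k) (h2 : k ≤ m) :
    ∑ q ∈ pairsAt m k, (psi b p t (base x q.1 q.2 + cc x q.1 q.2) - psi b p t (base x q.1 q.2)) =
      psi b p t (x k) := by
  have h := sum_integral hx h1 h2 (esg_intOn (b := b) (t := t) hp (x k))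
  rw [int_esg hp le_rfl (hx.nonneg k), psi_zero hp, sub_zero] at h
  rw [← h]
  exact Finset.sum_congr rfl fun q _ => (int_lay hp hx q).symm

theorem sum_psi_long {b p t : ℝ} (hp : 0 < p) {x : ℕ → ℝ} {m k : ℕ} {Lg : ℕ × ℕ → Prop} [DecidablePred Lg]
    (hx : Seq x m) (hL : UpClosed Lg m) :
    ∑ q ∈ (pairsAt m k).filter Lg,
      (psi b p t (base x q.1 q.2 + cc x q.1 q.2) - psi b p t (base x q.1 q.2)) =
      psi b p t (xL Lg x m k) := by
  have h := sum_integral_long (k := k) hx hL (esg_intOn (b := b) (t := t) hp (xL Lg x m k))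
  rw [int_esg hp le_rfl (xL_nonneg _ _ _ _), psi_zero hp, sub_zero] at h
  rw [← h]
  exact Finset.sum_congr rfl fun q _ => (int_lay hp hx q).symm

theorem sum_psi_short {b p t : ℝ} (hp : 0 < p) {x : ℕ → ℝ} {m k : ℕ} {Lg : ℕ × ℕ → Prop} [DecidablePred Lg]
    (hx : Seq x m) (hL : UpClosed Lg m) (h1 : 1 ≤ k) (h2 : k ≤ m) :
    ∑ q ∈ (pairsAt m k).filter (fun q => ¬ Lg q),
      (psi b p t (base x q.1 q.2 + cc x q.1 q.2) - psi b p t (base x q.1 q.2)) =
      psi b p t (x k) - psi b p t (xL Lg x m k) := by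
  have := Finset.sum_filter_add_sum_filter_not (pairsAt m k) Lg
    (fun q => psi b p t (base x q.1 q.2 + cc x q.1 q.2) - psi b p t (base x q.1 q.2))
  rw [sum_psi hp hx h1 h2, sum_psi_long hp hx hL] at this
  linarith

/-- data of STEP W on the grid, for one `θ` -/
structure WGrid (b p η L h f0 f1 e : ℝ) (m : ℕ) (nd x : ℕ → ℝ) (Lg : ℕ × ℕ → Prop)
    (F V V' w φ : ℝ → ℝ) : Prop where
  p_pos : 0 < p
  η_nonneg : 0 ≤ η
  h_pos : 0 < h
  L_nonneg : 0 ≤ L
  nd_succ : ∀ k, nd (k + 1) = nd k + h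
  seq : Seq x m
  x_eq : ∀ k, 1 ≤ k → k ≤ m → x k = F (nd k) - L * h
  up : UpClosed Lg m
  short : ∀ q ∈ pairs m, ¬ Lg q → 2 ≤ q.1 ∧ q.2 + 1 ≤ m ∧ nd q.2 - nd (q.1 - 1) ≤ η
  f0_pos : 0 < f0
  x_ge : ∀ k, 1 ≤ k → k ≤ m → f0 ≤ x k
  F_le : ∀ t ∈ Icc (nd 0) (nd m), F t ≤ f1
  lip : ∀ s ∈ Icc (nd 0) (nd m), ∀ t ∈ Icc (nd 0) (nd m), |F s - F t| ≤ L * |s - t|
  e_ge : ∀ t ∈ Icc (nd 0) (nd m), Real.exp (-(b * t) / p) *
    ((1 / p) * max (f0 ^ (1 / p - 1)) (f1 ^ (1 / p - 1)) * (2 * L * h)) ≤ e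
  w_cont : Continuous w
  w_nonneg : ∀ t, 0 ≤ w t
  φ_deriv : ∀ t, HasDerivAt φ (-w t) t
  V_pos : ∀ t ∈ Icc (nd 0) (nd m), 0 < V t
  F_eq : ∀ t ∈ Icc (nd 0) (nd m), F t = Real.exp (b * t) * V t ^ p
  V_deriv : ∀ t ∈ Icc (nd 0) (nd m), HasDerivAt V (V' t) t
  V'_cont : ContinuousOn V' (Icc (nd 0) (nd m))

namespace WGrid

variable {b p η L h f0 f1 e : ℝ} {m : ℕ} {nd x : ℕ → ℝ} {Lg : ℕ × ℕ → Prop}
    {F V V' w φ : ℝ → ℝ}

theorem nd_mono (H : WGrid b p η L h f0 f1 e m nd x Lg F V V' w φ) : Monotone nd :=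
  monotone_nat_of_le_succ fun k => by rw [H.nd_succ]; have := H.h_pos; linarith

theorem mem (H : WGrid b p η L h f0 f1 e m nd x Lg F V V' w φ) {k : ℕ} (hk : k ≤ m) :
    nd k ∈ Icc (nd 0) (nd m) := ⟨H.nd_mono (Nat.zero_le k), H.nd_mono hk⟩

theorem step (H : WGrid b p η L h f0 f1 e m nd x Lg F V V' w φ) {k : ℕ} (hk : k + 1 ≤ m) :
    |F (nd k) - F (nd (k + 1))| ≤ L * h := by
  have h1 := H.lip _ (H.mem (by omega : k ≤ m)) _ (H.mem hk)
  have h2 : |nd k - nd (k + 1)| = h := by
    rw [H.nd_succ, show nd k - (nd k + h) = -h by ring, abs_neg, abs_of_pos H.h_pos]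
  rwa [h2] at h1

/-- the two end conditions for a short layer -/
theorem ends (H : WGrid b p η L h f0 f1 e m nd x Lg F V V' w φ) {q : ℕ × ℕ} (hq : q ∈ pairs m)
    (hs : ¬ Lg q) :
    |cc x q.1 q.2 * V (nd (q.1 - 1)) - (psi b p (nd (q.1 - 1)) (base x q.1 q.2 + cc x q.1 q.2) -
        psi b p (nd (q.1 - 1)) (base x q.1 q.2))| ≤ e * cc x q.1 q.2 ∧
    |cc x q.1 q.2 * V (nd q.2) - (psi b p (nd q.2) (base x q.1 q.2 + cc x q.1 q.2) -
        psi b p (nd q.2) (base x q.1 q.2))| ≤ e * cc x q.1 q.2 := by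
  obtain ⟨h2, hm2, hη⟩ := H.short q hq hs
  obtain ⟨h1, h12, hm⟩ := mem_pairs.1 hq
  rcases le_or_gt (top x q.1 q.2) (base x q.1 q.2) with hcase | hcase
  · have hc : cc x q.1 q.2 = 0 := by unfold cc; exact max_eq_right (by linarith)
    rw [hc]; simp
  have hc : base x q.1 q.2 + cc x q.1 q.2 = top x q.1 q.2 := by
    unfold cc; rw [max_eq_left (by linarith)]; ring
  have hcd : cc x q.1 q.2 = (base x q.1 q.2 + cc x q.1 q.2) - base x q.1 q.2 := by ring
  have hp := H.p_pos
  have hLh : 0 ≤ L * h := mul_nonneg H.L_nonneg H.h_pos.le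
  obtain ⟨l, hl⟩ : ∃ l, q.1 = l + 1 := ⟨q.1 - 1, by omega⟩
  have hl1 : q.1 - 1 = l := by omega
  have b1 : x l ≤ base x q.1 q.2 := by
    have : x (q.1 - 1) ≤ base x q.1 q.2 := le_max_left _ _
    rwa [hl1] at this
  have b2 : x (q.2 + 1) ≤ base x q.1 q.2 := le_max_right _ _
  have t1 : top x q.1 q.2 ≤ x q.1 := top_le le_rfl h12
  have t2 : top x q.1 q.2 ≤ x q.2 := top_le h12 le_rfl
  have s1 := H.step (k := l) (by omega)
  have s2 := H.step (k := q.2) (by omega)
  rw [abs_le] at s1 s2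
  have xl := H.x_eq l (by omega) (by omega)
  have xq1 := H.x_eq q.1 (by omega) (by omega)
  have xq2 := H.x_eq q.2 (by omega) (by omega)
  have xq3 := H.x_eq (q.2 + 1) (by omega) (by omega)
  rw [hl] at xq1
  have g0 := H.x_ge l (by omega) (by omega)
  have g1 := H.F_le _ (H.mem (by omega : l ≤ m))
  have g2 := H.F_le _ (H.mem (by omega : q.2 ≤ m))
  have lo_mem : base x q.1 q.2 ∈ Icc f0 f1 := by
    refine ⟨g0.trans b1, ?_⟩
    have : top x q.1 q.2 ≤ f1 := by rw [xq2] at t2; linarith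
    linarith
  have hi_mem : base x q.1 q.2 + cc x q.1 q.2 ∈ Icc f0 f1 := by
    rw [hc]
    refine ⟨lo_mem.1.trans hcase.le, ?_⟩
    rw [xq2] at t2; linarith
  have tl : top x q.1 q.2 ≤ F (nd (l + 1)) - L * h := by
    calc top x q.1 q.2 ≤ x q.1 := t1
      _ = x (l + 1) := by rw [hl]
      _ = F (nd (l + 1)) - L * h := xq1
  constructor
  · rw [hl1]
    have F1 : F (nd l) ∈ Icc f0 f1 := ⟨by linarith, g1⟩
    have := end_cond (b := b) (y := nd l) hp H.f0_pos lo_mem hi_mem (by have := cc_nonneg x q.1 q.2; linarith)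
      F1 (H.V_pos _ (H.mem (by omega : l ≤ m))).le (H.F_eq _ (H.mem (by omega : l ≤ m))) (κ := 2 * L * h)
      (by rw [abs_le]; constructor <;> linarith) (by rw [hc, abs_le]; constructor <;> linarith)
    rw [← hcd] at this
    refine this.trans ?_
    exact mul_le_mul_of_nonneg_right (H.e_ge _ (H.mem (by omega : l ≤ m))) (cc_nonneg _ _ _)
  · have F1 : F (nd q.2) ∈ Icc f0 f1 := by
      refine ⟨?_, g2⟩
      have := H.x_ge q.2 (by omega) (by omega)
      linarith
    have := end_cond (b := b) (y := nd q.2) hp H.f0_pos lo_mem hi_mem (by have := cc_nonneg x q.1 q.2; linarith)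
      F1 (H.V_pos _ (H.mem (by omega : q.2 ≤ m))).le (H.F_eq _ (H.mem (by omega : q.2 ≤ m))) (κ := 2 * L * h)
      (by rw [abs_le]; constructor <;> linarith) (by rw [hc, abs_le]; constructor <;> linarith)
    rw [← hcd] at this
    refine this.trans ?_
    exact mul_le_mul_of_nonneg_right (H.e_ge _ (H.mem (by omega : q.2 ≤ m))) (cc_nonneg _ _ _)

/-- STEP W, short layers -/
theorem short_sum (H : WGrid b p η L h f0 f1 e m nd x Lg F V V' w φ) [DecidablePred Lg] :
    |(∑ q ∈ (pairs m).filter (fun q => ¬ Lg q), cc x q.1 q.2 *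
        ∫ t in nd (q.1 - 1)..nd q.2, (φ ((nd (q.1 - 1) + nd q.2) / 2) - φ t) * V' t)
      + (∑ k ∈ Finset.Icc 1 m, ∫ t in nd (k - 1)..nd k, w t * ((x k - xL Lg x m k) * V t))
      - ∑ k ∈ Finset.Icc 1 m, ∫ t in nd (k - 1)..nd k,
          w t * (psi b p t (x k) - psi b p t (xL Lg x m k))| ≤
    (Real.exp (|b| * η / p) - 1) * (∑ k ∈ Finset.Icc 1 m, ∫ t in nd (k - 1)..nd k,
          w t * (psi b p t (x k) - psi b p t (xL Lg x m k)))
      + e * ∑ k ∈ Finset.Icc 1 m, ∫ t in nd (k - 1)..nd k, w t * (x k - xL Lg x m k) := by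
  classical
  have hp := H.p_pos
  have hVc : ContinuousOn V (Icc (nd 0) (nd m)) := fun t ht =>
    (H.V_deriv t ht).continuousAt.continuousWithinAt
  have hcell : ∀ k, 1 ≤ k → k ≤ m → uIcc (nd (k - 1)) (nd k) ⊆ Icc (nd 0) (nd m) := by
    intro k h1 h2
    rw [uIcc_of_le (H.nd_mono (Nat.sub_le k 1))]
    exact Icc_subset_Icc (H.nd_mono (Nat.zero_le _)) (H.nd_mono h2)
  have hpsi : ∀ y, Continuous fun t => psi b p t y := fun y => by unfold psi; fun_prop
  -- interval integrability on cells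
  have iV : ∀ k, 1 ≤ k → k ≤ m → ∀ c : ℝ,
      IntervalIntegrable (fun t => w t * (c * V t)) volume (nd (k - 1)) (nd k) := fun k h1 h2 c =>
    ContinuousOn.intervalIntegrable (H.w_cont.continuousOn.mul
      (continuousOn_const.mul (hVc.mono (hcell k h1 h2))))
  have iP : ∀ k, ∀ y z : ℝ,
      IntervalIntegrable (fun t => w t * (psi b p t y - psi b p t z)) volume (nd (k - 1)) (nd k) :=
    fun k y z => (H.w_cont.mul ((hpsi y).sub (hpsi z))).intervalIntegrable _ _
  have iC : ∀ k, ∀ c : ℝ, IntervalIntegrable (fun t => w t * c) volume (nd (k - 1)) (nd k) :=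
    fun k c => (H.w_cont.mul continuous_const).intervalIntegrable _ _
  -- per-cell sums
  have e1 : ∀ k ∈ Finset.Icc 1 m, ∑ q ∈ (pairsAt m k).filter (fun q => ¬ Lg q),
      ∫ t in nd (k - 1)..nd k, w t * (cc x q.1 q.2 * V t) =
      ∫ t in nd (k - 1)..nd k, w t * ((x k - xL Lg x m k) * V t) := by
    intro k hk
    rw [Finset.mem_Icc] at hk
    rw [← intervalIntegral.integral_finsetSum fun q _ => iV k hk.1 hk.2 _]
    congr 1; funext t
    rw [← Finset.mul_sum, ← Finset.sum_mul, sum_short_cc H.seq hk.1 hk.2]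
  have e2 : ∀ k ∈ Finset.Icc 1 m, ∑ q ∈ (pairsAt m k).filter (fun q => ¬ Lg q),
      ∫ t in nd (k - 1)..nd k, w t * (psi b p t (base x q.1 q.2 + cc x q.1 q.2) -
        psi b p t (base x q.1 q.2)) =
      ∫ t in nd (k - 1)..nd k, w t * (psi b p t (x k) - psi b p t (xL Lg x m k)) := by
    intro k hk
    rw [Finset.mem_Icc] at hk
    rw [← intervalIntegral.integral_finsetSum fun q _ => iP k _ _]
    congr 1; funext t
    rw [← Finset.mul_sum, sum_psi_short hp H.seq H.up hk.1 hk.2]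
  have e3 : ∀ k ∈ Finset.Icc 1 m, ∑ q ∈ (pairsAt m k).filter (fun q => ¬ Lg q),
      ∫ t in nd (k - 1)..nd k, w t * cc x q.1 q.2 =
      ∫ t in nd (k - 1)..nd k, w t * (x k - xL Lg x m k) := by
    intro k hk
    rw [Finset.mem_Icc] at hk
    rw [← intervalIntegral.integral_finsetSum fun q _ => iC k _]
    congr 1; funext t
    rw [← Finset.mul_sum, sum_short_cc H.seq hk.1 hk.2]
  rw [← Finset.sum_congr rfl e1, ← Finset.sum_congr rfl e2, ← Finset.sum_congr rfl e3,
    ← sum_pairs_comm m (fun q => ¬ Lg q) (fun q k => ∫ t in nd (k - 1)..nd k, w t * (cc x q.1 q.2 * V t)),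
    ← sum_pairs_comm m (fun q => ¬ Lg q) (fun q k => ∫ t in nd (k - 1)..nd k,
      w t * (psi b p t (base x q.1 q.2 + cc x q.1 q.2) - psi b p t (base x q.1 q.2))),
    ← sum_pairs_comm m (fun q => ¬ Lg q) (fun q k => ∫ t in nd (k - 1)..nd k, w t * cc x q.1 q.2),
    ← Finset.sum_add_distrib, ← Finset.sum_sub_distrib, Finset.mul_sum, Finset.mul_sum,
    ← Finset.sum_add_distrib]
  refine (Finset.abs_sum_le_sum_abs _ _).trans (Finset.sum_le_sum fun q hq => ?_)
  obtain ⟨hq, hs⟩ := Finset.mem_filter.1 hq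
  obtain ⟨h1, h12, hm⟩ := mem_pairs.1 hq
  obtain ⟨h2, hm2, hη⟩ := H.short q hq hs
  have hlr : nd (q.1 - 1) ≤ nd q.2 := H.nd_mono (by omega)
  rw [← integral_cells h12 (fun k a1 a2 => iV k (by omega) (by omega) _),
    ← integral_cells h12 (fun k _ _ => iP k _ _), ← integral_cells h12 (fun k _ _ => iC k _)]
  have hsub : Icc (nd (q.1 - 1)) (nd q.2) ⊆ Icc (nd 0) (nd m) :=
    Icc_subset_Icc (H.nd_mono (Nat.zero_le _)) (H.nd_mono hm)
  obtain ⟨E1, E2⟩ := H.ends hq hs
  have hcd : cc x q.1 q.2 = (base x q.1 q.2 + cc x q.1 q.2) - base x q.1 q.2 := by ring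
  have key := stepW_layer (b := b) (p := p) (η := η) (e := e) (lo := base x q.1 q.2)
    (hi := base x q.1 q.2 + cc x q.1 q.2) (y1 := nd (q.1 - 1)) (y2 := nd q.2)
    (m := (nd (q.1 - 1) + nd q.2) / 2) (V := V) (V' := V') (w := w) (φ := φ) hp
    (base_nonneg H.seq _ _) (by have := cc_nonneg x q.1 q.2; linarith) (by linarith) (by linarith) hη
    H.w_cont H.w_nonneg H.φ_deriv (fun t ht => H.V_deriv t (hsub ht)) (H.V'_cont.mono hsub)
    (by rw [← hcd]; exact E1) (by rw [← hcd]; exact E2)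
  rw [← hcd] at key
  have f1 : ∫ t in nd (q.1 - 1)..nd q.2, w t * (cc x q.1 q.2 * V t) =
      cc x q.1 q.2 * ∫ t in nd (q.1 - 1)..nd q.2, w t * V t := by
    rw [← intervalIntegral.integral_const_mul]; congr 1; funext t; ring
  have f2 : ∫ t in nd (q.1 - 1)..nd q.2, w t * cc x q.1 q.2 =
      cc x q.1 q.2 * ∫ t in nd (q.1 - 1)..nd q.2, w t := by
    rw [← intervalIntegral.integral_const_mul]; congr 1; funext t; ring
  rw [f1, f2]
  exact key

/-- on cell `k`: `x_k ≤ F ≤ x_k + 2Lh` -/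
theorem cell_bd (H : WGrid b p η L h f0 f1 e m nd x Lg F V V' w φ) {k : ℕ} (h1 : 1 ≤ k) (h2 : k ≤ m)
    {t : ℝ} (ht : t ∈ Icc (nd (k - 1)) (nd k)) : x k ≤ F t ∧ F t - x k ≤ 2 * L * h := by
  have htm : t ∈ Icc (nd 0) (nd m) :=
    ⟨(H.nd_mono (Nat.zero_le _)).trans ht.1, ht.2.trans (H.nd_mono h2)⟩
  have hl := H.lip t htm _ (H.mem h2)
  have hk : nd k = nd (k - 1) + h := by
    have := H.nd_succ (k - 1)
    rwa [Nat.sub_add_cancel h1] at this
  have h3 : |t - nd k| ≤ h := by rw [abs_le]; constructor <;> linarith [ht.1, ht.2]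
  have h4 : L * |t - nd k| ≤ L * h := mul_le_mul_of_nonneg_left h3 H.L_nonneg
  have h5 := abs_le.1 (hl.trans h4)
  have := H.x_eq k h1 h2
  constructor <;> linarith

/-- **STEP W** for one `θ`. -/
theorem stepW (H : WGrid b p η L h f0 f1 e m nd x Lg F V V' w φ) [DecidablePred Lg] {T0 T1 : ℝ}
    (hT0 : T0 ≤ nd 0) (hT1 : nd m ≤ T1) (hφ1 : φ T1 = 0)
    (hw : ∀ t, t ∉ Icc (nd 0) (nd m) → w t = 0)
    (hV0 : ∀ t ∈ Icc T0 T1, 0 < V t)
    (hF : ∀ t ∈ Icc T0 T1, F t = Real.exp (b * t) * V t ^ p)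
    (hV : ∀ t ∈ Icc T0 T1, HasDerivAt V (V' t) t) (hV'c : ContinuousOn V' (Icc T0 T1)) :
    |((∫ t in T0..T1, φ t * F t * V' t) +
        ∑ q ∈ (pairs m).filter (fun q => ¬ Lg q), cc x q.1 q.2 *
          ∫ t in nd (q.1 - 1)..nd q.2, (φ ((nd (q.1 - 1) + nd q.2) / 2) - φ t) * V' t)
      - (-(φ T0 * F T0 * V T0) / (p + 1) - (b / (p + 1)) * (∫ t in T0..T1, φ t * F t * V t)
        + (∑ k ∈ Finset.Icc 1 m, ∫ t in nd (k - 1)..nd k, w t * (xL Lg x m k * V t))
        - ∑ k ∈ Finset.Icc 1 m, ∫ t in nd (k - 1)..nd k, w t * psi b p t (xL Lg x m k))| ≤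
    (Real.exp (|b| * η / p) - 1) * (p / (p + 1) * ∫ t in nd 0..nd m, w t * F t * V t)
      + e * (∫ t in nd 0..nd m, w t * F t) + 2 * L * h * ∫ t in nd 0..nd m, w t * V t := by
  have hp := H.p_pos
  have h0m : nd 0 ≤ nd m := H.nd_mono (Nat.zero_le _)
  have h01 : T0 ≤ T1 := hT0.trans (h0m.trans hT1)
  have hVc : ContinuousOn V (Icc (nd 0) (nd m)) := fun t ht =>
    (H.V_deriv t ht).continuousAt.continuousWithinAt
  have hFc : ContinuousOn F (Icc (nd 0) (nd m)) := by
    refine ContinuousOn.congr (f := fun t => Real.exp (b * t) * V t ^ p) ?_ H.F_eq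
    refine ContinuousOn.mul (by fun_prop) (hVc.rpow_const fun t ht => Or.inl (H.V_pos t ht).ne')
  have hcell : ∀ k, 1 ≤ k → k ≤ m → uIcc (nd (k - 1)) (nd k) ⊆ Icc (nd 0) (nd m) := by
    intro k h1 h2
    rw [uIcc_of_le (H.nd_mono (Nat.sub_le k 1))]
    exact Icc_subset_Icc (H.nd_mono (Nat.zero_le _)) (H.nd_mono h2)
  have hwc := H.w_cont
  have hw0 := H.w_nonneg
  have hpsi : ∀ y, Continuous fun t => psi b p t y := fun y => by unfold psi; fun_prop
  -- integrals over the window as sums of cells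
  have win : ∀ g : ℝ → ℝ, ContinuousOn g (Icc (nd 0) (nd m)) →
      ∫ t in nd 0..nd m, g t = ∑ k ∈ Finset.Icc 1 m, ∫ t in nd (k - 1)..nd k, g t := by
    intro g hg
    rcases Nat.eq_zero_or_pos m with hm | hm
    · subst hm; simp
    · have := integral_cells (nd := nd) (g := g) (l := 1) (r := m) hm (fun k h1 h2 =>
        (hg.mono (hcell k h1 h2)).intervalIntegrable)
      simpa using this
  -- `∫_{T0}^{T1} w F V = ∫ window`
  have hext : ∫ t in T0..T1, w t * F t * V t = ∫ t in nd 0..nd m, w t * F t * V t := by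
    rw [intervalIntegral.integral_of_le h01, intervalIntegral.integral_of_le h0m,
      ← integral_Icc_eq_integral_Ioc, ← integral_Icc_eq_integral_Ioc]
    refine (setIntegral_eq_of_subset_of_forall_sdiff_eq_zero measurableSet_Icc
      (Icc_subset_Icc hT0 hT1) fun t ht => ?_)
    rw [hw t ht.2]; ring
  have hphi := stepW_phi (b := b) hp h01 hwc H.φ_deriv hφ1 hV0 hF hV hV'c
  have hshort := H.short_sum
  have cW : ContinuousOn (fun t => w t * F t * V t) (Icc (nd 0) (nd m)) :=
    (hwc.continuousOn.mul hFc).mul hVc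
  rw [hphi, hext, win _ cW]
  set SH := ∑ q ∈ (pairs m).filter (fun q => ¬ Lg q), cc x q.1 q.2 *
          ∫ t in nd (q.1 - 1)..nd q.2, (φ ((nd (q.1 - 1) + nd q.2) / 2) - φ t) * V' t with hSH
  -- cellwise estimate
  have iFV : ∀ k, 1 ≤ k → k ≤ m →
      IntervalIntegrable (fun t => w t * F t * V t) volume (nd (k - 1)) (nd k) := fun k h1 h2 =>
    (cW.mono (hcell k h1 h2)).intervalIntegrable
  have iV : ∀ k, 1 ≤ k → k ≤ m → ∀ c : ℝ,
      IntervalIntegrable (fun t => w t * (c * V t)) volume (nd (k - 1)) (nd k) := fun k h1 h2 c =>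
    ContinuousOn.intervalIntegrable (hwc.continuousOn.mul
      (continuousOn_const.mul (hVc.mono (hcell k h1 h2))))
  have iVV : ∀ k, 1 ≤ k → k ≤ m →
      IntervalIntegrable (fun t => w t * V t) volume (nd (k - 1)) (nd k) := fun k h1 h2 =>
    ContinuousOn.intervalIntegrable (hwc.continuousOn.mul (hVc.mono (hcell k h1 h2)))
  have iF : ∀ k, 1 ≤ k → k ≤ m →
      IntervalIntegrable (fun t => w t * F t) volume (nd (k - 1)) (nd k) := fun k h1 h2 =>
    ContinuousOn.intervalIntegrable (hwc.continuousOn.mul (hFc.mono (hcell k h1 h2)))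
  have iP : ∀ k, ∀ y : ℝ,
      IntervalIntegrable (fun t => w t * psi b p t y) volume (nd (k - 1)) (nd k) :=
    fun k y => (hwc.mul (hpsi y)).intervalIntegrable _ _
  have iC : ∀ k, ∀ c : ℝ, IntervalIntegrable (fun t => w t * c) volume (nd (k - 1)) (nd k) :=
    fun k c => (hwc.mul continuous_const).intervalIntegrable _ _
  have hle : ∀ k : ℕ, nd (k - 1) ≤ nd k := fun k => H.nd_mono (Nat.sub_le k 1)
  have cellA : ∀ k ∈ Finset.Icc 1 m,
      0 ≤ (1 / (p + 1)) * (∫ t in nd (k - 1)..nd k, w t * F t * V t)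
        - (∫ t in nd (k - 1)..nd k, w t * (x k * V t)) + ∫ t in nd (k - 1)..nd k, w t * psi b p t (x k) ∧
      (1 / (p + 1)) * (∫ t in nd (k - 1)..nd k, w t * F t * V t)
        - (∫ t in nd (k - 1)..nd k, w t * (x k * V t)) + (∫ t in nd (k - 1)..nd k, w t * psi b p t (x k))
        ≤ 2 * L * h * ∫ t in nd (k - 1)..nd k, w t * V t := by
    intro k hk
    rw [Finset.mem_Icc] at hk
    have e : (1 / (p + 1)) * (∫ t in nd (k - 1)..nd k, w t * F t * V t)
        - (∫ t in nd (k - 1)..nd k, w t * (x k * V t)) + (∫ t in nd (k - 1)..nd k, w t * psi b p t (x k)) =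
        ∫ t in nd (k - 1)..nd k, w t * ((1 / (p + 1)) * (F t * V t) - x k * V t + psi b p t (x k)) := by
      rw [← intervalIntegral.integral_const_mul, ← intervalIntegral.integral_sub
        ((iFV k hk.1 hk.2).const_mul _) (iV k hk.1 hk.2 _), ← intervalIntegral.integral_add
        (((iFV k hk.1 hk.2).const_mul _).sub (iV k hk.1 hk.2 _)) (iP k _)]
      congr 1; funext t; ring
    have pt : ∀ t ∈ Icc (nd (k - 1)) (nd k),
        0 ≤ (1 / (p + 1)) * (F t * V t) - x k * V t + psi b p t (x k) ∧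
        (1 / (p + 1)) * (F t * V t) - x k * V t + psi b p t (x k) ≤ 2 * L * h * V t := by
      intro t ht
      have htm : t ∈ Icc (nd 0) (nd m) :=
        ⟨(H.nd_mono (Nat.zero_le _)).trans ht.1, ht.2.trans (H.nd_mono hk.2)⟩
      obtain ⟨c1, c2⟩ := H.cell_bd hk.1 hk.2 ht
      have hV := H.V_pos t htm
      have hx0 := H.seq.nonneg k
      have hF' := H.F_eq t htm
      have q1 := psi_F (b := b) (t := t) hp hV.le hF'
      have q2 := psi_sub_le (b := b) (t := t) hp hx0 c1
      have q3 := psi_mono (b := b) (t := t) hp hx0 c1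
      have hVe : esg b p (F t) t = V t := by
        unfold esg
        rw [hF', ← mul_assoc, ← Real.exp_add]
        rw [show -(b * t) + b * t = 0 by ring, Real.exp_zero, one_mul, ← Real.rpow_mul hV.le,
          mul_one_div_cancel hp.ne', Real.rpow_one]
      rw [hVe] at q2
      have e2 : (1 / (p + 1)) * (F t * V t) - x k * V t + psi b p t (x k) =
          (F t - x k) * V t - (psi b p t (F t) - psi b p t (x k)) := by
        rw [q1]
        have : p + 1 ≠ 0 := by positivity
        field_simp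
        ring
      rw [e2]
      constructor
      · linarith
      · have : (F t - x k) * V t ≤ 2 * L * h * V t := mul_le_mul_of_nonneg_right c2 hV.le
        linarith
    rw [e]
    constructor
    · exact intervalIntegral.integral_nonneg (hle k) fun t ht => mul_nonneg (hw0 t) (pt t ht).1
    · rw [← intervalIntegral.integral_const_mul]
      refine intervalIntegral.integral_mono_on (hle k) ?_ ((iVV k hk.1 hk.2).const_mul _) fun t ht => ?_
      · have := (((iFV k hk.1 hk.2).const_mul (1 / (p + 1))).sub (iV k hk.1 hk.2 (x k))).add (iP k (x k))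
        refine this.congr (fun t _ => ?_)
        ring
      · have := mul_le_mul_of_nonneg_left (pt t ht).2 (hw0 t)
        linarith
  -- sums
  have sA0 := Finset.sum_nonneg fun k hk => (cellA k hk).1
  have sA1 := Finset.sum_le_sum fun k hk => (cellA k hk).2
  simp only [Finset.sum_add_distrib, Finset.sum_sub_distrib, ← Finset.mul_sum] at sA0 sA1
  -- expand the short sums
  have r1 : ∑ k ∈ Finset.Icc 1 m, ∫ t in nd (k - 1)..nd k, w t * ((x k - xL Lg x m k) * V t) =
      (∑ k ∈ Finset.Icc 1 m, ∫ t in nd (k - 1)..nd k, w t * (x k * V t)) -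
      ∑ k ∈ Finset.Icc 1 m, ∫ t in nd (k - 1)..nd k, w t * (xL Lg x m k * V t) := by
    rw [← Finset.sum_sub_distrib]
    refine Finset.sum_congr rfl fun k hk => ?_
    rw [Finset.mem_Icc] at hk
    rw [← intervalIntegral.integral_sub (iV k hk.1 hk.2 _) (iV k hk.1 hk.2 _)]
    congr 1; funext t; ring
  have r2 : ∑ k ∈ Finset.Icc 1 m, ∫ t in nd (k - 1)..nd k, w t * (psi b p t (x k) - psi b p t (xL Lg x m k)) =
      (∑ k ∈ Finset.Icc 1 m, ∫ t in nd (k - 1)..nd k, w t * psi b p t (x k)) -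
      ∑ k ∈ Finset.Icc 1 m, ∫ t in nd (k - 1)..nd k, w t * psi b p t (xL Lg x m k) := by
    rw [← Finset.sum_sub_distrib]
    refine Finset.sum_congr rfl fun k hk => ?_
    rw [← intervalIntegral.integral_sub (iP k _) (iP k _)]
    congr 1; funext t; ring
  -- bounds for the error sums
  have κ0 : 0 ≤ Real.exp (|b| * η / p) - 1 := by
    have h3 : 0 ≤ |b| * η / p := by
      have := H.η_nonneg
      positivity
    have := Real.add_one_le_exp (|b| * η / p)
    linarith
  have b1 : ∑ k ∈ Finset.Icc 1 m, ∫ t in nd (k - 1)..nd k,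
      w t * (psi b p t (x k) - psi b p t (xL Lg x m k)) ≤
      p / (p + 1) * ∑ k ∈ Finset.Icc 1 m, ∫ t in nd (k - 1)..nd k, w t * F t * V t := by
    rw [Finset.mul_sum]
    refine Finset.sum_le_sum fun k hk => ?_
    rw [Finset.mem_Icc] at hk
    rw [← intervalIntegral.integral_const_mul]
    refine intervalIntegral.integral_mono_on (hle k) ?_ ((iFV k hk.1 hk.2).const_mul _) fun t ht => ?_
    · exact (((iP k (x k)).sub (iP k (xL Lg x m k)))).congr (fun t _ => by ring)
    · have htm : t ∈ Icc (nd 0) (nd m) :=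
        ⟨(H.nd_mono (Nat.zero_le _)).trans ht.1, ht.2.trans (H.nd_mono hk.2)⟩
      have q1 := psi_F (b := b) (t := t) hp (H.V_pos t htm).le (H.F_eq t htm)
      have q3 := psi_mono (b := b) (t := t) hp (H.seq.nonneg k) (H.cell_bd hk.1 hk.2 ht).1
      have q4 := psi_nonneg (b := b) (t := t) hp (xL_nonneg Lg x m k)
      have : w t * (psi b p t (x k) - psi b p t (xL Lg x m k)) ≤ w t * psi b p t (F t) :=
        mul_le_mul_of_nonneg_left (by linarith) (hw0 t)
      rw [q1] at this
      linarith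
  have b2 : ∑ k ∈ Finset.Icc 1 m, ∫ t in nd (k - 1)..nd k, w t * (x k - xL Lg x m k) ≤
      ∑ k ∈ Finset.Icc 1 m, ∫ t in nd (k - 1)..nd k, w t * F t := by
    refine Finset.sum_le_sum fun k hk => ?_
    rw [Finset.mem_Icc] at hk
    refine intervalIntegral.integral_mono_on (hle k) (iC k _) (iF k hk.1 hk.2) fun t ht => ?_
    have := xL_nonneg Lg x m k
    have := (H.cell_bd hk.1 hk.2 ht).1
    exact mul_le_mul_of_nonneg_left (by linarith) (hw0 t)
  have e0 : 0 ≤ e := by
    refine le_trans ?_ (H.e_ge (nd 0) (H.mem (Nat.zero_le _)))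
    have hM : 0 ≤ max (f0 ^ (1 / p - 1)) (f1 ^ (1 / p - 1)) :=
      le_max_of_le_left (Real.rpow_nonneg H.f0_pos.le _)
    have := H.L_nonneg
    have := H.h_pos
    positivity
  have b1' := mul_le_mul_of_nonneg_left b1 κ0
  have b2' := mul_le_mul_of_nonneg_left b2 e0
  have cF : ContinuousOn (fun t => w t * F t) (Icc (nd 0) (nd m)) := hwc.continuousOn.mul hFc
  have cV : ContinuousOn (fun t => w t * V t) (Icc (nd 0) (nd m)) := hwc.continuousOn.mul hVc
  rw [win _ cF, win _ cV]
  rw [r1, r2] at hshort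
  rw [r2] at b1'
  have hs := abs_le.1 hshort
  rw [abs_le]
  constructor
  · linarith [hs.1]
  · linarith [hs.2]

end WGrid

end Crest.Agent.R077
end
end

-- ▼ part R077/Tent
section

/-!
# Row 77: elementary facts on `tent`, `phi`, `nd`, `msh`
-/

set_option autoImplicit false

open MeasureTheory Set

namespace Crest.Agent.R077

theorem tent_cont (lam a : ℝ) : Continuous (tent lam a) := by
  unfold tent; fun_prop

theorem tent_nonneg (lam a t : ℝ) : 0 ≤ tent lam a t := by
  unfold tent; exact mul_nonneg (by positivity) (le_max_left _ _)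

theorem tent_zero_left {lam a t : ℝ} (h : t ≤ lam) : tent lam a t = 0 := by
  unfold tent
  rw [max_eq_left ((min_le_left _ _).trans (by linarith)), mul_zero]

theorem tent_zero_right {lam a t : ℝ} (h : lam + a ≤ t) : tent lam a t = 0 := by
  unfold tent
  rw [max_eq_left ((min_le_right _ _).trans (by linarith)), mul_zero]

theorem tent_le {lam a t : ℝ} (ha : 0 < a) : tent lam a t ≤ 2 / a := by
  unfold tent
  have h1 : max 0 (min (t - lam) (lam + a - t)) ≤ a / 2 := by
    refine max_le (by positivity) ?_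
    rcases le_total (t - lam) (a / 2) with h | h
    · exact (min_le_left _ _).trans h
    · exact (min_le_right _ _).trans (by linarith)
  calc 4 / a ^ 2 * max 0 (min (t - lam) (lam + a - t)) ≤ 4 / a ^ 2 * (a / 2) :=
        mul_le_mul_of_nonneg_left h1 (by positivity)
    _ = 2 / a := by field_simp; ring


theorem phi_hasDerivAt (lam a t : ℝ) : HasDerivAt (phi lam a) (-tent lam a t) t := by
  have h := intervalIntegral.integral_hasDerivAt_right ((tent_cont lam a).intervalIntegrable lam t)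
    ((tent_cont lam a).stronglyMeasurableAtFilter _ _) (tent_cont lam a).continuousAt
  have := h.const_sub 1
  exact this



theorem integral_tent {lam a : ℝ} (ha : 0 < a) : ∫ t in lam..(lam + a), tent lam a t = 1 := by
  have h1 : ∫ t in lam..(lam + a / 2), tent lam a t = 1 / 2 := by
    have : ∫ t in lam..(lam + a / 2), tent lam a t = ∫ t in lam..(lam + a / 2), 4 / a ^ 2 * (t - lam) := by
      refine intervalIntegral.integral_congr fun s hs => ?_
      rw [uIcc_of_le (by linarith)] at hs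
      unfold tent
      rw [min_eq_left (by linarith [hs.2]), max_eq_right (by linarith [hs.1])]
    rw [this, intervalIntegral.integral_const_mul, intervalIntegral.integral_comp_sub_right (fun x => x)]
    rw [integral_id]
    field_simp; ring
  have h2 : ∫ t in (lam + a / 2)..(lam + a), tent lam a t = 1 / 2 := by
    have : ∫ t in (lam + a / 2)..(lam + a), tent lam a t =
        ∫ t in (lam + a / 2)..(lam + a), 4 / a ^ 2 * (lam + a - t) := by
      refine intervalIntegral.integral_congr fun s hs => ?_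
      rw [uIcc_of_le (by linarith)] at hs
      unfold tent
      rw [min_eq_right (by linarith [hs.1]), max_eq_right (by linarith [hs.2])]
    rw [this, intervalIntegral.integral_const_mul, intervalIntegral.integral_comp_sub_left (fun x => x)]
    rw [integral_id]
    field_simp; ring
  rw [← intervalIntegral.integral_add_adjacent_intervals
    ((tent_cont lam a).intervalIntegrable lam (lam + a / 2)) ((tent_cont lam a).intervalIntegrable _ _),
    h1, h2]
  norm_num

theorem phi_right {lam a t : ℝ} (ha : 0 < a) (h : lam + a ≤ t) : phi lam a t = 0 := by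
  unfold phi
  rw [← intervalIntegral.integral_add_adjacent_intervals
    ((tent_cont lam a).intervalIntegrable lam (lam + a)) ((tent_cont lam a).intervalIntegrable _ _),
    integral_tent ha]
  have : ∫ s in (lam + a)..t, tent lam a s = ∫ s in (lam + a)..t, (0:ℝ) := by
    refine intervalIntegral.integral_congr fun s hs => ?_
    rw [uIcc_of_le h] at hs
    exact tent_zero_right hs.1
  rw [this]; simp





theorem msh_pos {a : ℝ} {m : ℕ} (ha : 0 < a) (hm : 1 ≤ m) : 0 < msh a m := by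
  unfold msh
  have : (0:ℝ) < m := by exact_mod_cast hm
  positivity

theorem nd_zero (lam a : ℝ) (m : ℕ) : nd lam a m 0 = lam - a / 2 := by
  unfold nd; simp

theorem nd_succ (lam a : ℝ) (m k : ℕ) : nd lam a m (k + 1) = nd lam a m k + msh a m := by
  unfold nd; push_cast; ring

theorem nd_last (lam a : ℝ) {m : ℕ} (hm : 1 ≤ m) : nd lam a m m = lam + 3 * a / 2 := by
  unfold nd msh
  have : (m:ℝ) ≠ 0 := by positivity
  field_simp; ring

theorem nd_sub (lam a : ℝ) (m j k : ℕ) : nd lam a m k - nd lam a m j = ((k:ℝ) - j) * msh a m := by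
  unfold nd; ring

end Crest.Agent.R077
end

-- ▼ part R077/StepW1

/-!
# Row 77: `Stmt_W1` (STEP W for one angle)
-/

set_option autoImplicit false

open Set MeasureTheory Filter Topology

noncomputable section

namespace Crest.Agent.R077.W

open Layers

/-- the long class at scale `η` -/
def Lg (a : ℝ) (m : ℕ) (η : ℝ) (i : ℕ × ℕ) : Prop :=
  ¬ (2 ≤ i.1 ∧ i.2 + 1 ≤ m ∧ ((i.2 : ℝ) - i.1 + 1) * msh a m < η)

theorem prs_eq (m : ℕ) : prs m = pairs m := rfl

open Classical in
theorem shortI_eq (a : ℝ) (m : ℕ) (η : ℝ) :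
    shortI a m η = (pairs m).filter (fun i => ¬ Lg a m η i) := by
  unfold shortI Lg
  rw [prs_eq]
  ext i
  simp only [Finset.mem_filter, not_not]

open Classical in
theorem longI_eq (a : ℝ) (m : ℕ) (η : ℝ) :
    longI a m η = (pairs m).filter (fun i => Lg a m η i) := by
  unfold longI
  rw [shortI_eq, prs_eq]
  ext i
  simp only [Finset.mem_sdiff, Finset.mem_filter, not_and, not_not]
  exact ⟨fun h => ⟨h.1, h.2 h.1⟩, fun h => ⟨h.1, fun _ => h.2⟩⟩

theorem upClosed (a : ℝ) (ha : 0 < a) (m : ℕ) (η : ℝ) : UpClosed (Lg a m η) m := by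
  intro p hp q hq h1 h2 hL hs
  refine hL ⟨by have := hs.1; omega, by have := hs.2.1; omega, lt_of_le_of_lt ?_ hs.2.2⟩
  have h3 : (q.1 : ℝ) ≤ p.1 := by exact_mod_cast h1
  have h4 : (p.2 : ℝ) ≤ q.2 := by exact_mod_cast h2
  have h5 : 0 ≤ msh a m := by unfold msh; positivity
  exact mul_le_mul_of_nonneg_right (by linarith) h5

theorem rc_eq {x : ℕ → ℝ} {m : ℕ} (hx : Seq x m) {i : ℕ × ℕ} (hi : i ∈ pairs m) :
    rc x i = cc x i.1 i.2 := by
  obtain ⟨h1, h12, hm⟩ := mem_pairs.1 hi
  have hb := base_nonneg hx i.1 i.2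
  have hsub1 : Ioo (base x i.1 i.2) (top x i.1 i.2) ⊆ {σ : ℝ | 0 < σ ∧ IsRun x i.1 i.2 σ} := by
    intro σ hσ
    have hl : σ ∈ lay x i := Ioo_subset_Ico_self hσ
    rw [mem_lay h12] at hl
    exact ⟨lt_of_le_of_lt hb hσ.1, h1, h12, hl.1.1, hl.1.2, hl.2⟩
  have hsub2 : {σ : ℝ | 0 < σ ∧ IsRun x i.1 i.2 σ} ⊆ Ico (base x i.1 i.2) (top x i.1 i.2) := by
    rintro σ ⟨_, _, _, a3, a4, a5⟩
    have : σ ∈ lay x i := (mem_lay h12).2 ⟨⟨a3, a4⟩, a5⟩
    exact this
  have hv : volume {σ : ℝ | 0 < σ ∧ IsRun x i.1 i.2 σ} = ENNReal.ofReal (top x i.1 i.2 - base x i.1 i.2) :=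
    le_antisymm ((measure_mono hsub2).trans_eq Real.volume_Ico)
      (Real.volume_Ioo.symm.le.trans (measure_mono hsub1))
  unfold rc cc
  rw [hv, ENNReal.toReal_ofReal']

/-- `stepF` of the long class on the cell `k` -/
theorem stepF_cell {x : ℕ → ℝ} {m : ℕ} (hx : Seq x m) {a : ℝ} (ha : 0 < a) (hm : 1 ≤ m) (lam η : ℝ)
    {k : ℕ} (hk1 : 1 ≤ k) (hk2 : k ≤ m) {t : ℝ} (ht : t ∈ Ico (nd lam a m (k - 1)) (nd lam a m k)) :
    open Classical in stepF x (longI a m η) lam a m t = xL (Lg a m η) x m k := by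
  classical
  have hmono : Monotone (nd lam a m) := monotone_nat_of_le_succ fun k => by
    rw [nd_succ]; have := msh_pos ha hm; linarith
  unfold stepF xL
  rw [longI_eq]
  have hfil : (pairsAt m k).filter (Lg a m η) =
      ((pairs m).filter (fun i => Lg a m η i)).filter (fun i => i.1 ≤ k ∧ k ≤ i.2) := by
    unfold pairsAt
    ext i
    simp only [Finset.mem_filter]
    tauto
  rw [hfil, Finset.sum_filter (s := (pairs m).filter (fun i => Lg a m η i))]
  refine Finset.sum_congr rfl fun i hi => ?_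
  have hi' := (Finset.mem_filter.1 hi).1
  obtain ⟨h1, h12, hm'⟩ := mem_pairs.1 hi'
  rw [rc_eq hx hi']
  unfold ind lft rgt
  have e : (nd lam a m (i.1 - 1) ≤ t ∧ t < nd lam a m i.2) ↔ (i.1 ≤ k ∧ k ≤ i.2) := by
    constructor
    · rintro ⟨c1, c2⟩
      constructor
      · by_contra hcon
        have : nd lam a m k ≤ nd lam a m (i.1 - 1) := hmono (by omega)
        linarith [ht.2]
      · by_contra hcon
        have : nd lam a m i.2 ≤ nd lam a m (k - 1) := hmono (by omega)
        linarith [ht.1]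
    · rintro ⟨c1, c2⟩
      exact ⟨(hmono (by omega)).trans ht.1, lt_of_lt_of_le ht.2 (hmono c2)⟩
  by_cases hc : i.1 ≤ k ∧ k ≤ i.2
  · rw [if_pos hc, if_pos (e.2 hc), mul_one]
  · rw [if_neg hc, if_neg (fun h => hc (e.1 h)), mul_zero]

/-- integral over the line of a function given cell by cell -/
theorem int_cells {nd : ℕ → ℝ} {m : ℕ} (hmono : Monotone nd) {g : ℝ → ℝ} {G : ℕ → ℝ → ℝ}
    (hg0 : ∀ t, t ∉ Icc (nd 0) (nd m) → g t = 0)
    (hG : ∀ k, 1 ≤ k → k ≤ m → IntervalIntegrable (G k) volume (nd (k - 1)) (nd k))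
    (he : ∀ k, 1 ≤ k → k ≤ m → ∀ t ∈ Ioo (nd (k - 1)) (nd k), g t = G k t) (hm : 1 ≤ m) :
    ∫ t, g t = ∑ k ∈ Finset.Icc 1 m, ∫ t in nd (k - 1)..nd k, G k t := by
  have h1 : ∀ k, 1 ≤ k → k ≤ m → IntervalIntegrable g volume (nd (k - 1)) (nd k) := by
    intro k hk1 hk2
    refine (hG k hk1 hk2).congr_uIoo ?_
    rw [uIoo_of_le (hmono (Nat.sub_le k 1))]
    exact fun t ht => (he k hk1 hk2 t ht).symm
  have h0m : nd 0 ≤ nd m := hmono (Nat.zero_le _)
  rw [← setIntegral_eq_integral_of_forall_compl_eq_zero hg0, integral_Icc_eq_integral_Ioc,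
    ← intervalIntegral.integral_of_le h0m]
  have h2 := integral_cells (nd := nd) (g := g) (l := 1) (r := m) hm h1
  simp only [Nat.sub_self] at h2
  rw [h2]
  refine Finset.sum_congr rfl fun k hk => ?_
  rw [Finset.mem_Icc] at hk
  exact intervalIntegral.integral_congr_Ioo_of_le (hmono (Nat.sub_le k 1)) (he k hk.1 hk.2)

theorem tent_out {lam a : ℝ} (ha : 0 < a) {m : ℕ} (hm : 1 ≤ m) {t : ℝ}
    (ht : t ∉ Icc (nd lam a m 0) (nd lam a m m)) : tent lam a t = 0 := by
  rw [nd_zero, nd_last lam a hm, mem_Icc, not_and_or, not_le, not_le] at ht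
  rcases ht with h | h
  · exact tent_zero_left (by linarith)
  · exact tent_zero_right (by linarith)

/-- constant of STEP W -/
def KW (b p lam L : ℝ) : ℝ :=
  |Real.exp (|b| * (|lam| + 2) / p) *
    ((1 / p) * max ((1 / (2 * L)) ^ (1 / p - 1)) (L ^ (1 / p - 1)) * (2 * L)) * (4 * L) + 2 * L * (4 * L)|

theorem samp_seq {b p lam a L : ℝ} (ha : 0 < a) (ha1 : a ≤ 1) {f v : ℝ → ℝ} {m : ℕ}
    (S : Sol b p f v lam L) (hm : 1 ≤ m) (hLm : 4 * L ^ 2 * msh a m ≤ 1) :
    Seq (samp f lam a m L) m ∧ ∀ k, 1 ≤ k → k ≤ m → 1 / (2 * L) ≤ samp f lam a m L k := by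
  have hL := S.hL
  have hh := msh_pos ha hm
  have hmono : Monotone (nd lam a m) := monotone_nat_of_le_succ fun k => by
    rw [nd_succ]; linarith
  have hin : ∀ k, k ≤ m → nd lam a m k ∈ Icc (lam - 2) (lam + 4) := by
    intro k hk
    have h1 := hmono (Nat.zero_le k)
    have h2 := hmono hk
    rw [nd_zero] at h1
    rw [nd_last lam a hm] at h2
    constructor <;> linarith
  have hge : ∀ k, 1 ≤ k → k ≤ m → 1 / (2 * L) ≤ samp f lam a m L k := by
    intro k hk1 hk2
    unfold samp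
    rw [if_pos ⟨hk1, hk2⟩]
    have h1 := S.f_ge _ (hin k hk2)
    rw [div_le_iff₀ (by positivity)]
    nlinarith
  refine ⟨⟨?_, ?_, fun k => ?_⟩, hge⟩
  · unfold samp; simp
  · unfold samp; rw [if_neg (by omega)]
  · by_cases hk : 1 ≤ k ∧ k ≤ m
    · refine le_trans ?_ (hge k hk.1 hk.2)
      positivity
    · unfold samp; rw [if_neg hk]

theorem wgrid {b p lam a L : ℝ} (ha : 0 < a) (ha1 : a ≤ 1) {f v : ℝ → ℝ} {m : ℕ} {η : ℝ}
    (S : Sol b p f v lam L) (hm : 1 ≤ m) (hLm : 4 * L ^ 2 * msh a m ≤ 1) (hη : 0 < η) :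
    WGrid b p η L (msh a m) (1 / (2 * L)) L
      (Real.exp (|b| * (|lam| + 2) / p) *
        ((1 / p) * max ((1 / (2 * L)) ^ (1 / p - 1)) (L ^ (1 / p - 1)) * (2 * L)) * msh a m)
      m (nd lam a m) (samp f lam a m L) (Lg a m η) f v (deriv v) (tent lam a) (phi lam a) := by
  have hL := S.hL
  have hp := S.hp
  have hh := msh_pos ha hm
  have hmono : Monotone (nd lam a m) := monotone_nat_of_le_succ fun k => by
    rw [nd_succ]; linarith
  have hwin : Icc (nd lam a m 0) (nd lam a m m) ⊆ Icc (lam - 2) (lam + 4) := by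
    rw [nd_zero, nd_last lam a hm]
    exact Icc_subset_Icc (by linarith) (by linarith)
  obtain ⟨hseq, hge⟩ := samp_seq ha ha1 S hm hLm
  exact
  { p_pos := hp
    η_nonneg := hη.le
    h_pos := hh
    L_nonneg := by linarith
    nd_succ := fun k => nd_succ lam a m k
    seq := hseq
    x_eq := fun k h1 h2 => by unfold samp; rw [if_pos ⟨h1, h2⟩]
    up := upClosed a ha m η
    short := fun q hq hs => by
      unfold Lg at hs
      rw [not_not] at hs
      refine ⟨hs.1, hs.2.1, ?_⟩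
      rw [nd_sub]
      have h1 : ((q.1 - 1 : ℕ) : ℝ) = (q.1 : ℝ) - 1 := by
        rw [Nat.cast_sub (by have := hs.1; omega)]; simp
      rw [h1]
      have h2 : ((q.2 : ℝ) - ((q.1 : ℝ) - 1)) = (q.2 : ℝ) - q.1 + 1 := by ring
      rw [h2]
      exact hs.2.2.le
    f0_pos := by positivity
    x_ge := hge
    F_le := fun t ht => S.f_le t (hwin ht)
    lip := fun s hs t ht => S.f_lip s (hwin hs) t (hwin ht)
    e_ge := fun t ht => by
      have h1 := hwin ht
      rw [nd_zero, nd_last lam a hm] at ht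
      have hM : 0 ≤ max ((1 / (2 * L)) ^ (1 / p - 1)) (L ^ (1 / p - 1)) :=
        le_max_of_le_left (Real.rpow_nonneg (by positivity) _)
      have hE : Real.exp (-(b * t) / p) ≤ Real.exp (|b| * (|lam| + 2) / p) := by
        rw [Real.exp_le_exp]
        refine div_le_div_of_nonneg_right ?_ hp.le
        have ht2 : |t| ≤ |lam| + 2 := by
          rw [abs_le]
          have := neg_abs_le lam
          have := le_abs_self lam
          constructor <;> linarith [ht.1, ht.2]
        calc -(b * t) ≤ |b * t| := neg_le_abs _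
          _ = |b| * |t| := abs_mul _ _
          _ ≤ |b| * (|lam| + 2) := mul_le_mul_of_nonneg_left ht2 (abs_nonneg _)
      calc Real.exp (-(b * t) / p) *
            ((1 / p) * max ((1 / (2 * L)) ^ (1 / p - 1)) (L ^ (1 / p - 1)) * (2 * L * msh a m))
          ≤ Real.exp (|b| * (|lam| + 2) / p) *
            ((1 / p) * max ((1 / (2 * L)) ^ (1 / p - 1)) (L ^ (1 / p - 1)) * (2 * L * msh a m)) :=
            mul_le_mul_of_nonneg_right hE (by positivity)
        _ = _ := by ring
    w_cont := tent_cont lam a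
    w_nonneg := tent_nonneg lam a
    φ_deriv := phi_hasDerivAt lam a
    V_pos := fun t _ => S.v_pos t
    F_eq := fun t _ => S.feq t
    V_deriv := fun t _ => (S.v_C1.differentiable (by norm_num) t).hasDerivAt
    V'_cont := (S.v_C1.continuous_deriv (by norm_num)).continuousOn }

theorem W1 : Stmt_W1 := by
  intro b p lam a L ha ha1
  refine ⟨KW b p lam L, abs_nonneg _, ?_⟩
  intro f v m η S hm hLm hη hηa
  classical
  have H := wgrid ha ha1 S hm hLm hη
  have hL := S.hL
  have hp := S.hp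
  have hh := msh_pos ha hm
  have hmono := H.nd_mono
  have hvc : Continuous v := S.v_C1.continuous
  have hfc : Continuous f := by
    have : f = fun t => Real.exp (b * t) * v t ^ p := funext S.feq
    rw [this]
    exact (by fun_prop : Continuous fun t : ℝ => Real.exp (b * t)).mul
      (hvc.rpow_const fun t => Or.inl (S.v_pos t).ne')
  have hwc := tent_cont lam a
  have hw0 := tent_nonneg lam a
  have h0m : nd lam a m 0 ≤ nd lam a m m := hmono (Nat.zero_le _)
  have hφ1 : phi lam a (nd lam a m m) = 0 := phi_right ha (by rw [nd_last lam a hm]; linarith)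
  have key := H.stepW (T0 := nd lam a m 0) (T1 := nd lam a m m) le_rfl le_rfl hφ1
    (fun t ht => tent_out ha hm ht) (fun t _ => S.v_pos t) (fun t _ => S.feq t) H.V_deriv H.V'_cont
  have hphi := stepW_phi (b := b) hp h0m hwc (phi_hasDerivAt lam a) hφ1 (fun t _ => S.v_pos t)
    (fun t _ => S.feq t) H.V_deriv H.V'_cont
  -- conversion of the integrals
  have c1 : ∫ t, tent lam a t * (f t * v t) = ∫ t in nd lam a m 0..nd lam a m m, tent lam a t * f t * v t := by
    rw [← setIntegral_eq_integral_of_forall_compl_eq_zero (s := Icc (nd lam a m 0) (nd lam a m m))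
      (fun t ht => by rw [tent_out ha hm ht, zero_mul]), integral_Icc_eq_integral_Ioc,
      ← intervalIntegral.integral_of_le h0m]
    congr 1; funext t; ring
  have c2 : ∫ t, tent lam a t * (stepF (samp f lam a m L) (longI a m η) lam a m t * v t) =
      ∑ k ∈ Finset.Icc 1 m, ∫ t in nd lam a m (k - 1)..nd lam a m k,
        tent lam a t * (xL (Lg a m η) (samp f lam a m L) m k * v t) := by
    refine int_cells hmono (fun t ht => by rw [tent_out ha hm ht, zero_mul]) (fun k _ _ => ?_)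
      (fun k h1 h2 t ht => ?_) hm
    · exact (hwc.mul (continuous_const.mul hvc)).intervalIntegrable _ _
    · rw [stepF_cell H.seq ha hm lam η h1 h2 (Ioo_subset_Ico_self ht)]
  have c3 : ∫ t, tent lam a t * psi b p t (stepF (samp f lam a m L) (longI a m η) lam a m t) =
      ∑ k ∈ Finset.Icc 1 m, ∫ t in nd lam a m (k - 1)..nd lam a m k,
        tent lam a t * psi b p t (xL (Lg a m η) (samp f lam a m L) m k) := by
    refine int_cells hmono (fun t ht => by rw [tent_out ha hm ht, zero_mul]) (fun k _ _ => ?_)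
      (fun k h1 h2 t ht => ?_) hm
    · exact (hwc.mul (by unfold psi; fun_prop)).intervalIntegrable _ _
    · rw [stepF_cell H.seq ha hm lam η h1 h2 (Ioo_subset_Ico_self ht)]
  have c4 : (∑ i ∈ shortI a m η, rc (samp f lam a m L) i *
          ∫ t in (lft lam a m i)..(rgt lam a m i), (phi lam a (mid lam a m i) - phi lam a t) * deriv v t) =
      ∑ q ∈ (pairs m).filter (fun q => ¬ Lg a m η q), cc (samp f lam a m L) q.1 q.2 *
        ∫ t in nd lam a m (q.1 - 1)..nd lam a m q.2,
          (phi lam a ((nd lam a m (q.1 - 1) + nd lam a m q.2) / 2) - phi lam a t) * deriv v t := by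
    rw [shortI_eq]
    refine Finset.sum_congr rfl fun i hi => ?_
    rw [rc_eq H.seq (Finset.mem_filter.1 hi).1]
    rfl
  rw [c1, c2, c3, c4]
  rw [hphi] at key
  have key2 := (abs_le.1 key).2
  -- bounds of the error terms
  have hwin : Icc (nd lam a m 0) (nd lam a m m) ⊆ Icc (lam - 2) (lam + 4) := by
    rw [nd_zero, nd_last lam a hm]
    exact Icc_subset_Icc (by linarith) (by linarith)
  have hlen : nd lam a m m - nd lam a m 0 = 2 * a := by
    rw [nd_zero, nd_last lam a hm]; ring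
  have hbd : ∀ g : ℝ → ℝ, Continuous g → (∀ t ∈ Icc (lam - 2) (lam + 4), g t ≤ L) →
      (∫ t in nd lam a m 0..nd lam a m m, tent lam a t * g t) ≤ 4 * L := by
    intro g hg hgL
    have : (∫ t in nd lam a m 0..nd lam a m m, tent lam a t * g t) ≤
        ∫ t in nd lam a m 0..nd lam a m m, 2 / a * L := by
      refine intervalIntegral.integral_mono_on h0m ((hwc.mul hg).intervalIntegrable _ _)
        (by simp) fun t ht => ?_
      calc tent lam a t * g t ≤ tent lam a t * L := mul_le_mul_of_nonneg_left (hgL t (hwin ht)) (hw0 t)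
        _ ≤ 2 / a * L := mul_le_mul_of_nonneg_right (tent_le ha) (by linarith)
    refine this.trans_eq ?_
    rw [intervalIntegral.integral_const, hlen, smul_eq_mul]
    field_simp
    ring
  have hbF := hbd f hfc S.f_le
  have hbV := hbd v hvc S.v_le
  have hFV0 : 0 ≤ ∫ t in nd lam a m 0..nd lam a m m, tent lam a t * f t * v t := by
    refine intervalIntegral.integral_nonneg h0m fun t ht => ?_
    have h1 : 0 ≤ f t := by
      rw [S.feq]
      have := S.v_pos t
      positivity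
    have h2 := (S.v_pos t).le
    have h3 := hw0 t
    positivity
  have hη1 : η ≤ 1 := by linarith
  have hexp : Real.exp (|b| * η / p) - 1 ≤ cb b p * η := by
    unfold cb
    have h1 : 0 ≤ |b| * η / p := by positivity
    have h2 : |b| * η / p ≤ |b| / p := by
      refine div_le_div_of_nonneg_right ?_ hp.le
      have := mul_le_mul_of_nonneg_left hη1 (abs_nonneg b)
      linarith
    have h3 : Real.exp (|b| * η / p) - 1 ≤ |b| * η / p * Real.exp (|b| * η / p) := by
      have h4 := Real.add_one_le_exp (-(|b| * η / p))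
      have h5 : Real.exp (|b| * η / p) * Real.exp (-(|b| * η / p)) = 1 := by
        rw [← Real.exp_add]; simp
      have h6 := Real.exp_pos (|b| * η / p)
      nlinarith
    have h4 := Real.exp_le_exp.2 h2
    calc Real.exp (|b| * η / p) - 1 ≤ |b| * η / p * Real.exp (|b| * η / p) := h3
      _ ≤ |b| * η / p * Real.exp (|b| / p) := mul_le_mul_of_nonneg_left h4 h1
      _ = |b| / p * Real.exp (|b| / p) * η := by ring
  have hexp0 : 0 ≤ Real.exp (|b| * η / p) - 1 := by
    have h1 : 0 ≤ |b| * η / p := by positivity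
    have := Real.add_one_le_exp (|b| * η / p)
    linarith
  set I := ∫ t in nd lam a m 0..nd lam a m m, tent lam a t * f t * v t with hI
  have t1 : (Real.exp (|b| * η / p) - 1) * (p / (p + 1) * I) ≤ cb b p * η * I := by
    have h1 : p / (p + 1) ≤ 1 := by rw [div_le_one (by linarith)]; linarith
    have h2 : p / (p + 1) * I ≤ I := by
      have := mul_le_mul_of_nonneg_right h1 hFV0
      linarith
    calc (Real.exp (|b| * η / p) - 1) * (p / (p + 1) * I) ≤ (Real.exp (|b| * η / p) - 1) * I :=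
          mul_le_mul_of_nonneg_left h2 hexp0
      _ ≤ cb b p * η * I := mul_le_mul_of_nonneg_right hexp hFV0
  set e1 := Real.exp (|b| * (|lam| + 2) / p) *
    ((1 / p) * max ((1 / (2 * L)) ^ (1 / p - 1)) (L ^ (1 / p - 1)) * (2 * L)) with he1
  have he10 : 0 ≤ e1 := by
    have hM : 0 ≤ max ((1 / (2 * L)) ^ (1 / p - 1)) (L ^ (1 / p - 1)) :=
      le_max_of_le_left (Real.rpow_nonneg (by positivity) _)
    rw [he1]
    positivity
  have t2 : e1 * msh a m * (∫ t in nd lam a m 0..nd lam a m m, tent lam a t * f t) ≤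
      e1 * msh a m * (4 * L) := mul_le_mul_of_nonneg_left hbF (by positivity)
  have t3 : 2 * L * msh a m * (∫ t in nd lam a m 0..nd lam a m m, tent lam a t * v t) ≤
      2 * L * msh a m * (4 * L) := mul_le_mul_of_nonneg_left hbV (by positivity)
  have t4 : e1 * msh a m * (4 * L) + 2 * L * msh a m * (4 * L) ≤ KW b p lam L * msh a m := by
    have : e1 * msh a m * (4 * L) + 2 * L * msh a m * (4 * L) =
        (e1 * (4 * L) + 2 * L * (4 * L)) * msh a m := by ring
    rw [this]
    exact mul_le_mul_of_nonneg_right (le_abs_self _) hh.le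
  linarith

end Crest.Agent.R077.W
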