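import Crest.Agent.R077.Iface
import Crest.Agent.R077.TentPhi
import Mathlib
import Crest.Agent.R077.MeasLay
import Crest.Agent.R077.StepW1
import Crest.Agent.R077.StepTV1
import Crest.Agent.R077.IntE
import Crest.Agent.R077.MeasBd
import Crest.Agent.R077.MeasNu
import Crest.Agent.R077.RNear
import Crest.Agent.R077.DFinal
import Crest.Agent.R077.AA
import Crest.Agent.R077.Core

-- ▼ part R077/JBase
section

/-! Row 77: the master double integral in `ℝ≥0∞`, Tonelli facts, `J1`, `J2` as lintegrals. -/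

set_option autoImplicit false
open MeasureTheory Set Filter Topology
open scoped ENNReal

namespace Crest.Agent.R077.JB

section generic
variable {M : Type*} [MeasurableSpace M]

theorem meas_box {g : ℝ → M → ℝ≥0∞} (hg : Measurable (fun z : ℝ × M => g z.1 z.2)) :
    Measurable (fun z : ℝ × ℝ × M => ∫⁻ s in Ioo (z.1 - z.2.1) (z.1 + z.2.1), g s z.2.2) := by
  have hset : MeasurableSet {w : (ℝ × ℝ × M) × ℝ | w.1.1 - w.1.2.1 < w.2 ∧ w.2 < w.1.1 + w.1.2.1} := by
    have a1 : Measurable (fun w : (ℝ × ℝ × M) × ℝ => w.1.1 - w.1.2.1) := by fun_prop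
    have a2 : Measurable (fun w : (ℝ × ℝ × M) × ℝ => w.1.1 + w.1.2.1) := by fun_prop
    exact (measurableSet_lt a1 measurable_snd).inter (measurableSet_lt measurable_snd a2)
  have h1 : Measurable (fun w : (ℝ × ℝ × M) × ℝ =>
      indicator {w : (ℝ × ℝ × M) × ℝ | w.1.1 - w.1.2.1 < w.2 ∧ w.2 < w.1.1 + w.1.2.1}
        (fun w => g w.2 w.1.2.2) w) := by
    apply Measurable.indicator _ hset
    exact hg.comp (f := fun w : (ℝ × ℝ × M) × ℝ => (w.2, w.1.2.2)) (by fun_prop)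
  have h2 := h1.lintegral_prod_right' (ν := (volume : Measure ℝ))
  convert h2 using 2 with z
  rw [← lintegral_indicator measurableSet_Ioo]
  rfl

/-- box swap -/
theorem box_swap {f g : ℝ → ℝ≥0∞} (hf : Measurable f) (hg : Measurable g) (ρ : ℝ) :
    ∫⁻ t, f t * ∫⁻ s in Ioo (t - ρ) (t + ρ), g s = ∫⁻ s, g s * ∫⁻ t in Ioo (s - ρ) (s + ρ), f t := by
  have hset : MeasurableSet {w : ℝ × ℝ | |w.2 - w.1| < ρ} :=
    measurableSet_lt (by fun_prop) measurable_const
  have hm : Measurable (fun w : ℝ × ℝ => indicator {w : ℝ × ℝ | |w.2 - w.1| < ρ}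
      (fun w => f w.1 * g w.2) w) := by
    apply Measurable.indicator _ hset
    exact (hf.comp measurable_fst).mul (hg.comp measurable_snd)
  have e1 : ∀ t, f t * ∫⁻ s in Ioo (t - ρ) (t + ρ), g s
      = ∫⁻ s, indicator {w : ℝ × ℝ | |w.2 - w.1| < ρ} (fun w => f w.1 * g w.2) (t, s) := by
    intro t
    rw [← lintegral_const_mul _ hg, ← lintegral_indicator measurableSet_Ioo]
    apply lintegral_congr
    intro s
    by_cases h : |s - t| < ρ
    · have h' := abs_lt.1 h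
      rw [indicator_of_mem (show s ∈ Ioo (t - ρ) (t + ρ) from ⟨by linarith, by linarith⟩),
        indicator_of_mem (show (t, s) ∈ {w : ℝ × ℝ | |w.2 - w.1| < ρ} from h)]
    · rw [indicator_of_notMem, indicator_of_notMem]
      · exact h
      · intro hs
        exact h (abs_lt.2 ⟨by linarith [hs.1], by linarith [hs.2]⟩)
  have e2 : ∀ s, g s * ∫⁻ t in Ioo (s - ρ) (s + ρ), f t
      = ∫⁻ t, indicator {w : ℝ × ℝ | |w.2 - w.1| < ρ} (fun w => f w.1 * g w.2) (t, s) := by
    intro s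
    rw [← lintegral_const_mul _ hf, ← lintegral_indicator measurableSet_Ioo]
    apply lintegral_congr
    intro t
    by_cases h : |s - t| < ρ
    · have h' := abs_lt.1 h
      rw [indicator_of_mem (show t ∈ Ioo (s - ρ) (s + ρ) from ⟨by linarith, by linarith⟩),
        indicator_of_mem (show (t, s) ∈ {w : ℝ × ℝ | |w.2 - w.1| < ρ} from h), mul_comm]
    · rw [indicator_of_notMem, indicator_of_notMem]
      · exact h
      · intro hs
        exact h (abs_lt.2 ⟨by linarith [hs.2], by linarith [hs.1]⟩)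
  rw [lintegral_congr e1, lintegral_congr e2]
  exact lintegral_lintegral_swap hm.aemeasurable

/-- the master double integral -/
noncomputable def QQ (μ : Measure M) (h : ℝ → M → M → ℝ≥0∞) (f g : ℝ → M → ℝ≥0∞) : ℝ≥0∞ :=
  ∫⁻ θ, ∫⁻ θ', ∫⁻ ρ in Ioi (0:ℝ), h ρ θ θ' *
    ∫⁻ t, f t θ * ∫⁻ s in Ioo (t - ρ) (t + ρ), g s θ' ∂volume ∂volume ∂volume ∂μ ∂μ

variable {μ : Measure M} [SFinite μ] {h : ℝ → M → M → ℝ≥0∞} {f g : ℝ → M → ℝ≥0∞}

theorem meas_hbox (hh : Measurable (fun z : ℝ × M × M => h z.1 z.2.1 z.2.2))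
    (hg : Measurable (fun z : ℝ × M => g z.1 z.2)) (θ : M) :
    Measurable (fun z : (ℝ × M) × ℝ => h z.2 θ z.1.2 *
      ∫⁻ s in Ioo (z.1.1 - z.2) (z.1.1 + z.2), g s z.1.2) := by
  apply Measurable.mul
  · exact hh.comp (f := fun z : (ℝ × M) × ℝ => (z.2, θ, z.1.2)) (by fun_prop)
  · exact (meas_box hg).comp (f := fun z : (ℝ × M) × ℝ => (z.1.1, z.2, z.1.2)) (by fun_prop)

theorem lintegral_rep (hh : Measurable (fun z : ℝ × M × M => h z.1 z.2.1 z.2.2))
    (hf : Measurable (fun z : ℝ × M => f z.1 z.2)) (hg : Measurable (fun z : ℝ × M => g z.1 z.2)) :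
    ∫⁻ θ, ∫⁻ t, f t θ * (∫⁻ θ', ∫⁻ ρ in Ioi (0:ℝ), h ρ θ θ' *
        ∫⁻ s in Ioo (t - ρ) (t + ρ), g s θ' ∂volume ∂volume ∂μ) ∂volume ∂μ = QQ μ h f g := by
  unfold QQ
  apply lintegral_congr
  intro θ
  have hfθ : Measurable (fun t => f t θ) := hf.comp (f := fun t : ℝ => (t, θ)) (by fun_prop)
  have m1 := meas_hbox hh hg θ
  have m2 : Measurable (fun z : ℝ × M => ∫⁻ ρ in Ioi (0:ℝ), h ρ θ z.2 *
      ∫⁻ s in Ioo (z.1 - ρ) (z.1 + ρ), g s z.2) := m1.lintegral_prod_right'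
  have e1 : ∀ t, f t θ * (∫⁻ θ', ∫⁻ ρ in Ioi (0:ℝ), h ρ θ θ' *
        ∫⁻ s in Ioo (t - ρ) (t + ρ), g s θ' ∂volume ∂volume ∂μ)
      = ∫⁻ θ', f t θ * ∫⁻ ρ in Ioi (0:ℝ), h ρ θ θ' *
        ∫⁻ s in Ioo (t - ρ) (t + ρ), g s θ' ∂volume ∂volume ∂μ := by
    intro t
    rw [lintegral_const_mul]
    exact m2.comp (f := fun θ' : M => (t, θ')) (by fun_prop)
  rw [lintegral_congr e1, lintegral_lintegral_swap]
  · apply lintegral_congr
    intro θ'
    have m3 : Measurable (fun z : ℝ × ℝ => h z.2 θ θ' *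
        ∫⁻ s in Ioo (z.1 - z.2) (z.1 + z.2), g s θ') :=
      m1.comp (f := fun z : ℝ × ℝ => ((z.1, θ'), z.2)) (by fun_prop)
    have e2 : ∀ t, f t θ * (∫⁻ ρ in Ioi (0:ℝ), h ρ θ θ' * ∫⁻ s in Ioo (t - ρ) (t + ρ), g s θ')
        = ∫⁻ ρ in Ioi (0:ℝ), f t θ * (h ρ θ θ' * ∫⁻ s in Ioo (t - ρ) (t + ρ), g s θ') := by
      intro t
      rw [lintegral_const_mul]
      exact m3.comp (f := fun ρ : ℝ => (t, ρ)) (by fun_prop)
    rw [lintegral_congr e2, lintegral_lintegral_swap]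
    · apply lintegral_congr
      intro ρ
      rw [← lintegral_const_mul]
      · apply lintegral_congr
        intro t
        ring
      · apply hfθ.mul
        exact (meas_box hg).comp (f := fun t : ℝ => (t, ρ, θ')) (by fun_prop)
    · apply Measurable.aemeasurable
      exact (hfθ.comp measurable_fst).mul m3
  · apply Measurable.aemeasurable
    exact (hfθ.comp measurable_fst).mul m2

theorem meas_in (hf : Measurable (fun z : ℝ × M => f z.1 z.2))
    (hg : Measurable (fun z : ℝ × M => g z.1 z.2)) :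
    Measurable (fun z : ℝ × M × M => ∫⁻ t, f t z.2.1 * ∫⁻ s in Ioo (t - z.1) (t + z.1), g s z.2.2) := by
  have m1 : Measurable (fun w : (ℝ × M × M) × ℝ => f w.2 w.1.2.1 *
      ∫⁻ s in Ioo (w.2 - w.1.1) (w.2 + w.1.1), g s w.1.2.2) := by
    apply Measurable.mul
    · exact hf.comp (f := fun w : (ℝ × M × M) × ℝ => (w.2, w.1.2.1)) (by fun_prop)
    · exact (meas_box hg).comp (f := fun w : (ℝ × M × M) × ℝ => (w.2, w.1.1, w.1.2.2)) (by fun_prop)
  exact m1.lintegral_prod_right'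

theorem meas_int (hh : Measurable (fun z : ℝ × M × M => h z.1 z.2.1 z.2.2))
    (hf : Measurable (fun z : ℝ × M => f z.1 z.2)) (hg : Measurable (fun z : ℝ × M => g z.1 z.2)) :
    Measurable (fun z : ℝ × M × M => h z.1 z.2.1 z.2.2 *
      ∫⁻ t, f t z.2.1 * ∫⁻ s in Ioo (t - z.1) (t + z.1), g s z.2.2) :=
  hh.mul (meas_in hf hg)

theorem meas_rho (hh : Measurable (fun z : ℝ × M × M => h z.1 z.2.1 z.2.2))
    (hf : Measurable (fun z : ℝ × M => f z.1 z.2)) (hg : Measurable (fun z : ℝ × M => g z.1 z.2))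
    (s : Set ℝ) :
    Measurable (fun z : M × M => ∫⁻ ρ in s, h ρ z.1 z.2 *
      ∫⁻ t, f t z.1 * ∫⁻ s in Ioo (t - ρ) (t + ρ), g s z.2) := by
  have m1 : Measurable (fun w : (M × M) × ℝ => h w.2 w.1.1 w.1.2 *
      ∫⁻ t, f t w.1.1 * ∫⁻ s in Ioo (t - w.2) (t + w.2), g s w.1.2) :=
    (meas_int hh hf hg).comp (f := fun w : (M × M) × ℝ => (w.2, w.1.1, w.1.2)) (by fun_prop)
  exact m1.lintegral_prod_right'

theorem QQ_symm (hh : Measurable (fun z : ℝ × M × M => h z.1 z.2.1 z.2.2))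
    (hsym : ∀ ρ θ θ', h ρ θ θ' = h ρ θ' θ)
    (hf : Measurable (fun z : ℝ × M => f z.1 z.2)) (hg : Measurable (fun z : ℝ × M => g z.1 z.2)) :
    QQ μ h f g = QQ μ h g f := by
  unfold QQ
  rw [lintegral_lintegral_swap (meas_rho hh hf hg (Ioi 0)).aemeasurable]
  apply lintegral_congr
  intro θ
  apply lintegral_congr
  intro θ'
  apply lintegral_congr
  intro ρ
  rw [hsym ρ θ' θ, box_swap]
  · exact hf.comp (f := fun t : ℝ => (t, θ')) (by fun_prop)
  · exact hg.comp (f := fun t : ℝ => (t, θ)) (by fun_prop)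

/-- splitting at `ρ = δ` -/
theorem QQ_le_split {f₁ g₁ f₂ g₂ f₃ g₃ : ℝ → M → ℝ≥0∞} {δ : ℝ} (hδ : 0 < δ)
    (hh : Measurable (fun z : ℝ × M × M => h z.1 z.2.1 z.2.2))
    (hf₃ : Measurable (fun z : ℝ × M => f₃ z.1 z.2)) (hg₃ : Measurable (fun z : ℝ × M => g₃ z.1 z.2))
    (h1 : ∀ θ θ' ρ, 0 < ρ → ρ ≤ δ → ∫⁻ t, f₁ t θ * ∫⁻ s in Ioo (t - ρ) (t + ρ), g₁ s θ'
        ≤ ∫⁻ t, f₂ t θ * ∫⁻ s in Ioo (t - ρ) (t + ρ), g₂ s θ')
    (h2 : ∀ θ θ' ρ, δ < ρ → ∫⁻ t, f₁ t θ * ∫⁻ s in Ioo (t - ρ) (t + ρ), g₁ s θ'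
        ≤ ∫⁻ t, f₃ t θ * ∫⁻ s in Ioo (t - ρ) (t + ρ), g₃ s θ') :
    QQ μ h f₁ g₁ ≤ QQ μ h f₂ g₂ + ∫⁻ θ, ∫⁻ θ', ∫⁻ ρ in Ioi δ, h ρ θ θ' *
      ∫⁻ t, f₃ t θ * ∫⁻ s in Ioo (t - ρ) (t + ρ), g₃ s θ' ∂volume ∂volume ∂volume ∂μ ∂μ := by
  unfold QQ
  have key : ∀ θ θ', ∫⁻ ρ in Ioi (0:ℝ), h ρ θ θ' *
      ∫⁻ t, f₁ t θ * ∫⁻ s in Ioo (t - ρ) (t + ρ), g₁ s θ'
      ≤ (∫⁻ ρ in Ioi (0:ℝ), h ρ θ θ' * ∫⁻ t, f₂ t θ * ∫⁻ s in Ioo (t - ρ) (t + ρ), g₂ s θ')
        + ∫⁻ ρ in Ioi δ, h ρ θ θ' * ∫⁻ t, f₃ t θ * ∫⁻ s in Ioo (t - ρ) (t + ρ), g₃ s θ' := by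
    intro θ θ'
    have hset : Ioi (0:ℝ) = Ioc 0 δ ∪ Ioi δ := (Ioc_union_Ioi_eq_Ioi hδ.le).symm
    calc ∫⁻ ρ in Ioi (0:ℝ), h ρ θ θ' * ∫⁻ t, f₁ t θ * ∫⁻ s in Ioo (t - ρ) (t + ρ), g₁ s θ'
        ≤ (∫⁻ ρ in Ioc (0:ℝ) δ, h ρ θ θ' * ∫⁻ t, f₁ t θ * ∫⁻ s in Ioo (t - ρ) (t + ρ), g₁ s θ')
          + ∫⁻ ρ in Ioi δ, h ρ θ θ' * ∫⁻ t, f₁ t θ * ∫⁻ s in Ioo (t - ρ) (t + ρ), g₁ s θ' := by
          rw [hset]; exact lintegral_union_le _ _ _
      _ ≤ (∫⁻ ρ in Ioc (0:ℝ) δ, h ρ θ θ' * ∫⁻ t, f₂ t θ * ∫⁻ s in Ioo (t - ρ) (t + ρ), g₂ s θ')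
          + ∫⁻ ρ in Ioi δ, h ρ θ θ' * ∫⁻ t, f₃ t θ * ∫⁻ s in Ioo (t - ρ) (t + ρ), g₃ s θ' := by
          apply add_le_add
          · apply setLIntegral_mono' measurableSet_Ioc
            intro ρ hρ
            exact mul_le_mul_right (h1 θ θ' ρ hρ.1 hρ.2) _
          · apply setLIntegral_mono' measurableSet_Ioi
            intro ρ hρ
            exact mul_le_mul_right (h2 θ θ' ρ hρ) _
      _ ≤ _ := by
          gcongr
          exact Ioc_subset_Ioi_self
  have m3 := meas_rho (h := h) hh hf₃ hg₃ (Ioi δ)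
  have m4 : Measurable (fun θ : M => ∫⁻ θ', ∫⁻ ρ in Ioi δ, h ρ θ θ' *
      ∫⁻ t, f₃ t θ * ∫⁻ s in Ioo (t - ρ) (t + ρ), g₃ s θ' ∂volume ∂volume ∂volume ∂μ) :=
    m3.lintegral_prod_right'
  rw [← lintegral_add_right _ m4]
  apply lintegral_mono
  intro θ
  have m5 : Measurable (fun θ' : M => ∫⁻ ρ in Ioi δ, h ρ θ θ' *
      ∫⁻ t, f₃ t θ * ∫⁻ s in Ioo (t - ρ) (t + ρ), g₃ s θ') :=
    m3.comp (f := fun θ' : M => (θ, θ')) (by fun_prop)
  simp only []
  rw [← lintegral_add_right _ m5]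
  exact lintegral_mono fun θ' => key θ θ'

end generic

end Crest.Agent.R077.JB
end

-- ▼ part R077/ByParts
section

/-! Row 77 (Henon-Lane-Emden): the integration by parts
`∫ φ F V' = (1/(p+1)) ∫ w F V - (b/(p+1)) ∫ φ F V`, `F = exp (b t) V^p`, and the abstract
argument `J(∞) = ∞`. -/

set_option autoImplicit false
open MeasureTheory Filter Topology Set

namespace Crest.Agent.R077

theorem phi_by_parts {p b : ℝ} (hp : 0 < p) {V V' φ w : ℝ → ℝ} (hV : ∀ t, 0 < V t)
    (hd : ∀ t, HasDerivAt V (V' t) t) (hφ : ∀ t, HasDerivAt φ (-(w t)) t)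
    (h1 : Integrable (fun t => φ t * (Real.exp (b * t) * V t ^ p * V t)))
    (h2 : Integrable (fun t => φ t * (Real.exp (b * t) * V t ^ p * V' t)))
    (h3 : Integrable (fun t => w t * (Real.exp (b * t) * V t ^ p * V t))) :
    ∫ t, φ t * (Real.exp (b * t) * V t ^ p * V' t)
      = (1 / (p + 1)) * (∫ t, w t * (Real.exp (b * t) * V t ^ p * V t))
        - (b / (p + 1)) * (∫ t, φ t * (Real.exp (b * t) * V t ^ p * V t)) := by
  have hpow : ∀ t, V t ^ p * V t = V t ^ (p + 1) := fun t => by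
    rw [Real.rpow_add_one (hV t).ne']
  have hder : ∀ t, HasDerivAt (fun t => φ t * (Real.exp (b * t) * V t ^ p * V t))
      (-(w t * (Real.exp (b * t) * V t ^ p * V t))
        + (b * (φ t * (Real.exp (b * t) * V t ^ p * V t))
          + (p + 1) * (φ t * (Real.exp (b * t) * V t ^ p * V' t)))) t := by
    intro t
    have e1 : HasDerivAt (fun t => Real.exp (b * t)) (Real.exp (b * t) * b) t := by
      have := ((hasDerivAt_id t).const_mul b).exp
      simpa using this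
    have e2 : HasDerivAt (fun t => V t ^ (p + 1)) (V' t * (p + 1) * V t ^ (p + 1 - 1)) t :=
      (hd t).rpow_const (Or.inl (hV t).ne')
    have e3 := (hφ t).mul (e1.mul e2)
    have hfun : (fun t => φ t * (Real.exp (b * t) * V t ^ p * V t))
        = (φ * ((fun t => Real.exp (b * t)) * (fun t => V t ^ (p + 1)))) := by
      funext s
      simp only [Pi.mul_apply]
      rw [← hpow s]; ring
    rw [hfun]
    refine e3.congr_deriv ?_
    have : p + 1 - 1 = p := by ring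
    rw [this]
    simp only [Pi.mul_apply]
    rw [← hpow t]
    ring
  have hint' : Integrable (fun t => -(w t * (Real.exp (b * t) * V t ^ p * V t))
        + (b * (φ t * (Real.exp (b * t) * V t ^ p * V t))
          + (p + 1) * (φ t * (Real.exp (b * t) * V t ^ p * V' t)))) :=
    h3.neg.add ((h1.const_mul b).add (h2.const_mul (p + 1)))
  have h0 := integral_eq_zero_of_hasDerivAt_of_integrable hder hint' h1
  have hA : Integrable (fun t => -(w t * (Real.exp (b * t) * V t ^ p * V t))) := h3.neg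
  have hB : Integrable (fun t => b * (φ t * (Real.exp (b * t) * V t ^ p * V t))) := h1.const_mul b
  have hC : Integrable (fun t => (p + 1) * (φ t * (Real.exp (b * t) * V t ^ p * V' t))) :=
    h2.const_mul (p + 1)
  have hBC : Integrable (fun t => b * (φ t * (Real.exp (b * t) * V t ^ p * V t))
      + (p + 1) * (φ t * (Real.exp (b * t) * V t ^ p * V' t))) := hB.add hC
  rw [integral_add hA hBC, integral_add hB hC, integral_const_mul,
    integral_const_mul, integral_neg] at h0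
  have hp1 : p + 1 ≠ 0 := by positivity
  set X := ∫ t, φ t * (Real.exp (b * t) * V t ^ p * V' t)
  set Y := ∫ t, w t * (Real.exp (b * t) * V t ^ p * V t)
  set Z := ∫ t, φ t * (Real.exp (b * t) * V t ^ p * V t)
  field_simp
  linarith

/-- Abstract form of `J(∞) = ∞`. -/
theorem tendsto_atTop_of_pohozaev {J1 J2 P1 P2 : ℝ → ℝ} {A1 A2 C a : ℝ}
    (hD : 0 < A1 + A2)
    (hm1 : Monotone J1) (hm2 : Monotone J2)
    (hpos : ∃ T, 0 < J1 T)
    (hlim : ∀ S1 S2 : ℝ, Tendsto J1 atTop (𝓝 S1) → Tendsto J2 atTop (𝓝 S2) → S1 = S2)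
    (hbd : ∃ C', ∀ T, J2 T ≤ J1 (T + 1) + C')
    (hP1 : ∀ l, J1 l ≤ P1 l ∧ P1 l ≤ J1 (l + a)) (hP2 : ∀ l, J2 l ≤ P2 l ∧ P2 l ≤ J2 (l + a))
    (hP : ∀ l, A1 * P1 l + A2 * P2 l ≤ C * ((J1 (l + a) - J1 l) + (J2 (l + a) - J2 l))) :
    Tendsto J1 atTop atTop := by
  rcases tendsto_atTop_of_monotone hm1 with h | ⟨S1, hS1⟩
  · exact h
  exfalso
  have hle1 : ∀ T, J1 T ≤ S1 := fun T => hm1.ge_of_tendsto hS1 T
  have hS1pos : 0 < S1 := by
    obtain ⟨T, hT⟩ := hpos
    exact hT.trans_le (hle1 T)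
  obtain ⟨C', hC'⟩ := hbd
  have hJ2 : ∃ S2, Tendsto J2 atTop (𝓝 S2) := by
    rcases tendsto_atTop_of_monotone hm2 with h | h
    · exfalso
      have := (h.eventually (eventually_gt_atTop (S1 + C'))).exists
      obtain ⟨T, hT⟩ := this
      have h1 := hC' T
      have h2 := hle1 (T + 1)
      linarith
    · exact h
  obtain ⟨S2, hS2⟩ := hJ2
  have hS12 := hlim S1 S2 hS1 hS2
  subst hS12
  have hshift : Tendsto (fun l : ℝ => l + a) atTop atTop :=
    tendsto_atTop_add_const_right _ _ tendsto_id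
  have h1a : Tendsto (fun l => J1 (l + a)) atTop (𝓝 S1) := hS1.comp hshift
  have h2a : Tendsto (fun l => J2 (l + a)) atTop (𝓝 S1) := hS2.comp hshift
  have hP1' : Tendsto P1 atTop (𝓝 S1) :=
    tendsto_of_tendsto_of_tendsto_of_le_of_le hS1 h1a (fun l => (hP1 l).1) (fun l => (hP1 l).2)
  have hP2' : Tendsto P2 atTop (𝓝 S1) :=
    tendsto_of_tendsto_of_tendsto_of_le_of_le hS2 h2a (fun l => (hP2 l).1) (fun l => (hP2 l).2)
  have hL : Tendsto (fun l => A1 * P1 l + A2 * P2 l) atTop (𝓝 (A1 * S1 + A2 * S1)) :=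
    (hP1'.const_mul A1).add (hP2'.const_mul A2)
  have hR : Tendsto (fun l => C * ((J1 (l + a) - J1 l) + (J2 (l + a) - J2 l))) atTop
      (𝓝 (C * ((S1 - S1) + (S1 - S1)))) :=
    ((h1a.sub hS1).add (h2a.sub hS2)).const_mul C
  have := le_of_tendsto_of_tendsto' hL hR hP
  have h3 : A1 * S1 + A2 * S1 = (A1 + A2) * S1 := by ring
  have h4 : 0 < (A1 + A2) * S1 := mul_pos hD hS1pos
  have h5 : C * ((S1 - S1) + (S1 - S1)) = 0 := by ring
  rw [h3, h5] at this
  linarith

end Crest.Agent.R077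
end

-- ▼ part R077/JInf
section

/-! Row 77: `Stmt_J`. -/

set_option autoImplicit false
set_option linter.unusedSectionVars false
open MeasureTheory Set Filter Topology
open scoped ENNReal

namespace Crest.Agent.R077.JB

variable {M : Type} [MeasurableSpace M] {μ : Measure M}

section basic
variable (S : Cyl M μ)

theorem F_meas : Measurable (fun z : ℝ × M => S.F z.1 z.2) := by
  unfold Cyl.F
  exact ((measurable_const.mul measurable_fst).exp).mul (S.V_meas.pow_const _)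

theorem G_meas : Measurable (fun z : ℝ × M => S.G z.1 z.2) := by
  unfold Cyl.G
  exact ((measurable_const.mul measurable_fst).exp).mul (S.U_meas.pow_const _)

theorem F_pos (t : ℝ) (θ : M) : 0 < S.F t θ := by
  have := S.V_pos t θ
  unfold Cyl.F; positivity

theorem G_pos (t : ℝ) (θ : M) : 0 < S.G t θ := by
  have := S.U_pos t θ
  unfold Cyl.G; positivity

theorem FV_meas : Measurable (fun z : ℝ × M => S.F z.1 z.2 * S.V z.1 z.2) :=
  (F_meas S).mul S.V_meas

theorem GU_meas : Measurable (fun z : ℝ × M => S.G z.1 z.2 * S.U z.1 z.2) :=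
  (G_meas S).mul S.U_meas

theorem FV_pos (t : ℝ) (θ : M) : 0 < S.F t θ * S.V t θ := mul_pos (F_pos S t θ) (S.V_pos t θ)
theorem GU_pos (t : ℝ) (θ : M) : 0 < S.G t θ * S.U t θ := mul_pos (G_pos S t θ) (S.U_pos t θ)

theorem F_cont (θ : M) : Continuous (fun t => S.F t θ) := by
  unfold Cyl.F
  have := (S.V_C1 θ).continuous
  apply Continuous.mul (by fun_prop)
  exact this.rpow_const fun t => Or.inl (S.V_pos t θ).ne'

theorem G_cont (θ : M) : Continuous (fun t => S.G t θ) := by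
  unfold Cyl.G
  have := (S.U_C1 θ).continuous
  apply Continuous.mul (by fun_prop)
  exact this.rpow_const fun t => Or.inl (S.U_pos t θ).ne'

/-- kernel in `ℝ≥0∞` -/
noncomputable def hh (ρ : ℝ) (θ θ' : M) : ℝ≥0∞ := ENNReal.ofReal (S.H ρ θ θ')
/-- `F` in `ℝ≥0∞` -/
noncomputable def fe (t : ℝ) (θ : M) : ℝ≥0∞ := ENNReal.ofReal (S.F t θ)
/-- `G` in `ℝ≥0∞` -/
noncomputable def ge (t : ℝ) (θ : M) : ℝ≥0∞ := ENNReal.ofReal (S.G t θ)

theorem hh_meas : Measurable (fun z : ℝ × M × M => hh S z.1 z.2.1 z.2.2) := S.H_meas.ennreal_ofReal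
theorem fe_meas : Measurable (fun z : ℝ × M => fe S z.1 z.2) := (F_meas S).ennreal_ofReal
theorem ge_meas : Measurable (fun z : ℝ × M => ge S z.1 z.2) := (G_meas S).ennreal_ofReal

theorem hh_symm (ρ : ℝ) (θ θ' : M) : hh S ρ θ θ' = hh S ρ θ' θ := by
  unfold hh; rw [S.H_symm]

variable [SFinite μ]

theorem E1 {α : ℝ → ℝ≥0∞} (hα : Measurable α) :
    ∫⁻ θ, ∫⁻ t, α t * ENNReal.ofReal (S.F t θ * S.V t θ) ∂volume ∂μ
      = QQ μ (hh S) (fun t θ => α t * fe S t θ) (ge S) := by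
  rw [← lintegral_rep (hh_meas S) ((hα.comp measurable_fst).mul (fe_meas S)) (ge_meas S)]
  apply lintegral_congr
  intro θ
  apply lintegral_congr
  intro t
  rw [ENNReal.ofReal_mul (F_pos S t θ).le, S.repV t θ, ← mul_assoc]
  rfl

theorem E2 {β : ℝ → ℝ≥0∞} (hβ : Measurable β) :
    ∫⁻ θ, ∫⁻ t, β t * ENNReal.ofReal (S.G t θ * S.U t θ) ∂volume ∂μ
      = QQ μ (hh S) (fe S) (fun t θ => β t * ge S t θ) := by
  have hm : Measurable (fun z : ℝ × M => β z.1 * ge S z.1 z.2) :=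
    (hβ.comp measurable_fst).mul (ge_meas S)
  rw [QQ_symm (hh_meas S) (hh_symm S) (fe_meas S) hm,
    ← lintegral_rep (hh_meas S) hm (fe_meas S)]
  apply lintegral_congr
  intro θ
  apply lintegral_congr
  intro t
  rw [ENNReal.ofReal_mul (G_pos S t θ).le, S.repU t θ, ← mul_assoc]
  rfl

/-- `J1` in `ℝ≥0∞` -/
noncomputable def J1e (T : ℝ) : ℝ≥0∞ :=
  ∫⁻ θ, ∫⁻ t in Iic T, ENNReal.ofReal (S.F t θ * S.V t θ) ∂volume ∂μ
/-- `J2` in `ℝ≥0∞` -/
noncomputable def J2e (T : ℝ) : ℝ≥0∞ :=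
  ∫⁻ θ, ∫⁻ t in Iic T, ENNReal.ofReal (S.G t θ * S.U t θ) ∂volume ∂μ
/-- `Bfar` in `ℝ≥0∞` -/
noncomputable def Be (δ : ℝ) : ℝ≥0∞ :=
  ∫⁻ θ, ∫⁻ θ', ∫⁻ ρ in Ioi δ, hh S ρ θ θ' *
      ∫⁻ t, fe S t θ * ∫⁻ s in Ioo (t - ρ) (t + ρ), ge S s θ' ∂volume ∂volume ∂volume ∂μ ∂μ

theorem J1e_ne_top (T : ℝ) : J1e S T ≠ ∞ := S.fin1 T
theorem J2e_ne_top (T : ℝ) : J2e S T ≠ ∞ := S.fin2 T

theorem ind_meas (T : ℝ) : Measurable (indicator (Iic T) (fun _ : ℝ => (1 : ℝ≥0∞))) :=
  measurable_const.indicator measurableSet_Iic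

theorem J1e_eq (T : ℝ) : J1e S T
    = QQ μ (hh S) (fun t θ => indicator (Iic T) (fun _ => 1) t * fe S t θ) (ge S) := by
  rw [← E1 S (ind_meas T)]
  unfold J1e
  apply lintegral_congr
  intro θ
  rw [← lintegral_indicator measurableSet_Iic]
  apply lintegral_congr
  intro t
  by_cases h : t ∈ Iic T
  · rw [indicator_of_mem h, indicator_of_mem h, one_mul]
  · rw [indicator_of_notMem h, indicator_of_notMem h, zero_mul]

theorem J2e_eq (T : ℝ) : J2e S T
    = QQ μ (hh S) (fe S) (fun t θ => indicator (Iic T) (fun _ => 1) t * ge S t θ) := by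
  rw [← E2 S (ind_meas T)]
  unfold J2e
  apply lintegral_congr
  intro θ
  rw [← lintegral_indicator measurableSet_Iic]
  apply lintegral_congr
  intro t
  by_cases h : t ∈ Iic T
  · rw [indicator_of_mem h, indicator_of_mem h, one_mul]
  · rw [indicator_of_notMem h, indicator_of_notMem h, zero_mul]

theorem J2e_le (T : ℝ) {δ : ℝ} (hδ : 0 < δ) : J2e S T ≤ J1e S (T + δ) + Be S δ := by
  rw [J2e_eq, J1e_eq]
  apply QQ_le_split hδ (hh_meas S) (fe_meas S) (ge_meas S)
  · intro θ θ' ρ hρ hρδ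
    apply lintegral_mono
    intro t
    beta_reduce
    by_cases ht : t ≤ T + δ
    · rw [indicator_of_mem (show t ∈ Iic (T + δ) from ht), one_mul]
      apply mul_le_mul_right
      apply lintegral_mono
      intro s
      beta_reduce
      by_cases hs : s ∈ Iic T
      · rw [indicator_of_mem hs, one_mul]
      · rw [indicator_of_notMem hs, zero_mul]; exact zero_le
    · push Not at ht
      have : ∫⁻ s in Ioo (t - ρ) (t + ρ), indicator (Iic T) (fun _ => (1 : ℝ≥0∞)) s * ge S s θ' = 0 := by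
        rw [← lintegral_zero (μ := volume.restrict (Ioo (t - ρ) (t + ρ)))]
        apply setLIntegral_congr_fun measurableSet_Ioo
        intro s hs
        simp only []
        rw [indicator_of_notMem, zero_mul]
        intro hs'
        have := hs.1
        have : s ≤ T := hs'
        linarith
      rw [this, mul_zero]
      exact zero_le
  · intro θ θ' ρ _
    apply lintegral_mono
    intro t
    beta_reduce
    apply mul_le_mul_right
    apply lintegral_mono
    intro s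
    beta_reduce
    by_cases hs : s ∈ Iic T
    · rw [indicator_of_mem hs, one_mul]
    · rw [indicator_of_notMem hs, zero_mul]; exact zero_le

theorem J1e_le (T : ℝ) {δ : ℝ} (hδ : 0 < δ) : J1e S T ≤ J2e S (T + δ) + Be S δ := by
  rw [J2e_eq, J1e_eq]
  apply QQ_le_split hδ (hh_meas S) (fe_meas S) (ge_meas S)
  · intro θ θ' ρ hρ hρδ
    apply lintegral_mono
    intro t
    beta_reduce
    by_cases ht : t ∈ Iic T
    · rw [indicator_of_mem ht, one_mul]
      apply mul_le_mul_right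
      apply setLIntegral_mono' measurableSet_Ioo
      intro s hs
      rw [indicator_of_mem, one_mul]
      have := hs.2
      have : t ≤ T := ht
      show s ≤ T + δ
      linarith
    · rw [indicator_of_notMem ht, zero_mul, zero_mul]; exact zero_le
  · intro θ θ' ρ _
    apply lintegral_mono
    intro t
    beta_reduce
    apply mul_le_mul_left
    by_cases hs : t ∈ Iic T
    · rw [indicator_of_mem hs, one_mul]
    · rw [indicator_of_notMem hs, zero_mul]; exact zero_le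

theorem Bfar_eq (δ : ℝ) : S.Bfar δ = (Be S δ).toReal := rfl

theorem Be_le : ∃ C κ : ℝ, 0 ≤ C ∧ 0 ≤ κ ∧ ∀ δ ∈ Ioc (0:ℝ) 1, Be S δ ≤ ENNReal.ofReal (C * δ ^ (-κ)) := by
  obtain ⟨C, κ, hC, hκ, h⟩ := S.far
  exact ⟨C, κ, hC, hκ, fun δ hδ => h δ hδ⟩

theorem Be_ne_top {δ : ℝ} (h0 : 0 < δ) (h1 : δ ≤ 1) : Be S δ ≠ ∞ := by
  obtain ⟨C, κ, _, _, h⟩ := Be_le S
  exact ne_top_of_le_ne_top ENNReal.ofReal_ne_top (h δ ⟨h0, h1⟩)

end basic

/-- Bochner double integral of a nonnegative function from lintegral -/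
theorem integral_eq_toReal [SFinite μ] {k : ℝ → M → ℝ} (hk : Measurable (fun z : ℝ × M => k z.1 z.2))
    (h0 : ∀ t θ, 0 ≤ k t θ) (ν : Measure ℝ) [SFinite ν]
    (hfin : ∫⁻ θ, ∫⁻ t, ENNReal.ofReal (k t θ) ∂ν ∂μ ≠ ∞) :
    ∫ θ, ∫ t, k t θ ∂ν ∂μ = (∫⁻ θ, ∫⁻ t, ENNReal.ofReal (k t θ) ∂ν ∂μ).toReal := by
  have hm : ∀ θ, Measurable (fun t => k t θ) := fun θ =>
    hk.comp (f := fun t : ℝ => (t, θ)) (by fun_prop)
  have e1 : ∀ θ, ∫ t, k t θ ∂ν = (∫⁻ t, ENNReal.ofReal (k t θ) ∂ν).toReal := fun θ =>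
    integral_eq_lintegral_of_nonneg_ae (ae_of_all _ fun t => h0 t θ) (hm θ).aestronglyMeasurable
  have m1 : Measurable (fun θ => ∫⁻ t, ENNReal.ofReal (k t θ) ∂ν) := by
    have : Measurable (fun z : M × ℝ => ENNReal.ofReal (k z.2 z.1)) :=
      (hk.comp (f := fun z : M × ℝ => (z.2, z.1)) (by fun_prop)).ennreal_ofReal
    exact this.lintegral_prod_right'
  simp_rw [e1]
  exact integral_toReal m1.aemeasurable (ae_lt_top m1 hfin)

section real
variable [SFinite μ] (S : Cyl M μ)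

theorem J1_eq (T : ℝ) : S.J1 T = (J1e S T).toReal :=
  integral_eq_toReal (FV_meas S) (fun t θ => (FV_pos S t θ).le) (volume.restrict (Iic T))
    (J1e_ne_top S T)

theorem J2_eq (T : ℝ) : S.J2 T = (J2e S T).toReal :=
  integral_eq_toReal (GU_meas S) (fun t θ => (GU_pos S t θ).le) (volume.restrict (Iic T))
    (J2e_ne_top S T)

theorem J1e_mono : Monotone (J1e S) := fun _ _ h =>
  lintegral_mono fun _ => lintegral_mono_set (Iic_subset_Iic.2 h)

theorem J2e_mono : Monotone (J2e S) := fun _ _ h =>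
  lintegral_mono fun _ => lintegral_mono_set (Iic_subset_Iic.2 h)

theorem J1_mono : Monotone S.J1 := fun a b h => by
  rw [J1_eq, J1_eq]
  exact ENNReal.toReal_mono (J1e_ne_top S b) (J1e_mono S h)

theorem J2_mono : Monotone S.J2 := fun a b h => by
  rw [J2_eq, J2_eq]
  exact ENNReal.toReal_mono (J2e_ne_top S b) (J2e_mono S h)

theorem J1_nonneg (T : ℝ) : 0 ≤ S.J1 T := by rw [J1_eq]; exact ENNReal.toReal_nonneg
theorem J2_nonneg (T : ℝ) : 0 ≤ S.J2 T := by rw [J2_eq]; exact ENNReal.toReal_nonneg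

theorem J2_le (T : ℝ) {δ : ℝ} (h0 : 0 < δ) (h1 : δ ≤ 1) : S.J2 T ≤ S.J1 (T + δ) + S.Bfar δ := by
  rw [J2_eq, J1_eq, Bfar_eq, ← ENNReal.toReal_add (J1e_ne_top S _) (Be_ne_top S h0 h1)]
  exact ENNReal.toReal_mono (ENNReal.add_ne_top.2 ⟨J1e_ne_top S _, Be_ne_top S h0 h1⟩)
    (J2e_le S T h0)

theorem J1_le (T : ℝ) {δ : ℝ} (h0 : 0 < δ) (h1 : δ ≤ 1) : S.J1 T ≤ S.J2 (T + δ) + S.Bfar δ := by
  rw [J2_eq, J1_eq, Bfar_eq, ← ENNReal.toReal_add (J2e_ne_top S _) (Be_ne_top S h0 h1)]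
  exact ENNReal.toReal_mono (ENNReal.add_ne_top.2 ⟨J2e_ne_top S _, Be_ne_top S h0 h1⟩)
    (J1e_le S T h0)

theorem Bfar_bound : ∃ C κ : ℝ, 0 ≤ C ∧ 0 ≤ κ ∧
    ∀ δ ∈ Ioc (0:ℝ) 1, 0 ≤ S.Bfar δ ∧ S.Bfar δ ≤ C * δ ^ (-κ) := by
  obtain ⟨C, κ, hC, hκ, h⟩ := Be_le S
  refine ⟨C, κ, hC, hκ, fun δ hδ => ⟨ENNReal.toReal_nonneg, ?_⟩⟩
  rw [Bfar_eq]
  apply ENNReal.toReal_le_of_le_ofReal _ (h δ hδ)
  have := hδ.1
  positivity

/-- the total energies -/
theorem tot_eq : ∫⁻ θ, ∫⁻ t, ENNReal.ofReal (S.F t θ * S.V t θ) ∂volume ∂μ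
    = ∫⁻ θ, ∫⁻ t, ENNReal.ofReal (S.G t θ * S.U t θ) ∂volume ∂μ := by
  have h1 := E1 S (α := fun _ => 1) measurable_const
  have h2 := E2 S (β := fun _ => 1) measurable_const
  simp only [one_mul] at h1 h2
  rw [h1, h2]

theorem tendsto_lint {k : ℝ → M → ℝ} (hk : Measurable (fun z : ℝ × M => k z.1 z.2)) :
    Tendsto (fun T : ℝ => ∫⁻ θ, ∫⁻ t in Iic T, ENNReal.ofReal (k t θ) ∂volume ∂μ) atTop
      (𝓝 (∫⁻ θ, ∫⁻ t, ENNReal.ofReal (k t θ) ∂volume ∂μ)) := by
  have hmono : Monotone (fun T : ℝ => ∫⁻ θ, ∫⁻ t in Iic T, ENNReal.ofReal (k t θ) ∂volume ∂μ) :=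
    fun _ _ h => lintegral_mono fun _ => lintegral_mono_set (Iic_subset_Iic.2 h)
  have hsub : Tendsto (fun n : ℕ => ∫⁻ θ, ∫⁻ t in Iic (n : ℝ), ENNReal.ofReal (k t θ) ∂volume ∂μ)
      atTop (𝓝 (∫⁻ θ, ∫⁻ t, ENNReal.ofReal (k t θ) ∂volume ∂μ)) := by
    have hm : Measurable (fun z : M × ℝ => ENNReal.ofReal (k z.2 z.1)) :=
      (hk.comp (f := fun z : M × ℝ => (z.2, z.1)) (by fun_prop)).ennreal_ofReal
    apply lintegral_tendsto_of_tendsto_of_monotone
    · intro n
      exact (hm.lintegral_prod_right').aemeasurable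
    · exact ae_of_all _ fun θ n n' h => lintegral_mono_set (Iic_subset_Iic.2 (by exact_mod_cast h))
    · refine ae_of_all _ fun θ => ?_
      have hmθ : Measurable (fun t => ENNReal.ofReal (k t θ)) :=
        hm.comp (f := fun t : ℝ => (θ, t)) (by fun_prop)
      have e : ∀ n : ℕ, ∫⁻ t in Iic (n : ℝ), ENNReal.ofReal (k t θ)
          = ∫⁻ t, indicator (Iic (n : ℝ)) (fun t => ENNReal.ofReal (k t θ)) t := fun n =>
        (lintegral_indicator measurableSet_Iic _).symm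
      simp_rw [e]
      apply lintegral_tendsto_of_tendsto_of_monotone
      · intro n
        exact (hmθ.indicator measurableSet_Iic).aemeasurable
      · refine ae_of_all _ fun t n n' h => ?_
        exact indicator_le_indicator_of_subset (Iic_subset_Iic.2 (by exact_mod_cast h))
          (fun _ => zero_le) t
      · refine ae_of_all _ fun t => ?_
        apply tendsto_const_nhds.congr'
        obtain ⟨N, hN⟩ := exists_nat_ge t
        filter_upwards [eventually_ge_atTop N] with n hn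
        rw [indicator_of_mem]
        have : (N : ℝ) ≤ n := by exact_mod_cast hn
        exact hN.trans this
  have h := tendsto_atTop_iSup hmono
  have h1 := h.comp (tendsto_natCast_atTop_atTop (R := ℝ))
  have := tendsto_nhds_unique h1 hsub
  rwa [this] at h

end real

end Crest.Agent.R077.JB
end

-- ▼ part R077/JInf2
section

/-! Row 77: `Stmt_J`, second part. -/

set_option autoImplicit false
set_option linter.unusedSectionVars false
open MeasureTheory Set Filter Topology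
open scoped ENNReal

namespace Crest.Agent.R077.JB

variable {M : Type} [MeasurableSpace M] {μ : Measure M}

section gen
variable [SFinite μ] {k : ℝ → M → ℝ}

theorem integrable_inner (hk : Measurable (fun z : ℝ × M => k z.1 z.2))
    (h0 : ∀ t θ, 0 ≤ k t θ) (hfin : ∫⁻ θ, ∫⁻ t, ENNReal.ofReal (k t θ) ∂volume ∂μ ≠ ∞) :
    Integrable (fun θ => ∫ t, k t θ) μ ∧ (∀ᵐ θ ∂μ, Integrable (fun t => k t θ)) := by
  have hm : ∀ θ, Measurable (fun t => k t θ) := fun θ =>
    hk.comp (f := fun t : ℝ => (t, θ)) (by fun_prop)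
  have e1 : ∀ θ, ∫ t, k t θ = (∫⁻ t, ENNReal.ofReal (k t θ)).toReal := fun θ =>
    integral_eq_lintegral_of_nonneg_ae (ae_of_all _ fun t => h0 t θ) (hm θ).aestronglyMeasurable
  have m1 : Measurable (fun θ => ∫⁻ t, ENNReal.ofReal (k t θ)) := by
    have : Measurable (fun z : M × ℝ => ENNReal.ofReal (k z.2 z.1)) :=
      (hk.comp (f := fun z : M × ℝ => (z.2, z.1)) (by fun_prop)).ennreal_ofReal
    exact this.lintegral_prod_right'
  constructor
  · simp_rw [e1]
    exact integrable_toReal_of_lintegral_ne_top m1.aemeasurable hfin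
  · filter_upwards [ae_lt_top m1 hfin] with θ hθ
    refine ⟨(hm θ).aestronglyMeasurable, ?_⟩
    rw [hasFiniteIntegral_iff_ofReal (ae_of_all _ fun t => h0 t θ)]
    exact hθ

/-- comparison with the cut off -/
theorem phi_lint (hk : Measurable (fun z : ℝ × M => k z.1 z.2)) (h0 : ∀ t θ, 0 ≤ k t θ)
    {a : ℝ} (ha : 0 < a) (lam : ℝ) :
    (∫⁻ θ, ∫⁻ t in Iic lam, ENNReal.ofReal (k t θ) ∂volume ∂μ)
      ≤ ∫⁻ θ, ∫⁻ t, ENNReal.ofReal (phi lam a t * k t θ) ∂volume ∂μ ∧
    (∫⁻ θ, ∫⁻ t, ENNReal.ofReal (phi lam a t * k t θ) ∂volume ∂μ)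
      ≤ ∫⁻ θ, ∫⁻ t in Iic (lam + a), ENNReal.ofReal (k t θ) ∂volume ∂μ := by
  constructor
  · apply lintegral_mono
    intro θ
    beta_reduce
    rw [← lintegral_indicator measurableSet_Iic]
    apply lintegral_mono
    intro t
    beta_reduce
    by_cases h : t ∈ Iic lam
    · rw [indicator_of_mem h, TP.phi_eq_one h, one_mul]
    · rw [indicator_of_notMem h]; exact zero_le
  · apply lintegral_mono
    intro θ
    beta_reduce
    rw [← lintegral_indicator measurableSet_Iic]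
    apply lintegral_mono
    intro t
    beta_reduce
    by_cases h : t ∈ Iic (lam + a)
    · rw [indicator_of_mem h]
      apply ENNReal.ofReal_le_ofReal
      have h1 := TP.phi_le_one lam a t
      have h2 := h0 t θ
      nlinarith
    · rw [indicator_of_notMem h]
      have : lam + a < t := not_le.1 h
      rw [TP.phi_eq_zero ha this.le, zero_mul, ENNReal.ofReal_zero]

/-- comparison with the tent -/
theorem tent_lint (hk : Measurable (fun z : ℝ × M => k z.1 z.2)) (h0 : ∀ t θ, 0 ≤ k t θ)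
    {a : ℝ} (ha : 0 < a) (lam : ℝ) :
    (∫⁻ θ, ∫⁻ t, ENNReal.ofReal (tent lam a t * k t θ) ∂volume ∂μ)
      + ENNReal.ofReal (2 / a) * (∫⁻ θ, ∫⁻ t in Iic lam, ENNReal.ofReal (k t θ) ∂volume ∂μ)
      ≤ ENNReal.ofReal (2 / a) *
        ∫⁻ θ, ∫⁻ t in Iic (lam + a), ENNReal.ofReal (k t θ) ∂volume ∂μ := by
  have hm : Measurable (fun z : M × ℝ => ENNReal.ofReal (k z.2 z.1)) :=
      (hk.comp (f := fun z : M × ℝ => (z.2, z.1)) (by fun_prop)).ennreal_ofReal
  have hmi : ∀ T : ℝ, Measurable (fun θ => ∫⁻ t in Iic T, ENNReal.ofReal (k t θ)) := fun T =>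
    hm.lintegral_prod_right'
  rw [← lintegral_const_mul _ (hmi _), ← lintegral_const_mul _ (hmi _),
    ← lintegral_add_right _ ((hmi lam).const_mul _)]
  apply lintegral_mono
  intro θ
  beta_reduce
  have hmθ : Measurable (fun t => ENNReal.ofReal (k t θ)) :=
    hm.comp (f := fun t : ℝ => (θ, t)) (by fun_prop)
  rw [← lintegral_indicator measurableSet_Iic, ← lintegral_indicator measurableSet_Iic,
    ← lintegral_const_mul _ (hmθ.indicator measurableSet_Iic),
    ← lintegral_const_mul _ (hmθ.indicator measurableSet_Iic),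
    ← lintegral_add_right _ ((hmθ.indicator measurableSet_Iic).const_mul _)]
  apply lintegral_mono
  intro t
  beta_reduce
  by_cases h1 : t ≤ lam
  · rw [indicator_of_mem (show t ∈ Iic lam from h1),
      indicator_of_mem (show t ∈ Iic (lam + a) from by simp only [mem_Iic]; linarith),
      TP.tent_eq_zero_left h1, zero_mul, ENNReal.ofReal_zero, zero_add]
  · rw [indicator_of_notMem (show t ∉ Iic lam from h1), mul_zero, add_zero]
    by_cases h2 : t ≤ lam + a
    · rw [indicator_of_mem (show t ∈ Iic (lam + a) from h2), ENNReal.ofReal_mul (TP.tent_nonneg _ _ _)]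
      exact mul_le_mul_left (ENNReal.ofReal_le_ofReal (TP.tent_le ha lam t)) _
    · push Not at h2
      rw [TP.tent_eq_zero_right h2.le, zero_mul, ENNReal.ofReal_zero]
      exact zero_le

end gen

section cyl
variable [SFinite μ] (S : Cyl M μ)

/-- cut off energies -/
noncomputable def P1 (lam a : ℝ) : ℝ := ∫ θ, ∫ t, phi lam a t * (S.F t θ * S.V t θ) ∂volume ∂μ
noncomputable def P2 (lam a : ℝ) : ℝ := ∫ θ, ∫ t, phi lam a t * (S.G t θ * S.U t θ) ∂volume ∂μ
noncomputable def W1 (lam a : ℝ) : ℝ := ∫ θ, ∫ t, tent lam a t * (S.F t θ * S.V t θ) ∂volume ∂μ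
noncomputable def W2 (lam a : ℝ) : ℝ := ∫ θ, ∫ t, tent lam a t * (S.G t θ * S.U t θ) ∂volume ∂μ

theorem phiFV_meas (lam a : ℝ) :
    Measurable (fun z : ℝ × M => phi lam a z.1 * (S.F z.1 z.2 * S.V z.1 z.2)) :=
  ((TP.phi_measurable lam a).comp measurable_fst).mul (FV_meas S)
theorem phiGU_meas (lam a : ℝ) :
    Measurable (fun z : ℝ × M => phi lam a z.1 * (S.G z.1 z.2 * S.U z.1 z.2)) :=
  ((TP.phi_measurable lam a).comp measurable_fst).mul (GU_meas S)
theorem tentFV_meas (lam a : ℝ) :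
    Measurable (fun z : ℝ × M => tent lam a z.1 * (S.F z.1 z.2 * S.V z.1 z.2)) :=
  ((TP.tent_measurable lam a).comp measurable_fst).mul (FV_meas S)
theorem tentGU_meas (lam a : ℝ) :
    Measurable (fun z : ℝ × M => tent lam a z.1 * (S.G z.1 z.2 * S.U z.1 z.2)) :=
  ((TP.tent_measurable lam a).comp measurable_fst).mul (GU_meas S)

variable {a : ℝ} (ha : 0 < a) (lam : ℝ)
include ha

theorem phiFV_nonneg (t : ℝ) (θ : M) : 0 ≤ phi lam a t * (S.F t θ * S.V t θ) :=
  mul_nonneg (TP.phi_nonneg ha lam t) (FV_pos S t θ).le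
theorem phiGU_nonneg (t : ℝ) (θ : M) : 0 ≤ phi lam a t * (S.G t θ * S.U t θ) :=
  mul_nonneg (TP.phi_nonneg ha lam t) (GU_pos S t θ).le
theorem tentFV_nonneg (t : ℝ) (θ : M) : 0 ≤ tent lam a t * (S.F t θ * S.V t θ) :=
  mul_nonneg (TP.tent_nonneg lam a t) (FV_pos S t θ).le
theorem tentGU_nonneg (t : ℝ) (θ : M) : 0 ≤ tent lam a t * (S.G t θ * S.U t θ) :=
  mul_nonneg (TP.tent_nonneg lam a t) (GU_pos S t θ).le

theorem phiFV_fin : ∫⁻ θ, ∫⁻ t, ENNReal.ofReal (phi lam a t * (S.F t θ * S.V t θ)) ∂volume ∂μ ≠ ∞ :=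
  ne_top_of_le_ne_top (J1e_ne_top S (lam + a))
    (phi_lint (FV_meas S) (fun t θ => (FV_pos S t θ).le) ha lam).2
theorem phiGU_fin : ∫⁻ θ, ∫⁻ t, ENNReal.ofReal (phi lam a t * (S.G t θ * S.U t θ)) ∂volume ∂μ ≠ ∞ :=
  ne_top_of_le_ne_top (J2e_ne_top S (lam + a))
    (phi_lint (GU_meas S) (fun t θ => (GU_pos S t θ).le) ha lam).2
theorem tentFV_fin : ∫⁻ θ, ∫⁻ t, ENNReal.ofReal (tent lam a t * (S.F t θ * S.V t θ)) ∂volume ∂μ ≠ ∞ :=
  ne_top_of_le_ne_top (ENNReal.mul_ne_top ENNReal.ofReal_ne_top (J1e_ne_top S (lam + a)))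
    (le_self_add.trans (tent_lint (FV_meas S) (fun t θ => (FV_pos S t θ).le) ha lam))
theorem tentGU_fin : ∫⁻ θ, ∫⁻ t, ENNReal.ofReal (tent lam a t * (S.G t θ * S.U t θ)) ∂volume ∂μ ≠ ∞ :=
  ne_top_of_le_ne_top (ENNReal.mul_ne_top ENNReal.ofReal_ne_top (J2e_ne_top S (lam + a)))
    (le_self_add.trans (tent_lint (GU_meas S) (fun t θ => (GU_pos S t θ).le) ha lam))

theorem P1_bounds : S.J1 lam ≤ P1 S lam a ∧ P1 S lam a ≤ S.J1 (lam + a) := by
  have h := phi_lint (FV_meas S) (fun t θ => (FV_pos S t θ).le) ha lam (μ := μ)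
  have e : P1 S lam a = _ := integral_eq_toReal (phiFV_meas S lam a) (phiFV_nonneg S ha lam)
    volume (phiFV_fin S ha lam)
  rw [e, J1_eq, J1_eq]
  exact ⟨ENNReal.toReal_mono (phiFV_fin S ha lam) h.1, ENNReal.toReal_mono (J1e_ne_top S _) h.2⟩

theorem P2_bounds : S.J2 lam ≤ P2 S lam a ∧ P2 S lam a ≤ S.J2 (lam + a) := by
  have h := phi_lint (GU_meas S) (fun t θ => (GU_pos S t θ).le) ha lam (μ := μ)
  have e : P2 S lam a = _ := integral_eq_toReal (phiGU_meas S lam a) (phiGU_nonneg S ha lam)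
    volume (phiGU_fin S ha lam)
  rw [e, J2_eq, J2_eq]
  exact ⟨ENNReal.toReal_mono (phiGU_fin S ha lam) h.1, ENNReal.toReal_mono (J2e_ne_top S _) h.2⟩

theorem W1_bound : 0 ≤ W1 S lam a ∧ W1 S lam a ≤ (2 / a) * (S.J1 (lam + a) - S.J1 lam) := by
  have h : (∫⁻ θ, ∫⁻ t, ENNReal.ofReal (tent lam a t * (S.F t θ * S.V t θ)) ∂volume ∂μ)
      + ENNReal.ofReal (2 / a) * J1e S lam ≤ ENNReal.ofReal (2 / a) * J1e S (lam + a) :=
    tent_lint (FV_meas S) (fun t θ => (FV_pos S t θ).le) ha lam (μ := μ)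
  have e : W1 S lam a = _ := integral_eq_toReal (tentFV_meas S lam a) (tentFV_nonneg S ha lam)
    volume (tentFV_fin S ha lam)
  refine ⟨by rw [e]; exact ENNReal.toReal_nonneg, ?_⟩
  have h2 := ENNReal.toReal_mono (ENNReal.mul_ne_top ENNReal.ofReal_ne_top (J1e_ne_top S (lam + a))) h
  rw [ENNReal.toReal_add (tentFV_fin S ha lam)
    (ENNReal.mul_ne_top ENNReal.ofReal_ne_top (J1e_ne_top S lam)), ENNReal.toReal_mul,
    ENNReal.toReal_mul, ENNReal.toReal_ofReal (by positivity)] at h2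
  rw [← J1_eq S lam, ← J1_eq S (lam + a), ← e] at h2
  linarith

theorem W2_bound : 0 ≤ W2 S lam a ∧ W2 S lam a ≤ (2 / a) * (S.J2 (lam + a) - S.J2 lam) := by
  have h : (∫⁻ θ, ∫⁻ t, ENNReal.ofReal (tent lam a t * (S.G t θ * S.U t θ)) ∂volume ∂μ)
      + ENNReal.ofReal (2 / a) * J2e S lam ≤ ENNReal.ofReal (2 / a) * J2e S (lam + a) :=
    tent_lint (GU_meas S) (fun t θ => (GU_pos S t θ).le) ha lam (μ := μ)
  have e : W2 S lam a = _ := integral_eq_toReal (tentGU_meas S lam a) (tentGU_nonneg S ha lam)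
    volume (tentGU_fin S ha lam)
  refine ⟨by rw [e]; exact ENNReal.toReal_nonneg, ?_⟩
  have h2 := ENNReal.toReal_mono (ENNReal.mul_ne_top ENNReal.ofReal_ne_top (J2e_ne_top S (lam + a))) h
  rw [ENNReal.toReal_add (tentGU_fin S ha lam)
    (ENNReal.mul_ne_top ENNReal.ofReal_ne_top (J2e_ne_top S lam)), ENNReal.toReal_mul,
    ENNReal.toReal_mul, ENNReal.toReal_ofReal (by positivity)] at h2
  rw [← J2_eq S lam, ← J2_eq S (lam + a), ← e] at h2
  linarith

end cyl

section total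
variable [SFinite μ] (S : Cyl M μ)

theorem J1e_pos [NeZero μ] (T : ℝ) : 0 < J1e S T := by
  rw [pos_iff_ne_zero]
  intro h
  have hm : Measurable (fun z : M × ℝ => ENNReal.ofReal (S.F z.2 z.1 * S.V z.2 z.1)) :=
      ((FV_meas S).comp (f := fun z : M × ℝ => (z.2, z.1)) (by fun_prop)).ennreal_ofReal
  have hmi : Measurable (fun θ => ∫⁻ t in Iic T, ENNReal.ofReal (S.F t θ * S.V t θ)) :=
    hm.lintegral_prod_right'
  unfold J1e at h
  rw [lintegral_eq_zero_iff hmi] at h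
  obtain ⟨θ, hθ⟩ := h.exists
  have hmθ : Measurable (fun t => ENNReal.ofReal (S.F t θ * S.V t θ)) :=
    hm.comp (f := fun t : ℝ => (θ, t)) (by fun_prop)
  have h2 : (∫⁻ t in Iic T, ENNReal.ofReal (S.F t θ * S.V t θ)) = 0 := hθ
  rw [lintegral_eq_zero_iff hmθ] at h2
  have hne : NeZero (volume.restrict (Iic T) : Measure ℝ) := by
    refine ⟨?_⟩
    rw [Ne, Measure.restrict_eq_zero, Real.volume_Iic]
    exact ENNReal.top_ne_zero
  obtain ⟨t, ht⟩ := h2.exists
  have h3 : ENNReal.ofReal (S.F t θ * S.V t θ) = 0 := ht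
  rw [ENNReal.ofReal_eq_zero] at h3
  exact absurd (FV_pos S t θ) (not_lt.2 h3)

theorem J1_pos [NeZero μ] (T : ℝ) : 0 < S.J1 T := by
  rw [J1_eq]
  exact ENNReal.toReal_pos (J1e_pos S T).ne' (J1e_ne_top S T)

theorem lim_eq {S1 S2 : ℝ} (h1 : Tendsto S.J1 atTop (𝓝 S1)) (h2 : Tendsto S.J2 atTop (𝓝 S2)) :
    S1 = S2 := by
  have a1 : Tendsto (J1e S) atTop (𝓝 (ENNReal.ofReal S1)) := by
    have := ENNReal.tendsto_ofReal h1
    refine this.congr fun T => ?_
    rw [J1_eq, ENNReal.ofReal_toReal (J1e_ne_top S T)]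
  have a2 : Tendsto (J2e S) atTop (𝓝 (ENNReal.ofReal S2)) := by
    have := ENNReal.tendsto_ofReal h2
    refine this.congr fun T => ?_
    rw [J2_eq, ENNReal.ofReal_toReal (J2e_ne_top S T)]
  have b1 := tendsto_nhds_unique a1 (tendsto_lint (FV_meas S))
  have b2 := tendsto_nhds_unique a2 (tendsto_lint (GU_meas S))
  have h := tot_eq S
  rw [← b1, ← b2] at h
  have p1 : 0 ≤ S1 := ge_of_tendsto' h1 (J1_nonneg S)
  have p2 : 0 ≤ S2 := ge_of_tendsto' h2 (J2_nonneg S)
  exact (ENNReal.ofReal_eq_ofReal_iff p1 p2).1 h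

end total

end Crest.Agent.R077.JB
end

-- ▼ part R077/JInf3
section

/-! Row 77: `Stmt_J` from `Stmt_Ident`, `Stmt_Win` and integrability of `F V'`, `G U'`. -/

set_option autoImplicit false
set_option linter.unusedSectionVars false
open MeasureTheory Set Filter Topology
open scoped ENNReal

namespace Crest.Agent.R077.JB

variable {M : Type} [MeasurableSpace M] {μ : Measure M}

/-- integrability of `F V'` and `G U'` on `(-∞,T] × M` -/
def Stmt_IntFdV : Prop :=
  ∀ (M : Type) [MeasurableSpace M] (μ : Measure M) [IsFiniteMeasure μ] (S : Cyl M μ) (T : ℝ),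
    Integrable (fun z : M × ℝ => S.F z.2 z.1 * deriv (fun s => S.V s z.1) z.2)
      (μ.prod (volume.restrict (Iic T))) ∧
    Integrable (fun z : M × ℝ => S.G z.2 z.1 * deriv (fun s => S.U s z.1) z.2)
      (μ.prod (volume.restrict (Iic T)))

/-- `∫ φ f v'` is integrable on the line if `f v'` is on `(-∞, lam + a]` -/
theorem phi_int {a lam : ℝ} (ha : 0 < a) {k : ℝ → ℝ} (hk : Integrable k (volume.restrict (Iic (lam + a)))) :
    Integrable (fun t => phi lam a t * k t) := by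
  have h1 : IntegrableOn (fun t => phi lam a t * k t) (Iic (lam + a)) := by
    unfold IntegrableOn
    apply hk.bdd_mul (c := 1) (TP.phi_continuous lam a).aestronglyMeasurable
    exact ae_of_all _ fun t => by
      rw [Real.norm_eq_abs, abs_of_nonneg (TP.phi_nonneg ha lam t)]
      exact TP.phi_le_one lam a t
  have h2 : (fun t => phi lam a t * k t) = indicator (Iic (lam + a)) (fun t => phi lam a t * k t) := by
    funext t
    by_cases h : t ∈ Iic (lam + a)
    · rw [indicator_of_mem h]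
    · rw [indicator_of_notMem h]
      have : lam + a < t := not_le.1 h
      rw [TP.phi_eq_zero ha this.le, zero_mul]
  rw [h2]
  exact (integrable_indicator_iff measurableSet_Iic).2 h1

section cyl
variable [IsFiniteMeasure μ] (S : Cyl M μ)

theorem workF (hI : Stmt_IntFdV) {a : ℝ} (ha : 0 < a) (lam : ℝ) :
    ∫ θ, ∫ t, phi lam a t * (S.F t θ * deriv (fun s => S.V s θ) t) ∂volume ∂μ
      = (1 / (S.p + 1)) * W1 S lam a - (S.b₁ / (S.p + 1)) * P1 S lam a := by
  have i1 := (hI M μ S (lam + a)).1.prod_right_ae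
  have i2 := integrable_inner (phiFV_meas S lam a) (phiFV_nonneg S ha lam) (phiFV_fin S ha lam)
  have i3 := integrable_inner (tentFV_meas S lam a) (tentFV_nonneg S ha lam) (tentFV_fin S ha lam)
  have key : ∀ᵐ θ ∂μ, ∫ t, phi lam a t * (S.F t θ * deriv (fun s => S.V s θ) t)
      = (1 / (S.p + 1)) * (∫ t, tent lam a t * (S.F t θ * S.V t θ))
        - (S.b₁ / (S.p + 1)) * (∫ t, phi lam a t * (S.F t θ * S.V t θ)) := by
    filter_upwards [i1, i2.2, i3.2] with θ h1 h2 h3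
    exact phi_by_parts S.hp (b := S.b₁) (V := fun t => S.V t θ)
      (V' := deriv (fun s => S.V s θ)) (φ := phi lam a) (w := tent lam a)
      (fun t => S.V_pos t θ)
      (fun t => ((S.V_C1 θ).differentiable (by simp)).differentiableAt.hasDerivAt)
      (TP.phi_hasDerivAt lam a) h2 (phi_int ha h1) h3
  rw [integral_congr_ae key, integral_sub (i3.1.const_mul _) (i2.1.const_mul _),
    integral_const_mul, integral_const_mul]
  rfl

theorem workG (hI : Stmt_IntFdV) {a : ℝ} (ha : 0 < a) (lam : ℝ) :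
    ∫ θ, ∫ t, phi lam a t * (S.G t θ * deriv (fun s => S.U s θ) t) ∂volume ∂μ
      = (1 / (S.q + 1)) * W2 S lam a - (S.b₂ / (S.q + 1)) * P2 S lam a := by
  have i1 := (hI M μ S (lam + a)).2.prod_right_ae
  have i2 := integrable_inner (phiGU_meas S lam a) (phiGU_nonneg S ha lam) (phiGU_fin S ha lam)
  have i3 := integrable_inner (tentGU_meas S lam a) (tentGU_nonneg S ha lam) (tentGU_fin S ha lam)
  have key : ∀ᵐ θ ∂μ, ∫ t, phi lam a t * (S.G t θ * deriv (fun s => S.U s θ) t)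
      = (1 / (S.q + 1)) * (∫ t, tent lam a t * (S.G t θ * S.U t θ))
        - (S.b₂ / (S.q + 1)) * (∫ t, phi lam a t * (S.G t θ * S.U t θ)) := by
    filter_upwards [i1, i2.2, i3.2] with θ h1 h2 h3
    exact phi_by_parts S.hq (b := S.b₂) (V := fun t => S.U t θ)
      (V' := deriv (fun s => S.U s θ)) (φ := phi lam a) (w := tent lam a)
      (fun t => S.U_pos t θ)
      (fun t => ((S.U_C1 θ).differentiable (by simp)).differentiableAt.hasDerivAt)
      (TP.phi_hasDerivAt lam a) h2 (phi_int ha h1) h3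
  rw [integral_congr_ae key, integral_sub (i3.1.const_mul _) (i2.1.const_mul _),
    integral_const_mul, integral_const_mul]
  rfl

theorem shortI_empty {a : ℝ} {m : ℕ} {η : ℝ} (hm : 0 < msh a m) (h : η ≤ msh a m) :
    shortI a m η = ∅ := by
  unfold shortI
  rw [Finset.filter_eq_empty_iff]
  intro i hi hcon
  unfold prs at hi
  rw [Finset.mem_filter] at hi
  have h1 : (i.1 : ℝ) ≤ i.2 := by exact_mod_cast hi.2
  have h2 := hcon.2.2
  nlinarith

theorem dRho_phi_nonneg {f g : ℝ → ℝ} (hf : ∀ t, 0 ≤ f t) (hg : ∀ t, 0 ≤ g t) (lam a : ℝ) {ρ : ℝ}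
    (hρ : 0 ≤ ρ) : 0 ≤ dRho f g (fun t => phi lam a t * f t) (fun t => phi lam a t * g t) ρ := by
  unfold dRho
  apply integral_nonneg
  intro t
  have h1 : phi lam a (t + ρ) ≤ phi lam a t := TP.phi_antitone lam a (by linarith)
  have h2 : phi lam a t ≤ phi lam a (t - ρ) := TP.phi_antitone lam a (by linarith)
  have e : (phi lam a t * f t * g (t + ρ) - f t * (phi lam a (t + ρ) * g (t + ρ)))
      - (phi lam a t * f t * g (t - ρ) - f t * (phi lam a (t - ρ) * g (t - ρ)))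
      = f t * g (t + ρ) * (phi lam a t - phi lam a (t + ρ))
        + f t * g (t - ρ) * (phi lam a (t - ρ) - phi lam a t) := by ring
  show (0 : ℝ) ≤ (phi lam a t * f t * g (t + ρ) - f t * (phi lam a (t + ρ) * g (t + ρ)))
      - (phi lam a t * f t * g (t - ρ) - f t * (phi lam a (t - ρ) * g (t - ρ)))
  rw [e]
  have a1 := mul_nonneg (mul_nonneg (hf t) (hg (t + ρ))) (sub_nonneg.2 h1)
  have a2 := mul_nonneg (mul_nonneg (hf t) (hg (t - ρ))) (sub_nonneg.2 h2)
  linarith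

theorem nu_ae_pos : ∀ᵐ z ∂S.nu, 0 < z.1 := by
  unfold Cyl.nu
  apply (withDensity_absolutelyContinuous _ _).ae_le
  have h : ∀ᵐ x ∂(volume.restrict (Ioi (0:ℝ))), 0 < x := ae_restrict_mem measurableSet_Ioi
  exact Measure.quasiMeasurePreserving_fst.ae h

theorem pohozaev (hId : Stmt_Ident) (hW : Stmt_Win) (hI : Stmt_IntFdV) (lam : ℝ) :
    (S.b₁ / (S.p + 1)) * P1 S lam 1 + (S.b₂ / (S.q + 1)) * P2 S lam 1
      ≤ (1 / (S.p + 1)) * W1 S lam 1 + (1 / (S.q + 1)) * W2 S lam 1 := by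
  obtain ⟨L, m₀, h⟩ := hW M μ S lam 1 one_pos le_rfl
  set m := max m₀ 1 with hmdef
  have hWin := h m (le_max_left _ _)
  have hm1 : (1 : ℝ) ≤ m := by exact_mod_cast (le_max_right m₀ 1)
  have hmsh : 0 < msh 1 m := by unfold msh; positivity
  set η : ℝ := min (msh 1 m) (1 / 8) with hη
  have hη0 : 0 < η := lt_min hmsh (by norm_num)
  have hη8 : 8 * η ≤ 1 := by have := min_le_right (msh 1 m) (1 / 8); rw [← hη] at this; linarith
  have hemp := shortI_empty (η := η) hmsh (min_le_left _ _)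
  have id := (hId M μ S lam 1 L m η hWin hη0 hη8).1
  have eF : ∀ t θ, S.OmF lam 1 m L η t θ = phi lam 1 t * S.F t θ := by
    intro t θ
    unfold Cyl.OmF omega
    rw [hemp]; simp
  have eG : ∀ t θ, S.OmG lam 1 m L η t θ = phi lam 1 t * S.G t θ := by
    intro t θ
    unfold Cyl.OmG omega
    rw [hemp]; simp
  simp_rw [eF, eG] at id
  have hR : 0 ≤ ∫ z, dRho (fun t => S.F t z.2.1) (fun t => S.G t z.2.2)
      (fun t => phi lam 1 t * S.F t z.2.1) (fun t => phi lam 1 t * S.G t z.2.2) z.1 ∂S.nu := by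
    apply integral_nonneg_of_ae
    filter_upwards [nu_ae_pos S] with z hz
    exact dRho_phi_nonneg (fun t => (F_pos S t z.2.1).le) (fun t => (G_pos S t z.2.2).le) lam 1 hz.le
  rw [← id] at hR
  have e1 := workF S hI one_pos lam
  have e2 := workG S hI one_pos lam
  simp_rw [mul_assoc] at hR
  rw [e1, e2] at hR
  linarith

end cyl

theorem J_of (hId : Stmt_Ident) (hW : Stmt_Win) (hI : Stmt_IntFdV) : Stmt_J := by
  intro M _ μ _ S hμ
  have : NeZero μ := ⟨hμ⟩
  refine ⟨fun T δ h0 h1 => ⟨J2_le S T h0 h1, J1_le S T h0 h1⟩, J1_mono S, J2_mono S, J1_nonneg S,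
    J2_nonneg S, ?_, Bfar_bound S⟩
  have hp := S.hp
  have hq := S.hq
  have ht : Tendsto S.J1 atTop atTop := by
    apply tendsto_atTop_of_pohozaev (J1 := S.J1) (J2 := S.J2) (P1 := fun l => P1 S l 1)
      (P2 := fun l => P2 S l 1) (A1 := S.b₁ / (S.p + 1)) (A2 := S.b₂ / (S.q + 1)) (C := 2) (a := 1)
      S.hD (J1_mono S) (J2_mono S) ⟨0, J1_pos S 0⟩ (fun S1 S2 h1 h2 => lim_eq S h1 h2)
      ⟨S.Bfar 1, fun T => J2_le S T one_pos le_rfl⟩
      (fun l => P1_bounds S one_pos l) (fun l => P2_bounds S one_pos l)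
    intro l
    have h1 := pohozaev S hId hW hI l
    have h2 := W1_bound S one_pos l
    have h3 := W2_bound S one_pos l
    have a1 : 1 / (S.p + 1) ≤ 1 := by rw [div_le_one (by linarith)]; linarith
    have a2 : 1 / (S.q + 1) ≤ 1 := by rw [div_le_one (by linarith)]; linarith
    have b1 : (1 / (S.p + 1)) * W1 S l 1 ≤ W1 S l 1 := by nlinarith [h2.1]
    have b2 : (1 / (S.q + 1)) * W2 S l 1 ≤ W2 S l 1 := by nlinarith [h3.1]
    have := h2.2
    have := h3.2
    linarith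
  intro C
  exact (ht.eventually (eventually_ge_atTop C)).exists

end Crest.Agent.R077.JB
end

-- ▼ part R077/IntFdV
section

/-! Row 77: `F V'`, `G U'` are integrable on `(-∞,T] × M`. -/

set_option autoImplicit false
set_option linter.unusedSectionVars false
open MeasureTheory Set Filter Topology
open scoped ENNReal

namespace Crest.Agent.R077.JB

/-- one dimensional comparison of the derivative with a density, local version -/
theorem abs_deriv_le_local {v v' n : ℝ → ℝ} (hd : ∀ t, HasDerivAt v (v' t) t)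
    (hn : LocallyIntegrable n)
    {R T : ℝ} (h : ∀ t1 ∈ Icc R T, ∀ t2 ∈ Icc R T, t1 ≤ t2 → |v t2 - v t1| ≤ ∫ s in t1..t2, n s) :
    ∀ᵐ t, t ∈ Ioo R T → |v' t| ≤ n t := by
  filter_upwards [_root_.LocallyIntegrable.ae_hasDerivAt_integral hn] with x hx hxR
  have hint : ∀ c d : ℝ, IntervalIntegrable n volume c d := fun c d =>
    intervalIntegrable_iff.2 ((hn.integrableOn_isCompact isCompact_uIcc).mono_set uIoc_subset_uIcc)
  have key : ∀ σ : ℝ, |σ| = 1 → σ * v' x ≤ n x := by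
    intro σ hσ
    have h1 : HasDerivAt (fun y => (∫ s in x..y, n s) - σ * v y) (n x - σ * v' x) x :=
      (hx x).sub ((hd x).const_mul σ)
    have h2 := (hasDerivAt_iff_tendsto_slope.1 h1).mono_left (nhdsGT_le_nhdsNE x)
    have h3 : ∀ᶠ y in 𝓝[>] x, 0 ≤ slope (fun y => (∫ s in x..y, n s) - σ * v y) x y := by
      filter_upwards [Ioo_mem_nhdsGT hxR.2] with y hy
      rw [slope_def_field]
      apply div_nonneg _ (sub_nonneg.2 hy.1.le)
      have h4 := h x ⟨hxR.1.le, hxR.2.le⟩ y ⟨hxR.1.le.trans hy.1.le, hy.2.le⟩ hy.1.le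
      have h5 : σ * (v y - v x) ≤ |v y - v x| := by
        calc σ * (v y - v x) ≤ |σ * (v y - v x)| := le_abs_self _
          _ = |v y - v x| := by rw [abs_mul, hσ, one_mul]
      have h6 : ∫ s in x..x, n s = 0 := intervalIntegral.integral_same
      rw [h6]
      nlinarith
    have := ge_of_tendsto h2 h3
    linarith
  have k1 := key 1 (by simp)
  have k2 := key (-1) (by simp)
  exact abs_le.2 ⟨by linarith, by linarith⟩

/-- one dimensional comparison in `ℝ≥0∞` -/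
theorem lintegral_deriv_le {v v' F : ℝ → ℝ} {N : ℝ → ℝ≥0∞} (hN : Measurable N)
    (hd : ∀ t, HasDerivAt v (v' t) t) (hv : ∀ t, 0 ≤ v t) (hF : Continuous F) (hF0 : ∀ t, 0 < F t)
    (h1 : ∀ t1 t2, t1 ≤ t2 → ENNReal.ofReal (v t2) ≤ ENNReal.ofReal (v t1) + ∫⁻ s in Ioo t1 t2, N s)
    (h2 : ∀ t1 t2, t1 ≤ t2 → ENNReal.ofReal (v t1) ≤ ENNReal.ofReal (v t2) + ∫⁻ s in Ioo t1 t2, N s)
    {T : ℝ} (hfin : ∫⁻ t in Iic T, ENNReal.ofReal (F t) * N t ≠ ∞) :
    ∫⁻ t in Iic T, ENNReal.ofReal (F t) * ENNReal.ofReal |v' t|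
      ≤ ∫⁻ t in Iic T, ENNReal.ofReal (F t) * N t := by
  have key : ∀ R : ℝ, R < T → ∀ᵐ t, t ∈ Ioo R T → ENNReal.ofReal |v' t| ≤ N t := by
    intro R hR
    -- N is integrable on [R,T]
    obtain ⟨t0, ht0, hmin⟩ := (isCompact_Icc (a := R) (b := T)).exists_isMinOn
      (nonempty_Icc.2 hR.le) hF.continuousOn
    have hc : 0 < F t0 := hF0 t0
    have hNfin : ∫⁻ t in Icc R T, N t ≠ ∞ := by
      have e1 : ENNReal.ofReal (F t0) * ∫⁻ t in Icc R T, N t ≤ ∫⁻ t in Iic T, ENNReal.ofReal (F t) * N t := by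
        rw [← lintegral_const_mul _ hN]
        calc ∫⁻ t in Icc R T, ENNReal.ofReal (F t0) * N t
            ≤ ∫⁻ t in Icc R T, ENNReal.ofReal (F t) * N t := by
              apply setLIntegral_mono' measurableSet_Icc
              intro t ht
              exact mul_le_mul_left (ENNReal.ofReal_le_ofReal (hmin ht)) _
          _ ≤ _ := lintegral_mono_set Icc_subset_Iic_self
      intro htop
      rw [htop, ENNReal.mul_top (by simpa using hc)] at e1
      exact hfin (top_le_iff.1 e1)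
    set n : ℝ → ℝ := indicator (Icc R T) (fun t => (N t).toReal) with hn
    have hnm : Measurable n := (hN.ennreal_toReal).indicator measurableSet_Icc
    have hnint : Integrable n := by
      rw [hn, integrable_indicator_iff measurableSet_Icc]
      exact integrable_toReal_of_lintegral_ne_top hN.aemeasurable hNfin
    have hcmp : ∀ t1 ∈ Icc R T, ∀ t2 ∈ Icc R T, t1 ≤ t2 →
        ∫⁻ s in Ioo t1 t2, N s = ENNReal.ofReal (∫ s in t1..t2, n s) := by
      intro t1 ht1 t2 ht2 h12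
      have hsub : Ioo t1 t2 ⊆ Icc R T := fun s hs => ⟨ht1.1.trans hs.1.le, hs.2.le.trans ht2.2⟩
      have hfin' : ∫⁻ s in Ioo t1 t2, N s ≠ ∞ := ne_top_of_le_ne_top hNfin (lintegral_mono_set hsub)
      rw [intervalIntegral.integral_of_le h12, integral_Ioc_eq_integral_Ioo]
      have e2 : ∫ s in Ioo t1 t2, n s = ∫ s in Ioo t1 t2, (N s).toReal := by
        apply setIntegral_congr_fun measurableSet_Ioo
        intro s hs
        rw [hn, indicator_of_mem (hsub hs)]
      rw [e2, integral_toReal hN.aemeasurable (ae_lt_top hN hfin'), ENNReal.ofReal_toReal hfin']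
    have hnn : ∀ s, 0 ≤ n s := by
      intro s
      rw [hn]
      exact indicator_nonneg (fun _ _ => ENNReal.toReal_nonneg) s
    have hloc := abs_deriv_le_local (v := v) (v' := v') (n := n) hd hnint.locallyIntegrable
      (R := R) (T := T) (by
        intro t1 ht1 t2 ht2 h12
        have a1 := h1 t1 t2 h12
        have a2 := h2 t1 t2 h12
        have hI : 0 ≤ ∫ s in t1..t2, n s := intervalIntegral.integral_nonneg h12 fun s _ => hnn s
        rw [hcmp t1 ht1 t2 ht2 h12, ← ENNReal.ofReal_add (hv _) hI] at a1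
        rw [hcmp t1 ht1 t2 ht2 h12, ← ENNReal.ofReal_add (hv _) hI] at a2
        rw [ENNReal.ofReal_le_ofReal_iff (add_nonneg (hv _) hI)] at a1 a2
        exact abs_le.2 ⟨by linarith, by linarith⟩)
    filter_upwards [hloc] with t ht htR
    have b1 := ht htR
    calc ENNReal.ofReal |v' t| ≤ ENNReal.ofReal (n t) := ENNReal.ofReal_le_ofReal b1
      _ = ENNReal.ofReal (N t).toReal := by
          rw [hn, indicator_of_mem (show t ∈ Icc R T from ⟨htR.1.le, htR.2.le⟩)]
      _ ≤ N t := ENNReal.ofReal_toReal_le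
  -- all t < T
  have hall : ∀ᵐ t, t < T → ENNReal.ofReal |v' t| ≤ N t := by
    have h3 : ∀ᵐ t, ∀ k : ℕ, t ∈ Ioo (T - 1 - k) T → ENNReal.ofReal |v' t| ≤ N t := by
      rw [ae_all_iff]
      intro k
      apply key
      have : (0 : ℝ) ≤ k := Nat.cast_nonneg k
      linarith
    filter_upwards [h3] with t ht htT
    obtain ⟨k, hk⟩ := exists_nat_gt (T - 1 - t)
    exact ht k ⟨by linarith, htT⟩
  apply lintegral_mono_ae
  have hne : ∀ᵐ t : ℝ, t ≠ T := by simp [ae_iff, measure_singleton]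
  filter_upwards [ae_restrict_mem measurableSet_Iic, ae_restrict_of_ae hall, ae_restrict_of_ae hne]
    with t ht h3 h4
  exact mul_le_mul_right (h3 (lt_of_le_of_ne ht h4)) _

section generic
variable {M : Type*} [MeasurableSpace M] {μ : Measure M} [SFinite μ]
  {h : ℝ → M → M → ℝ≥0∞} {g : ℝ → M → ℝ≥0∞}

/-- the density of the absolute force -/
noncomputable def NN (μ : Measure M) (h : ℝ → M → M → ℝ≥0∞) (g : ℝ → M → ℝ≥0∞) (θ : M) (t : ℝ) : ℝ≥0∞ :=
  ∫⁻ θ', ∫⁻ ρ in Ioi (0:ℝ), h ρ θ θ' * (g (t + ρ) θ' + g (t - ρ) θ') ∂volume ∂μ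

theorem meas_k (hh : Measurable (fun z : ℝ × M × M => h z.1 z.2.1 z.2.2))
    (hg : Measurable (fun z : ℝ × M => g z.1 z.2)) :
    Measurable (fun z : (M × ℝ × M) × ℝ => h z.2 z.1.1 z.1.2.2 *
      (g (z.1.2.1 + z.2) z.1.2.2 + g (z.1.2.1 - z.2) z.1.2.2)) := by
  apply Measurable.mul
  · exact hh.comp (f := fun z : (M × ℝ × M) × ℝ => (z.2, z.1.1, z.1.2.2)) (by fun_prop)
  · apply Measurable.add
    · exact hg.comp (f := fun z : (M × ℝ × M) × ℝ => (z.1.2.1 + z.2, z.1.2.2)) (by fun_prop)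
    · exact hg.comp (f := fun z : (M × ℝ × M) × ℝ => (z.1.2.1 - z.2, z.1.2.2)) (by fun_prop)

theorem meas_k2 (hh : Measurable (fun z : ℝ × M × M => h z.1 z.2.1 z.2.2))
    (hg : Measurable (fun z : ℝ × M => g z.1 z.2)) :
    Measurable (fun z : M × ℝ × M => ∫⁻ ρ in Ioi (0:ℝ), h ρ z.1 z.2.2 *
      (g (z.2.1 + ρ) z.2.2 + g (z.2.1 - ρ) z.2.2)) := (meas_k hh hg).lintegral_prod_right'

theorem meas_NN (hh : Measurable (fun z : ℝ × M × M => h z.1 z.2.1 z.2.2))
    (hg : Measurable (fun z : ℝ × M => g z.1 z.2)) :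
    Measurable (fun z : M × ℝ => NN μ h g z.1 z.2) := by
  have h1 : Measurable (fun w : (M × ℝ) × M => ∫⁻ ρ in Ioi (0:ℝ), h ρ w.1.1 w.2 *
      (g (w.1.2 + ρ) w.2 + g (w.1.2 - ρ) w.2)) :=
    (meas_k2 hh hg).comp (f := fun w : (M × ℝ) × M => (w.1.1, w.1.2, w.2)) (by fun_prop)
  exact h1.lintegral_prod_right'

theorem lintegral_NN (hh : Measurable (fun z : ℝ × M × M => h z.1 z.2.1 z.2.2))
    (hg : Measurable (fun z : ℝ × M => g z.1 z.2)) {f : ℝ → ℝ≥0∞} (hf : Measurable f) (θ : M)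
    (s : Set ℝ) :
    ∫⁻ t in s, f t * NN μ h g θ t
      = ∫⁻ θ', ∫⁻ ρ in Ioi (0:ℝ), h ρ θ θ' *
          ∫⁻ t in s, f t * (g (t + ρ) θ' + g (t - ρ) θ') ∂volume ∂volume ∂μ := by
  unfold NN
  have m2 : Measurable (fun z : ℝ × M => ∫⁻ ρ in Ioi (0:ℝ), h ρ θ z.2 *
      (g (z.1 + ρ) z.2 + g (z.1 - ρ) z.2)) :=
    (meas_k2 hh hg).comp (f := fun z : ℝ × M => (θ, z.1, z.2)) (by fun_prop)
  have e1 : ∀ t, f t * (∫⁻ θ', ∫⁻ ρ in Ioi (0:ℝ), h ρ θ θ' * (g (t + ρ) θ' + g (t - ρ) θ') ∂volume ∂μ)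
      = ∫⁻ θ', f t * ∫⁻ ρ in Ioi (0:ℝ), h ρ θ θ' * (g (t + ρ) θ' + g (t - ρ) θ') ∂volume ∂μ := by
    intro t
    rw [lintegral_const_mul]
    exact m2.comp (f := fun θ' : M => (t, θ')) (by fun_prop)
  rw [lintegral_congr e1, lintegral_lintegral_swap]
  · apply lintegral_congr
    intro θ'
    have m3 : Measurable (fun z : ℝ × ℝ => h z.2 θ θ' * (g (z.1 + z.2) θ' + g (z.1 - z.2) θ')) :=
      (meas_k hh hg).comp (f := fun z : ℝ × ℝ => ((θ, z.1, θ'), z.2)) (by fun_prop)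
    have e2 : ∀ t, f t * (∫⁻ ρ in Ioi (0:ℝ), h ρ θ θ' * (g (t + ρ) θ' + g (t - ρ) θ'))
        = ∫⁻ ρ in Ioi (0:ℝ), f t * (h ρ θ θ' * (g (t + ρ) θ' + g (t - ρ) θ')) := by
      intro t
      rw [lintegral_const_mul]
      exact m3.comp (f := fun ρ : ℝ => (t, ρ)) (by fun_prop)
    rw [lintegral_congr e2, lintegral_lintegral_swap]
    · apply lintegral_congr
      intro ρ
      rw [← lintegral_const_mul]
      · apply lintegral_congr
        intro t
        ring
      · apply hf.mul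
        apply Measurable.add
        · exact hg.comp (f := fun t : ℝ => (t + ρ, θ')) (by fun_prop)
        · exact hg.comp (f := fun t : ℝ => (t - ρ, θ')) (by fun_prop)
    · apply Measurable.aemeasurable
      exact (hf.comp measurable_fst).mul m3
  · apply Measurable.aemeasurable
    exact (hf.comp measurable_fst).mul m2

theorem lint_shift {f : ℝ → ℝ≥0∞} (hf : Measurable f) (t1 t2 ρ : ℝ) :
    ∫⁻ s in Ico (t1 + ρ) (t2 + ρ), f s = ∫⁻ s in Ioo t1 t2, f (s + ρ) := by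
  have h1 : ∫⁻ s in Ico (t1 + ρ) (t2 + ρ), f s = ∫⁻ s in Ioo (t1 + ρ) (t2 + ρ), f s :=
    setLIntegral_congr Ioo_ae_eq_Ico.symm
  rw [h1, ← lintegral_indicator measurableSet_Ioo, ← lintegral_indicator measurableSet_Ioo,
    ← lintegral_add_right_eq_self (μ := volume) _ ρ]
  apply lintegral_congr
  intro s
  by_cases hs : s ∈ Ioo t1 t2
  · rw [indicator_of_mem hs, indicator_of_mem]
    exact ⟨by linarith [hs.1], by linarith [hs.2]⟩
  · rw [indicator_of_notMem hs, indicator_of_notMem]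
    intro h
    exact hs ⟨by linarith [h.1], by linarith [h.2]⟩

theorem box_up {f : ℝ → ℝ≥0∞} (hf : Measurable f) {t1 t2 ρ : ℝ} (h12 : t1 ≤ t2) :
    ∫⁻ s in Ioo (t2 - ρ) (t2 + ρ), f s
      ≤ (∫⁻ s in Ioo (t1 - ρ) (t1 + ρ), f s) + ∫⁻ s in Ioo t1 t2, f (s + ρ) := by
  rw [← lint_shift hf]
  calc ∫⁻ s in Ioo (t2 - ρ) (t2 + ρ), f s
      ≤ ∫⁻ s in Ioo (t1 - ρ) (t1 + ρ) ∪ Ico (t1 + ρ) (t2 + ρ), f s := by
        apply lintegral_mono_set
        intro s hs
        by_cases h : s < t1 + ρ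
        · left; exact ⟨by linarith [hs.1], h⟩
        · right; exact ⟨not_lt.1 h, hs.2⟩
    _ ≤ _ := lintegral_union_le _ _ _

theorem box_down {f : ℝ → ℝ≥0∞} (hf : Measurable f) {t1 t2 ρ : ℝ} (h12 : t1 ≤ t2) :
    ∫⁻ s in Ioo (t1 - ρ) (t1 + ρ), f s
      ≤ (∫⁻ s in Ioo (t2 - ρ) (t2 + ρ), f s) + ∫⁻ s in Ioo t1 t2, f (s - ρ) := by
  have hsh : ∫⁻ s in Ioo t1 t2, f (s - ρ) = ∫⁻ s in Ioc (t1 - ρ) (t2 - ρ), f s := by
    have := lint_shift hf t1 t2 (-ρ)
    simp only [← sub_eq_add_neg] at this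
    rw [← this]
    exact setLIntegral_congr (Ioo_ae_eq_Ico.symm.trans Ioo_ae_eq_Ioc)
  rw [hsh]
  calc ∫⁻ s in Ioo (t1 - ρ) (t1 + ρ), f s
      ≤ ∫⁻ s in Ioo (t2 - ρ) (t2 + ρ) ∪ Ioc (t1 - ρ) (t2 - ρ), f s := by
        apply lintegral_mono_set
        intro s hs
        by_cases h : s ≤ t2 - ρ
        · right; exact ⟨hs.1, h⟩
        · left; exact ⟨not_le.1 h, by linarith [hs.2]⟩
    _ ≤ _ := lintegral_union_le _ _ _

/-- the potential -/
noncomputable def PP (μ : Measure M) (h : ℝ → M → M → ℝ≥0∞) (g : ℝ → M → ℝ≥0∞) (θ : M) (t : ℝ) : ℝ≥0∞ :=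
  ∫⁻ θ', ∫⁻ ρ in Ioi (0:ℝ), h ρ θ θ' * ∫⁻ s in Ioo (t - ρ) (t + ρ), g s θ' ∂volume ∂volume ∂μ

theorem PP_le (hh : Measurable (fun z : ℝ × M × M => h z.1 z.2.1 z.2.2))
    (hg : Measurable (fun z : ℝ × M => g z.1 z.2)) (θ : M) {t1 t2 : ℝ} {u1 u2 : ℝ}
    (hb : ∀ f : ℝ → ℝ≥0∞, Measurable f → ∀ ρ : ℝ, ∫⁻ s in Ioo (u2 - ρ) (u2 + ρ), f s
      ≤ (∫⁻ s in Ioo (u1 - ρ) (u1 + ρ), f s) + ∫⁻ s in Ioo t1 t2, (f (s + ρ) + f (s - ρ))) :
    PP μ h g θ u2 ≤ PP μ h g θ u1 + ∫⁻ s in Ioo t1 t2, NN μ h g θ s := by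
  have e := lintegral_NN (μ := μ) hh hg (f := fun _ => 1) measurable_const θ (Ioo t1 t2)
  simp only [one_mul] at e
  rw [e]
  unfold PP
  have m1 : Measurable (fun w : M × ℝ => h w.2 θ w.1 * ∫⁻ s in Ioo (u1 - w.2) (u1 + w.2), g s w.1) :=
    (meas_hbox hh hg θ).comp (f := fun w : M × ℝ => ((u1, w.1), w.2)) (by fun_prop)
  have m2 : Measurable (fun θ' : M => ∫⁻ ρ in Ioi (0:ℝ), h ρ θ θ' *
      ∫⁻ s in Ioo (u1 - ρ) (u1 + ρ), g s θ') := m1.lintegral_prod_right'
  rw [← lintegral_add_left m2]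
  apply lintegral_mono
  intro θ'
  beta_reduce
  have m3 : Measurable (fun ρ : ℝ => h ρ θ θ' * ∫⁻ s in Ioo (u1 - ρ) (u1 + ρ), g s θ') :=
    m1.comp (f := fun ρ : ℝ => (θ', ρ)) (by fun_prop)
  rw [← lintegral_add_left m3]
  apply lintegral_mono
  intro ρ
  beta_reduce
  rw [← mul_add]
  exact mul_le_mul_right (hb (fun s => g s θ') (hg.comp (f := fun s : ℝ => (s, θ')) (by fun_prop)) ρ) _

end generic

section cyl
variable {M : Type} [MeasurableSpace M] {μ : Measure M} [SFinite μ]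

theorem key_int {f g : ℝ → M → ℝ} {V : ℝ → M → ℝ} {H : ℝ → M → M → ℝ}
    (hf : Measurable (fun z : ℝ × M => f z.1 z.2)) (hg : Measurable (fun z : ℝ × M => g z.1 z.2))
    (hH : Measurable (fun z : ℝ × M × M => H z.1 z.2.1 z.2.2))
    (hfc : ∀ θ, Continuous (fun t => f t θ)) (hf0 : ∀ t θ, 0 < f t θ)
    (hV0 : ∀ t θ, 0 < V t θ) (hV1 : ∀ θ, ContDiff ℝ 1 (fun t => V t θ))
    (rep : ∀ t θ, ENNReal.ofReal (V t θ) = PP μ (fun ρ θ θ' => ENNReal.ofReal (H ρ θ θ'))
      (fun t θ => ENNReal.ofReal (g t θ)) θ t)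
    (T : ℝ)
    (hfin : ∫⁻ θ, ∫⁻ θ', ∫⁻ ρ in Ioi (0:ℝ), ENNReal.ofReal (H ρ θ θ') *
      ∫⁻ t in Iic T, ENNReal.ofReal (f t θ) *
        (ENNReal.ofReal (g (t + ρ) θ') + ENNReal.ofReal (g (t - ρ) θ')) ∂volume ∂volume ∂μ ∂μ ≠ ∞)
    (hmd : Measurable (fun z : M × ℝ => deriv (fun s => V s z.1) z.2)) :
    Integrable (fun z : M × ℝ => f z.2 z.1 * deriv (fun s => V s z.1) z.2)
      (μ.prod (volume.restrict (Iic T))) := by
  have hH' : Measurable (fun z : ℝ × M × M => ENNReal.ofReal (H z.1 z.2.1 z.2.2)) := hH.ennreal_ofReal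
  have hg' : Measurable (fun z : ℝ × M => ENNReal.ofReal (g z.1 z.2)) := hg.ennreal_ofReal
  have hfm : Measurable (fun z : M × ℝ => f z.2 z.1) :=
    hf.comp (f := fun z : M × ℝ => (z.2, z.1)) (by fun_prop)
  set N := NN μ (fun ρ θ θ' => ENNReal.ofReal (H ρ θ θ')) (fun t θ => ENNReal.ofReal (g t θ)) with hN
  have hNm : Measurable (fun z : M × ℝ => N z.1 z.2) := meas_NN hH' hg'
  have hfin2 : ∫⁻ θ, ∫⁻ t in Iic T, ENNReal.ofReal (f t θ) * N θ t ∂volume ∂μ ≠ ∞ := by
    have e : ∀ θ, ∫⁻ t in Iic T, ENNReal.ofReal (f t θ) * N θ t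
        = ∫⁻ θ', ∫⁻ ρ in Ioi (0:ℝ), ENNReal.ofReal (H ρ θ θ') *
      ∫⁻ t in Iic T, ENNReal.ofReal (f t θ) *
        (ENNReal.ofReal (g (t + ρ) θ') + ENNReal.ofReal (g (t - ρ) θ')) ∂volume ∂volume ∂μ := fun θ =>
      lintegral_NN hH' hg' (hf.comp (f := fun t : ℝ => (t, θ)) (by fun_prop)).ennreal_ofReal θ (Iic T)
    rw [lintegral_congr e]
    exact hfin
  have hm2 : Measurable (fun θ => ∫⁻ t in Iic T, ENNReal.ofReal (f t θ) * N θ t) := by
    have : Measurable (fun z : M × ℝ => ENNReal.ofReal (f z.2 z.1) * N z.1 z.2) :=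
      hfm.ennreal_ofReal.mul hNm
    exact this.lintegral_prod_right'
  have hae := ae_lt_top hm2 hfin2
  have hprod : Measurable (fun z : M × ℝ => f z.2 z.1 * deriv (fun s => V s z.1) z.2) := hfm.mul hmd
  refine ⟨hprod.aestronglyMeasurable, ?_⟩
  rw [hasFiniteIntegral_iff_enorm, lintegral_prod _ hprod.enorm.aemeasurable]
  refine lt_of_le_of_lt ?_ (lt_top_iff_ne_top.2 hfin2)
  apply lintegral_mono_ae
  filter_upwards [hae] with θ hθ
  have hb := lintegral_deriv_le (v := fun t => V t θ) (v' := deriv (fun s => V s θ))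
    (F := fun t => f t θ) (N := N θ) (hNm.comp (f := fun t : ℝ => (θ, t)) (by fun_prop))
    (fun t => ((hV1 θ).differentiable (by simp)).differentiableAt.hasDerivAt)
    (fun t => (hV0 t θ).le) (hfc θ) (fun t => hf0 t θ)
    (by
      intro t1 t2 h12
      rw [rep, rep]
      apply PP_le hH' hg'
      intro k hk ρ
      refine (box_up hk h12).trans ?_
      gcongr
      exact le_self_add)
    (by
      intro t1 t2 h12
      rw [rep, rep]
      apply PP_le hH' hg'
      intro k hk ρ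
      refine (box_down hk h12).trans ?_
      gcongr
      exact le_add_self) hθ.ne
  refine le_trans (le_of_eq ?_) hb
  apply lintegral_congr
  intro t
  rw [enorm_mul, ← ofReal_norm, ← ofReal_norm, Real.norm_eq_abs,
    Real.norm_eq_abs, abs_of_pos (hf0 t θ)]

end cyl

theorem intFdV : Stmt_IntFdV := by
  intro M _ μ _ S T
  have m1 : Measurable (fun z : M × ℝ => deriv (fun s => S.V s z.1) z.2) := by
    exact ML.meas_dV S measurable_snd measurable_fst
  have m2 : Measurable (fun z : M × ℝ => deriv (fun s => S.U s z.1) z.2) := by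
    exact ML.meas_dU S measurable_snd measurable_fst
  constructor
  · exact key_int (F_meas S) (G_meas S) S.H_meas (F_cont S) (F_pos S) S.V_pos S.V_C1 S.repV T
      (S.int1 T) m1
  · exact key_int (G_meas S) (F_meas S) S.H_meas (G_cont S) (G_pos S) S.U_pos S.U_C1 S.repU T
      (S.int2 T) m2

end Crest.Agent.R077.JB
end

-- ▼ part R077/IntW
section

/-!
Row 77, IntW (helper245): `Stmt_WF`.
-/

set_option autoImplicit false
open MeasureTheory Set Real Filter
open scoped ENNReal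

namespace Crest.Agent.R077.IntW

lemma int_ind_mul {lam a : ℝ} {m : ℕ} {i : ℕ × ℕ} (h : lft lam a m i ≤ rgt lam a m i) {g : ℝ → ℝ}
    (hg : Continuous g) :
    Integrable (fun t => ind lam a m i t * g t) ∧
      ∫ t, ind lam a m i t * g t = ∫ t in (lft lam a m i)..(rgt lam a m i), g t := by
  have e : (fun t => ind lam a m i t * g t) = (Ico (lft lam a m i) (rgt lam a m i)).indicator g := by
    funext t
    unfold ind
    by_cases ht : t ∈ Ico (lft lam a m i) (rgt lam a m i)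
    · rw [indicator_of_mem ht, if_pos (show lft lam a m i ≤ t ∧ t < rgt lam a m i from ht), one_mul]
    · rw [indicator_of_notMem ht, if_neg (show ¬ (lft lam a m i ≤ t ∧ t < rgt lam a m i) from ht),
        zero_mul]
  constructor
  · rw [e, integrable_indicator_iff measurableSet_Ico]
    exact (hg.integrableOn_Icc).mono_set Ico_subset_Icc_self
  · rw [e, integral_indicator measurableSet_Ico, integral_Ico_eq_integral_Ioo,
      ← integral_Ioc_eq_integral_Ioo, ← intervalIntegral.integral_of_le h]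

/-- the work of the momentum density for one angle -/
lemma omega_work {f v' : ℝ → ℝ} (hv' : Continuous v') (x : ℕ → ℝ) {lam a : ℝ} {m : ℕ} (ha : 0 < a)
    (hm : 1 ≤ m) {I : Finset (ℕ × ℕ)} (hI : I ⊆ prs m)
    (hi : Integrable (fun t => phi lam a t * (f t * v' t))) :
    ∫ t, omega f x I lam a m t * v' t = (∫ t, phi lam a t * (f t * v' t)) +
      ∑ i ∈ I, rc x i * ∫ t in (lft lam a m i)..(rgt lam a m i),
        (phi lam a (mid lam a m i) - phi lam a t) * v' t := by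
  have hc : ∀ i : ℕ × ℕ, Continuous (fun t => (phi lam a (mid lam a m i) - phi lam a t) * v' t) := fun i =>
    (continuous_const.sub (TP.phi_continuous lam a)).mul hv'
  have hle : ∀ i ∈ I, lft lam a m i ≤ rgt lam a m i := by
    intro i hi
    have := hI hi
    rw [StepR1.mem_prs] at this
    exact StepR1.nd_le ha hm (by omega)
  have e : (fun t => omega f x I lam a m t * v' t) = fun t => phi lam a t * (f t * v' t) +
      ∑ i ∈ I, rc x i * (ind lam a m i t * ((phi lam a (mid lam a m i) - phi lam a t) * v' t)) := by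
    funext t
    unfold omega
    rw [add_mul, Finset.sum_mul]
    congr 1
    · ring
    · exact Finset.sum_congr rfl fun i _ => by ring
  have hs : ∀ i ∈ I, Integrable (fun t => rc x i *
      (ind lam a m i t * ((phi lam a (mid lam a m i) - phi lam a t) * v' t))) := fun i hi' =>
    (int_ind_mul (hle i hi') (hc i)).1.const_mul _
  rw [e, integral_add hi (integrable_finset_sum _ hs), integral_finset_sum _ hs]
  congr 1
  refine Finset.sum_congr rfl fun i hi' => ?_
  rw [integral_const_mul, (int_ind_mul (hle i hi') (hc i)).2]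

end Crest.Agent.R077.IntW

namespace Crest.Agent.R077

open IntW

theorem WF : Stmt_WF := by
  intro M _ μ _ S lam a L ha ha1
  obtain ⟨K, hK0, hK⟩ := W.W1 S.b₁ S.p lam a L ha ha1
  refine ⟨K * (μ univ).toReal, mul_nonneg hK0 ENNReal.toReal_nonneg, ?_⟩
  intro m η hW hη hηa
  have hFdV := (JB.intFdV M μ S (lam + 2 * a)).1
  have hFdV' := (JB.intFdV M μ S (lam + a)).1
  -- pointwise data
  have hVd : ∀ θ, Continuous (deriv (fun s => S.V s θ)) := fun θ =>
    (S.V_C1 θ).continuous_deriv (by norm_num)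
  -- opening energies
  have hE1 := fun θ => E1 S.b₁ S.p lam a L (fun t => S.F t θ) (fun t => S.V t θ) m η η ha ha1
    (hW.solF θ) hW.hm hW.hLm hη le_rfl
  have htm : Measurable (tent lam a) := TP.tent_measurable lam a
  have htT : ∀ t, lam + 2 * a < t → tent lam a t = 0 := fun t ht =>
    TP.tent_eq_zero_right (by linarith)
  have hIw := IntE.inner_int S (lam + 2 * a) htm (IntE.tent_nonneg lam a) (IntE.tent_le ha) htT
  have hpsi0 : ∀ θ, 0 ≤ ∫ t, tent lam a t * psi S.b₁ S.p t (S.FLo lam a m L η t θ) := fun θ => (hE1 θ).1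
  have hIpsi : Integrable (fun θ => ∫ t, tent lam a t * psi S.b₁ S.p t (S.FLo lam a m L η t θ)) μ := by
    refine Integrable.mono' hIw (IntE.psiFLo_sm S hW η).aestronglyMeasurable
      (Eventually.of_forall fun θ => ?_)
    rw [Real.norm_of_nonneg (hpsi0 θ)]
    exact (hE1 θ).2.2
  -- `∫ w F^L V`
  have hLoV0 : ∀ t θ, 0 ≤ tent lam a t * (S.FLo lam a m L η t θ * S.V t θ) := fun t θ =>
    mul_nonneg (IntE.tent_nonneg lam a t) (mul_nonneg (ML.FLo_nonneg S lam a m L η t θ) (S.V_pos t θ).le)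
  have hLoVle : ∀ t θ, tent lam a t * (S.FLo lam a m L η t θ * S.V t θ) ≤
      tent lam a t * (S.F t θ * S.V t θ) := fun t θ =>
    mul_le_mul_of_nonneg_left (mul_le_mul_of_nonneg_right (ML.FLo_le hW η t θ) (S.V_pos t θ).le)
      (IntE.tent_nonneg lam a t)
  have hLoVm : Measurable (fun z : M × ℝ => tent lam a z.2 * (S.FLo lam a m L η z.2 z.1 * S.V z.2 z.1)) :=
    (htm.comp measurable_snd).mul ((ML.meas_FLo S lam a m L η measurable_snd measurable_fst).mul
      (ML.meas_V S measurable_snd measurable_fst))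
  have hwi : ∀ θ, Integrable (fun t => tent lam a t * (S.F t θ * S.V t θ)) := by
    intro θ
    have hc : Continuous (fun t => tent lam a t * (S.F t θ * S.V t θ)) :=
      (TP.tent_continuous lam a).mul ((ML.F_cont S θ).mul (S.V_C1 θ).continuous)
    refine hc.integrable_of_hasCompactSupport ?_
    refine HasCompactSupport.intro (isCompact_Icc (a := lam) (b := lam + a)) fun t ht => ?_
    rw [TP.tent_eq_zero_of_notMem ht, zero_mul]
  have hILoV : Integrable (fun θ => ∫ t, tent lam a t * (S.FLo lam a m L η t θ * S.V t θ)) μ := by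
    refine Integrable.mono' hIw (IntE.sm_inner
      (g := fun θ t => tent lam a t * (S.FLo lam a m L η t θ * S.V t θ)) hLoVm).aestronglyMeasurable
      (Eventually.of_forall fun θ => ?_)
    rw [Real.norm_of_nonneg (integral_nonneg fun t => hLoV0 t θ)]
    exact integral_mono_of_nonneg (Eventually.of_forall fun t => hLoV0 t θ) (hwi θ)
      (Eventually.of_forall fun t => hLoVle t θ)
  -- the work of `φ F`
  have i1 := hFdV'.prod_right_ae
  have i2 := JB.integrable_inner (JB.phiFV_meas S lam a) (JB.phiFV_nonneg S ha lam) (JB.phiFV_fin S ha lam)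
  have i3 := JB.integrable_inner (JB.tentFV_meas S lam a) (JB.tentFV_nonneg S ha lam) (JB.tentFV_fin S ha lam)
  have key : ∀ᵐ θ ∂μ, Integrable (fun t => phi lam a t * (S.F t θ * deriv (fun s => S.V s θ) t)) ∧
      ∫ t, phi lam a t * (S.F t θ * deriv (fun s => S.V s θ) t)
      = (1 / (S.p + 1)) * (∫ t, tent lam a t * (S.F t θ * S.V t θ))
        - (S.b₁ / (S.p + 1)) * (∫ t, phi lam a t * (S.F t θ * S.V t θ)) := by
    filter_upwards [i1, i2.2, i3.2] with θ h1 h2 h3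
    have h1' := JB.phi_int ha h1
    exact ⟨h1', phi_by_parts S.hp (b := S.b₁) (V := fun t => S.V t θ)
      (V' := deriv (fun s => S.V s θ)) (φ := phi lam a) (w := tent lam a)
      (fun t => S.V_pos t θ)
      (fun t => ((S.V_C1 θ).differentiable (by simp)).differentiableAt.hasDerivAt)
      (TP.phi_hasDerivAt lam a) h2 h1' h3⟩
  -- integrability of the work of `OmF`
  have hOmi : Integrable (fun z : M × ℝ => S.OmF lam a m L η z.2 z.1 * deriv (fun s => S.V s z.1) z.2)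
      (μ.prod volume) := by
    have hm : Measurable (fun z : M × ℝ => S.OmF lam a m L η z.2 z.1 * deriv (fun s => S.V s z.1) z.2) :=
      (ML.meas_OmF S lam a m L η measurable_snd measurable_fst).mul
        (ML.meas_dV S measurable_snd measurable_fst)
    have hR : μ.prod (volume.restrict (Iic (lam + 2 * a))) =
        (μ.prod volume).restrict (univ ×ˢ Iic (lam + 2 * a)) := by
      rw [← Measure.prod_restrict, Measure.restrict_univ]
    have h1 : Integrable (fun z : M × ℝ => S.OmF lam a m L η z.2 z.1 * deriv (fun s => S.V s z.1) z.2)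
        (μ.prod (volume.restrict (Iic (lam + 2 * a)))) := by
      refine Integrable.mono hFdV hm.aestronglyMeasurable (Eventually.of_forall fun z => ?_)
      rw [norm_mul, norm_mul]
      refine mul_le_mul_of_nonneg_right ?_ (norm_nonneg _)
      rw [Real.norm_eq_abs, Real.norm_of_nonneg (ML.F_pos S z.2 z.1).le]
      exact ML.abs_OmF_le hW η z.2 z.1
    rw [hR] at h1
    have h2 : IntegrableOn (fun z : M × ℝ => S.OmF lam a m L η z.2 z.1 * deriv (fun s => S.V s z.1) z.2)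
      (univ ×ˢ Iic (lam + 2 * a)) (μ.prod volume) := h1
    refine (integrableOn_iff_integrable_of_support_subset (fun z hz => ?_)).1 h2
    by_contra hc
    apply hz
    have h3 : lam + 3 * a / 2 ≤ z.2 := by
      by_contra h4
      push Not at h4
      exact hc ⟨mem_univ _, show z.2 ≤ lam + 2 * a by linarith⟩
    show S.OmF lam a m L η z.2 z.1 * deriv (fun s => S.V s z.1) z.2 = 0
    rw [ML.OmF_eq_zero hW η h3, zero_mul]
  have hA := hOmi.integral_prod_left
  -- pointwise inequality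
  set RHS : M → ℝ := fun θ => - (S.b₁ / (S.p + 1)) * (∫ t, phi lam a t * (S.F t θ * S.V t θ))
      + (∫ t, tent lam a t * (S.FLo lam a m L η t θ * S.V t θ))
      - (∫ t, tent lam a t * psi S.b₁ S.p t (S.FLo lam a m L η t θ))
      + cb S.b₁ S.p * η * (∫ t, tent lam a t * (S.F t θ * S.V t θ)) + K * msh a m with hRHS
  have hle : ∀ᵐ θ ∂μ, (∫ t, S.OmF lam a m L η t θ * deriv (fun s => S.V s θ) t) ≤ RHS θ := by
    filter_upwards [key] with θ hθ
    have h1 := omega_work (f := fun t => S.F t θ) (hVd θ) (S.xF lam a m L θ) ha hW.hm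
      (ML.shortI_subset a m η) hθ.1
    have h2 := hK (fun t => S.F t θ) (fun t => S.V t θ) m η (hW.solF θ) hW.hm hW.hLm hη hηa
    have h3 : (∫ t, S.OmF lam a m L η t θ * deriv (fun s => S.V s θ) t) =
      (∫ t, omega (fun t => S.F t θ) (S.xF lam a m L θ) (shortI a m η) lam a m t *
        deriv (fun s => S.V s θ) t) := rfl
    rw [h3, h1, hθ.2, hRHS]
    have h4 : (∑ i ∈ shortI a m η, rc (samp (fun t => S.F t θ) lam a m L) i *
          ∫ t in (lft lam a m i)..(rgt lam a m i), (phi lam a (mid lam a m i) - phi lam a t) *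
            deriv (fun t => S.V t θ) t)
        + (1 / (S.p + 1)) * ∫ t, tent lam a t * (S.F t θ * S.V t θ)
      ≤ (∫ t, tent lam a t * (S.FLo lam a m L η t θ * S.V t θ))
        - (∫ t, tent lam a t * psi S.b₁ S.p t (S.FLo lam a m L η t θ))
        + cb S.b₁ S.p * η * (∫ t, tent lam a t * (S.F t θ * S.V t θ)) + K * msh a m := h2
    have h5 : (∑ i ∈ shortI a m η, rc (samp (fun t => S.F t θ) lam a m L) i *
          ∫ t in (lft lam a m i)..(rgt lam a m i), (phi lam a (mid lam a m i) - phi lam a t) *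
            deriv (fun t => S.V t θ) t) = ∑ i ∈ shortI a m η, rc (S.xF lam a m L θ) i *
          ∫ t in (lft lam a m i)..(rgt lam a m i), (phi lam a (mid lam a m i) - phi lam a t) *
            deriv (fun s => S.V s θ) t := rfl
    rw [h5] at h4
    show _ ≤ - (S.b₁ / (S.p + 1)) * (∫ t, phi lam a t * (S.F t θ * S.V t θ))
      + (∫ t, tent lam a t * (S.FLo lam a m L η t θ * S.V t θ))
      - (∫ t, tent lam a t * psi S.b₁ S.p t (S.FLo lam a m L η t θ))
      + cb S.b₁ S.p * η * (∫ t, tent lam a t * (S.F t θ * S.V t θ)) + K * msh a m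
    linarith
  have j1 := i2.1.const_mul (- (S.b₁ / (S.p + 1)))
  have j2 := j1.add hILoV
  have j3 := j2.sub hIpsi
  have j4 := hIw.const_mul (cb S.b₁ S.p * η)
  have j5 := j3.add j4
  have j6 : Integrable RHS μ := j5.add (integrable_const (K * msh a m))
  have hfin := integral_mono_ae hA j6 hle
  have e2 : (∫ θ, RHS θ ∂μ) =
      - (S.b₁ / (S.p + 1)) * (∫ θ, ∫ t, phi lam a t * (S.F t θ * S.V t θ) ∂volume ∂μ)
      + (∫ θ, ∫ t, tent lam a t * (S.FLo lam a m L η t θ * S.V t θ) ∂volume ∂μ)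
      - S.EF lam a m L η
      + cb S.b₁ S.p * η * (∫ θ, ∫ t, tent lam a t * (S.F t θ * S.V t θ) ∂volume ∂μ)
      + (μ univ).toReal * (K * msh a m) := by
    have s1 := integral_add j5 (integrable_const (μ := μ) (K * msh a m))
    have s2 := integral_add j3 j4
    have s3 := integral_sub j2 hIpsi
    have s4 := integral_add j1 hILoV
    simp only [Pi.add_apply, Pi.sub_apply] at s1 s2 s3 s4
    rw [hRHS, s1, s2, s3, s4, integral_const_mul, integral_const_mul, integral_const, smul_eq_mul]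
    rfl
  rw [e2] at hfin
  have e3 : K * (μ univ).toReal * msh a m = (μ univ).toReal * (K * msh a m) := by ring
  rw [e3]
  exact hfin

end Crest.Agent.R077
end

-- ▼ part R077/StepR
section

/-!
# Row 77: `Stmt_R` (helper7).  Near part: helper392's `RN.R_near`; here the far part.
-/

set_option autoImplicit false
set_option linter.unusedSectionVars false
open MeasureTheory Set Real
open scoped ENNReal Topology

namespace Crest.Agent.R077.SR

variable {M : Type} [MeasurableSpace M] {μ : Measure M} [IsFiniteMeasure μ]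

/-- the far energy as an extended number -/
noncomputable def BE (S : Cyl M μ) (δ : ℝ) : ℝ≥0∞ :=
  ∫⁻ θ, ∫⁻ θ', ∫⁻ ρ in Ioi δ, ENNReal.ofReal (S.H ρ θ θ') *
      ∫⁻ t, ENNReal.ofReal (S.F t θ) *
        ∫⁻ s in Ioo (t - ρ) (t + ρ), ENNReal.ofReal (S.G s θ')
          ∂volume ∂volume ∂volume ∂μ ∂μ

lemma Bfar_eq (S : Cyl M μ) (δ : ℝ) : S.Bfar δ = (BE S δ).toReal := rfl

lemma BE_ne_top (S : Cyl M μ) {δ : ℝ} (h0 : 0 < δ) (h1 : δ ≤ 1) : BE S δ ≠ ∞ := by
  obtain ⟨C, κ, _, _, h⟩ := S.far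
  exact ne_top_of_le_ne_top ENNReal.ofReal_ne_top (h δ ⟨h0, h1⟩)

/-- integrals of nonnegative jointly measurable bounded functions with compact `t`-support -/
lemma ofReal_iter {Ω : Type} [MeasurableSpace Ω] {ν : Measure Ω} [IsFiniteMeasure ν]
    {g : Ω → ℝ → ℝ} (hg : Measurable fun z : Ω × ℝ => g z.1 z.2) {A B C : ℝ}
    (hpos : ∀ ω t, 0 ≤ g ω t)
    (hC : ∀ ω t, |g ω t| ≤ C) (h0 : ∀ ω t, t ∉ Icc A B → g ω t = 0) :
    ENNReal.ofReal (∫ ω, ∫ t, g ω t ∂volume ∂ν)
      = ∫⁻ ω, ∫⁻ t, ENNReal.ofReal (g ω t) ∂volume ∂ν := by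
  rw [ofReal_integral_eq_lintegral_ofReal (ML.integrable_inner hg hC h0)
    (Filter.Eventually.of_forall (fun ω => integral_nonneg (fun t => hpos ω t)))]
  refine lintegral_congr (fun ω => ?_)
  exact ofReal_integral_eq_lintegral_ofReal
    (ML.integrable_slice (hg.comp measurable_prodMk_left) (hC ω) (h0 ω))
    (Filter.Eventually.of_forall (fun t => hpos ω t))

/-- slices of the near integrands -/
lemma ofReal_tent {f g : ℝ → ℝ} (hf : Measurable f) (hg : Measurable g) {lam a A B : ℝ}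
    (ha : 0 < a) (hf0 : ∀ t, 0 ≤ f t) (hg0 : ∀ t, 0 ≤ g t) (hA : 0 ≤ A) (hB : 0 ≤ B)
    (hfA : ∀ t ∈ Icc lam (lam + a), |f t| ≤ A) (hgB : ∀ t ∈ Icc lam (lam + a), |g t| ≤ B) :
    ENNReal.ofReal (∫ t, tent lam a t * f t * g t)
      = ∫⁻ t, ENNReal.ofReal (tent lam a t * f t) * ENNReal.ofReal (g t) := by
  have hC : ∀ t, |tent lam a t * f t * g t| ≤ 2 / a * A * B := by
    intro t
    by_cases ht : t ∈ Icc lam (lam + a)
    · rw [abs_mul, abs_mul]
      have := ML.abs_tent_le (lam := lam) ha t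
      gcongr
      · exact hfA t ht
      · exact hgB t ht
    · rw [TP.tent_eq_zero_of_notMem ht, zero_mul, zero_mul, abs_zero]
      positivity
  have hi : Integrable (fun t => tent lam a t * f t * g t) volume :=
    ML.integrable_slice (((TP.tent_measurable lam a).mul hf).mul hg) hC
      (A := lam) (B := lam + a)
      (fun t ht => by rw [TP.tent_eq_zero_of_notMem ht, zero_mul, zero_mul])
  rw [ofReal_integral_eq_lintegral_ofReal hi (Filter.Eventually.of_forall (fun t =>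
    mul_nonneg (mul_nonneg (TP.tent_nonneg lam a t) (hf0 t)) (hg0 t)))]
  refine lintegral_congr (fun t => ?_)
  exact ENNReal.ofReal_mul (mul_nonneg (TP.tent_nonneg lam a t) (hf0 t))

/-- far part of the kernel measure, `F` weight -/
lemma far_le (S : Cyl M μ) {δ c : ℝ} (hδ : 0 < δ) {r : ℝ → M → ℝ≥0∞}
    (hr : Measurable fun z : ℝ × M => r z.1 z.2)
    (hrF : ∀ t θ, r t θ ≤ ENNReal.ofReal c * ENNReal.ofReal (S.F t θ)) :
    ∫⁻ z in {z : ℝ × M × M | z.1 < δ}ᶜ,
      ∫⁻ t, r t z.2.1 * ENNReal.ofReal (box (fun s => S.G s z.2.2) z.1 t) ∂volume ∂S.nu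
      ≤ ENNReal.ofReal c * BE S δ := by
  have h1 : Measurable fun z : ℝ × M × M =>
      ∫⁻ t, r t z.2.1 * ENNReal.ofReal (box (fun s => S.G s z.2.2) z.1 t) := by
    refine Measurable.lintegral_prod_right' (f := fun y : (ℝ × M × M) × ℝ =>
      r y.2 y.1.2.1 * ENNReal.ofReal (box (fun s => S.G s y.1.2.2) y.1.1 y.2)) ?_
    refine Measurable.mul ?_ ?_
    · exact hr.comp (measurable_snd.prodMk (measurable_fst.comp
        (measurable_snd.comp measurable_fst)))
    · exact (ML.meas_boxG S (measurable_fst.comp measurable_fst) measurable_snd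
        (measurable_snd.comp (measurable_snd.comp measurable_fst))).ennreal_ofReal
  rw [ML.lint_far S h1 hδ]
  have hc' : ENNReal.ofReal c ≠ ∞ := ENNReal.ofReal_ne_top
  unfold BE
  rw [← lintegral_const_mul' _ _ hc']
  refine lintegral_mono (fun θ => ?_)
  rw [← lintegral_const_mul' _ _ hc']
  refine lintegral_mono (fun θ' => ?_)
  rw [← lintegral_const_mul' _ _ hc', setLIntegral_congr Ioi_ae_eq_Ici.symm]
  refine setLIntegral_mono' measurableSet_Ioi (fun ρ hρ => ?_)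
  have hρ0 : 0 ≤ ρ := (hδ.trans hρ).le
  rw [← mul_assoc, mul_comm (ENNReal.ofReal c), mul_assoc]
  refine mul_le_mul_right ?_ _
  rw [← lintegral_const_mul' _ _ hc']
  refine lintegral_mono (fun t => ?_)
  simp only
  rw [ML.ofReal_box (ML.G_cont S θ') (fun s => (ML.G_pos S s θ').le) hρ0, ← mul_assoc]
  exact mul_le_mul_left (hrF t θ) _

/-- far part of the kernel measure, `G` weight -/
lemma far_le' (S : Cyl M μ) {δ c : ℝ} (hδ : 0 < δ) {r : ℝ → M → ℝ≥0∞}
    (hr : Measurable fun z : ℝ × M => r z.1 z.2)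
    (hrG : ∀ t θ, r t θ ≤ ENNReal.ofReal c * ENNReal.ofReal (S.G t θ)) :
    ∫⁻ z in {z : ℝ × M × M | z.1 < δ}ᶜ,
      ∫⁻ t, r t z.2.2 * ENNReal.ofReal (box (fun s => S.F s z.2.1) z.1 t) ∂volume ∂S.nu
      ≤ ENNReal.ofReal c * BE S δ := by
  have h1 : Measurable fun z : ℝ × M × M =>
      ∫⁻ t, r t z.2.2 * ENNReal.ofReal (box (fun s => S.F s z.2.1) z.1 t) := by
    refine Measurable.lintegral_prod_right' (f := fun y : (ℝ × M × M) × ℝ =>
      r y.2 y.1.2.2 * ENNReal.ofReal (box (fun s => S.F s y.1.2.1) y.1.1 y.2)) ?_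
    refine Measurable.mul ?_ ?_
    · exact hr.comp (measurable_snd.prodMk (measurable_snd.comp
        (measurable_snd.comp measurable_fst)))
    · exact (ML.meas_boxF S (measurable_fst.comp measurable_fst) measurable_snd
        (measurable_fst.comp (measurable_snd.comp measurable_fst))).ennreal_ofReal
  rw [ML.lint_far S h1 hδ]
  have hc' : ENNReal.ofReal c ≠ ∞ := ENNReal.ofReal_ne_top
  unfold BE
  rw [← lintegral_const_mul' _ _ hc']
  refine lintegral_mono (fun θ => ?_)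
  rw [← lintegral_const_mul' _ _ hc']
  refine lintegral_mono (fun θ' => ?_)
  rw [← lintegral_const_mul' _ _ hc', setLIntegral_congr Ioi_ae_eq_Ici.symm]
  refine setLIntegral_mono' measurableSet_Ioi (fun ρ hρ => ?_)
  have hρ0 : 0 ≤ ρ := (hδ.trans hρ).le
  rw [← mul_assoc, mul_comm (ENNReal.ofReal c), mul_assoc]
  refine mul_le_mul_right ?_ _
  have h2 : ∫⁻ t, ENNReal.ofReal (S.F t θ) *
        ∫⁻ s in Ioo (t - ρ) (t + ρ), ENNReal.ofReal (S.G s θ')
      = ∫⁻ t, ENNReal.ofReal (S.G t θ') *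
        ∫⁻ s in Ioo (t - ρ) (t + ρ), ENNReal.ofReal (S.F s θ) := by
    have e1 : ∀ (f g : ℝ → ℝ≥0∞), Measurable g → ∀ t,
        f t * ∫⁻ s in Ioo (t - ρ) (t + ρ), g s
          = ∫⁻ s, (if |t - s| < ρ then f t * g s else 0) := by
      intro f g hg t
      rw [← lintegral_indicator measurableSet_Ioo,
        ← lintegral_const_mul _ (hg.indicator measurableSet_Ioo)]
      refine lintegral_congr (fun s => ?_)
      by_cases h : |t - s| < ρ
      · have h' := abs_lt.1 h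
        rw [if_pos h, Set.indicator_of_mem
          (show s ∈ Ioo (t - ρ) (t + ρ) from ⟨by linarith [h'.2], by linarith [h'.1]⟩)]
      · rw [if_neg h, Set.indicator_of_notMem, mul_zero]
        rintro ⟨h3, h4⟩
        exact h (abs_lt.2 ⟨by linarith, by linarith⟩)
    have mF : Measurable fun t => ENNReal.ofReal (S.F t θ) :=
      (ML.meas_F S measurable_id measurable_const).ennreal_ofReal
    have mG : Measurable fun t => ENNReal.ofReal (S.G t θ') :=
      (ML.meas_G S measurable_id measurable_const).ennreal_ofReal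
    rw [lintegral_congr (fun t => e1 (fun t => ENNReal.ofReal (S.F t θ))
      (fun s => ENNReal.ofReal (S.G s θ')) mG t),
      lintegral_congr (fun t => e1 (fun t => ENNReal.ofReal (S.G t θ'))
      (fun s => ENNReal.ofReal (S.F s θ)) mF t)]
    rw [lintegral_lintegral_swap]
    · refine lintegral_congr (fun s => lintegral_congr (fun t => ?_))
      rw [abs_sub_comm]
      split_ifs
      · ring
      · rfl
    · refine Measurable.aemeasurable ?_
      have : Measurable fun z : ℝ × ℝ => if |z.1 - z.2| < ρ then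
          ENNReal.ofReal (S.F z.1 θ) * ENNReal.ofReal (S.G z.2 θ') else 0 :=
        Measurable.ite (measurableSet_lt (measurable_fst.sub measurable_snd).abs
          measurable_const) ((mF.comp measurable_fst).mul (mG.comp measurable_snd))
          measurable_const
      exact this
  rw [h2, ← lintegral_const_mul' _ _ hc']
  refine lintegral_mono (fun t => ?_)
  simp only
  rw [ML.ofReal_box (ML.F_cont S θ) (fun s => (ML.F_pos S s θ).le) hρ0, ← mul_assoc]
  exact mul_le_mul_left (hrG t θ') _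

/-- `F` side: `∫∫ w FLo V ≤ ∫ Q1 dν_δ + (2/a) Bfar δ` -/
lemma split_F {S : Cyl M μ} {lam a L : ℝ} {m : ℕ} (h : WinOK S lam a m L) (η : ℝ) {δ : ℝ}
    (hδ : 0 < δ) (hδ1 : δ ≤ 1) :
    (∫ θ, ∫ t, tent lam a t * (S.FLo lam a m L η t θ * S.V t θ) ∂volume ∂μ)
      ≤ (∫ z, (∫ t, tent lam a t * S.FLo lam a m L η t z.2.1 *
        box (fun s => S.G s z.2.2) z.1 t) ∂(S.nuN δ)) + (2 / a) * S.Bfar δ := by
  have ha := h.ha
  have ha1 := h.ha1
  set r : ℝ → M → ℝ≥0∞ := fun t θ => ENNReal.ofReal (tent lam a t * S.FLo lam a m L η t θ)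
    with hr
  have hrm : Measurable fun z : ℝ × M => r z.1 z.2 :=
    (((TP.tent_measurable lam a).comp measurable_fst).mul
      (ML.meas_FLo S lam a m L η measurable_fst measurable_snd)).ennreal_ofReal
  -- the left side
  have e1 : ENNReal.ofReal
      (∫ θ, ∫ t, tent lam a t * (S.FLo lam a m L η t θ * S.V t θ) ∂volume ∂μ)
      = ∫⁻ θ, ∫⁻ t, r t θ * ENNReal.ofReal (S.V t θ) ∂volume ∂μ := by
    rw [ofReal_iter (A := lam) (B := lam + a) (C := 2 / a * (L * L))]
    · refine lintegral_congr (fun θ => lintegral_congr (fun t => ?_))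
      rw [← mul_assoc]
      exact ENNReal.ofReal_mul (mul_nonneg (TP.tent_nonneg lam a t) (ML.FLo_nonneg S _ _ _ _ _ _ _))
    · exact ((TP.tent_measurable lam a).comp measurable_snd).mul
        ((ML.meas_FLo S lam a m L η measurable_snd measurable_fst).mul
          (ML.meas_V S measurable_snd measurable_fst))
    · intro θ t
      exact mul_nonneg (TP.tent_nonneg lam a t) (mul_nonneg (ML.FLo_nonneg S _ _ _ _ _ _ _)
        (S.V_pos t θ).le)
    · intro θ t
      have hL := ML.L_ge' h θ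
      by_cases ht : t ∈ Icc lam (lam + a)
      · rw [abs_mul, abs_mul]
        have h1 := ML.abs_tent_le (lam := lam) ha t
        have h2 := ML.abs_FLo_le h η t θ
        have h3 : |S.V t θ| ≤ L := by
          rw [abs_of_pos (S.V_pos t θ)]
          exact ML.V_le h ⟨by linarith [ht.1], by linarith [ht.2]⟩ θ
        have : 0 ≤ 2 / a := by positivity
        gcongr
      · rw [TP.tent_eq_zero_of_notMem ht, zero_mul, abs_zero]
        positivity
    · intro θ t ht
      rw [TP.tent_eq_zero_of_notMem ht, zero_mul]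
  -- the near part
  have hmQ : Measurable fun z : ℝ × M × M =>
      ∫⁻ t, r t z.2.1 * ENNReal.ofReal (box (fun s => S.G s z.2.2) z.1 t) := by
    refine Measurable.lintegral_prod_right' (f := fun y : (ℝ × M × M) × ℝ =>
      r y.2 y.1.2.1 * ENNReal.ofReal (box (fun s => S.G s y.1.2.2) y.1.1 y.2)) ?_
    have g1 : Measurable fun y : (ℝ × M × M) × ℝ => r y.2 y.1.2.1 :=
      hrm.comp (measurable_snd.prodMk (measurable_fst.comp
        (measurable_snd.comp measurable_fst)))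
    exact g1.mul (ML.meas_boxG S (measurable_fst.comp measurable_fst) measurable_snd
        (measurable_snd.comp (measurable_snd.comp measurable_fst))).ennreal_ofReal
  have e2 : ∫⁻ z in {z : ℝ × M × M | z.1 < δ},
      ∫⁻ t, r t z.2.1 * ENNReal.ofReal (box (fun s => S.G s z.2.2) z.1 t) ∂volume ∂S.nu
      = ENNReal.ofReal (∫ z, (∫ t, tent lam a t * S.FLo lam a m L η t z.2.1 *
        box (fun s => S.G s z.2.2) z.1 t) ∂(S.nuN δ)) := by
    rw [ofReal_integral_eq_lintegral_ofReal (ML.integrable_Q1 h η hδ1)]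
    · refine lintegral_congr_ae ?_
      filter_upwards [ML.ae_nuN S δ] with z hz
      have hL := ML.L_ge' h z.2.1
      rw [hr]
      simp only
      symm
      refine ofReal_tent (A := L) (B := 2 * L * z.1)
        (ML.meas_FLo S lam a m L η measurable_id' measurable_const)
        (ML.meas_boxG S measurable_const measurable_id' measurable_const) ha
        (fun t => ML.FLo_nonneg S _ _ _ _ _ _ _)
        (fun t => ML.box_nonneg (fun s => (ML.G_pos S s _).le) hz.1.le t)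
        (by linarith) (by have := hz.1; positivity) (fun t _ => ML.abs_FLo_le h η t _)
        (fun t ht => ML.abs_boxG_le h hz.1.le (by linarith [hz.2])
          ⟨by linarith [ht.1], by linarith [ht.2]⟩ _)
    · filter_upwards [ML.ae_nuN S δ] with z hz
      refine integral_nonneg (fun t => mul_nonneg (mul_nonneg (TP.tent_nonneg lam a t)
        (ML.FLo_nonneg S _ _ _ _ _ _ _))
        (ML.box_nonneg (fun s => (ML.G_pos S s _).le) hz.1.le t))
  -- the far part
  have e3 := far_le S (c := 2 / a) hδ hrm (fun t θ => by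
    rw [hr, ← ENNReal.ofReal_mul (by positivity)]
    refine ENNReal.ofReal_le_ofReal ?_
    exact mul_le_mul (TP.tent_le ha lam t) (ML.FLo_le h η t θ) (ML.FLo_nonneg S _ _ _ _ _ _ _)
      (by positivity))
  have e4 : ∫⁻ θ, ∫⁻ t, r t θ * ENNReal.ofReal (S.V t θ) ∂volume ∂μ
      ≤ ENNReal.ofReal (∫ z, (∫ t, tent lam a t * S.FLo lam a m L η t z.2.1 *
        box (fun s => S.G s z.2.2) z.1 t) ∂(S.nuN δ)) + ENNReal.ofReal (2 / a) * BE S δ := by
    rw [← ML.lint_box_G_t S hrm, ← lintegral_add_compl _ (ML.measurableSet_near δ), e2]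
    gcongr
  have hQ0 : 0 ≤ ∫ z, (∫ t, tent lam a t * S.FLo lam a m L η t z.2.1 *
        box (fun s => S.G s z.2.2) z.1 t) ∂(S.nuN δ) := by
    refine integral_nonneg_of_ae ?_
    filter_upwards [ML.ae_nuN S δ] with z hz
    exact integral_nonneg (fun t => mul_nonneg (mul_nonneg (TP.tent_nonneg lam a t)
        (ML.FLo_nonneg S _ _ _ _ _ _ _))
        (ML.box_nonneg (fun s => (ML.G_pos S s _).le) hz.1.le t))
  rw [← e1] at e4
  have hBE : BE S δ = ENNReal.ofReal (S.Bfar δ) := by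
    rw [Bfar_eq, ENNReal.ofReal_toReal (BE_ne_top S hδ hδ1)]
  have hB0 : 0 ≤ S.Bfar δ := by rw [Bfar_eq]; exact ENNReal.toReal_nonneg
  rw [hBE, ← ENNReal.ofReal_mul (by positivity), ← ENNReal.ofReal_add hQ0 (by positivity)] at e4
  exact (ENNReal.ofReal_le_ofReal_iff (by positivity)).1 e4

/-- `G` side -/
lemma split_G {S : Cyl M μ} {lam a L : ℝ} {m : ℕ} (h : WinOK S lam a m L) (η : ℝ) {δ : ℝ}
    (hδ : 0 < δ) (hδ1 : δ ≤ 1) :
    (∫ θ, ∫ t, tent lam a t * (S.GLo lam a m L η t θ * S.U t θ) ∂volume ∂μ)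
      ≤ (∫ z, (∫ t, tent lam a t * S.GLo lam a m L η t z.2.2 *
        box (fun s => S.F s z.2.1) z.1 t) ∂(S.nuN δ)) + (2 / a) * S.Bfar δ := by
  have ha := h.ha
  have ha1 := h.ha1
  set r : ℝ → M → ℝ≥0∞ := fun t θ => ENNReal.ofReal (tent lam a t * S.GLo lam a m L η t θ)
    with hr
  have hrm : Measurable fun z : ℝ × M => r z.1 z.2 :=
    (((TP.tent_measurable lam a).comp measurable_fst).mul
      (ML.meas_GLo S lam a m L η measurable_fst measurable_snd)).ennreal_ofReal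
  have e1 : ENNReal.ofReal
      (∫ θ, ∫ t, tent lam a t * (S.GLo lam a m L η t θ * S.U t θ) ∂volume ∂μ)
      = ∫⁻ θ, ∫⁻ t, r t θ * ENNReal.ofReal (S.U t θ) ∂volume ∂μ := by
    rw [ofReal_iter (A := lam) (B := lam + a) (C := 2 / a * (L * L))]
    · refine lintegral_congr (fun θ => lintegral_congr (fun t => ?_))
      rw [← mul_assoc]
      exact ENNReal.ofReal_mul (mul_nonneg (TP.tent_nonneg lam a t) (ML.GLo_nonneg S _ _ _ _ _ _ _))
    · exact ((TP.tent_measurable lam a).comp measurable_snd).mul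
        ((ML.meas_GLo S lam a m L η measurable_snd measurable_fst).mul
          (ML.meas_U S measurable_snd measurable_fst))
    · intro θ t
      exact mul_nonneg (TP.tent_nonneg lam a t) (mul_nonneg (ML.GLo_nonneg S _ _ _ _ _ _ _)
        (S.U_pos t θ).le)
    · intro θ t
      have hL := ML.L_ge' h θ
      by_cases ht : t ∈ Icc lam (lam + a)
      · rw [abs_mul, abs_mul]
        have h1 := ML.abs_tent_le (lam := lam) ha t
        have h2 := ML.abs_GLo_le h η t θ
        have h3 : |S.U t θ| ≤ L := by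
          rw [abs_of_pos (S.U_pos t θ)]
          exact ML.U_le h ⟨by linarith [ht.1], by linarith [ht.2]⟩ θ
        have : 0 ≤ 2 / a := by positivity
        gcongr
      · rw [TP.tent_eq_zero_of_notMem ht, zero_mul, abs_zero]
        positivity
    · intro θ t ht
      rw [TP.tent_eq_zero_of_notMem ht, zero_mul]
  have hmQ : Measurable fun z : ℝ × M × M =>
      ∫⁻ t, r t z.2.2 * ENNReal.ofReal (box (fun s => S.F s z.2.1) z.1 t) := by
    refine Measurable.lintegral_prod_right' (f := fun y : (ℝ × M × M) × ℝ =>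
      r y.2 y.1.2.2 * ENNReal.ofReal (box (fun s => S.F s y.1.2.1) y.1.1 y.2)) ?_
    have g1 : Measurable fun y : (ℝ × M × M) × ℝ => r y.2 y.1.2.2 :=
      hrm.comp (measurable_snd.prodMk (measurable_snd.comp
        (measurable_snd.comp measurable_fst)))
    exact g1.mul (ML.meas_boxF S (measurable_fst.comp measurable_fst) measurable_snd
        (measurable_fst.comp (measurable_snd.comp measurable_fst))).ennreal_ofReal
  have e2 : ∫⁻ z in {z : ℝ × M × M | z.1 < δ},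
      ∫⁻ t, r t z.2.2 * ENNReal.ofReal (box (fun s => S.F s z.2.1) z.1 t) ∂volume ∂S.nu
      = ENNReal.ofReal (∫ z, (∫ t, tent lam a t * S.GLo lam a m L η t z.2.2 *
        box (fun s => S.F s z.2.1) z.1 t) ∂(S.nuN δ)) := by
    rw [ofReal_integral_eq_lintegral_ofReal (ML.integrable_Q2 h η hδ1)]
    · refine lintegral_congr_ae ?_
      filter_upwards [ML.ae_nuN S δ] with z hz
      have hL := ML.L_ge' h z.2.1
      rw [hr]
      simp only
      symm
      refine ofReal_tent (A := L) (B := 2 * L * z.1)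
        (ML.meas_GLo S lam a m L η measurable_id' measurable_const)
        (ML.meas_boxF S measurable_const measurable_id' measurable_const) ha
        (fun t => ML.GLo_nonneg S _ _ _ _ _ _ _)
        (fun t => ML.box_nonneg (fun s => (ML.F_pos S s _).le) hz.1.le t)
        (by linarith) (by have := hz.1; positivity) (fun t _ => ML.abs_GLo_le h η t _)
        (fun t ht => ML.abs_boxF_le h hz.1.le (by linarith [hz.2])
          ⟨by linarith [ht.1], by linarith [ht.2]⟩ _)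
    · filter_upwards [ML.ae_nuN S δ] with z hz
      refine integral_nonneg (fun t => mul_nonneg (mul_nonneg (TP.tent_nonneg lam a t)
        (ML.GLo_nonneg S _ _ _ _ _ _ _))
        (ML.box_nonneg (fun s => (ML.F_pos S s _).le) hz.1.le t))
  have e3 := far_le' S (c := 2 / a) hδ hrm (fun t θ => by
    rw [hr, ← ENNReal.ofReal_mul (by positivity)]
    refine ENNReal.ofReal_le_ofReal ?_
    exact mul_le_mul (TP.tent_le ha lam t) (ML.GLo_le h η t θ) (ML.GLo_nonneg S _ _ _ _ _ _ _)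
      (by positivity))
  have e4 : ∫⁻ θ, ∫⁻ t, r t θ * ENNReal.ofReal (S.U t θ) ∂volume ∂μ
      ≤ ENNReal.ofReal (∫ z, (∫ t, tent lam a t * S.GLo lam a m L η t z.2.2 *
        box (fun s => S.F s z.2.1) z.1 t) ∂(S.nuN δ)) + ENNReal.ofReal (2 / a) * BE S δ := by
    rw [← ML.lint_box_F_t S hrm, ← lintegral_add_compl _ (ML.measurableSet_near δ), e2]
    gcongr
  have hQ0 : 0 ≤ ∫ z, (∫ t, tent lam a t * S.GLo lam a m L η t z.2.2 *
        box (fun s => S.F s z.2.1) z.1 t) ∂(S.nuN δ) := by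
    refine integral_nonneg_of_ae ?_
    filter_upwards [ML.ae_nuN S δ] with z hz
    exact integral_nonneg (fun t => mul_nonneg (mul_nonneg (TP.tent_nonneg lam a t)
        (ML.GLo_nonneg S _ _ _ _ _ _ _))
        (ML.box_nonneg (fun s => (ML.F_pos S s _).le) hz.1.le t))
  rw [← e1] at e4
  have hBE : BE S δ = ENNReal.ofReal (S.Bfar δ) := by
    rw [Bfar_eq, ENNReal.ofReal_toReal (BE_ne_top S hδ hδ1)]
  have hB0 : 0 ≤ S.Bfar δ := by rw [Bfar_eq]; exact ENNReal.toReal_nonneg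
  rw [hBE, ← ENNReal.ofReal_mul (by positivity), ← ENNReal.ofReal_add hQ0 (by positivity)] at e4
  exact (ENNReal.ofReal_le_ofReal_iff (by positivity)).1 e4

/-- `Stmt_R` from the weak identity (only its integrability half is used) -/
theorem R_of (hId : Stmt_Ident) : Stmt_R := by
  intro M _ μ _ S lam a L m η δ h hδ h2 h8
  have ha := h.ha
  have ha1 := h.ha1
  have hη : 0 < η := by linarith
  have hI := (hId M μ S lam a L m η h hη h8).2
  have hIn : Integrable (fun z : ℝ × M × M => dRho (fun t => S.F t z.2.1) (fun t => S.G t z.2.2)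
      (fun t => S.OmF lam a m L η t z.2.1) (fun t => S.OmG lam a m L η t z.2.2) z.1) (S.nuN δ) :=
    hI.restrict
  have hnear := RN.R_near S lam a L m η δ h hδ h2 h8 hIn
  have hpos : 0 ≤ᵐ[S.nu] fun z : ℝ × M × M => dRho (fun t => S.F t z.2.1)
      (fun t => S.G t z.2.2) (fun t => S.OmF lam a m L η t z.2.1)
      (fun t => S.OmG lam a m L η t z.2.2) z.1 := by
    filter_upwards [ML.ae_nu S] with z hz
    exact Dpos (fun t => S.F t z.2.1) (fun t => S.G t z.2.2) (S.xF lam a m L z.2.1)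
      (S.xG lam a m L z.2.2) lam a m η z.1 ha ha1 h.hm hη h8 hz (ML.layF h _) (ML.layG h _)
  have hle := setIntegral_le_integral (s := {z : ℝ × M × M | z.1 < δ}) hI hpos
  have hF := split_F h η hδ (by linarith)
  have hG := split_G h η hδ (by linarith)
  have hle' : (∫ z, dRho (fun t => S.F t z.2.1) (fun t => S.G t z.2.2)
      (fun t => S.OmF lam a m L η t z.2.1) (fun t => S.OmG lam a m L η t z.2.2) z.1
      ∂(S.nuN δ)) ≤ ∫ z, dRho (fun t => S.F t z.2.1) (fun t => S.G t z.2.2)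
      (fun t => S.OmF lam a m L η t z.2.1) (fun t => S.OmG lam a m L η t z.2.2) z.1 ∂S.nu := hle
  have h4 : (4 / a) * S.Bfar δ = (2 / a) * S.Bfar δ + (2 / a) * S.Bfar δ := by ring
  linarith

end Crest.Agent.R077.SR
end

-- ▼ part R077/WinOK
section

/-!
Row 77: `Stmt_Win` (existence of the uniform constant `L` of the window). helper368.
-/

set_option autoImplicit false
open MeasureTheory Set Real

namespace Crest.Agent.R077

namespace WinH

/-- the bound `K = e^{|b|T} L₀^p` -/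
noncomputable def KK (b p T L0 : ℝ) : ℝ := Real.exp (|b| * T) * L0 ^ p

lemma KK_pos {b p T L0 : ℝ} (hL0 : 1 ≤ L0) : 0 < KK b p T L0 :=
  mul_pos (Real.exp_pos _) (Real.rpow_pos_of_pos (by linarith) _)

lemma sol_of {b p : ℝ} (hp : 0 < p) {v : ℝ → ℝ} (hv : ∀ t, 0 < v t) (hc : ContDiff ℝ 1 v)
    {lam T L0 L : ℝ} (hT : Icc (lam - 2) (lam + 4) ⊆ Icc (-T) T) (hL0 : 1 ≤ L0)
    (hb : ∀ t ∈ Icc (-T) T, v t ≤ L0 ∧ 1 ≤ L0 * v t ∧ |deriv v t| ≤ L0)
    (hL1 : L0 ≤ L) (hL2 : KK b p T L0 ≤ L)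
    (hL3 : KK b p T L0 * (|b| + p * L0 ^ 2) ≤ L) :
    Sol b p (fun t => Real.exp (b * t) * v t ^ p) v lam L := by
  have hbt : ∀ t ∈ Icc (-T) T, |b * t| ≤ |b| * T := by
    intro t ht
    rw [abs_mul]
    apply mul_le_mul_of_nonneg_left _ (abs_nonneg _)
    exact abs_le.mpr ht
  have hup : ∀ t ∈ Icc (-T) T, Real.exp (b * t) * v t ^ p ≤ KK b p T L0 := by
    intro t ht
    unfold KK
    apply mul_le_mul _ _ (Real.rpow_nonneg (hv t).le _) (Real.exp_pos _).le
    · exact Real.exp_le_exp.mpr (le_trans (le_abs_self _) (hbt t ht))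
    · exact Real.rpow_le_rpow (hv t).le (hb t ht).1 hp.le
  have hfpos : ∀ t, 0 < Real.exp (b * t) * v t ^ p := fun t =>
    mul_pos (Real.exp_pos _) (Real.rpow_pos_of_pos (hv t) _)
  have hlow : ∀ t ∈ Icc (-T) T, 1 ≤ KK b p T L0 * (Real.exp (b * t) * v t ^ p) := by
    intro t ht
    unfold KK
    have h1 : 1 ≤ Real.exp (|b| * T) * Real.exp (b * t) := by
      rw [← Real.exp_add]
      apply Real.one_le_exp
      have := (abs_le.mp (hbt t ht)).1
      linarith
    have h2 : 1 ≤ L0 ^ p * v t ^ p := by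
      rw [← Real.mul_rpow (by linarith) (hv t).le]
      exact Real.one_le_rpow (hb t ht).2.1 hp.le
    calc (1:ℝ) = 1 * 1 := by ring
      _ ≤ (Real.exp (|b| * T) * Real.exp (b * t)) * (L0 ^ p * v t ^ p) :=
          mul_le_mul h1 h2 (by norm_num) (by positivity)
      _ = _ := by ring
  have hdv : ∀ t, HasDerivAt v (deriv v t) t := fun t =>
    (hc.differentiable (by norm_num) t).hasDerivAt
  have hdf : ∀ t, HasDerivAt (fun t => Real.exp (b * t) * v t ^ p)
      (Real.exp (b * t) * v t ^ p * (b + p * (deriv v t / v t))) t := by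
    intro t
    have h1 : HasDerivAt (fun t => Real.exp (b * t)) (Real.exp (b * t) * b) t := by
      have := ((hasDerivAt_id t).const_mul b).exp
      simpa using this
    have h2 : HasDerivAt (fun t => v t ^ p) (deriv v t * p * v t ^ (p - 1)) t :=
      (hdv t).rpow_const (Or.inl (hv t).ne')
    refine (h1.mul h2).congr_deriv ?_
    have h3 : v t ^ (p - 1) = v t ^ p / v t := by
      rw [Real.rpow_sub_one (hv t).ne']
    rw [h3]
    field_simp
  have hdbound : ∀ t ∈ Icc (-T) T,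
      |Real.exp (b * t) * v t ^ p * (b + p * (deriv v t / v t))| ≤ L := by
    intro t ht
    refine le_trans ?_ hL3
    rw [abs_mul, abs_of_pos (hfpos t)]
    apply mul_le_mul (hup t ht) _ (abs_nonneg _) (KK_pos hL0).le
    refine le_trans (abs_add_le _ _) ?_
    have h1 : |p * (deriv v t / v t)| ≤ p * L0 ^ 2 := by
      rw [abs_mul, abs_of_pos hp, abs_div, abs_of_pos (hv t)]
      apply mul_le_mul_of_nonneg_left _ hp.le
      rw [div_le_iff₀ (hv t)]
      have h2 := (hb t ht).2.2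
      have h3 := (hb t ht).2.1
      nlinarith [mul_le_mul_of_nonneg_left h3 (by linarith : 0 ≤ L0)]
    linarith
  have hlip : ∀ (g g' : ℝ → ℝ), (∀ t, HasDerivAt g (g' t) t) → (∀ t ∈ Icc (-T) T, |g' t| ≤ L) →
      ∀ t ∈ Icc (lam - 2) (lam + 4), ∀ s ∈ Icc (lam - 2) (lam + 4), |g t - g s| ≤ L * |t - s| := by
    intro g g' hg hg' t ht s hs
    have := (convex_Icc (-T) T).norm_image_sub_le_of_norm_hasDerivWithin_le
      (f := g) (f' := g') (C := L) (fun x _ => (hg x).hasDerivWithinAt)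
      (fun x hx => hg' x hx) (hT hs) (hT ht)
    simpa [Real.norm_eq_abs] using this
  refine ⟨hp, le_trans hL0 hL1, fun t => rfl, hv, hc, ?_, ?_, ?_, ?_, ?_, ?_⟩
  · intro t ht
    exact le_trans (hup t (hT ht)) hL2
  · intro t ht
    refine le_trans (hlow t (hT ht)) ?_
    exact mul_le_mul_of_nonneg_right hL2 (hfpos t).le
  · intro t ht
    exact le_trans (hb t (hT ht)).1 hL1
  · intro t ht
    exact le_trans (hb t (hT ht)).2.1 (mul_le_mul_of_nonneg_right hL1 (hv t).le)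
  · exact hlip _ _ hdf hdbound
  · exact hlip _ _ hdv (fun t ht => le_trans (hb t ht).2.2 hL1)

end WinH

theorem Win : Stmt_Win := by
  intro M _ μ _ S lam a ha ha1
  set T : ℝ := |lam| + 4 with hT
  obtain ⟨L0, hL0, hb⟩ := S.bdd T
  have hsub : Icc (lam - 2) (lam + 4) ⊆ Icc (-T) T := by
    intro t ht
    have h1 := neg_abs_le lam
    have h2 := le_abs_self lam
    exact ⟨by linarith [ht.1], by linarith [ht.2]⟩
  set K1 := WinH.KK S.b₁ S.p T L0 with hK1
  set K2 := WinH.KK S.b₂ S.q T L0 with hK2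
  have hK1p : 0 < K1 := WinH.KK_pos hL0
  have hK2p : 0 < K2 := WinH.KK_pos hL0
  set A1 := K1 * (|S.b₁| + S.p * L0 ^ 2) with hA1
  set A2 := K2 * (|S.b₂| + S.q * L0 ^ 2) with hA2
  have hA1p : 0 ≤ A1 := by
    have := S.hp
    positivity
  have hA2p : 0 ≤ A2 := by
    have := S.hq
    positivity
  set L : ℝ := L0 + K1 + K2 + A1 + A2 with hL
  have hLpos : 0 < L := by linarith
  refine ⟨L, ⌈8 * L ^ 2 * a⌉₊ + 1, fun m hm => ?_⟩
  have hm1 : 1 ≤ m := le_trans (by omega) hm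
  have hmpos : (0:ℝ) < m := by exact_mod_cast hm1
  refine ⟨ha, ha1, hm1, ?_, ?_, ?_⟩
  · unfold msh
    have h1 : 8 * L ^ 2 * a ≤ m := by
      have h2 : (⌈8 * L ^ 2 * a⌉₊ : ℝ) ≤ m := by
        have : ⌈8 * L ^ 2 * a⌉₊ ≤ m := by omega
        exact_mod_cast this
      exact le_trans (Nat.le_ceil _) h2
    rw [show 4 * L ^ 2 * (2 * a / m) = (8 * L ^ 2 * a) / m by ring, div_le_one hmpos]
    exact h1
  · intro θ
    exact WinH.sol_of S.hp (S.V_pos · θ) (S.V_C1 θ) hsub hL0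
      (fun t ht => ⟨(hb θ t ht).2.1, (hb θ t ht).2.2.2.1, (hb θ t ht).2.2.2.2.2⟩)
      (by linarith) (by linarith) (by linarith)
  · intro θ
    exact WinH.sol_of S.hq (S.U_pos · θ) (S.U_C1 θ) hsub hL0
      (fun t ht => ⟨(hb θ t ht).1, (hb θ t ht).2.2.1, (hb θ t ht).2.2.2.2.1⟩)
      (by linarith) (by linarith) (by linarith)

end Crest.Agent.R077
end

-- ▼ part R077/Swap

/-!
Row 77, `Stmt_Swap` and `Stmt_SwapX` (helper851).
-/

set_option autoImplicit false
open MeasureTheory Set Real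
open scoped ENNReal

namespace Crest.Agent.R077

namespace SwapP

variable {M : Type} [MeasurableSpace M] {μ : Measure M}

/-- two dimensional exchange -/
lemma two_swap {f g : ℝ → ℝ≥0∞} (hf : Measurable f) (hg : Measurable g) (ρ : ℝ) :
    ∫⁻ t, f t * ∫⁻ s in Ioo (t - ρ) (t + ρ), g s = ∫⁻ t, g t * ∫⁻ s in Ioo (t - ρ) (t + ρ), f s := by
  have hq : Measurable (fun z : ℝ × ℝ => EnQ.q ρ z.1 z.2) :=
    EnQ.q_meas.comp (show Measurable fun z : ℝ × ℝ => (ρ, z.1, z.2) by fun_prop)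
  have e : ∀ {f g : ℝ → ℝ≥0∞}, Measurable f → Measurable g →
      ∫⁻ t, f t * ∫⁻ s in Ioo (t - ρ) (t + ρ), g s = ∫⁻ t, ∫⁻ s, f t * (EnQ.q ρ t s * g s) := by
    intro f g hf hg
    refine lintegral_congr fun t => ?_
    rw [EnQ.set_lint, ← lintegral_const_mul]
    exact (hq.comp (show Measurable fun s : ℝ => (t, s) by fun_prop)).mul hg
  rw [e hf hg, e hg hf, lintegral_lintegral_swap]
  · refine lintegral_congr fun s => lintegral_congr fun t => ?_
    rw [EnQ.q_symm ρ t s]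
    ring
  · refine Measurable.aemeasurable ?_
    exact (hf.comp measurable_fst).mul (hq.mul (hg.comp measurable_snd))

/-- joint measurability of the inner energy -/
lemma inner_meas {H : ℝ → M → M → ℝ} (Hm : Measurable (fun z : ℝ × M × M => H z.1 z.2.1 z.2.2))
    {f g : ℝ → M → ℝ} (hf : Measurable (fun z : ℝ × M => f z.1 z.2))
    (hg : Measurable (fun z : ℝ × M => g z.1 z.2)) :
    Measurable (fun z : (M × M) × ℝ => ENNReal.ofReal (H z.2 z.1.1 z.1.2) *
      ∫⁻ t, ENNReal.ofReal (f t z.1.1) * ∫⁻ s in Ioo (t - z.2) (t + z.2),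
        ENNReal.ofReal (g s z.1.2)) := by
  refine Measurable.mul ?_ ?_
  · exact (Hm.comp (show Measurable fun z : (M × M) × ℝ => (z.2, z.1.1, z.1.2)
      by fun_prop)).ennreal_ofReal
  · have h1 : Measurable (fun z : (((M × M) × ℝ) × ℝ) =>
        ENNReal.ofReal (f z.2 z.1.1.1) * ∫⁻ s in Ioo (z.2 - z.1.2) (z.2 + z.1.2),
        ENNReal.ofReal (g s z.1.1.2)) := by
      refine Measurable.mul ?_ ?_
      · exact (hf.comp (show Measurable fun z : (((M × M) × ℝ) × ℝ) => (z.2, z.1.1.1)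
          by fun_prop)).ennreal_ofReal
      · simp only [EnQ.set_lint]
        have h2 : Measurable (fun z : (((M × M) × ℝ) × ℝ) × ℝ =>
            EnQ.q z.1.1.2 z.1.2 z.2 * ENNReal.ofReal (g z.2 z.1.1.1.2)) := by
          refine Measurable.mul ?_ ?_
          · exact EnQ.q_meas.comp (show Measurable fun z : (((M × M) × ℝ) × ℝ) × ℝ =>
              (z.1.1.2, z.1.2, z.2) by fun_prop)
          · exact (hg.comp (show Measurable fun z : (((M × M) × ℝ) × ℝ) × ℝ =>
              (z.2, z.1.1.1.2) by fun_prop)).ennreal_ofReal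
        exact h2.lintegral_prod_right'
    exact h1.lintegral_prod_right'

lemma far_swap [SFinite μ] {H : ℝ → M → M → ℝ}
    (Hm : Measurable (fun z : ℝ × M × M => H z.1 z.2.1 z.2.2))
    (Hs : ∀ ρ θ θ', H ρ θ θ' = H ρ θ' θ)
    {f g : ℝ → M → ℝ} (hf : Measurable (fun z : ℝ × M => f z.1 z.2))
    (hg : Measurable (fun z : ℝ × M => g z.1 z.2)) (δ : ℝ) :
    ∫⁻ θ, ∫⁻ θ', ∫⁻ ρ in Ioi δ, ENNReal.ofReal (H ρ θ θ') *
      ∫⁻ t, ENNReal.ofReal (f t θ) * ∫⁻ s in Ioo (t - ρ) (t + ρ), ENNReal.ofReal (g s θ')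
        ∂volume ∂volume ∂volume ∂μ ∂μ
    = ∫⁻ θ, ∫⁻ θ', ∫⁻ ρ in Ioi δ, ENNReal.ofReal (H ρ θ θ') *
      ∫⁻ t, ENNReal.ofReal (g t θ) * ∫⁻ s in Ioo (t - ρ) (t + ρ), ENNReal.ofReal (f s θ')
        ∂volume ∂volume ∂volume ∂μ ∂μ := by
  rw [lintegral_lintegral_swap]
  · refine lintegral_congr fun θ => lintegral_congr fun θ' => lintegral_congr fun ρ => ?_
    rw [Hs ρ θ' θ]
    congr 1
    refine two_swap (f := fun t => ENNReal.ofReal (f t θ')) (g := fun t => ENNReal.ofReal (g t θ))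
      ?_ ?_ ρ
    · exact (hf.comp (show Measurable fun t : ℝ => (t, θ') by fun_prop)).ennreal_ofReal
    · exact (hg.comp (show Measurable fun t : ℝ => (t, θ) by fun_prop)).ennreal_ofReal
  · refine Measurable.aemeasurable ?_
    exact (inner_meas Hm hf hg).lintegral_prod_right'

/-- the swapped cylinder -/
noncomputable def swp [SFinite μ] (S : Cyl M μ) : Cyl M μ where
  p := S.q
  q := S.p
  b₁ := S.b₂
  b₂ := S.b₁
  hp := S.hq
  hq := S.hp
  hpq := by have := S.hpq; rwa [mul_comm] at this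
  hD := by have := S.hD; rwa [add_comm] at this
  U := S.V
  V := S.U
  H := S.H
  U_pos := S.V_pos
  V_pos := S.U_pos
  U_meas := S.V_meas
  V_meas := S.U_meas
  U_C1 := S.V_C1
  V_C1 := S.U_C1
  bdd := by
    intro T
    obtain ⟨L, hL, h⟩ := S.bdd T
    refine ⟨L, hL, fun θ t ht => ?_⟩
    obtain ⟨h1, h2, h3, h4, h5, h6⟩ := h θ t ht
    exact ⟨h2, h1, h4, h3, h6, h5⟩
  H_nonneg := S.H_nonneg
  H_symm := S.H_symm
  H_meas := S.H_meas
  repU := S.repV
  repV := S.repU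
  int1 := S.int2
  int2 := S.int1
  far := by
    obtain ⟨C, κ, h0, h1, h⟩ := S.far
    refine ⟨C, κ, h0, h1, fun δ hδ => ?_⟩
    have := far_swap (μ := μ) S.H_meas S.H_symm (f := S.F) (g := S.G) (EnQ.F_meas S) (EnQ.G_meas S) δ
    have h2 := h δ hδ
    simp only [Cyl.F, Cyl.G] at this
    rw [this] at h2
    exact h2
  fin1 := S.fin2
  fin2 := S.fin1

end SwapP

open SwapP in
/-- the swapped cylinder exists -/
theorem Swap : Stmt_Swap := by
  intro M _ μ _ S
  exact ⟨swp S, ⟨rfl, rfl, rfl, rfl, rfl, rfl, rfl⟩⟩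

namespace SwapP

variable {M : Type} [MeasurableSpace M] {μ : Measure M}

lemma nu_eq {S S' : Cyl M μ} (h : IsSwap S S') : S'.nu = S.nu := by
  simp only [Cyl.nu, h.H_eq]

lemma nuN_eq {S S' : Cyl M μ} (h : IsSwap S S') (δ : ℝ) : S'.nuN δ = S.nuN δ := by
  simp only [Cyl.nuN, nu_eq h]

/-- exchange of the angles -/
def sw : (ℝ × M × M) ≃ᵐ (ℝ × M × M) :=
  MeasurableEquiv.prodCongr (MeasurableEquiv.refl ℝ) MeasurableEquiv.prodComm


lemma mp_nuN [IsFiniteMeasure μ] (S : Cyl M μ) (δ : ℝ) :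
    MeasurePreserving (sw : (ℝ × M × M) ≃ᵐ (ℝ × M × M)) (S.nuN δ) (S.nuN δ) := by
  have h := ML.measurePreserving_swap S
  have h2 := h.restrict_preimage (ML.measurableSet_near (M := M) δ)
  exact h2

lemma int_sw [IsFiniteMeasure μ] (S : Cyl M μ) (δ : ℝ) (f : ℝ × M × M → ℝ) :
    ∫ z, f (z.1, z.2.2, z.2.1) ∂(S.nuN δ) = ∫ z, f z ∂(S.nuN δ) :=
  (mp_nuN S δ).integral_comp' f

lemma swap_GLo {S S' : Cyl M μ} (h : IsSwap S S') (lam a : ℝ) (m : ℕ) (L η t : ℝ) (θ : M) :
    S'.GLo lam a m L η t θ = S.FLo lam a m L η t θ := by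
  simp only [Cyl.FLo, Cyl.GLo, CoreP.swap_xG h]

lemma X0_eq [IsFiniteMeasure μ] {S S' : Cyl M μ} (h : IsSwap S S') (lam a : ℝ) (m : ℕ)
    (L η δ : ℝ) : S'.X0 lam a m L η δ = S.X0' lam a m L η δ := by
  simp only [Cyl.X0, Cyl.X0', CoreP.swap_FLo h, swap_GLo h, nuN_eq h]
  rw [← int_sw S δ]

lemma X0'_eq [IsFiniteMeasure μ] {S S' : Cyl M μ} (h : IsSwap S S') (lam a : ℝ) (m : ℕ)
    (L η δ : ℝ) : S'.X0' lam a m L η δ = S.X0 lam a m L η δ := by
  simp only [Cyl.X0, Cyl.X0', CoreP.swap_FLo h, swap_GLo h, nuN_eq h]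
  rw [← int_sw S δ]

end SwapP

open SwapP in
/-- the functionals under the swap -/
theorem SwapX : Stmt_SwapX := by
  intro M _ μ _ S S' h
  have hF := CoreP.swap_F h
  have hG := CoreP.swap_G h
  refine ⟨fun lam a m L η δ => ⟨X0_eq h _ _ _ _ _ _, X0'_eq h _ _ _ _ _ _⟩, fun δ => ?_,
    fun lam a m L η => ⟨?_, ?_, ?_, ?_⟩, fun T => ⟨?_, ?_⟩, ?_⟩
  · simp only [Cyl.Bfar, hF, hG, h.H_eq]
    rw [far_swap (μ := μ) S.H_meas S.H_symm (f := S.G) (g := S.F) (EnQ.G_meas S) (EnQ.F_meas S) δ]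
  · simp only [Cyl.EF, Cyl.EG, CoreP.swap_FLo h, h.b1_eq, h.p_eq]
  · simp only [Cyl.EF, Cyl.EG, swap_GLo h, h.b2_eq, h.q_eq]
  · simp only [Cyl.TVF, Cyl.TVG, CoreP.swap_xF h, h.V_eq]
  · simp only [Cyl.TVF, Cyl.TVG, CoreP.swap_xG h, h.U_eq]
  · simp only [Cyl.J1, Cyl.J2, hF, h.V_eq]
  · simp only [Cyl.J1, Cyl.J2, hG, h.U_eq]
  · simp only [Cyl.D, h.b1_eq, h.b2_eq, h.p_eq, h.q_eq]
    ring

end Crest.Agent.R077
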