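import Crest.Agent.R077.IntTV
import Crest.Agent.R077.StepTV1
import Mathlib
import Crest.Agent.R077.StepXGam
import Crest.Agent.R077.Iface
import Crest.Agent.R077.Layers
import Crest.Agent.R077.StepW
import Crest.Agent.R077.LayersMeas
import Crest.Agent.R077.RNear
import Crest.Agent.R077.MeasNu
import Crest.Agent.R077.AA
import Crest.Agent.R077.Core
import Crest.Agent.R077.IdentInt
import Crest.Agent.R077.Swap_Mg

-- ▼ part R077/TVEF
section

/-! Row 77: `TVF : Stmt_TVF` and `EF : Stmt_EF`. -/

namespace Crest.Agent.R077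

theorem TVF : Stmt_TVF := TVF_of TV1 E1

theorem EF : Stmt_EF := EF_of E1

end Crest.Agent.R077
end

-- ▼ part R077/StepX
section

/-!
# Row 77, STEP X, one-dimensional parts (helper615)

Blueprint notes 9268-9270 of helper427.  Everything here is for plain functions on `ℝ` and finite weighted
families of half-open intervals.
-/

set_option autoImplicit false

namespace Crest.Agent.R077.StepX

open MeasureTheory Set

/-! ## right end version of the trapezoid lemma -/

lemma Gam_reflect (a b rho s : ℝ) : Gam a b rho s = Gam (-b) (-a) rho (-s) := by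
  unfold Gam
  congr 1
  rw [show -s + rho = -(s - rho) by ring, show -s - rho = -(s + rho) by ring,
    min_neg_neg, max_neg_neg]
  ring

lemma Gam_le_right (a b rho eta ze t1 s : ℝ) (hr : 0 ≤ rho) (heta : 0 < eta)
    (hab : eta ≤ b - a) (hze : 0 ≤ ze) (hsmall : ze + 2 * rho ≤ eta / 4)
    (hs1 : t1 - ze ≤ s) (hs2 : s ≤ t1) :
    Gam a b rho s ≤ Gam a b rho t1 + (8 / eta) * ∫ x in (t1 - eta / 2)..t1, Gam a b rho x := by
  have h := Gam_le_left (-b) (-a) rho eta ze (-t1) (-s) hr heta (by linarith) hze hsmall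
    (by linarith) (by linarith)
  rw [← Gam_reflect, ← Gam_reflect] at h
  have e : ∫ x in (-t1)..(-t1 + eta / 2), Gam (-b) (-a) rho x
      = ∫ x in (t1 - eta / 2)..t1, Gam a b rho x := by
    have h2 := intervalIntegral.integral_comp_neg (a := t1 - eta / 2) (b := t1)
      (fun x => Gam (-b) (-a) rho x)
    rw [show -(t1 - eta / 2) = -t1 + eta / 2 by ring] at h2
    rw [← h2]
    apply intervalIntegral.integral_congr
    intro x _
    exact (Gam_reflect a b rho x).symm
  rw [e] at h
  exact h

/-! ## boxes -/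

/-- box integral of `h` around `t` -/
noncomputable def box (h : ℝ → ℝ) (rho t : ℝ) : ℝ := ∫ s in (t - rho)..(t + rho), h s

lemma box_eq_setIntegral (h : ℝ → ℝ) {rho : ℝ} (hr : 0 ≤ rho) (t : ℝ) :
    box h rho t = ∫ s in Ioc (t - rho) (t + rho), h s := by
  unfold box
  rw [intervalIntegral.integral_of_le (by linarith)]

lemma box_nonneg {h : ℝ → ℝ} (hh : ∀ t, 0 ≤ h t) {rho : ℝ} (hr : 0 ≤ rho) (t : ℝ) :
    0 ≤ box h rho t := by
  unfold box
  exact intervalIntegral.integral_nonneg (by linarith) (fun x _ => hh x)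

lemma continuous_box {h : ℝ → ℝ} (hh : Integrable h) (rho : ℝ) : Continuous (box h rho) := by
  unfold box
  have h1 : ∀ t : ℝ, ∫ s in (t - rho)..(t + rho), h s
      = (∫ s in (0:ℝ)..(t + rho), h s) - ∫ s in (0:ℝ)..(t - rho), h s := by
    intro t
    rw [intervalIntegral.integral_interval_sub_left (hh.intervalIntegrable) (hh.intervalIntegrable)]
  simp_rw [h1]
  have hc : Continuous (fun x : ℝ => ∫ s in (0:ℝ)..x, h s) :=
    intervalIntegral.continuous_primitive (fun a b => hh.intervalIntegrable) 0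
  exact (hc.comp (by fun_prop)).sub (hc.comp (by fun_prop))


lemma box_add {h k : ℝ → ℝ} (hh : Integrable h) (hk : Integrable k) (rho t : ℝ) :
    box (fun s => h s + k s) rho t = box h rho t + box k rho t := by
  unfold box
  exact intervalIntegral.integral_add hh.intervalIntegrable hk.intervalIntegrable

lemma box_finset_sum {ι : Type*} (S : Finset ι) (h : ι → ℝ → ℝ) (hh : ∀ i ∈ S, Integrable (h i))
    (rho t : ℝ) :
    box (fun s => ∑ i ∈ S, h i s) rho t = ∑ i ∈ S, box (h i) rho t := by
  unfold box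
  exact intervalIntegral.integral_finsetSum (fun i hi => (hh i hi).intervalIntegrable)

/-- (X1) box swap (Fubini). -/
theorem box_swap {h1 h2 : ℝ → ℝ} (i1 : Integrable h1) (i2 : Integrable h2) {rho : ℝ}
    (hr : 0 ≤ rho) :
    ∫ t, h1 t * box h2 rho t = ∫ s, h2 s * box h1 rho s := by
  -- the function of two variables
  set K : ℝ → ℝ → ℝ := fun t s => h1 t * h2 s * (Icc (-rho) rho).indicator (fun _ => (1:ℝ)) (t - s)
    with hK
  have hKint : Integrable (fun z : ℝ × ℝ => K z.1 z.2) (volume.prod volume) := by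
    have hp : Integrable (fun z : ℝ × ℝ => h1 z.1 * h2 z.2) (volume.prod volume) := i1.mul_prod i2
    have hm : MeasurableSet {z : ℝ × ℝ | z.1 - z.2 ∈ Icc (-rho) rho} :=
      (measurable_fst.sub measurable_snd) measurableSet_Icc
    have := hp.indicator hm
    refine this.congr (Filter.Eventually.of_forall ?_)
    intro z
    simp only [hK, Set.indicator_apply, Set.mem_ofPred_eq]
    split_ifs <;> simp
  have e1 : ∀ t, ∫ s, K t s = h1 t * box h2 rho t := by
    intro t
    rw [box_eq_setIntegral h2 hr, ← integral_Icc_eq_integral_Ioc, ← integral_indicator measurableSet_Icc,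
      ← integral_const_mul]
    congr 1
    ext s
    simp only [hK, Set.indicator_apply, Set.mem_Icc]
    by_cases hc : (-rho ≤ t - s ∧ t - s ≤ rho)
    · rw [if_pos hc, if_pos ⟨by linarith [hc.2], by linarith [hc.1]⟩]; ring
    · rw [if_neg hc, if_neg (fun h' => hc ⟨by linarith [h'.2], by linarith [h'.1]⟩)]; ring
  have e2 : ∀ s, ∫ t, K t s = h2 s * box h1 rho s := by
    intro s
    rw [box_eq_setIntegral h1 hr, ← integral_Icc_eq_integral_Ioc, ← integral_indicator measurableSet_Icc,
      ← integral_const_mul]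
    congr 1
    ext t
    simp only [hK, Set.indicator_apply, Set.mem_Icc]
    by_cases hc : (-rho ≤ t - s ∧ t - s ≤ rho)
    · rw [if_pos hc, if_pos ⟨by linarith [hc.1], by linarith [hc.2]⟩]; ring
    · rw [if_neg hc, if_neg (fun h' => hc ⟨by linarith [h'.1], by linarith [h'.2]⟩)]; ring
  calc ∫ t, h1 t * box h2 rho t = ∫ t, ∫ s, K t s := by simp_rw [e1]
    _ = ∫ s, ∫ t, K t s := integral_integral_swap hKint
    _ = ∫ s, h2 s * box h1 rho s := by simp_rw [e2]

/-! ## finite weighted families of intervals -/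

/-- step function of a finite weighted family of intervals -/
noncomputable def stepf {ι : Type*} (S : Finset ι) (c a b : ι → ℝ) (t : ℝ) : ℝ :=
  ∑ i ∈ S, (Ico (a i) (b i)).indicator (fun _ => c i) t

lemma ind_integrable (a b c : ℝ) : Integrable ((Ico a b).indicator (fun _ => c)) := by
  rw [integrable_indicator_iff measurableSet_Ico]
  exact integrableOn_const (by simp) (by simp)

lemma stepf_integrable {ι : Type*} (S : Finset ι) (c a b : ι → ℝ) :
    Integrable (stepf S c a b) := by
  unfold stepf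
  exact integrable_finsetSum S (fun i _ => ind_integrable (a i) (b i) (c i))

lemma stepf_nonneg {ι : Type*} {S : Finset ι} {c a b : ι → ℝ} (hc : ∀ i ∈ S, 0 ≤ c i) (t : ℝ) :
    0 ≤ stepf S c a b t := by
  unfold stepf
  refine Finset.sum_nonneg (fun i hi => ?_)
  rw [Set.indicator_apply]
  split_ifs
  · exact hc i hi
  · exact le_rfl


lemma box_ind (a b c rho : ℝ) (hr : 0 ≤ rho) (t : ℝ) :
    box ((Ico a b).indicator (fun _ => c)) rho t = c * Gam a b rho t := by
  rw [box_eq_setIntegral _ hr, ← integral_Icc_eq_integral_Ioc, integral_Icc_eq_integral_Ico,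
    setIntegral_indicator measurableSet_Ico,
    Ico_inter_Ico, setIntegral_const, smul_eq_mul, mul_comm]
  congr 1
  rw [Measure.real, Real.volume_Ico]
  unfold Gam
  have e : (t + rho) ⊓ b - (t - rho) ⊔ a = min b (t + rho) - max a (t - rho) := by
    rw [min_comm, max_comm]
  rw [e]
  rcases le_total (min b (t + rho) - max a (t - rho)) 0 with h | h
  · rw [ENNReal.ofReal_of_nonpos h, max_eq_left h]; rfl
  · rw [ENNReal.toReal_ofReal h, max_eq_right h]

lemma box_stepf {ι : Type*} (S : Finset ι) (c a b : ι → ℝ) (rho : ℝ) (hr : 0 ≤ rho) (t : ℝ) :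
    box (stepf S c a b) rho t = ∑ i ∈ S, c i * Gam (a i) (b i) rho t := by
  have : stepf S c a b = fun s => ∑ i ∈ S, (Ico (a i) (b i)).indicator (fun _ => c i) s := rfl
  rw [this, box_finset_sum S _ (fun i _ => ind_integrable (a i) (b i) (c i))]
  exact Finset.sum_congr rfl (fun i _ => box_ind _ _ _ rho hr t)


/-! ## weights -/

/-- the characteristic function of `[a,b)` -/
noncomputable def chi (a b t : ℝ) : ℝ := (Ico a b).indicator (fun _ => (1:ℝ)) t

lemma chi_nonneg (a b t : ℝ) : 0 ≤ chi a b t := by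
  unfold chi; rw [Set.indicator_apply]; split_ifs <;> norm_num

lemma chi_integrable (a b : ℝ) : Integrable (chi a b) := ind_integrable a b 1

lemma box_chi (a b rho : ℝ) (hr : 0 ≤ rho) (t : ℝ) : box (chi a b) rho t = Gam a b rho t := by
  have := box_ind a b 1 rho hr t
  rw [one_mul] at this
  exact this

lemma stepf_eq_chi {ι : Type*} (S : Finset ι) (c a b : ι → ℝ) (t : ℝ) :
    stepf S c a b t = ∑ i ∈ S, c i * chi (a i) (b i) t := by
  unfold stepf chi
  refine Finset.sum_congr rfl (fun i _ => ?_)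
  rw [Set.indicator_apply, Set.indicator_apply]
  split_ifs <;> simp

lemma w_chi_integrable {w : ℝ → ℝ} (hw : Continuous w) (a b : ℝ) :
    Integrable (fun t => w t * chi a b t) := by
  have h : Integrable ((Ico a b).indicator w) := by
    rw [integrable_indicator_iff measurableSet_Ico]
    exact (hw.integrableOn_Icc (a := a) (b := b)).mono_set Ico_subset_Icc_self
  refine h.congr (Filter.Eventually.of_forall ?_)
  intro t
  simp only [chi, Set.indicator_apply]
  split_ifs <;> simp

lemma w_stepf_integrable {ι : Type*} {w : ℝ → ℝ} (hw : Continuous w) (S : Finset ι)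
    (c a b : ι → ℝ) : Integrable (fun t => w t * stepf S c a b t) := by
  have : (fun t => w t * stepf S c a b t)
      = fun t => ∑ i ∈ S, c i * (w t * chi (a i) (b i) t) := by
    ext t
    rw [stepf_eq_chi, Finset.mul_sum]
    exact Finset.sum_congr rfl (fun i _ => by ring)
  rw [this]
  exact integrable_finsetSum S (fun i _ => (w_chi_integrable hw (a i) (b i)).const_mul (c i))

lemma box_w_stepf {ι : Type*} {w : ℝ → ℝ} (hw : Continuous w) (S : Finset ι)
    (c a b : ι → ℝ) (rho t : ℝ) :
    box (fun s => w s * stepf S c a b s) rho t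
      = ∑ i ∈ S, c i * box (fun s => w s * chi (a i) (b i) s) rho t := by
  have : (fun t => w t * stepf S c a b t)
      = fun t => ∑ i ∈ S, c i * (w t * chi (a i) (b i) t) := by
    ext t
    rw [stepf_eq_chi, Finset.mul_sum]
    exact Finset.sum_congr rfl (fun i _ => by ring)
  rw [this, box_finset_sum S _ (fun i _ => (w_chi_integrable hw (a i) (b i)).const_mul (c i))]
  refine Finset.sum_congr rfl (fun i _ => ?_)
  unfold box
  rw [intervalIntegral.integral_const_mul]

lemma box_mono_on {h k : ℝ → ℝ} (hh : Integrable h) (hk : Integrable k) {rho : ℝ} (hr : 0 ≤ rho)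
    {t : ℝ} (hle : ∀ s, |s - t| ≤ rho → h s ≤ k s) : box h rho t ≤ box k rho t := by
  unfold box
  refine intervalIntegral.integral_mono_on (by linarith) hh.intervalIntegrable
    hk.intervalIntegrable (fun s hs => hle s ?_)
  rw [abs_le]
  exact ⟨by linarith [hs.1], by linarith [hs.2]⟩

lemma box_const_mul (c : ℝ) (h : ℝ → ℝ) (rho t : ℝ) :
    box (fun s => c * h s) rho t = c * box h rho t := by
  unfold box; exact intervalIntegral.integral_const_mul c h

/-- upper bound of the weighted overlap -/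
lemma box_w_chi_le {w : ℝ → ℝ} (hw : Continuous w) {a b rho s C : ℝ} (hr : 0 ≤ rho)
    (hC : ∀ t, |t - s| ≤ rho → w t ≤ C) :
    box (fun t => w t * chi a b t) rho s ≤ C * Gam a b rho s := by
  rw [← box_chi a b rho hr s, ← box_const_mul]
  exact box_mono_on (w_chi_integrable hw a b) ((chi_integrable a b).const_mul C) hr
    (fun t ht => mul_le_mul_of_nonneg_right (hC t ht) (chi_nonneg a b t))

/-- lower bound of the weighted overlap -/
lemma le_box_w_chi {w : ℝ → ℝ} (hw : Continuous w) {a b rho s C D : ℝ} (hr : 0 ≤ rho)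
    (hC : ∀ t, |t - s| ≤ rho → C ≤ w t + D) :
    C * Gam a b rho s ≤ box (fun t => w t * chi a b t) rho s + D * Gam a b rho s := by
  rw [← box_chi a b rho hr s, ← box_const_mul, ← box_const_mul,
    ← box_add (w_chi_integrable hw a b) ((chi_integrable a b).const_mul D)]
  refine box_mono_on ((chi_integrable a b).const_mul C)
    ((w_chi_integrable hw a b).add ((chi_integrable a b).const_mul D)) hr (fun t ht => ?_)
  have := mul_le_mul_of_nonneg_right (hC t ht) (chi_nonneg a b t)
  show C * chi a b t ≤ w t * chi a b t + D * chi a b t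
  linarith

/-- hypotheses on the weight -/
structure Wt (w : ℝ → ℝ) (La : ℝ) : Prop where
  nonneg : ∀ t, 0 ≤ w t
  La0 : 0 ≤ La
  lip : ∀ s t, |w s - w t| ≤ La * |s - t|

lemma Wt.continuous {w : ℝ → ℝ} {La : ℝ} (h : Wt w La) : Continuous w := by
  have : LipschitzWith (Real.toNNReal La) w := by
    refine LipschitzWith.of_dist_le_mul (fun s t => ?_)
    rw [Real.dist_eq, Real.dist_eq, Real.coe_toNNReal _ h.La0]
    exact h.lip s t
  exact this.continuous

lemma Wt.le {w : ℝ → ℝ} {La : ℝ} (h : Wt w La) (s t : ℝ) {d : ℝ} (hd : |s - t| ≤ d) :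
    w s ≤ w t + La * d := by
  have h1 := h.lip s t
  have h2 := le_abs_self (w s - w t)
  have h3 := mul_le_mul_of_nonneg_left hd h.La0
  linarith

/-- one interval, one end -/
lemma one_interval {w : ℝ → ℝ} {La : ℝ} (hW : Wt w La)
    {a b rho eta ze s1 s A B : ℝ} (hr : 0 ≤ rho) (heta : 0 < eta) (hrz : rho ≤ ze)
    (hsmall : ze + 2 * rho ≤ eta / 4)
    (hs : |s - s1| ≤ ze) (hAB : A ≤ B) (hx : ∀ x ∈ Icc A B, |x - s1| ≤ eta / 2)
    (hGam : Gam a b rho s ≤ Gam a b rho s1 + (8 / eta) * ∫ x in A..B, Gam a b rho x) :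
    box (fun t => w t * chi a b t) rho s ≤ (w s1 + 2 * La * ze) * Gam a b rho s1
      + (8 / eta) * ∫ x in A..B, (box (fun t => w t * chi a b t) rho x
          + La * eta * Gam a b rho x) := by
  have hze : 0 ≤ ze := hr.trans hrz
  have hLa := hW.La0
  set Cc := w s1 + La * (ze + rho) with hCc
  have hCc0 : 0 ≤ Cc := by have := hW.nonneg s1; positivity
  -- step 1
  have h1 : box (fun t => w t * chi a b t) rho s ≤ Cc * Gam a b rho s := by
    refine box_w_chi_le hW.continuous hr (fun t ht => ?_)
    refine hW.le t s1 ?_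
    have := abs_sub_le t s s1
    linarith
  -- step 2
  have h2 : ∀ x ∈ Icc A B, Cc * Gam a b rho x
      ≤ box (fun t => w t * chi a b t) rho x + La * eta * Gam a b rho x := by
    intro x hxx
    refine le_box_w_chi hW.continuous hr (fun t ht => ?_)
    have h3 := hW.le s1 t (d := eta / 2 + rho) (by
      have := abs_sub_le s1 x t
      rw [abs_sub_comm s1 x, abs_sub_comm x t] at this
      have := hx x hxx
      linarith)
    rw [hCc]
    nlinarith
  have hcG := continuous_Gam a b rho
  have hcb : Continuous (box (fun t => w t * chi a b t) rho) :=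
    continuous_box (w_chi_integrable hW.continuous a b) rho
  have h4 : Cc * ∫ x in A..B, Gam a b rho x
      ≤ ∫ x in A..B, (box (fun t => w t * chi a b t) rho x + La * eta * Gam a b rho x) := by
    rw [← intervalIntegral.integral_const_mul]
    refine intervalIntegral.integral_mono_on hAB ?_ ?_ h2
    · exact (continuous_const.mul hcG).intervalIntegrable _ _
    · exact (hcb.add (continuous_const.mul hcG)).intervalIntegrable _ _
  have h5 : Cc * Gam a b rho s ≤ Cc * Gam a b rho s1
      + (8 / eta) * (Cc * ∫ x in A..B, Gam a b rho x) := by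
    have := mul_le_mul_of_nonneg_left hGam hCc0
    calc Cc * Gam a b rho s ≤ Cc * (Gam a b rho s1 + (8 / eta) * ∫ x in A..B, Gam a b rho x) := this
      _ = _ := by ring
  have h6 := mul_le_mul_of_nonneg_left h4 (by positivity : (0:ℝ) ≤ 8 / eta)
  have h7 : Cc * Gam a b rho s1 ≤ (w s1 + 2 * La * ze) * Gam a b rho s1 := by
    refine mul_le_mul_of_nonneg_right ?_ (Gam_nonneg _ _ _ _)
    rw [hCc]; nlinarith
  linarith

/-- one end, whole family -/
lemma family_end {ι : Type*} {w : ℝ → ℝ} {La : ℝ} (hW : Wt w La) {S : Finset ι} {c a b : ι → ℝ}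
    (hc : ∀ i ∈ S, 0 ≤ c i)
    {rho eta ze s1 s A B : ℝ} (hr : 0 ≤ rho) (heta : 0 < eta) (hrz : rho ≤ ze)
    (hsmall : ze + 2 * rho ≤ eta / 4)
    (hs : |s - s1| ≤ ze) (hAB : A ≤ B) (hx : ∀ x ∈ Icc A B, |x - s1| ≤ eta / 2)
    (hG : ∀ i ∈ S, (∀ t ∈ Ico (a i) (b i), w t = 0) ∨
      Gam (a i) (b i) rho s ≤ Gam (a i) (b i) rho s1
        + (8 / eta) * ∫ x in A..B, Gam (a i) (b i) rho x) :
    box (fun t => w t * stepf S c a b t) rho s ≤ (w s1 + 2 * La * ze) * box (stepf S c a b) rho s1
      + (8 / eta) * ∫ x in A..B, (box (fun t => w t * stepf S c a b t) rho x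
          + La * eta * box (stepf S c a b) rho x) := by
  have hze : 0 ≤ ze := hr.trans hrz
  have hLa := hW.La0
  have hw := hW.continuous
  have e1 : ∫ x in A..B, (box (fun t => w t * stepf S c a b t) rho x
          + La * eta * box (stepf S c a b) rho x)
      = ∑ i ∈ S, c i * ∫ x in A..B, (box (fun t => w t * chi (a i) (b i) t) rho x
          + La * eta * Gam (a i) (b i) rho x) := by
    have : ∀ x, (box (fun t => w t * stepf S c a b t) rho x
          + La * eta * box (stepf S c a b) rho x)
        = ∑ i ∈ S, c i * (box (fun t => w t * chi (a i) (b i) t) rho x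
          + La * eta * Gam (a i) (b i) rho x) := by
      intro x
      rw [box_w_stepf hw, box_stepf S c a b rho hr, Finset.mul_sum, ← Finset.sum_add_distrib]
      exact Finset.sum_congr rfl (fun i _ => by ring)
    simp_rw [this]
    rw [intervalIntegral.integral_finsetSum]
    · refine Finset.sum_congr rfl (fun i _ => ?_)
      rw [intervalIntegral.integral_const_mul]
    · intro i _
      refine Continuous.intervalIntegrable ?_ _ _
      exact continuous_const.mul ((continuous_box (w_chi_integrable hw (a i) (b i)) rho).add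
        (continuous_const.mul (continuous_Gam (a i) (b i) rho)))
  rw [e1, box_w_stepf hw, box_stepf S c a b rho hr, Finset.mul_sum, Finset.mul_sum,
    ← Finset.sum_add_distrib]
  refine Finset.sum_le_sum (fun i hi => ?_)
  have key : box (fun t => w t * chi (a i) (b i) t) rho s
      ≤ (w s1 + 2 * La * ze) * Gam (a i) (b i) rho s1
      + (8 / eta) * ∫ x in A..B, (box (fun t => w t * chi (a i) (b i) t) rho x
          + La * eta * Gam (a i) (b i) rho x) := by
    rcases hG i hi with h0 | h1
    · have hz : (fun t => w t * chi (a i) (b i) t) = fun _ => 0 := by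
        ext t
        unfold chi
        rw [Set.indicator_apply]
        split_ifs with ht
        · rw [h0 t ht]; simp
        · simp
      rw [hz]
      have hb0 : ∀ x, box (fun _ => (0:ℝ)) rho x = 0 := by
        intro x; unfold box; simp
      rw [hb0]
      have hA : 0 ≤ ∫ x in A..B, (box (fun _ => (0:ℝ)) rho x + La * eta * Gam (a i) (b i) rho x) := by
        refine intervalIntegral.integral_nonneg hAB (fun x _ => ?_)
        rw [hb0]
        have := Gam_nonneg (a i) (b i) rho x
        positivity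
      have hB := Gam_nonneg (a i) (b i) rho s1
      have hw1 := hW.nonneg s1
      positivity
    · exact one_interval hW hr heta hrz hsmall hs hAB hx h1
  have := mul_le_mul_of_nonneg_left key (hc i hi)
  calc c i * box (fun t => w t * chi (a i) (b i) t) rho s
      ≤ c i * ((w s1 + 2 * La * ze) * Gam (a i) (b i) rho s1
      + (8 / eta) * ∫ x in A..B, (box (fun t => w t * chi (a i) (b i) t) rho x
          + La * eta * Gam (a i) (b i) rho x)) := this
    _ = _ := by ring

/-! ## (X2) the end parts of the second family -/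

lemma setIntegral_Ico_eq {h : ℝ → ℝ} {u v : ℝ} (huv : u ≤ v) :
    ∫ x in Ico u v, h x = ∫ x in u..v, h x := by
  rw [intervalIntegral.integral_of_le huv, ← integral_Icc_eq_integral_Ioc,
    integral_Icc_eq_integral_Ico]

lemma integral_stepf_mul {ι : Type*} {h : ℝ → ℝ} (hc : Continuous h) (T : Finset ι)
    (d u v : ι → ℝ) :
    ∫ s, stepf T d u v s * h s = ∑ j ∈ T, d j * ∫ s in Ico (u j) (v j), h s := by
  have e : (fun s => stepf T d u v s * h s) = fun s => ∑ j ∈ T, d j * (h s * chi (u j) (v j) s) := by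
    ext s
    rw [stepf_eq_chi, Finset.sum_mul]
    exact Finset.sum_congr rfl (fun j _ => by ring)
  rw [e, integral_finsetSum T (fun j _ => (w_chi_integrable hc (u j) (v j)).const_mul (d j))]
  refine Finset.sum_congr rfl (fun j _ => ?_)
  rw [integral_const_mul, ← integral_indicator measurableSet_Ico]
  congr 2
  ext s
  unfold chi
  rw [Set.indicator_apply, Set.indicator_apply]
  split_ifs <;> simp

/-- three pieces of `[u,v)` -/
lemma three_pieces {h : ℝ → ℝ} (hc : Continuous h) (h0 : ∀ x, 0 ≤ h x) {u v ze : ℝ} (hze : 0 ≤ ze)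
    : ∫ x in Ico u v, h x ≤ (∫ x in Ico (u + ze) (v - ze), h x) + (∫ x in u..(u + ze), h x)
      + ∫ x in (v - ze)..v, h x := by
  rw [← setIntegral_Ico_eq (by linarith : u ≤ u + ze),
    ← setIntegral_Ico_eq (by linarith : v - ze ≤ v)]
  simp_rw [← integral_indicator measurableSet_Ico]
  have hi : ∀ a b : ℝ, Integrable ((Ico a b).indicator h) := by
    intro a b
    rw [integrable_indicator_iff measurableSet_Ico]
    exact (hc.integrableOn_Icc (a := a) (b := b)).mono_set Ico_subset_Icc_self
  have e : (∫ x, (Ico (u + ze) (v - ze)).indicator h x) + (∫ x, (Ico u (u + ze)).indicator h x)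
      + (∫ x, (Ico (v - ze) v).indicator h x)
      = ∫ x, ((Ico (u + ze) (v - ze)).indicator h x + (Ico u (u + ze)).indicator h x
        + (Ico (v - ze) v).indicator h x) := by
    rw [integral_add (f := fun x => (Ico (u + ze) (v - ze)).indicator h x
      + (Ico u (u + ze)).indicator h x) ((hi _ _).add (hi _ _)) (hi _ _),
      integral_add (hi _ _) (hi _ _)]
  rw [e]
  refine integral_mono (hi _ _) (((hi _ _).add (hi _ _)).add (hi _ _)) (fun x => ?_)
  show (Ico u v).indicator h x ≤ (Ico (u + ze) (v - ze)).indicator h x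
    + (Ico u (u + ze)).indicator h x + (Ico (v - ze) v).indicator h x
  have hx := h0 x
  by_cases hm : x ∈ Ico u v
  · have hn : ∀ a b, 0 ≤ (Ico a b).indicator h x := by
      intro a b; rw [Set.indicator_apply]; split_ifs <;> simp [hx]
    rw [Set.indicator_of_mem hm]
    rcases lt_or_ge x (u + ze) with h1 | h1
    · rw [Set.indicator_of_mem (show x ∈ Ico u (u + ze) from ⟨hm.1, h1⟩)]
      linarith [hn (u + ze) (v - ze), hn (v - ze) v]
    · rcases lt_or_ge x (v - ze) with h2 | h2
      · rw [Set.indicator_of_mem (show x ∈ Ico (u + ze) (v - ze) from ⟨h1, h2⟩)]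
        linarith [hn u (u + ze), hn (v - ze) v]
      · rw [Set.indicator_of_mem (show x ∈ Ico (v - ze) v from ⟨h2, hm.2⟩)]
        linarith [hn u (u + ze), hn (u + ze) (v - ze)]
  · rw [Set.indicator_of_notMem hm]
    have hn : ∀ a b, 0 ≤ (Ico a b).indicator h x := by
      intro a b; rw [Set.indicator_apply]; split_ifs <;> simp [hx]
    linarith [hn u (u + ze), hn (u + ze) (v - ze), hn (v - ze) v]

lemma box_w_zero {f w : ℝ → ℝ} {rho s : ℝ} (hr : 0 ≤ rho) (h : ∀ t, |t - s| ≤ rho → w t = 0) :
    box (fun t => w t * f t) rho s = 0 := by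
  unfold box
  have : ∫ t in (s - rho)..(s + rho), w t * f t = ∫ t in (s - rho)..(s + rho), (0:ℝ) := by
    refine intervalIntegral.integral_congr (fun t ht => ?_)
    rw [uIcc_of_le (by linarith)] at ht
    show w t * f t = 0
    rw [h t (by rw [abs_le]; exact ⟨by linarith [ht.1], by linarith [ht.2]⟩), zero_mul]
  rw [this]; simp

/-- **(X2)** `f = ∑ c_i 1_{[a_i,b_i)}`, `g = ∑ d_j 1_{[u_j,v_j)}`; `ĝ` = the family `g` with all intervals
shrunk by `ze` at both ends.  `EL j`/`ER j`: the left/right end of `J_j` counts. -/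
theorem kap_bound {ι κ : Type*} {w : ℝ → ℝ} {La : ℝ} (hW : Wt w La)
    {S : Finset ι} {c a b : ι → ℝ} (hc : ∀ i ∈ S, 0 ≤ c i)
    {T : Finset κ} {d u v : κ → ℝ} (hd : ∀ j ∈ T, 0 ≤ d j) (huv : ∀ j ∈ T, u j ≤ v j)
    (EL ER : κ → Prop) [DecidablePred EL] [DecidablePred ER]
    {rho eta ze : ℝ} (hr : 0 ≤ rho) (heta : 0 < eta) (hrz : rho ≤ ze)
    (hsmall : ze + 2 * rho ≤ eta / 4)
    (hI : ∀ i ∈ S, eta ≤ b i - a i ∨ ∀ t ∈ Ico (a i) (b i), w t = 0)
    (hEL : ∀ j ∈ T, EL j → eta ≤ v j - u j)
    (hER : ∀ j ∈ T, ER j → eta ≤ v j - u j)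
    (hEL' : ∀ j ∈ T, ¬ EL j → ∀ t ∈ Icc (u j - rho) (u j + ze + rho), w t = 0)
    (hER' : ∀ j ∈ T, ¬ ER j → ∀ t ∈ Icc (v j - ze - rho) (v j + rho), w t = 0) :
    (1 - 8 * ze / eta) * ∫ t, w t * stepf S c a b t * box (stepf T d u v) rho t
      ≤ (∫ t, w t * stepf S c a b t
            * box (stepf T d (fun j => u j + ze) (fun j => v j - ze)) rho t)
        + ze * ∑ j ∈ T.filter EL, d j * ((w (u j) + 2 * La * ze) * box (stepf S c a b) rho (u j))
        + ze * ∑ j ∈ T.filter ER, d j * ((w (v j) + 2 * La * ze) * box (stepf S c a b) rho (v j))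
        + 8 * ze * La * ∫ t, stepf S c a b t * box (stepf T d u v) rho t := by
  have hze : 0 ≤ ze := hr.trans hrz
  have hLa := hW.La0
  have hw := hW.continuous
  set f := stepf S c a b with hf
  have hfi : Integrable f := stepf_integrable S c a b
  have hf0 : ∀ t, 0 ≤ f t := stepf_nonneg hc
  have hwfi : Integrable (fun t => w t * f t) := w_stepf_integrable hw S c a b
  have hwf0 : ∀ t, 0 ≤ w t * f t := fun t => mul_nonneg (hW.nonneg t) (hf0 t)
  set h : ℝ → ℝ := box (fun t => w t * f t) rho with hh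
  have hhc : Continuous h := continuous_box hwfi rho
  have hh0 : ∀ x, 0 ≤ h x := box_nonneg hwf0 hr
  have hbc : Continuous (box f rho) := continuous_box hfi rho
  have hb0 : ∀ x, 0 ≤ box f rho x := box_nonneg hf0 hr
  set P : ℝ → ℝ := fun x => h x + La * eta * box f rho x with hP
  have hPc : Continuous P := hhc.add (continuous_const.mul hbc)
  have hP0 : ∀ x, 0 ≤ P x := fun x => by
    have := hh0 x; have := hb0 x; simp only [hP]; positivity
  -- swap
  have s1 : ∫ t, w t * f t * box (stepf T d u v) rho t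
      = ∑ j ∈ T, d j * ∫ s in Ico (u j) (v j), h s := by
    rw [box_swap hwfi (stepf_integrable T d u v) hr, integral_stepf_mul hhc]
  have s2 : ∫ t, w t * f t * box (stepf T d (fun j => u j + ze) (fun j => v j - ze)) rho t
      = ∑ j ∈ T, d j * ∫ s in Ico (u j + ze) (v j - ze), h s := by
    rw [box_swap hwfi (stepf_integrable T d _ _) hr, integral_stepf_mul hhc]
  have s3 : ∫ t, f t * box (stepf T d u v) rho t
      = ∑ j ∈ T, d j * ∫ s in Ico (u j) (v j), box f rho s := by
    rw [box_swap hfi (stepf_integrable T d u v) hr, integral_stepf_mul hbc]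
  rw [s1, s2, s3]
  -- the estimate for one interval
  have key : ∀ j ∈ T, ∫ s in Ico (u j) (v j), h s
      ≤ (∫ s in Ico (u j + ze) (v j - ze), h s)
        + (if EL j then ze * ((w (u j) + 2 * La * ze) * box f rho (u j)) else 0)
        + (if ER j then ze * ((w (v j) + 2 * La * ze) * box f rho (v j)) else 0)
        + 8 * ze / eta * ∫ s in Ico (u j) (v j), P s := by
    intro j hj
    have h3 := three_pieces (u := u j) (v := v j) hhc hh0 hze
    have hL : (∫ x in (u j)..(u j + ze), h x)
        ≤ (if EL j then ze * ((w (u j) + 2 * La * ze) * box f rho (u j)) else 0)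
          + (if EL j then 8 * ze / eta * ∫ x in (u j)..(u j + eta / 2), P x else 0) := by
      by_cases hE : EL j
      · rw [if_pos hE, if_pos hE]
        have : ∫ x in (u j)..(u j + ze), h x
            ≤ ∫ x in (u j)..(u j + ze), ((w (u j) + 2 * La * ze) * box f rho (u j)
              + (8 / eta) * ∫ x in (u j)..(u j + eta / 2), P x) := by
          refine intervalIntegral.integral_mono_on (by linarith) (hhc.intervalIntegrable _ _)
            (by simp) (fun x hx => ?_)
          refine family_end hW hc hr heta hrz hsmall ?_ (by linarith) ?_ ?_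
          · rw [abs_le]; exact ⟨by linarith [hx.1], by linarith [hx.2]⟩
          · intro y hy
            rw [abs_le]; exact ⟨by linarith [hy.1], by linarith [hy.2]⟩
          · intro i hi
            rcases hI i hi with h1 | h1
            · exact Or.inr (Gam_le_left (a i) (b i) rho eta ze (u j) x hr heta h1 hze hsmall
                hx.1 hx.2)
            · exact Or.inl h1
        refine this.trans (le_of_eq ?_)
        rw [intervalIntegral.integral_const, smul_eq_mul]
        ring
      · rw [if_neg hE, if_neg hE]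
        have : ∫ x in (u j)..(u j + ze), h x = ∫ x in (u j)..(u j + ze), (0:ℝ) := by
          refine intervalIntegral.integral_congr (fun x hx => ?_)
          rw [uIcc_of_le (by linarith)] at hx
          refine box_w_zero hr (fun t ht => hEL' j hj hE t ?_)
          rw [abs_le] at ht
          exact ⟨by linarith [hx.1], by linarith [hx.2]⟩
        rw [this]; simp
    have hR : (∫ x in (v j - ze)..(v j), h x)
        ≤ (if ER j then ze * ((w (v j) + 2 * La * ze) * box f rho (v j)) else 0)
          + (if ER j then 8 * ze / eta * ∫ x in (v j - eta / 2)..(v j), P x else 0) := by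
      by_cases hE : ER j
      · rw [if_pos hE, if_pos hE]
        have : ∫ x in (v j - ze)..(v j), h x
            ≤ ∫ x in (v j - ze)..(v j), ((w (v j) + 2 * La * ze) * box f rho (v j)
              + (8 / eta) * ∫ x in (v j - eta / 2)..(v j), P x) := by
          refine intervalIntegral.integral_mono_on (by linarith) (hhc.intervalIntegrable _ _)
            (by simp) (fun x hx => ?_)
          refine family_end hW hc hr heta hrz hsmall ?_ (by linarith) ?_ ?_
          · rw [abs_le]; exact ⟨by linarith [hx.1], by linarith [hx.2]⟩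
          · intro y hy
            rw [abs_le]; exact ⟨by linarith [hy.1], by linarith [hy.2]⟩
          · intro i hi
            rcases hI i hi with h1 | h1
            · exact Or.inr (Gam_le_right (a i) (b i) rho eta ze (v j) x hr heta h1 hze hsmall
                hx.1 hx.2)
            · exact Or.inl h1
        refine this.trans (le_of_eq ?_)
        rw [intervalIntegral.integral_const, smul_eq_mul]
        ring
      · rw [if_neg hE, if_neg hE]
        have : ∫ x in (v j - ze)..(v j), h x = ∫ x in (v j - ze)..(v j), (0:ℝ) := by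
          refine intervalIntegral.integral_congr (fun x hx => ?_)
          rw [uIcc_of_le (by linarith)] at hx
          refine box_w_zero hr (fun t ht => hER' j hj hE t ?_)
          rw [abs_le] at ht
          exact ⟨by linarith [hx.1], by linarith [hx.2]⟩
        rw [this]; simp
    have hPP : (if EL j then 8 * ze / eta * ∫ x in (u j)..(u j + eta / 2), P x else 0)
        + (if ER j then 8 * ze / eta * ∫ x in (v j - eta / 2)..(v j), P x else 0)
        ≤ 8 * ze / eta * ∫ s in Ico (u j) (v j), P s := by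
      rw [setIntegral_Ico_eq (huv j hj)]
      have hi : ∀ x y : ℝ, IntervalIntegrable P volume x y := fun x y => hPc.intervalIntegrable x y
      have hn : ∀ x y : ℝ, x ≤ y → 0 ≤ ∫ t in x..y, P t := fun x y hxy =>
        intervalIntegral.integral_nonneg hxy (fun t _ => hP0 t)
      have hk : 0 ≤ 8 * ze / eta := by positivity
      by_cases hE : EL j
      · have hlong := hEL j hj hE
        have e1 : ∫ t in (u j)..(v j), P t = (∫ t in (u j)..(u j + eta / 2), P t)
            + (∫ t in (u j + eta / 2)..(v j - eta / 2), P t)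
            + ∫ t in (v j - eta / 2)..(v j), P t := by
          rw [intervalIntegral.integral_add_adjacent_intervals (hi _ _) (hi _ _),
            intervalIntegral.integral_add_adjacent_intervals (hi _ _) (hi _ _)]
        have n1 := hn (u j) (u j + eta / 2) (by linarith)
        have n2 := hn (u j + eta / 2) (v j - eta / 2) (by linarith)
        have n3 := hn (v j - eta / 2) (v j) (by linarith)
        by_cases hE2 : ER j
        · rw [if_pos hE, if_pos hE2, ← mul_add]
          exact mul_le_mul_of_nonneg_left (by rw [e1]; linarith) hk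
        · rw [if_pos hE, if_neg hE2, add_zero]
          exact mul_le_mul_of_nonneg_left (by rw [e1]; linarith) hk
      · by_cases hE2 : ER j
        · have hlong := hER j hj hE2
          have e1 : ∫ t in (u j)..(v j), P t = (∫ t in (u j)..(v j - eta / 2), P t)
              + ∫ t in (v j - eta / 2)..(v j), P t := by
            rw [intervalIntegral.integral_add_adjacent_intervals (hi _ _) (hi _ _)]
          have n1 := hn (u j) (v j - eta / 2) (by linarith)
          rw [if_neg hE, if_pos hE2, zero_add]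
          exact mul_le_mul_of_nonneg_left (by rw [e1]; linarith) hk
        · rw [if_neg hE, if_neg hE2, add_zero]
          exact mul_nonneg hk (hn _ _ (huv j hj))
    linarith
  -- sum up
  have hPint : ∀ j ∈ T, ∫ s in Ico (u j) (v j), P s
      = (∫ s in Ico (u j) (v j), h s) + La * eta * ∫ s in Ico (u j) (v j), box f rho s := by
    intro j hj
    rw [setIntegral_Ico_eq (huv j hj), setIntegral_Ico_eq (huv j hj),
      setIntegral_Ico_eq (huv j hj), ← intervalIntegral.integral_const_mul]
    exact intervalIntegral.integral_add (hhc.intervalIntegrable _ _)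
      ((continuous_const.mul hbc).intervalIntegrable _ _)
  have hsum : ∑ j ∈ T, d j * ∫ s in Ico (u j) (v j), h s
      ≤ ∑ j ∈ T, d j * ((∫ s in Ico (u j + ze) (v j - ze), h s)
        + (if EL j then ze * ((w (u j) + 2 * La * ze) * box f rho (u j)) else 0)
        + (if ER j then ze * ((w (v j) + 2 * La * ze) * box f rho (v j)) else 0)
        + 8 * ze / eta * ((∫ s in Ico (u j) (v j), h s)
          + La * eta * ∫ s in Ico (u j) (v j), box f rho s)) := by
    refine Finset.sum_le_sum (fun j hj => mul_le_mul_of_nonneg_left ?_ (hd j hj))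
    have := key j hj
    rw [hPint j hj] at this
    exact this
  have hsplit : ∑ j ∈ T, d j * ((∫ s in Ico (u j + ze) (v j - ze), h s)
        + (if EL j then ze * ((w (u j) + 2 * La * ze) * box f rho (u j)) else 0)
        + (if ER j then ze * ((w (v j) + 2 * La * ze) * box f rho (v j)) else 0)
        + 8 * ze / eta * ((∫ s in Ico (u j) (v j), h s)
          + La * eta * ∫ s in Ico (u j) (v j), box f rho s))
      = (∑ j ∈ T, d j * ∫ s in Ico (u j + ze) (v j - ze), h s)
        + ze * ∑ j ∈ T.filter EL, d j * ((w (u j) + 2 * La * ze) * box f rho (u j))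
        + ze * ∑ j ∈ T.filter ER, d j * ((w (v j) + 2 * La * ze) * box f rho (v j))
        + 8 * ze / eta * (∑ j ∈ T, d j * ∫ s in Ico (u j) (v j), h s)
        + 8 * ze * La * ∑ j ∈ T, d j * ∫ s in Ico (u j) (v j), box f rho s := by
    rw [Finset.sum_filter, Finset.sum_filter]
    simp only [Finset.mul_sum]
    rw [← Finset.sum_add_distrib, ← Finset.sum_add_distrib, ← Finset.sum_add_distrib,
      ← Finset.sum_add_distrib]
    refine Finset.sum_congr rfl (fun j _ => ?_)
    have e8 : 8 * ze / eta * (La * eta) = 8 * ze * La := by field_simp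
    split_ifs <;> linear_combination (d j * ∫ s in Ico (u j) (v j), box f rho s) * e8
  rw [hsplit] at hsum
  linarith

/-! ## (X2b) the shrunk family is below all small translates of the family -/

lemma hat_le {κ : Type*} {T : Finset κ} {d u v : κ → ℝ} (hd : ∀ j ∈ T, 0 ≤ d j) {ze x : ℝ}
    (hx : |x| ≤ ze) (s : ℝ) :
    stepf T d (fun j => u j + ze) (fun j => v j - ze) s ≤ stepf T d u v (s + x) := by
  unfold stepf
  refine Finset.sum_le_sum (fun j hj => ?_)
  rw [abs_le] at hx
  rw [Set.indicator_apply, Set.indicator_apply]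
  by_cases h : s ∈ Ico (u j + ze) (v j - ze)
  · rw [if_pos h, if_pos (show s + x ∈ Ico (u j) (v j) from
      ⟨by linarith [h.1, hx.1], by linarith [h.2, hx.2]⟩)]
  · rw [if_neg h]
    split_ifs
    · exact hd j hj
    · exact le_rfl


/-! ## (X3) the opening bound -/

/-- `ψ(t,x) = ∫_0^x (e^{-b t} σ)^{1/p} dσ = (p/(p+1)) e^{-b t/p} x^{(p+1)/p}` -/
noncomputable def psi (b p t x : ℝ) : ℝ :=
  p / (p + 1) * Real.exp (-(b * t) / p) * x ^ ((p + 1) / p)


end Crest.Agent.R077.StepX
end

-- ▼ part R077/StepXI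
section

/-!
# Row 77: `Stmt_X1`, `Stmt_X3`, `Stmt_X4` of the frozen interface (helper615)
-/

set_option autoImplicit false

namespace Crest.Agent.R077.StepX

open MeasureTheory Set

/-! ## adapters -/

lemma stepF_eq (x : ℕ → ℝ) (S : Finset (ℕ × ℕ)) (lam a : ℝ) (m : ℕ) :
    R077.stepF x S lam a m = stepf S (rc x) (lft lam a m) (rgt lam a m) := by
  funext t
  unfold R077.stepF stepf ind
  refine Finset.sum_congr rfl (fun i _ => ?_)
  rw [Set.indicator_apply]
  by_cases h : t ∈ Ico (lft lam a m i) (rgt lam a m i)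
  · rw [if_pos h, if_pos (show lft lam a m i ≤ t ∧ t < rgt lam a m i from ⟨h.1, h.2⟩), mul_one]
  · rw [if_neg h, if_neg (fun h' => h ⟨h'.1, h'.2⟩), mul_zero]

lemma stepShr_eq (x : ℕ → ℝ) (S : Finset (ℕ × ℕ)) (lam a : ℝ) (m : ℕ) (ze : ℝ) :
    stepShr x S lam a m ze
      = stepf S (rc x) (fun i => lft lam a m i + ze) (fun i => rgt lam a m i - ze) := by
  funext t
  unfold stepShr stepf
  refine Finset.sum_congr rfl (fun i _ => ?_)
  rw [Set.indicator_apply]
  by_cases h : t ∈ Ico (lft lam a m i + ze) (rgt lam a m i - ze)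
  · rw [if_pos h, if_pos (show lft lam a m i + ze ≤ t ∧ t < rgt lam a m i - ze from ⟨h.1, h.2⟩),
      mul_one]
  · rw [if_neg h, if_neg (fun h' => h ⟨h'.1, h'.2⟩), mul_zero]

lemma rc_nonneg (x : ℕ → ℝ) (i : ℕ × ℕ) : 0 ≤ rc x i := ENNReal.toReal_nonneg


lemma msh_nonneg {a : ℝ} (ha : 0 < a) (m : ℕ) : 0 ≤ msh a m := by unfold msh; positivity

lemma msh_pos {a : ℝ} (ha : 0 < a) {m : ℕ} (hm : 1 ≤ m) : 0 < msh a m := by
  unfold msh
  have : (0:ℝ) < m := by exact_mod_cast hm
  positivity

lemma mul_msh {a : ℝ} {m : ℕ} (hm : 1 ≤ m) : (m : ℝ) * msh a m = 2 * a := by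
  unfold msh
  have : (m : ℝ) ≠ 0 := by positivity
  field_simp

lemma nd_mono {lam a : ℝ} (ha : 0 < a) (m : ℕ) {j k : ℕ} (h : j ≤ k) :
    nd lam a m j ≤ nd lam a m k := by
  unfold nd
  have := msh_nonneg ha m
  have h' : (j : ℝ) ≤ k := by exact_mod_cast h
  nlinarith

lemma mem_prs {m : ℕ} {i : ℕ × ℕ} : i ∈ prs m ↔ 1 ≤ i.1 ∧ i.1 ≤ i.2 ∧ i.2 ≤ m := by
  unfold prs
  simp only [Finset.mem_filter, Finset.mem_product, Finset.mem_Icc]
  omega

lemma lft_le_rgt {lam a : ℝ} (ha : 0 < a) {m : ℕ} {i : ℕ × ℕ} (hi : i ∈ prs m) :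
    lft lam a m i ≤ rgt lam a m i := by
  rw [mem_prs] at hi
  exact nd_mono ha m (by omega)

lemma rgt_sub_lft {lam a : ℝ} {m : ℕ} {i : ℕ × ℕ} (hi : i ∈ prs m) :
    rgt lam a m i - lft lam a m i = ((i.2 : ℝ) - i.1 + 1) * msh a m := by
  rw [mem_prs] at hi
  unfold rgt lft nd
  rw [Nat.cast_sub hi.1]
  push_cast
  ring

lemma longI_subset (a : ℝ) (m : ℕ) (eta : ℝ) : longI a m eta ⊆ prs m := Finset.sdiff_subset

/-- trichotomy for long intervals: honest long, or a boundary run -/
lemma longI_cases {a : ℝ} {m : ℕ} {eta : ℝ} {i : ℕ × ℕ} (hi : i ∈ longI a m eta) :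
    i ∈ prs m ∧ (i.1 = 1 ∨ i.2 = m ∨ eta ≤ ((i.2 : ℝ) - i.1 + 1) * msh a m) := by
  have hp := longI_subset a m eta hi
  refine ⟨hp, ?_⟩
  unfold longI shortI at hi
  rw [Finset.mem_sdiff, Finset.mem_filter] at hi
  have h2 := hi.2
  have hp' := mem_prs.1 hp
  by_contra hcon
  push Not at hcon
  exact h2 ⟨hp, by omega, by omega, hcon.2.2⟩

lemma tent_nonneg {lam a : ℝ} (t : ℝ) : 0 ≤ tent lam a t := by
  unfold tent
  exact mul_nonneg (by positivity) (le_max_left _ _)

lemma tent_zero_left {lam a t : ℝ} (h : t ≤ lam) : tent lam a t = 0 := by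
  unfold tent
  rw [max_eq_left, mul_zero]
  exact (min_le_left _ _).trans (by linarith)

lemma tent_zero_right {lam a t : ℝ} (h : lam + a ≤ t) : tent lam a t = 0 := by
  unfold tent
  rw [max_eq_left, mul_zero]
  exact (min_le_right _ _).trans (by linarith)

lemma tent_wt {lam a : ℝ} : Wt (tent lam a) (4 / a ^ 2) where
  nonneg := tent_nonneg
  La0 := by positivity
  lip := by
    intro s t
    unfold tent
    rw [← mul_sub, abs_mul, abs_of_nonneg (show (0:ℝ) ≤ 4 / a ^ 2 by positivity)]
    refine mul_le_mul_of_nonneg_left ?_ (by positivity)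
    calc |max 0 (min (s - lam) (lam + a - s)) - max 0 (min (t - lam) (lam + a - t))|
        ≤ max |(0:ℝ) - 0| |min (s - lam) (lam + a - s) - min (t - lam) (lam + a - t)| :=
          abs_max_sub_max_le_max _ _ _ _
      _ ≤ |s - t| := by
          refine max_le (by simp) ?_
          refine (abs_min_sub_min_le_max _ _ _ _).trans (max_le (le_of_eq ?_) (le_of_eq ?_))
          · congr 1; ring
          · rw [show lam + a - s - (lam + a - t) = -(s - t) by ring, abs_neg]

/-- data on the step functions used below (delivered by the layer adapter) -/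
def StepLe : Prop := ∀ (f : ℝ → ℝ) (x : ℕ → ℝ) (lam a : ℝ) (m : ℕ) (S : Finset (ℕ × ℕ)),
  0 < a → 1 ≤ m → Lay f x lam a m → S ⊆ prs m → ∀ t, R077.stepF x S lam a m t ≤ f t

theorem X1_of (hSL : StepLe) : Stmt_X1 := by
  intro g y lam a m eta ze ha hm heta hze hL t s hs
  rw [stepShr_eq]
  have h1 := hat_le (T := longI a m eta) (d := rc y) (u := lft lam a m) (v := rgt lam a m)
    (fun j _ => rc_nonneg y j) hs t
  refine h1.trans ?_
  rw [← stepF_eq]
  exact hSL g y lam a m (longI a m eta) ha hm hL (longI_subset a m eta) (t + s)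

lemma stepF_zero_out {x : ℕ → ℝ} {lam a : ℝ} {m : ℕ} (ha : 0 < a) (hm : 1 ≤ m)
    {S : Finset (ℕ × ℕ)} (hS : S ⊆ prs m) {t : ℝ}
    (ht : t ∉ Icc (lam - a / 2) (lam + 3 * a / 2)) : R077.stepF x S lam a m t = 0 := by
  unfold R077.stepF
  refine Finset.sum_eq_zero (fun i hi => ?_)
  have hp := mem_prs.1 (hS hi)
  unfold ind
  rw [if_neg, mul_zero]
  rintro ⟨h1, h2⟩
  apply ht
  have e0 : nd lam a m 0 = lam - a / 2 := by unfold nd; simp
  have em : nd lam a m m = lam + 3 * a / 2 := by unfold nd; rw [mul_msh hm]; ring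
  have l1 : nd lam a m 0 ≤ lft lam a m i := nd_mono ha m (Nat.zero_le _)
  have l2 : rgt lam a m i ≤ nd lam a m m := nd_mono ha m hp.2.2
  rw [e0] at l1
  rw [em] at l2
  exact ⟨by linarith, by linarith⟩

lemma nd_zero (lam a : ℝ) (m : ℕ) : nd lam a m 0 = lam - a / 2 := by unfold nd; simp

lemma nd_last (lam a : ℝ) {m : ℕ} (hm : 1 ≤ m) : nd lam a m m = lam + 3 * a / 2 := by
  unfold nd; rw [mul_msh hm]; ring

/-- a long pair is really long or far from the support of the tent -/
lemma long_or_far {lam a eta : ℝ} {m : ℕ} (ha : 0 < a) (hm : 1 ≤ m) (h8 : 8 * eta ≤ a)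
    {i : ℕ × ℕ} (hi : i ∈ longI a m eta) :
    eta ≤ rgt lam a m i - lft lam a m i ∨ rgt lam a m i < lam - 2 * eta
      ∨ lam + a + 2 * eta < lft lam a m i := by
  obtain ⟨hp, hc⟩ := longI_cases hi
  by_cases hlen : eta ≤ rgt lam a m i - lft lam a m i
  · exact Or.inl hlen
  · push Not at hlen
    right
    rcases hc with h1 | h1 | h1
    · left
      have : lft lam a m i = lam - a / 2 := by
        unfold lft; rw [h1]; exact nd_zero lam a m
      linarith
    · right
      have : rgt lam a m i = lam + 3 * a / 2 := by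
        unfold rgt; rw [h1]; exact nd_last lam a hm
      linarith
    · exfalso
      rw [← rgt_sub_lft (lam := lam) hp] at h1
      linarith

theorem X4_of (hSL : StepLe) : Stmt_X4 := by
  classical
  intro f g x y lam a m eta ze rho ha ha1 hm h8 hze h16 hrho h16r hmsh hLf hLg
  have heta : 0 < eta := by linarith
  set T := longI a m eta with hT
  have hTp : T ⊆ prs m := longI_subset a m eta
  set fL := stepf T (rc x) (lft lam a m) (rgt lam a m) with hfL
  set gL := stepf T (rc y) (lft lam a m) (rgt lam a m) with hgL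
  set gS := stepf T (rc y) (fun i => lft lam a m i + ze) (fun i => rgt lam a m i - ze) with hgS
  have eF : R077.stepF x T lam a m = fL := stepF_eq x T lam a m
  have eG : R077.stepF y T lam a m = gL := stepF_eq y T lam a m
  have eS : stepShr y T lam a m ze = gS := stepShr_eq y T lam a m ze
  rw [eF, eG, eS]
  have hW := tent_wt (lam := lam) (a := a)
  have hwc := hW.continuous
  set La : ℝ := 4 / a ^ 2 with hLa
  have hLa0 : 0 ≤ La := hW.La0
  -- integrability
  have iF : Integrable fL := stepf_integrable _ _ _ _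
  have iG : Integrable gL := stepf_integrable _ _ _ _
  have iS : Integrable gS := stepf_integrable _ _ _ _
  have iwF : Integrable (fun t => tent lam a t * fL t) := w_stepf_integrable hwc _ _ _ _
  have iwG : Integrable (fun t => tent lam a t * gL t) := w_stepf_integrable hwc _ _ _ _
  have cF := continuous_box iF rho
  have cG := continuous_box iG rho
  have cS := continuous_box iS rho
  have F0 : ∀ t, 0 ≤ fL t := stepf_nonneg (fun i _ => rc_nonneg x i)
  have G0 : ∀ t, 0 ≤ gL t := stepf_nonneg (fun i _ => rc_nonneg y i)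
  have Ff : ∀ t, fL t ≤ f t := fun t => by
    rw [← eF]; exact hSL f x lam a m T ha hm hLf hTp t
  have Gg : ∀ t, gL t ≤ g t := fun t => by
    rw [← eG]; exact hSL g y lam a m T ha hm hLg hTp t
  -- product integrable : step function times continuous
  have iprod : ∀ (R : Finset (ℕ × ℕ)) (c u v : ℕ × ℕ → ℝ) (k : ℝ → ℝ), Continuous k →
      Integrable (fun t => stepf R c u v t * k t) := by
    intro R c u v k hk
    refine (w_stepf_integrable hk R c u v).congr (Filter.Eventually.of_forall (fun t => ?_))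
    simp only; ring
  have bFf : ∀ t, box fL rho t ≤ box f rho t := by
    intro t
    unfold box
    exact intervalIntegral.integral_mono_on (by linarith) iF.intervalIntegrable
      (hLf.f_cont.intervalIntegrable _ _) (fun s _ => Ff s)
  have bF0 : ∀ t, 0 ≤ box fL rho t := box_nonneg F0 hrho.le
  -- the main inequality
  set EL : ℕ × ℕ → Prop := fun j => lam - 2 * eta ≤ lft lam a m j ∧ lft lam a m j ≤ lam + a + 2 * eta
    with hEL
  set ER : ℕ × ℕ → Prop := fun j => lam - 2 * eta ≤ rgt lam a m j ∧ rgt lam a m j ≤ lam + a + 2 * eta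
    with hER
  have main := kap_bound hW (S := T) (c := rc x) (a := lft lam a m) (b := rgt lam a m)
    (fun i _ => rc_nonneg x i) (T := T) (d := rc y) (u := lft lam a m) (v := rgt lam a m)
    (fun i _ => rc_nonneg y i) (fun j hj => lft_le_rgt ha (hTp hj)) EL ER
    (rho := rho) (eta := eta) (ze := ze) hrho.le heta (by linarith) (by linarith)
    (by
      intro i hi
      rcases long_or_far (lam := lam) ha hm h8 hi with h | h | h
      · exact Or.inl h
      · right
        intro t ht
        exact tent_zero_left (by linarith [ht.2])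
      · right
        intro t ht
        exact tent_zero_right (by linarith [ht.1]))
    (by
      intro j hj hE
      rcases long_or_far (lam := lam) ha hm h8 hj with h | h | h
      · exact h
      · exfalso
        have := lft_le_rgt (lam := lam) ha (hTp hj)
        linarith [hE.1]
      · exfalso
        linarith [hE.2])
    (by
      intro j hj hE
      rcases long_or_far (lam := lam) ha hm h8 hj with h | h | h
      · exact h
      · exfalso
        linarith [hE.1]
      · exfalso
        have := lft_le_rgt (lam := lam) ha (hTp hj)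
        linarith [hE.2])
    (by
      intro j hj hE t ht
      rcases lt_or_ge (lft lam a m j) (lam - 2 * eta) with h | h
      · exact tent_zero_left (by linarith [ht.2])
      · have : lam + a + 2 * eta < lft lam a m j := by
          by_contra hc; push Not at hc; exact hE ⟨h, hc⟩
        exact tent_zero_right (by linarith [ht.1]))
    (by
      intro j hj hE t ht
      rcases lt_or_ge (rgt lam a m j) (lam - 2 * eta) with h | h
      · exact tent_zero_left (by linarith [ht.2])
      · have : lam + a + 2 * eta < rgt lam a m j := by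
          by_contra hc; push Not at hc; exact hE ⟨h, hc⟩
        exact tent_zero_right (by linarith [ht.1]))
  -- names
  set A := ∫ t, tent lam a t * fL t * box gL rho t with hA
  set B := ∫ t, tent lam a t * fL t * box gS rho t with hB
  set C := ∫ t, tent lam a t * gL t * box fL rho t with hC
  set E := ∫ t, gL t * box fL rho t with hE
  set D := ∫ t in Icc (lam - a / 2) (lam + 3 * a / 2), g t * box f rho t with hD
  -- (1) the left side is A - B
  have e1 : ∫ t, tent lam a t * fL t * R077.box (fun s => gL s - gS s) rho t = A - B := by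
    have hb : ∀ t, R077.box (fun s => gL s - gS s) rho t = box gL rho t - box gS rho t := by
      intro t
      show ∫ s in (t - rho)..(t + rho), (gL s - gS s) = _
      unfold box
      exact intervalIntegral.integral_sub iG.intervalIntegrable iS.intervalIntegrable
    simp_rw [hb, mul_sub]
    rw [hA, hB]
    refine integral_sub ?_ ?_
    · refine (iprod T (rc x) (lft lam a m) (rgt lam a m) _ (hwc.mul cG)).congr
        (Filter.Eventually.of_forall (fun t => ?_))
      simp only [hfL, Pi.mul_apply]; ring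
    · refine (iprod T (rc x) (lft lam a m) (rgt lam a m) _ (hwc.mul cS)).congr
        (Filter.Eventually.of_forall (fun t => ?_))
      simp only [hfL, Pi.mul_apply]; ring
  -- (2) A ≤ C + La ρ E
  have e2 : A ≤ C + La * rho * E := by
    have : A = ∫ s, gL s * box (fun t => tent lam a t * fL t) rho s := by
      rw [hA]; exact box_swap iwF iG hrho.le
    rw [this, hC, hE, ← integral_const_mul, ← integral_add]
    · refine integral_mono ?_ ?_ (fun s => ?_)
      · exact iprod _ _ _ _ _ (continuous_box iwF rho)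
      · exact ((iprod T (rc y) (lft lam a m) (rgt lam a m) _ (hwc.mul cF)).congr
          (Filter.Eventually.of_forall (fun t => by simp only [hgL, Pi.mul_apply]; ring))).add
          ((iprod T (rc y) (lft lam a m) (rgt lam a m) _ cF).const_mul (La * rho))
      · show gL s * box (fun t => tent lam a t * fL t) rho s
          ≤ tent lam a s * gL s * box fL rho s + La * rho * (gL s * box fL rho s)
        have h1 : box (fun t => tent lam a t * fL t) rho s
            ≤ (tent lam a s + La * rho) * box fL rho s := by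
          rw [← box_const_mul]
          refine box_mono_on iwF (iF.const_mul _) hrho.le (fun t ht => ?_)
          exact mul_le_mul_of_nonneg_right (hW.le t s ht) (F0 t)
        have h2 := mul_le_mul_of_nonneg_left h1 (G0 s)
        calc gL s * box (fun t => tent lam a t * fL t) rho s
            ≤ gL s * ((tent lam a s + La * rho) * box fL rho s) := h2
          _ = _ := by ring
    · refine (iprod T (rc y) (lft lam a m) (rgt lam a m) _ (hwc.mul cF)).congr
        (Filter.Eventually.of_forall (fun t => by simp only [hgL, Pi.mul_apply]; ring))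
    · exact (iprod T (rc y) (lft lam a m) (rgt lam a m) _ cF).const_mul (La * rho)
  -- (3) E = the swapped one, E ≤ D, C ≥ 0
  have e3 : ∫ t, fL t * box gL rho t = E := by
    rw [hE]; exact box_swap iF iG hrho.le
  have e4 : E ≤ D := by
    have h1 : E = ∫ t in Icc (lam - a / 2) (lam + 3 * a / 2), gL t * box fL rho t := by
      rw [hE]
      refine (setIntegral_eq_integral_of_forall_compl_eq_zero (fun t ht => ?_)).symm
      rw [← eG, stepF_zero_out ha hm hTp ht, zero_mul]
    rw [h1, hD]
    refine setIntegral_mono_on ?_ ?_ measurableSet_Icc (fun t _ => ?_)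
    · exact (iprod T (rc y) (lft lam a m) (rgt lam a m) _ cF).integrableOn
    · have cbf : Continuous (box f rho) := by
        unfold box
        have h2 : ∀ t : ℝ, ∫ s in (t - rho)..(t + rho), f s
            = (∫ s in (0:ℝ)..(t + rho), f s) - ∫ s in (0:ℝ)..(t - rho), f s := by
          intro t
          rw [intervalIntegral.integral_interval_sub_left (hLf.f_cont.intervalIntegrable _ _)
            (hLf.f_cont.intervalIntegrable _ _)]
        simp_rw [h2]
        have hc : Continuous (fun x : ℝ => ∫ s in (0:ℝ)..x, f s) :=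
          intervalIntegral.continuous_primitive (fun a b => hLf.f_cont.intervalIntegrable a b) 0
        exact (hc.comp (by fun_prop)).sub (hc.comp (by fun_prop))
      exact (hLg.f_cont.mul cbf).integrableOn_Icc
    · exact mul_le_mul (Gg t) (bFf t) (bF0 t) (hLg.f_nonneg t)
  have e5 : 0 ≤ C := by
    rw [hC]
    exact integral_nonneg (fun t => mul_nonneg (mul_nonneg (tent_nonneg t) (G0 t)) (bF0 t))
  have e6 : 0 ≤ E := by
    rw [hE]
    exact integral_nonneg (fun t => mul_nonneg (G0 t) (bF0 t))
  -- (4) the end sums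
  have e7 : (∑ j ∈ T.filter EL, rc y j * ((tent lam a (lft lam a m j) + 2 * La * ze)
        * box fL rho (lft lam a m j)))
      + (∑ j ∈ T.filter ER, rc y j * ((tent lam a (rgt lam a m j) + 2 * La * ze)
        * box fL rho (rgt lam a m j)))
      ≤ tvS (R077.box f rho) y T lam a m eta := by
    unfold tvS
    rw [Finset.sum_filter, Finset.sum_filter, ← Finset.sum_add_distrib]
    refine Finset.sum_le_sum (fun j hj => ?_)
    have hrc := rc_nonneg y j
    have hend : ∀ z : ℝ, (if lam - 2 * eta ≤ z ∧ z ≤ lam + a + 2 * eta then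
        rc y j * ((tent lam a z + 2 * La * ze) * box fL rho z) else 0)
        ≤ rc y j * (wend lam a eta z * R077.box f rho z) := by
      intro z
      unfold wend
      split_ifs with hz
      · refine mul_le_mul_of_nonneg_left ?_ hrc
        have h1 : 0 ≤ tent lam a z := tent_nonneg z
        refine mul_le_mul ?_ (bFf z) (bF0 z) (by positivity)
        have : La * ze ≤ La * eta := mul_le_mul_of_nonneg_left (by linarith) hLa0
        linarith
      · simp
    have h1 := hend (lft lam a m j)
    have h2 := hend (rgt lam a m j)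
    rw [mul_add]
    exact add_le_add h1 h2
  -- assemble
  rw [e1]
  rw [e3] at main
  have hq : 0 ≤ ze / eta := by positivity
  have m1 : A - B ≤ 8 * ze / eta * A + ze * tvS (R077.box f rho) y T lam a m eta
      + 8 * ze * La * E := by
    have := mul_le_mul_of_nonneg_left e7 hze.le
    nlinarith [main]
  have m2 : 8 * ze / eta * A ≤ 8 * (ze / eta) * (C + La * rho * E) := by
    rw [mul_div_assoc]
    exact mul_le_mul_of_nonneg_left e2 (by positivity)
  have m3 : 8 * (ze / eta) * (La * rho * E) ≤ 8 * ze * La * E := by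
    have : ze / eta * rho ≤ ze := by
      rw [div_mul_eq_mul_div, div_le_iff₀ heta]
      exact mul_le_mul_of_nonneg_left (by linarith) hze.le
    have h0 : 0 ≤ 8 * La * E := by positivity
    nlinarith [mul_le_mul_of_nonneg_left this h0]
  have m4 : 16 * ze * La * E ≤ 16 * (ze / eta) * La * eta * D := by
    have e : 16 * (ze / eta) * La * eta = 16 * ze * La := by field_simp
    rw [e]
    exact mul_le_mul_of_nonneg_left e4 (by positivity)
  have m5 : 8 * (ze / eta) * C ≤ 16 * (ze / eta) * C := by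
    have : 0 ≤ (ze / eta) * C := mul_nonneg hq e5
    linarith
  show A - B ≤ ze * tvS (R077.box f rho) y T lam a m eta + 16 * (ze / eta) * C
    + 16 * (ze / eta) * La * eta * D
  linarith

end Crest.Agent.R077.StepX
end

-- ▼ part R077/StepX3
section

/-!
# Row 77: layer adapter used by STEP X and `Stmt_X3` (helper615)
-/

set_option autoImplicit false

namespace Crest.Agent.R077.StepX

open MeasureTheory Set

/-! ## real part of X3 -/

/-- the constant of X3 -/
noncomputable def K3 (b p lam a L : ℝ) : ℝ :=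
  Real.exp (|b| / p) * ((p + 1) / p) * (L * (Real.exp (|b| * (|lam| + a) / p) * L ^ (1 / p)))

lemma exp_le_cb {b p ze : ℝ} (hp : 0 < p) (hze : 0 ≤ ze) (hze1 : ze ≤ 1) :
    Real.exp (|b| * ze / p) ≤ 1 + cb b p * ze := by
  unfold cb
  set c := |b| / p with hc
  have hc0 : 0 ≤ c := by positivity
  have e : |b| * ze / p = c * ze := by rw [hc]; ring
  rw [e]
  have hcz : 0 ≤ c * ze := by positivity
  -- exp u ≤ 1 + u exp u
  have h1 : Real.exp (c * ze) ≤ 1 + c * ze * Real.exp (c * ze) := by
    have h2 := Real.add_one_le_exp (-(c * ze))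
    have h3 := Real.exp_pos (c * ze)
    have h4 := mul_le_mul_of_nonneg_right h2 h3.le
    rw [← Real.exp_add, neg_add_cancel, Real.exp_zero] at h4
    nlinarith
  have h5 : Real.exp (c * ze) ≤ Real.exp c := Real.exp_le_exp.2 (by nlinarith)
  have h6 := mul_le_mul_of_nonneg_left h5 hcz
  nlinarith

lemma x3_real {b p lam a L t s ze h y z fs vs : ℝ} (hp : 0 < p) (hL : 1 ≤ L) (ha : 0 < a)
    (ht : t ∈ Icc lam (lam + a)) (hze : 0 ≤ ze) (hze1 : ze ≤ 1) (hst : |s - t| ≤ ze) (hh : 0 ≤ h)
    (hv : 0 < vs) (hf : fs = Real.exp (b * s) * vs ^ p) (hfy : fs ≤ y + L * h)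
    (hyL : y + L * h ≤ L) (hz0 : 0 ≤ z) (hzy : z ≤ y) :
    z * vs ≤ (1 + cb b p * ze) * ((p + 1) / p) * R077.psi b p t y + K3 b p lam a L * h := by
  have hL0 : 0 < L := by linarith
  have hLh : 0 ≤ L * h := by positivity
  have hy0 : 0 ≤ y := hz0.trans hzy
  set y' := y + L * h with hy'
  have hy'0 : 0 ≤ y' := by positivity
  have hfs0 : 0 ≤ fs := by rw [hf]; positivity
  -- v s = esg fs s
  have h1 : vs = esg b p fs s := by
    unfold esg
    rw [hf, ← mul_assoc, ← Real.exp_add, neg_add_cancel, Real.exp_zero, one_mul,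
      ← Real.rpow_mul hv.le, mul_one_div_cancel hp.ne', Real.rpow_one]
  have h2 : vs ≤ Real.exp (-(b * s) / p) * y' ^ (1 / p) := by
    rw [h1, esg_eq hfs0]
    exact mul_le_mul_of_nonneg_left (Real.rpow_le_rpow hfs0 hfy (by positivity))
      (Real.exp_pos _).le
  have h3 : Real.exp (-(b * s) / p) ≤ Real.exp (|b| * ze / p) * Real.exp (-(b * t) / p) := by
    rw [← Real.exp_add]
    refine Real.exp_le_exp.2 ?_
    rw [← add_div]
    refine div_le_div_of_nonneg_right ?_ hp.le
    have : |b * (s - t)| ≤ |b| * ze := by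
      rw [abs_mul]; exact mul_le_mul_of_nonneg_left hst (abs_nonneg b)
    have := neg_abs_le (b * (s - t))
    linarith
  have hyp : 0 ≤ y' ^ (1 / p) := Real.rpow_nonneg hy'0 _
  have h4 : z * vs ≤ Real.exp (|b| * ze / p) * (((p + 1) / p) * R077.psi b p t y') := by
    have h5 : vs ≤ (Real.exp (|b| * ze / p) * Real.exp (-(b * t) / p)) * y' ^ (1 / p) :=
      h2.trans (mul_le_mul_of_nonneg_right h3 hyp)
    have h6 : z * vs ≤ y' * ((Real.exp (|b| * ze / p) * Real.exp (-(b * t) / p)) * y' ^ (1 / p)) :=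
      mul_le_mul (hzy.trans (by linarith)) h5 hv.le hy'0
    refine h6.trans (le_of_eq ?_)
    unfold R077.psi
    have e2 : y' ^ ((p + 1) / p) = y' * y' ^ (1 / p) := by
      rcases eq_or_lt_of_le hy'0 with h | h
      · rw [← h, Real.zero_rpow (by positivity), zero_mul]
      · rw [show (p + 1) / p = 1 + 1 / p by field_simp, Real.rpow_add h, Real.rpow_one]
    rw [e2]
    field_simp
  have h7 : R077.psi b p t y' ≤ R077.psi b p t y + L * h * esg b p y' t := by
    have := psi_sub_le (b := b) (t := t) hp hy0 (by linarith : y ≤ y')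
    have e : y' - y = L * h := by rw [hy']; ring
    rw [e] at this
    linarith
  have h8 : esg b p y' t ≤ Real.exp (|b| * (|lam| + a) / p) * L ^ (1 / p) := by
    rw [esg_eq hy'0]
    refine mul_le_mul (Real.exp_le_exp.2 ?_) (Real.rpow_le_rpow hy'0 hyL (by positivity)) hyp
      (Real.exp_pos _).le
    refine div_le_div_of_nonneg_right ?_ hp.le
    have h9 : |b * t| ≤ |b| * (|lam| + a) := by
      rw [abs_mul]
      refine mul_le_mul_of_nonneg_left ?_ (abs_nonneg b)
      rw [abs_le]
      have := neg_abs_le lam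
      have := le_abs_self lam
      exact ⟨by linarith [ht.1], by linarith [ht.2]⟩
    have := neg_abs_le (b * t)
    linarith
  have hexp1 := exp_le_cb (b := b) hp hze hze1
  have hexp2 : Real.exp (|b| * ze / p) ≤ Real.exp (|b| / p) := by
    refine Real.exp_le_exp.2 (div_le_div_of_nonneg_right ?_ hp.le)
    have := abs_nonneg b
    nlinarith
  have hpp : 0 ≤ (p + 1) / p := by positivity
  have hpsi0 : 0 ≤ R077.psi b p t y := psi_nonneg hp hy0
  calc z * vs ≤ Real.exp (|b| * ze / p) * (((p + 1) / p) * R077.psi b p t y') := h4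
    _ ≤ Real.exp (|b| * ze / p) * (((p + 1) / p) * (R077.psi b p t y + L * h * esg b p y' t)) := by
        gcongr
    _ = Real.exp (|b| * ze / p) * (((p + 1) / p) * R077.psi b p t y)
        + Real.exp (|b| * ze / p) * (((p + 1) / p) * (L * h * esg b p y' t)) := by ring
    _ ≤ (1 + cb b p * ze) * (((p + 1) / p) * R077.psi b p t y)
        + Real.exp (|b| / p) * (((p + 1) / p) * (L * h *
          (Real.exp (|b| * (|lam| + a) / p) * L ^ (1 / p)))) := by
        have hes : 0 ≤ esg b p y' t := by rw [esg_eq hy'0]; positivity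
        refine add_le_add (mul_le_mul_of_nonneg_right hexp1 (by positivity)) ?_
        refine mul_le_mul hexp2 ?_ (by positivity) (Real.exp_pos _).le
        refine mul_le_mul_of_nonneg_left ?_ hpp
        exact mul_le_mul_of_nonneg_left h8 hLh
    _ = _ := by unfold K3; ring

/-! ## layer adapter -/

lemma rc_eq_cc {x : ℕ → ℝ} (hx : ∀ k, 0 ≤ x k) {i : ℕ × ℕ} (h1 : 1 ≤ i.1) (h2 : i.1 ≤ i.2) :
    rc x i = Layers.cc x i.1 i.2 := Layers.volume_isRunL hx h1 h2

/-- indicator on the cell `k` -/
lemma ind_cell {lam a : ℝ} (ha : 0 < a) {m k : ℕ} {i : ℕ × ℕ} (hi : i ∈ prs m) {t : ℝ}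
    (h1 : nd lam a m (k - 1) ≤ t) (h2 : t < nd lam a m k) :
    ind lam a m i t = if i.1 ≤ k ∧ k ≤ i.2 then 1 else 0 := by
  rw [mem_prs] at hi
  unfold ind lft rgt
  by_cases hk : i.1 ≤ k ∧ k ≤ i.2
  · rw [if_pos hk, if_pos]
    exact ⟨(nd_mono ha m (by omega)).trans h1, h2.trans_le (nd_mono ha m hk.2)⟩
  · rw [if_neg hk, if_neg]
    rintro ⟨h3, h4⟩
    apply hk
    constructor
    · by_contra hc
      push Not at hc
      have := nd_mono (lam := lam) ha m (show k ≤ i.1 - 1 by omega)
      linarith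
    · by_contra hc
      push Not at hc
      have := nd_mono (lam := lam) ha m (show i.2 ≤ k - 1 by omega)
      linarith

lemma stepF_cell {x : ℕ → ℝ} (hx : ∀ k, 0 ≤ x k) {lam a : ℝ} (ha : 0 < a) {m k : ℕ}
    {S : Finset (ℕ × ℕ)} (hS : S ⊆ prs m) {t : ℝ}
    (h1 : nd lam a m (k - 1) ≤ t) (h2 : t < nd lam a m k) :
    R077.stepF x S lam a m t
      = ∑ i ∈ S.filter (fun i => i.1 ≤ k ∧ k ≤ i.2), Layers.cc x i.1 i.2 := by
  unfold R077.stepF
  rw [Finset.sum_filter]
  refine Finset.sum_congr rfl (fun i hi => ?_)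
  have hp := mem_prs.1 (hS hi)
  rw [ind_cell ha (hS hi) h1 h2, rc_eq_cc hx hp.1 hp.2.1]
  split_ifs <;> simp

/-- the class of long pairs -/
def Lg (a : ℝ) (m : ℕ) (eta : ℝ) (i : ℕ × ℕ) : Prop :=
  ¬ (2 ≤ i.1 ∧ i.2 + 1 ≤ m ∧ ((i.2 : ℝ) - i.1 + 1) * msh a m < eta)

lemma longI_eq_filter (a : ℝ) (m : ℕ) (eta : ℝ) [DecidablePred (Lg a m eta)] :
    longI a m eta = (prs m).filter (Lg a m eta) := by
  classical
  ext i
  unfold longI shortI
  simp only [Finset.mem_sdiff, Finset.mem_filter, Lg]
  tauto

lemma Lg_upClosed {a : ℝ} (ha : 0 < a) (m : ℕ) (eta : ℝ) :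
    Layers.UpClosed (Lg a m eta) m := by
  intro p _ q _ h1 h2 hp hq
  apply hp
  refine ⟨by omega, by omega, lt_of_le_of_lt ?_ hq.2.2⟩
  refine mul_le_mul_of_nonneg_right ?_ (msh_nonneg ha m)
  have h3 : (q.1 : ℝ) ≤ p.1 := by exact_mod_cast h1
  have h4 : (p.2 : ℝ) ≤ q.2 := by exact_mod_cast h2
  linarith

lemma stepF_long_cell {x : ℕ → ℝ} (hx : ∀ k, 0 ≤ x k) {lam a eta : ℝ} (ha : 0 < a) {m k : ℕ}
    [DecidablePred (Lg a m eta)] {t : ℝ}
    (h1 : nd lam a m (k - 1) ≤ t) (h2 : t < nd lam a m k) :
    R077.stepF x (longI a m eta) lam a m t = Layers.xL (Lg a m eta) x m k := by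
  rw [stepF_cell hx ha (longI_subset a m eta) h1 h2, longI_eq_filter]
  unfold Layers.xL
  refine Finset.sum_congr ?_ (fun _ _ => rfl)
  ext i
  simp only [Finset.mem_filter, mem_prs, Layers.mem_pairsAt]
  constructor
  · rintro ⟨⟨h3, h4⟩, h5⟩
    exact ⟨⟨h3.1, h5.1, h5.2, h3.2.2⟩, h4⟩
  · rintro ⟨h3, h4⟩
    exact ⟨⟨⟨h3.1, h3.2.1.trans h3.2.2.1, h3.2.2.2⟩, h4⟩, h3.2.1, h3.2.2.1⟩

lemma exists_cell {lam a : ℝ} (ha : 0 < a) {m : ℕ} (hm : 1 ≤ m) {t : ℝ}
    (h1 : nd lam a m 0 ≤ t) (h2 : t < nd lam a m m) :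
    ∃ k, 1 ≤ k ∧ k ≤ m ∧ nd lam a m (k - 1) ≤ t ∧ t < nd lam a m k := by
  have hh := msh_pos ha hm
  have h0 : 0 ≤ (t - nd lam a m 0) / msh a m := div_nonneg (by linarith) hh.le
  have hnd : ∀ k : ℕ, nd lam a m k = nd lam a m 0 + k * msh a m := by
    intro k; unfold nd; simp
  refine ⟨⌊(t - nd lam a m 0) / msh a m⌋₊ + 1, by omega, ?_, ?_, ?_⟩
  · have : ⌊(t - nd lam a m 0) / msh a m⌋₊ < m := by
      rw [Nat.floor_lt h0, div_lt_iff₀ hh]
      rw [hnd m] at h2
      linarith
    omega
  · rw [Nat.add_sub_cancel, hnd]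
    have := Nat.floor_le h0
    rw [le_div_iff₀ hh] at this
    linarith
  · rw [hnd]
    have := Nat.lt_floor_add_one ((t - nd lam a m 0) / msh a m)
    rw [div_lt_iff₀ hh] at this
    push_cast
    linarith

lemma stepF_zero_out' {x : ℕ → ℝ} {lam a : ℝ} {m : ℕ} (ha : 0 < a)
    {S : Finset (ℕ × ℕ)} (hS : S ⊆ prs m) {t : ℝ}
    (ht : ¬ (nd lam a m 0 ≤ t ∧ t < nd lam a m m)) : R077.stepF x S lam a m t = 0 := by
  unfold R077.stepF
  refine Finset.sum_eq_zero (fun i hi => ?_)
  have hp := mem_prs.1 (hS hi)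
  unfold ind
  rw [if_neg, mul_zero]
  rintro ⟨h1, h2⟩
  apply ht
  have l1 : nd lam a m 0 ≤ lft lam a m i := nd_mono ha m (Nat.zero_le _)
  have l2 : rgt lam a m i ≤ nd lam a m m := nd_mono ha m hp.2.2
  exact ⟨by linarith, by linarith⟩

theorem stepLe : StepLe := by
  intro f x lam a m S ha hm hL hS t
  by_cases ht : nd lam a m 0 ≤ t ∧ t < nd lam a m m
  · obtain ⟨k, hk1, hkm, hk2, hk3⟩ := exists_cell ha hm ht.1 ht.2
    have hseq : Layers.Seq x m := ⟨hL.x_zero, hL.x_out _ (by omega), hL.x_nonneg⟩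
    rw [stepF_cell hL.x_nonneg ha hS hk2 hk3]
    refine le_trans ?_ (hL.x_le k hk1 hkm t hk2 hk3.le)
    rw [← Layers.sum_cc hseq hk1 hkm]
    refine Finset.sum_le_sum_of_subset_of_nonneg ?_ (fun i _ _ => Layers.cc_nonneg x i.1 i.2)
    intro i hi
    rw [Finset.mem_filter] at hi
    have hp := mem_prs.1 (hS hi.1)
    rw [Layers.mem_pairsAt]
    omega
  · rw [stepF_zero_out' ha hS ht]
    exact hL.f_nonneg t

theorem X1 : Stmt_X1 := X1_of stepLe

theorem X4 : Stmt_X4 := X4_of stepLe

/-! ## X3 -/

theorem X3 : Stmt_X3 := by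
  classical
  intro b p lam a L ha ha1
  refine ⟨|K3 b p lam a L|, abs_nonneg _, ?_⟩
  intro f v m eta ze hS hm hLm hze hzeta h8 hmz t ht
  have hp := hS.hp
  have hL := hS.hL
  have hL0 : 0 < L := by linarith
  have hh := msh_pos ha hm
  have hnd : ∀ k : ℕ, nd lam a m k = nd lam a m 0 + k * msh a m := by
    intro k; unfold nd; simp
  have hnd0 : nd lam a m 0 = lam - a / 2 := nd_zero lam a m
  have hndm : nd lam a m m = lam + 3 * a / 2 := nd_last lam a hm
  have hndI : ∀ k, k ≤ m → nd lam a m k ∈ Icc (lam - 2) (lam + 4) := by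
    intro k hk
    have h1 := nd_mono (lam := lam) ha m (Nat.zero_le k)
    have h2 := nd_mono (lam := lam) ha m hk
    rw [hnd0] at h1
    rw [hndm] at h2
    exact ⟨by linarith, by linarith⟩
  set x := samp f lam a m L with hx
  have hxin : ∀ k, 1 ≤ k → k ≤ m → x k = f (nd lam a m k) - L * msh a m := by
    intro k h1 h2
    rw [hx]; unfold samp; rw [if_pos ⟨h1, h2⟩]
  have hx0 : ∀ k, 0 ≤ x k := by
    intro k
    by_cases hk : 1 ≤ k ∧ k ≤ m
    · rw [hxin k hk.1 hk.2]
      have h1 := hS.f_ge _ (hndI k hk.2)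
      have h2 : 0 ≤ L * (f (nd lam a m k) - L * msh a m) := by
        have : L * (L * msh a m) ≤ 1 := by
          have : L * (L * msh a m) = L ^ 2 * msh a m := by ring
          rw [this]
          have : 0 ≤ L ^ 2 * msh a m := by positivity
          linarith
        linarith
      exact nonneg_of_mul_nonneg_right h2 hL0
    · rw [hx]; unfold samp; rw [if_neg hk]
  have hseq : Layers.Seq x m := by
    refine ⟨?_, ?_, hx0⟩
    · rw [hx]; unfold samp; rw [if_neg (by omega)]
    · rw [hx]; unfold samp; rw [if_neg (by omega)]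
  -- the cell
  obtain ⟨k, hk1, hkm, hk2, hk3⟩ := exists_cell (lam := lam) ha hm (t := t)
    (by rw [hnd0]; linarith [ht.1]) (by rw [hndm]; linarith [ht.2])
  rw [stepF_long_cell hx0 ha hk2 hk3, stepF_long_cell hx0 ha hk2 hk3]
  set y := Layers.xL (Lg a m ze) x m k with hy
  set z := Layers.xL (Lg a m eta) x m k with hz
  have hz0 : 0 ≤ z := Layers.xL_nonneg _ _ _ _
  have hzy : z ≤ y := by
    refine Layers.xL_mono (fun i _ hi hs => hi ⟨hs.1, hs.2.1, hs.2.2.trans_le hzeta⟩)
  -- the window of nodes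
  set i1 := ⌈(t - ze - nd lam a m 0) / msh a m⌉₊ with hi1
  set i2 := ⌊(t + ze - nd lam a m 0) / msh a m⌋₊ with hi2
  have hpos1 : 0 < (t - ze - nd lam a m 0) / msh a m := by
    refine div_pos ?_ hh
    rw [hnd0]; linarith [ht.1]
  have hpos2 : 0 ≤ (t + ze - nd lam a m 0) / msh a m := by
    refine div_nonneg ?_ hh.le
    rw [hnd0]; linarith [ht.1]
  have hi1pos : 1 ≤ i1 := Nat.one_le_iff_ne_zero.2 (by
    have := Nat.ceil_pos.2 hpos1
    omega)
  have hi1k : i1 ≤ k := by
    rw [hi1, Nat.ceil_le, div_le_iff₀ hh]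
    rw [hnd k] at hk3
    linarith
  have hki2 : k ≤ i2 := by
    rw [hi2, Nat.le_floor_iff hpos2, le_div_iff₀ hh]
    rw [hnd (k - 1), Nat.cast_sub hk1] at hk2
    push_cast at hk2
    linarith
  have hi2m : i2 ≤ m := by
    have h1 := Nat.floor_le hpos2
    rw [← hi2, le_div_iff₀ hh] at h1
    have h2 : (i2 : ℝ) * msh a m ≤ m * msh a m := by
      have := hnd m
      rw [hndm] at this
      have : (m : ℝ) * msh a m = lam + 3 * a / 2 - nd lam a m 0 := by linarith
      rw [this]
      linarith [ht.2]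
    have h3 : (i2 : ℝ) ≤ m := le_of_mul_le_mul_right h2 hh
    exact_mod_cast h3
  have hlen : ze ≤ ((i2 : ℝ) - i1 + 1) * msh a m := by
    have h1 := Nat.lt_floor_add_one ((t + ze - nd lam a m 0) / msh a m)
    rw [← hi2, div_lt_iff₀ hh] at h1
    have h2 := Nat.ceil_lt_add_one hpos1.le
    rw [← hi1] at h2
    have h3 : ((i1 : ℝ) - 1) * msh a m < t - ze - nd lam a m 0 := by
      rw [← lt_div_iff₀ hh]; linarith
    nlinarith
  have hLgw : Lg a m ze (i1, i2) := by
    intro h
    have := h.2.2
    simp only at this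
    linarith
  have hmem : (i1, i2) ∈ Layers.pairsAt m k := by
    rw [Layers.mem_pairsAt]
    simp only
    omega
  -- the minimum over the window
  obtain ⟨j, hj, hjmin⟩ := Finset.exists_min_image (Finset.Icc i1 i2) x
    ⟨k, Finset.mem_Icc.2 ⟨hi1k, hki2⟩⟩
  rw [Finset.mem_Icc] at hj
  have hxy : x j ≤ y := Layers.le_xL hseq (Lg_upClosed ha m ze) hmem hLgw
    (fun j' h1 h2 => hjmin j' (Finset.mem_Icc.2 ⟨h1, h2⟩))
  have hxj := hxin j (by omega) (by omega)
  have hxk := hxin k hk1 hkm
  have hyx : y ≤ x k := Layers.xL_le hseq hk1 hkm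
  refine ⟨nd lam a m j, ?_, ?_⟩
  · -- |nd j - t| ≤ ze
    have h1 : (j : ℝ) * msh a m ≤ t + ze - nd lam a m 0 := by
      rw [← le_div_iff₀ hh, ← Nat.le_floor_iff hpos2]; exact hj.2
    have h2 : t - ze - nd lam a m 0 ≤ (j : ℝ) * msh a m := by
      rw [← div_le_iff₀ hh, ← Nat.ceil_le]; exact hj.1
    rw [hnd j, abs_le]
    exact ⟨by linarith, by linarith⟩
  · have h1 : |nd lam a m j - t| ≤ ze := by
      have h1 : (j : ℝ) * msh a m ≤ t + ze - nd lam a m 0 := by
        rw [← le_div_iff₀ hh, ← Nat.le_floor_iff hpos2]; exact hj.2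
      have h2 : t - ze - nd lam a m 0 ≤ (j : ℝ) * msh a m := by
        rw [← div_le_iff₀ hh, ← Nat.ceil_le]; exact hj.1
      rw [hnd j, abs_le]
      exact ⟨by linarith, by linarith⟩
    have h2 := x3_real (b := b) (p := p) (lam := lam) (a := a) (L := L) (t := t)
      (s := nd lam a m j) (ze := ze) (h := msh a m) (y := y) (z := z)
      (fs := f (nd lam a m j)) (vs := v (nd lam a m j)) hp hL ha ht hze.le
      (by linarith) h1 hh.le (hS.v_pos _) (hS.feq _) (by linarith)
      (by
        have := hS.f_le _ (hndI k hkm)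
        linarith) hz0 hzy
    refine h2.trans ?_
    have := mul_le_mul_of_nonneg_right (le_abs_self (K3 b p lam a L)) hh.le
    linarith

end Crest.Agent.R077.StepX
end

-- ▼ part R077/IntXEnd
section

/-!
# Row 77: STEP X, end part, integrated (helper392)
-/

set_option autoImplicit false
open MeasureTheory Set Real
open scoped ENNReal Topology

namespace Crest.Agent.R077.XEnd

section cyl
variable {M : Type} [MeasurableSpace M] {μ : Measure M}

theorem box_continuous {g : ℝ → ℝ} (hg : Continuous g) (ρ : ℝ) : Continuous (box g ρ) :=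
  StepR1.continuous_bx hg.locallyIntegrable ρ

/-- the window integral `∫_W G(t,θ') box F(·,θ) ρ t dt` -/
theorem window_near [IsFiniteMeasure μ] {S : Cyl M μ} {lam a L : ℝ} {m : ℕ}
    (hW : WinOK S lam a m L) {δ : ℝ} (hδ1 : δ ≤ 1) :
    Integrable (fun z : ℝ × M × M => ∫ t in Icc (lam - a / 2) (lam + 3 * a / 2),
      S.G t z.2.2 * box (fun s => S.F s z.2.1) z.1 t) (S.nuN δ) ∧
    ∫ z, (∫ t in Icc (lam - a / 2) (lam + 3 * a / 2),
      S.G t z.2.2 * box (fun s => S.F s z.2.1) z.1 t) ∂(S.nuN δ) ≤ S.J2 (lam + 2 * a) := by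
  have ha := hW.ha
  have ha1 := hW.ha1
  set W : Set ℝ := Icc (lam - a / 2) (lam + 3 * a / 2) with hWd
  have hcont : ∀ z : ℝ × M × M, Continuous fun t =>
      S.G t z.2.2 * box (fun s => S.F s z.2.1) z.1 t := fun z =>
    (RN.G_cont (S := S) z.2.2).mul (box_continuous (RN.F_cont (S := S) z.2.1) z.1)
  have hio : ∀ z : ℝ × M × M, IntegrableOn (fun t =>
      S.G t z.2.2 * box (fun s => S.F s z.2.1) z.1 t) W volume := fun z =>
    (hcont z).continuousOn.integrableOn_compact isCompact_Icc
  -- measurability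
  have hm : Measurable fun z : ℝ × M × M => ∫ t in W,
      S.G t z.2.2 * box (fun s => S.F s z.2.1) z.1 t := by
    refine ML.measurable_integral (f := fun (z : ℝ × M × M) t =>
      S.G t z.2.2 * box (fun s => S.F s z.2.1) z.1 t) ?_ (volume.restrict W)
    have h1 : Measurable fun y : (ℝ × M × M) × ℝ => y.1.2.1 :=
      measurable_fst.comp (measurable_snd.comp measurable_fst)
    have h2 : Measurable fun y : (ℝ × M × M) × ℝ => y.1.2.2 :=
      measurable_snd.comp (measurable_snd.comp measurable_fst)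
    exact (ML.meas_G S measurable_snd h2).mul
      (ML.meas_boxF S (measurable_fst.comp measurable_fst) measurable_snd h1)
  have hnn : ∀ z : ℝ × M × M, 0 < z.1 → ∀ t,
      0 ≤ S.G t z.2.2 * box (fun s => S.F s z.2.1) z.1 t := fun z hz t =>
    mul_nonneg (RN.G_pos S t _).le (RN.box_nonneg (fun s => (RN.F_pos S s _).le) hz.le t)
  have hsub : ∀ t ∈ W, t ∈ Icc (lam - 1) (lam + 3) := by
    intro t ht
    exact ⟨by linarith [ht.1], by linarith [ht.2]⟩
  have hint : Integrable (fun z : ℝ × M × M => ∫ t in W,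
      S.G t z.2.2 * box (fun s => S.F s z.2.1) z.1 t) (S.nuN δ) := by
    refine RN.int_of_bound hW (C := L * (2 * L) * (volume W).toReal) hδ1 hm ?_
    intro z hz hzδ
    have hL := (hW.solF z.2.1).hL
    have hb : ∀ t ∈ W, ‖S.G t z.2.2 * box (fun s => S.F s z.2.1) z.1 t‖
        ≤ L * (2 * z.1 * L) := by
      intro t ht
      have ht' := hsub t ht
      rw [Real.norm_eq_abs, abs_of_nonneg (hnn z hz t)]
      apply mul_le_mul
      · exact (hW.solG z.2.2).f_le t ⟨by linarith [ht'.1], by linarith [ht'.2]⟩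
      · exact RN.box_le ((RN.F_cont (S := S) z.2.1).intervalIntegrable _ _) hz.le
          (by linarith) ht' (hW.solF z.2.1).f_le
      · exact RN.box_nonneg (fun s => (RN.F_pos S s _).le) hz.le t
      · linarith
    have hfin : volume W < ∞ := by rw [hWd]; simp
    have h := norm_setIntegral_le_of_norm_le_const hfin hb
    rw [Real.norm_eq_abs] at h
    refine h.trans (le_of_eq ?_)
    rw [Measure.real]
    ring
  refine ⟨hint, ?_⟩
  -- comparison by lintegrals
  have e1 : ∀ᵐ z ∂(S.nuN δ), ENNReal.ofReal (∫ t in W,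
      S.G t z.2.2 * box (fun s => S.F s z.2.1) z.1 t)
      = ∫⁻ t, W.indicator (fun t => ENNReal.ofReal (S.G t z.2.2)) t *
          ENNReal.ofReal (box (fun s => S.F s z.2.1) z.1 t) := by
    filter_upwards [RN.nuN_ae S δ] with z hz
    rw [ofReal_integral_eq_lintegral_ofReal (hio z)
      (Filter.Eventually.of_forall fun t => hnn z hz.1 t),
      ← lintegral_indicator measurableSet_Icc]
    refine lintegral_congr fun t => ?_
    by_cases ht : t ∈ W
    · rw [indicator_of_mem ht, indicator_of_mem ht, ENNReal.ofReal_mul (RN.G_pos S t _).le]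
    · rw [indicator_of_notMem ht, indicator_of_notMem ht, zero_mul]
  have hr : Measurable fun y : ℝ × M =>
      W.indicator (fun t => ENNReal.ofReal (S.G t y.2)) y.1 := by
    have h1 : Measurable fun y : ℝ × M => ENNReal.ofReal (S.G y.1 y.2) :=
      (ML.meas_G S measurable_fst measurable_snd).ennreal_ofReal
    have h2 : (fun y : ℝ × M => W.indicator (fun t => ENNReal.ofReal (S.G t y.2)) y.1)
        = (Prod.fst ⁻¹' W).indicator fun y : ℝ × M => ENNReal.ofReal (S.G y.1 y.2) := by
      funext y
      by_cases hy : y.1 ∈ W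
      · rw [indicator_of_mem hy, indicator_of_mem (show y ∈ Prod.fst ⁻¹' W from hy)]
      · rw [indicator_of_notMem hy, indicator_of_notMem (show y ∉ Prod.fst ⁻¹' W from hy)]
    rw [h2]
    exact h1.indicator (measurable_fst measurableSet_Icc)
  have h3 : ∫⁻ z, ENNReal.ofReal (∫ t in W,
      S.G t z.2.2 * box (fun s => S.F s z.2.1) z.1 t) ∂(S.nuN δ) ≤ EnQ.J2E S (lam + 2 * a) := by
    rw [lintegral_congr_ae e1]
    refine (lintegral_mono' Measure.restrict_le_self le_rfl).trans ?_
    rw [ML.lint_box_F_t S (r := fun t θ => W.indicator (fun t => ENNReal.ofReal (S.G t θ)) t) hr]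
    unfold EnQ.J2E
    apply lintegral_mono
    intro θ
    simp only
    rw [← lintegral_indicator measurableSet_Iic]
    apply lintegral_mono
    intro t
    simp only
    by_cases ht : t ∈ W
    · rw [indicator_of_mem ht, indicator_of_mem (show t ∈ Iic (lam + 2 * a) from by
        have := ht.2; simp only [mem_Iic]; linarith), ENNReal.ofReal_mul (RN.G_pos S t _).le]
    · rw [indicator_of_notMem ht, zero_mul]
      exact zero_le
  have hnz : ∀ᵐ z ∂(S.nuN δ), 0 ≤ ∫ t in W,
      S.G t z.2.2 * box (fun s => S.F s z.2.1) z.1 t := by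
    filter_upwards [RN.nuN_ae S δ] with z hz
    exact integral_nonneg fun t => hnn z hz.1 t
  rw [integral_eq_lintegral_of_nonneg_ae hnz hm.aestronglyMeasurable, EnQ.J2_eq]
  exact ENNReal.toReal_mono (EnQ.J2E_ne_top S _) h3

theorem stepShr_nonneg (x : ℕ → ℝ) (I : Finset (ℕ × ℕ)) (lam a : ℝ) (m : ℕ) (ζ t : ℝ) :
    0 ≤ stepShr x I lam a m ζ t := by
  unfold stepShr
  refine Finset.sum_nonneg fun i _ => mul_nonneg (StepR1.rc_nonneg x i) ?_
  split_ifs <;> norm_num

theorem stepShr_le (x : ℕ → ℝ) (I : Finset (ℕ × ℕ)) (lam a : ℝ) (m : ℕ) {ζ : ℝ} (hζ : 0 ≤ ζ)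
    (t : ℝ) : stepShr x I lam a m ζ t ≤ stepF x I lam a m t := by
  unfold stepShr stepF ind
  refine Finset.sum_le_sum fun i _ => mul_le_mul_of_nonneg_left ?_ (StepR1.rc_nonneg x i)
  by_cases h1 : lft lam a m i + ζ ≤ t ∧ t < rgt lam a m i - ζ
  · rw [if_pos h1, if_pos ⟨by linarith [h1.1], by linarith [h1.2]⟩]
  · rw [if_neg h1]
    split_ifs <;> norm_num

theorem stepShr_intervalIntegrable (x : ℕ → ℝ) (I : Finset (ℕ × ℕ)) (lam a : ℝ) (m : ℕ)
    (ζ u v : ℝ) : IntervalIntegrable (stepShr x I lam a m ζ) volume u v := by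
  have e : stepShr x I lam a m ζ
      = StepR1.st I (rc x) (fun i => lft lam a m i + ζ) (fun i => rgt lam a m i - ζ) := by
    funext t
    unfold stepShr StepR1.st
    apply Finset.sum_congr rfl
    intro i _
    by_cases h : lft lam a m i + ζ ≤ t ∧ t < rgt lam a m i - ζ
    · rw [if_pos h, indicator_of_mem (show t ∈ Ico _ _ from h), mul_one]
    · rw [if_neg h, indicator_of_notMem (show t ∉ Ico _ _ from h), mul_zero]
  rw [e]
  exact StepR1.ii_of_loc (StepR1.loc_st _ _ _ _) u v

/-- integrability of the integrand with the shrunk layers -/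
theorem int_shr [IsFiniteMeasure μ] {S : Cyl M μ} {lam a L : ℝ} {m : ℕ}
    (hW : WinOK S lam a m L) (η : ℝ) {ζ : ℝ} (hζ : 0 ≤ ζ) {δ : ℝ} (hδ1 : δ ≤ 1) :
    Integrable (fun z : ℝ × M × M => ∫ t, tent lam a t * S.FLo lam a m L η t z.2.1 *
      box (stepShr (S.xG lam a m L z.2.2) (longI a m η) lam a m ζ) z.1 t) (S.nuN δ) := by
  have ha := hW.ha
  have ha1 := hW.ha1
  refine RN.int_of_bound hW (C := L * (2 * L)) hδ1 ?_ ?_
  · refine ML.measurable_integral (f := fun (z : ℝ × M × M) t =>
      tent lam a t * S.FLo lam a m L η t z.2.1 *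
        box (stepShr (S.xG lam a m L z.2.2) (longI a m η) lam a m ζ) z.1 t) ?_ volume
    have h1 : Measurable fun y : (ℝ × M × M) × ℝ => y.1.2.1 :=
      measurable_fst.comp (measurable_snd.comp measurable_fst)
    have h2 : Measurable fun y : ((ℝ × M × M) × ℝ) × ℝ => y.1.1.2.2 :=
      measurable_snd.comp (measurable_snd.comp (measurable_fst.comp measurable_fst))
    exact (((ML.measurable_tent lam a).comp measurable_snd).mul
      (ML.meas_FLo S lam a m L η measurable_snd h1)).mul
      (ML.measurable_box (f := fun (y : (ℝ × M × M) × ℝ) s =>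
        stepShr (S.xG lam a m L y.1.2.2) (longI a m η) lam a m ζ s)
        (ML.meas_stepShr_xG S lam a m L _ ζ measurable_snd h2)
        (measurable_fst.comp measurable_fst) measurable_snd)
  · intro z hz0 hzδ
    have hL : 1 ≤ L := (hW.solG z.2.1).hL
    have h := RN.tent_int_le (lam := lam) (a := a) (K := L) (B := 2 * z.1 * L)
      (h := fun t => S.FLo lam a m L η t z.2.1)
      (b := box (stepShr (S.xG lam a m L z.2.2) (longI a m η) lam a m ζ) z.1) ha
      (by linarith) (fun t => RN.FLo_nonneg S lam a m L η t z.2.1)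
      (fun t => RN.box_nonneg (fun s => stepShr_nonneg _ _ _ _ _ _ s) hz0.le t)
      (fun t ht => (RN.FLo_le hW η t z.2.1).trans
        ((hW.solF z.2.1).f_le t ⟨by linarith [ht.1], by linarith [ht.2]⟩))
      (fun t ht => RN.box_le (stepShr_intervalIntegrable _ _ _ _ _ _ _ _) hz0.le
        (by linarith) ⟨by linarith [ht.1], by linarith [ht.2]⟩
        (fun s hs => (stepShr_le _ _ _ _ _ hζ s).trans
          ((RN.GLo_le hW η s z.2.2).trans ((hW.solG z.2.2).f_le s hs))))
    rw [abs_of_nonneg h.1]
    calc _ ≤ L * (2 * z.1 * L) := h.2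
      _ = L * (2 * L) * z.1 := by ring

/-- for `ρ ≤ 1`: the `X0` integrand splits into shrunk part and end part -/
theorem split_shr {S : Cyl M μ} {lam a L : ℝ} {m : ℕ} (η ζ : ℝ) (z : ℝ × M × M) :
    (∫ t, tent lam a t * S.FLo lam a m L η t z.2.1 *
      box (fun s => S.GLo lam a m L η s z.2.2) z.1 t)
    = (∫ t, tent lam a t * S.FLo lam a m L η t z.2.1 *
        box (stepShr (S.xG lam a m L z.2.2) (longI a m η) lam a m ζ) z.1 t)
      + ∫ t, tent lam a t * S.FLo lam a m L η t z.2.1 *
        box (fun s => S.GLo lam a m L η s z.2.2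
          - stepShr (S.xG lam a m L z.2.2) (longI a m η) lam a m ζ s) z.1 t := by
  have hbd : ∀ g : ℝ → ℝ, LocallyIntegrable g volume →
      Integrable (fun t => tent lam a t * S.FLo lam a m L η t z.2.1 * box g z.1 t) volume := by
    intro g hg
    have hc : Continuous fun t => tent lam a t * box g z.1 t :=
      (TP.tent_continuous lam a).mul (StepR1.continuous_bx hg z.1)
    have h1 := StepR1.integrable_st_mul (longI a m η) (rc (S.xF lam a m L z.2.1))
      (lft lam a m) (rgt lam a m) (g := fun t => tent lam a t * box g z.1 t)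
      hc.locallyIntegrable
    refine h1.congr (Filter.Eventually.of_forall fun t => ?_)
    simp only
    unfold Cyl.FLo
    rw [StepR1.stepF_eq]
    ring
  have l1 : LocallyIntegrable (fun s => S.GLo lam a m L η s z.2.2) volume := by
    have : (fun s => S.GLo lam a m L η s z.2.2)
        = StepR1.st (longI a m η) (rc (S.xG lam a m L z.2.2)) (lft lam a m) (rgt lam a m) := by
      funext s
      unfold Cyl.GLo
      rw [StepR1.stepF_eq]
    rw [this]
    exact StepR1.loc_st _ _ _ _
  have l2 : LocallyIntegrable (stepShr (S.xG lam a m L z.2.2) (longI a m η) lam a m ζ)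
      volume := by
    rw [StepX.stepShr_eq]
    have : StepX.stepf (longI a m η) (rc (S.xG lam a m L z.2.2))
        (fun i => lft lam a m i + ζ) (fun i => rgt lam a m i - ζ)
        = StepR1.st (longI a m η) (rc (S.xG lam a m L z.2.2))
        (fun i => lft lam a m i + ζ) (fun i => rgt lam a m i - ζ) := by
      rw [← StepX.stepShr_eq]
      funext t
      unfold stepShr StepR1.st
      apply Finset.sum_congr rfl
      intro i _
      by_cases h : lft lam a m i + ζ ≤ t ∧ t < rgt lam a m i - ζ
      · rw [if_pos h, indicator_of_mem (show t ∈ Ico _ _ from h), mul_one]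
      · rw [if_neg h, indicator_of_notMem (show t ∉ Ico _ _ from h), mul_zero]
    rw [this]
    exact StepR1.loc_st _ _ _ _
  have l3 : LocallyIntegrable (fun s => S.GLo lam a m L η s z.2.2
      - stepShr (S.xG lam a m L z.2.2) (longI a m η) lam a m ζ s) volume := l1.sub l2
  rw [← integral_add (hbd _ l2) (hbd _ l3)]
  refine integral_congr_ae (Filter.Eventually.of_forall fun t => ?_)
  simp only
  have hb : box (fun s => S.GLo lam a m L η s z.2.2) z.1 t
      = box (stepShr (S.xG lam a m L z.2.2) (longI a m η) lam a m ζ) z.1 t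
        + box (fun s => S.GLo lam a m L η s z.2.2
          - stepShr (S.xG lam a m L z.2.2) (longI a m η) lam a m ζ s) z.1 t := by
    unfold box
    rw [intervalIntegral.integral_sub (StepR1.ii_of_loc l1 _ _) (StepR1.ii_of_loc l2 _ _)]
    ring
  rw [hb]
  ring

/-- integrability of the end part -/
theorem int_end [IsFiniteMeasure μ] {S : Cyl M μ} {lam a L : ℝ} {m : ℕ}
    (hW : WinOK S lam a m L) (η : ℝ) {ζ : ℝ} (hζ : 0 ≤ ζ) {δ : ℝ} (hδ1 : δ ≤ 1) :
    Integrable (fun z : ℝ × M × M => ∫ t, tent lam a t * S.FLo lam a m L η t z.2.1 *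
      box (fun s => S.GLo lam a m L η s z.2.2
        - stepShr (S.xG lam a m L z.2.2) (longI a m η) lam a m ζ s) z.1 t) (S.nuN δ) := by
  refine ((RN.int_Q3 hW η hδ1).sub (int_shr hW η hζ hδ1)).congr
    (Filter.Eventually.of_forall fun z => ?_)
  simp only [Pi.sub_apply]
  rw [split_shr η ζ z]
  ring

/-- **STEP X, end part** -/
theorem XF_end [IsFiniteMeasure μ] {S : Cyl M μ} {lam a L : ℝ} {m : ℕ} {η ζ δ : ℝ}
    (hW : WinOK S lam a m L) (hδ : 0 < δ) (h1 : 16 * δ ≤ ζ) (h2 : 16 * ζ ≤ η) (h3 : 8 * η ≤ a)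
    (h4 : msh a m ≤ ζ) :
    ∫ z, (∫ t, tent lam a t * S.FLo lam a m L η t z.2.1 *
      box (fun s => S.GLo lam a m L η s z.2.2
        - stepShr (S.xG lam a m L z.2.2) (longI a m η) lam a m ζ s) z.1 t) ∂(S.nuN δ)
    ≤ ζ * S.TVG lam a m L η + 16 * (ζ / η) * S.X0' lam a m L η δ
      + 64 * (ζ / a ^ 2) * S.J2 (lam + 2 * a) := by
  have ha := hW.ha
  have ha1 := hW.ha1
  have hζ : 0 < ζ := by linarith
  have hη : 0 < η := by linarith
  have hδ1 : δ ≤ 1 := by linarith
  have iE := int_end hW η hζ.le hδ1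
  obtain ⟨i5, t5⟩ := RN.tvG_near hW hη.le δ
  have i3 := RN.int_Q3' hW η hδ1
  obtain ⟨i6, t6⟩ := window_near hW hδ1
  have j5 := i5.const_mul ζ
  have j3 := i3.const_mul (16 * (ζ / η))
  have j6 := i6.const_mul (16 * (ζ / η) * (4 / a ^ 2) * η)
  have j53 := j5.add j3
  have key : ∀ᵐ z ∂(S.nuN δ), (∫ t, tent lam a t * S.FLo lam a m L η t z.2.1 *
      box (fun s => S.GLo lam a m L η s z.2.2
        - stepShr (S.xG lam a m L z.2.2) (longI a m η) lam a m ζ s) z.1 t)
      ≤ ζ * tvS (box (fun s => S.F s z.2.1) z.1) (S.xG lam a m L z.2.2) (longI a m η) lam a m η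
        + 16 * (ζ / η) * (∫ t, tent lam a t * S.GLo lam a m L η t z.2.2 *
            box (fun s => S.FLo lam a m L η s z.2.1) z.1 t)
        + 16 * (ζ / η) * (4 / a ^ 2) * η *
          (∫ t in Icc (lam - a / 2) (lam + 3 * a / 2),
            S.G t z.2.2 * box (fun s => S.F s z.2.1) z.1 t) := by
    filter_upwards [RN.nuN_ae S δ] with z hz
    exact StepX.X4 (fun t => S.F t z.2.1) (fun t => S.G t z.2.2) (S.xF lam a m L z.2.1)
      (S.xG lam a m L z.2.2) lam a m η ζ z.1 ha ha1 hW.hm h3 hζ h2 hz.1 (by linarith [hz.2]) h4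
      (RN.lay_F hW z.2.1) (RN.lay_G hW z.2.2)
  have hmono := integral_mono_ae iE (j53.add j6) key
  have e1 := integral_add j53 j6
  have e2 := integral_add j5 j3
  rw [integral_const_mul] at e1 e2
  rw [integral_const_mul] at e2
  simp only [Pi.add_apply] at hmono e1 e2
  have t5' := mul_le_mul_of_nonneg_left t5 hζ.le
  have hc : 16 * (ζ / η) * (4 / a ^ 2) * η = 64 * (ζ / a ^ 2) := by
    field_simp
    ring
  have t6' := mul_le_mul_of_nonneg_left t6 (by positivity : 0 ≤ 16 * (ζ / η) * (4 / a ^ 2) * η)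
  rw [hc] at t6'
  rw [hc] at e1
  unfold Cyl.X0'
  rw [hc] at hmono
  linarith

end cyl

end Crest.Agent.R077.XEnd
end

-- ▼ part R077/IntXs
section

/-!
# Row 77: `Stmt_Xs` (helper245): the two near long-long energies are close
-/

set_option autoImplicit false
open MeasureTheory Set Real
open scoped ENNReal Topology

namespace Crest.Agent.R077.Xsy

open StepX in
/-- exchange of the weight -/
theorem swap_bound {w : ℝ → ℝ} {La : ℝ} (hW : Wt w La) {X Y : ℝ → ℝ} (iX : Integrable X)
    (iY : Integrable Y) (iwY : Integrable fun t => w t * Y t)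
    (iXk : ∀ k : ℝ → ℝ, Continuous k → Integrable fun t => X t * k t)
    (X0 : ∀ t, 0 ≤ X t) (Y0 : ∀ t, 0 ≤ Y t) {ρ : ℝ} (hρ : 0 ≤ ρ) :
    |(∫ t, w t * X t * StepX.box Y ρ t) - ∫ t, w t * Y t * StepX.box X ρ t|
      ≤ La * ρ * ∫ t, X t * StepX.box Y ρ t := by
  have cY := continuous_box iY ρ
  have cwY := continuous_box iwY ρ
  have hwc := hW.continuous
  have h1 : ∫ t, w t * Y t * StepX.box X ρ t = ∫ t, X t * StepX.box (fun s => w s * Y s) ρ t :=
    box_swap iwY iX hρ
  have i1 : Integrable fun t => w t * X t * StepX.box Y ρ t := by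
    refine (iXk (fun t => w t * StepX.box Y ρ t) (hwc.mul cY)).congr
      (Filter.Eventually.of_forall fun t => ?_)
    simp only; ring
  have i2 : Integrable fun t => X t * StepX.box (fun s => w s * Y s) ρ t := iXk _ cwY
  have i3 : Integrable fun t => X t * StepX.box Y ρ t := iXk _ cY
  rw [h1, ← integral_sub i1 i2]
  have hb : ∀ t, |w t * X t * StepX.box Y ρ t - X t * StepX.box (fun s => w s * Y s) ρ t|
      ≤ La * ρ * (X t * StepX.box Y ρ t) := by
    intro t
    have e : w t * X t * StepX.box Y ρ t - X t * StepX.box (fun s => w s * Y s) ρ t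
        = X t * ∫ s in (t - ρ)..(t + ρ), (w t - w s) * Y s := by
      have e1 : ∫ s in (t - ρ)..(t + ρ), (w t - w s) * Y s
          = w t * StepX.box Y ρ t - StepX.box (fun s => w s * Y s) ρ t := by
        unfold StepX.box
        rw [← intervalIntegral.integral_const_mul, ← intervalIntegral.integral_sub]
        · refine intervalIntegral.integral_congr fun s _ => ?_
          ring
        · exact iY.intervalIntegrable.const_mul _
        · exact iwY.intervalIntegrable
      rw [e1]; ring
    rw [e, abs_mul, abs_of_nonneg (X0 t)]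
    have h2 : |∫ s in (t - ρ)..(t + ρ), (w t - w s) * Y s| ≤ La * ρ * StepX.box Y ρ t := by
      have h3 : ‖∫ s in (t - ρ)..(t + ρ), (w t - w s) * Y s‖
          ≤ |∫ s in (t - ρ)..(t + ρ), La * ρ * Y s| := by
        refine intervalIntegral.norm_integral_le_abs_of_norm_le
          (g := fun s => La * ρ * Y s) ?_ (iY.intervalIntegrable.const_mul _)
        refine (ae_restrict_iff' measurableSet_uIoc).2 (Filter.Eventually.of_forall fun s hs => ?_)
        rw [uIoc_of_le (by linarith)] at hs
        rw [Real.norm_eq_abs, abs_mul, abs_of_nonneg (Y0 s)]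
        refine mul_le_mul_of_nonneg_right ?_ (Y0 s)
        refine (hW.lip t s).trans (mul_le_mul_of_nonneg_left ?_ hW.La0)
        rw [abs_le]
        constructor <;> linarith [hs.1, hs.2]
      rw [Real.norm_eq_abs] at h3
      refine h3.trans (le_of_eq ?_)
      rw [intervalIntegral.integral_const_mul]
      have : 0 ≤ StepX.box Y ρ t := StepX.box_nonneg Y0 hρ t
      unfold StepX.box at this ⊢
      rw [abs_of_nonneg (mul_nonneg (mul_nonneg hW.La0 hρ) this)]
    calc X t * |∫ s in (t - ρ)..(t + ρ), (w t - w s) * Y s|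
        ≤ X t * (La * ρ * StepX.box Y ρ t) := mul_le_mul_of_nonneg_left h2 (X0 t)
      _ = La * ρ * (X t * StepX.box Y ρ t) := by ring
  calc |∫ t, (w t * X t * StepX.box Y ρ t - X t * StepX.box (fun s => w s * Y s) ρ t)|
      ≤ ∫ t, |w t * X t * StepX.box Y ρ t - X t * StepX.box (fun s => w s * Y s) ρ t| :=
        abs_integral_le_integral_abs
    _ ≤ ∫ t, La * ρ * (X t * StepX.box Y ρ t) :=
        integral_mono (i1.sub i2).abs (i3.const_mul _) hb
    _ = La * ρ * ∫ t, X t * StepX.box Y ρ t := integral_const_mul _ _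

open StepX in
/-- one pair of angles and one `ρ` -/
theorem Xs1 {f g : ℝ → ℝ} {x y : ℕ → ℝ} {lam a : ℝ} {m : ℕ} {η ρ : ℝ} (ha : 0 < a) (hm : 1 ≤ m)
    (hρ : 0 < ρ) (hLf : Lay f x lam a m) (hLg : Lay g y lam a m) :
    |(∫ t, tent lam a t * R077.stepF x (longI a m η) lam a m t *
        R077.box (R077.stepF y (longI a m η) lam a m) ρ t)
      - ∫ t, tent lam a t * R077.stepF y (longI a m η) lam a m t *
        R077.box (R077.stepF x (longI a m η) lam a m) ρ t|
    ≤ 4 / a ^ 2 * ρ * ∫ t in Icc (lam - a / 2) (lam + 3 * a / 2), f t * R077.box g ρ t := by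
  set T := longI a m η with hT
  have hTp : T ⊆ prs m := longI_subset a m η
  set fL := stepf T (rc x) (lft lam a m) (rgt lam a m) with hfL
  set gL := stepf T (rc y) (lft lam a m) (rgt lam a m) with hgL
  have eF : R077.stepF x T lam a m = fL := stepF_eq x T lam a m
  have eG : R077.stepF y T lam a m = gL := stepF_eq y T lam a m
  rw [eF, eG]
  have hW := tent_wt (lam := lam) (a := a)
  have hwc := hW.continuous
  have iF : Integrable fL := stepf_integrable _ _ _ _
  have iG : Integrable gL := stepf_integrable _ _ _ _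
  have iwG : Integrable (fun t => tent lam a t * gL t) := w_stepf_integrable hwc _ _ _ _
  have F0 : ∀ t, 0 ≤ fL t := stepf_nonneg (fun i _ => rc_nonneg x i)
  have G0 : ∀ t, 0 ≤ gL t := stepf_nonneg (fun i _ => rc_nonneg y i)
  have Ff : ∀ t, fL t ≤ f t := fun t => by
    rw [← eF]; exact stepLe f x lam a m T ha hm hLf hTp t
  have Gg : ∀ t, gL t ≤ g t := fun t => by
    rw [← eG]; exact stepLe g y lam a m T ha hm hLg hTp t
  have iXk : ∀ k : ℝ → ℝ, Continuous k → Integrable fun t => fL t * k t := by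
    intro k hk
    refine (w_stepf_integrable hk T (rc x) (lft lam a m) (rgt lam a m)).congr
      (Filter.Eventually.of_forall (fun t => ?_))
    simp only; ring
  have h1 := swap_bound hW iF iG iwG iXk F0 G0 hρ.le
  refine h1.trans (mul_le_mul_of_nonneg_left ?_ (by positivity))
  -- compare the integrals
  have hbg : ∀ t, StepX.box gL ρ t ≤ R077.box g ρ t := by
    intro t
    exact intervalIntegral.integral_mono_on (by linarith) iG.intervalIntegrable
      (hLg.f_cont.intervalIntegrable _ _) (fun s _ => Gg s)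
  have hbG0 : ∀ t, 0 ≤ StepX.box gL ρ t := StepX.box_nonneg G0 hρ.le
  have hcb : Continuous (R077.box g ρ) := XEnd.box_continuous hLg.f_cont ρ
  have hz : ∀ t, t ∉ Icc (lam - a / 2) (lam + 3 * a / 2) → fL t * StepX.box gL ρ t = 0 := by
    intro t ht
    rw [← eF, stepF_zero_out ha hm hTp ht, zero_mul]
  rw [← setIntegral_eq_integral_of_forall_compl_eq_zero hz]
  refine setIntegral_mono_on (iXk _ (continuous_box iG ρ)).integrableOn
    ((hLf.f_cont.mul hcb).continuousOn.integrableOn_compact isCompact_Icc) measurableSet_Icc ?_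
  intro t _
  exact mul_le_mul (Ff t) (hbg t) (hbG0 t) (hLf.f_nonneg t)

section cyl
variable {M : Type} [MeasurableSpace M] {μ : Measure M}

/-- the window integral `∫_W F(t,θ) box G(·,θ') ρ t dt` (mirror of `XEnd.window_near`) -/
theorem window_near' [IsFiniteMeasure μ] {S : Cyl M μ} {lam a L : ℝ} {m : ℕ}
    (hW : WinOK S lam a m L) {δ : ℝ} (hδ1 : δ ≤ 1) :
    Integrable (fun z : ℝ × M × M => ∫ t in Icc (lam - a / 2) (lam + 3 * a / 2),
      S.F t z.2.1 * box (fun s => S.G s z.2.2) z.1 t) (S.nuN δ) ∧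
    ∫ z, (∫ t in Icc (lam - a / 2) (lam + 3 * a / 2),
      S.F t z.2.1 * box (fun s => S.G s z.2.2) z.1 t) ∂(S.nuN δ) ≤ S.J1 (lam + 2 * a) := by
  have ha := hW.ha
  have ha1 := hW.ha1
  set W : Set ℝ := Icc (lam - a / 2) (lam + 3 * a / 2) with hWd
  have hcont : ∀ z : ℝ × M × M, Continuous fun t =>
      S.F t z.2.1 * box (fun s => S.G s z.2.2) z.1 t := fun z =>
    (RN.F_cont (S := S) z.2.1).mul (XEnd.box_continuous (RN.G_cont (S := S) z.2.2) z.1)
  have hio : ∀ z : ℝ × M × M, IntegrableOn (fun t =>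
      S.F t z.2.1 * box (fun s => S.G s z.2.2) z.1 t) W volume := fun z =>
    (hcont z).continuousOn.integrableOn_compact isCompact_Icc
  -- measurability
  have hm : Measurable fun z : ℝ × M × M => ∫ t in W,
      S.F t z.2.1 * box (fun s => S.G s z.2.2) z.1 t := by
    refine ML.measurable_integral (f := fun (z : ℝ × M × M) t =>
      S.F t z.2.1 * box (fun s => S.G s z.2.2) z.1 t) ?_ (volume.restrict W)
    have h1 : Measurable fun y : (ℝ × M × M) × ℝ => y.1.2.1 :=
      measurable_fst.comp (measurable_snd.comp measurable_fst)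
    have h2 : Measurable fun y : (ℝ × M × M) × ℝ => y.1.2.2 :=
      measurable_snd.comp (measurable_snd.comp measurable_fst)
    exact (ML.meas_F S measurable_snd h1).mul
      (ML.meas_boxG S (measurable_fst.comp measurable_fst) measurable_snd h2)
  have hnn : ∀ z : ℝ × M × M, 0 < z.1 → ∀ t,
      0 ≤ S.F t z.2.1 * box (fun s => S.G s z.2.2) z.1 t := fun z hz t =>
    mul_nonneg (RN.F_pos S t _).le (RN.box_nonneg (fun s => (RN.G_pos S s _).le) hz.le t)
  have hsub : ∀ t ∈ W, t ∈ Icc (lam - 1) (lam + 3) := by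
    intro t ht
    exact ⟨by linarith [ht.1], by linarith [ht.2]⟩
  have hint : Integrable (fun z : ℝ × M × M => ∫ t in W,
      S.F t z.2.1 * box (fun s => S.G s z.2.2) z.1 t) (S.nuN δ) := by
    refine RN.int_of_bound hW (C := L * (2 * L) * (volume W).toReal) hδ1 hm ?_
    intro z hz hzδ
    have hL := (hW.solF z.2.1).hL
    have hb : ∀ t ∈ W, ‖S.F t z.2.1 * box (fun s => S.G s z.2.2) z.1 t‖
        ≤ L * (2 * z.1 * L) := by
      intro t ht
      have ht' := hsub t ht
      rw [Real.norm_eq_abs, abs_of_nonneg (hnn z hz t)]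
      apply mul_le_mul
      · exact (hW.solF z.2.1).f_le t ⟨by linarith [ht'.1], by linarith [ht'.2]⟩
      · exact RN.box_le ((RN.G_cont (S := S) z.2.2).intervalIntegrable _ _) hz.le
          (by linarith) ht' (hW.solG z.2.2).f_le
      · exact RN.box_nonneg (fun s => (RN.G_pos S s _).le) hz.le t
      · linarith
    have hfin : volume W < ∞ := by rw [hWd]; simp
    have h := norm_setIntegral_le_of_norm_le_const hfin hb
    rw [Real.norm_eq_abs] at h
    refine h.trans (le_of_eq ?_)
    rw [Measure.real]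
    ring
  refine ⟨hint, ?_⟩
  -- comparison by lintegrals
  have e1 : ∀ᵐ z ∂(S.nuN δ), ENNReal.ofReal (∫ t in W,
      S.F t z.2.1 * box (fun s => S.G s z.2.2) z.1 t)
      = ∫⁻ t, W.indicator (fun t => ENNReal.ofReal (S.F t z.2.1)) t *
          ENNReal.ofReal (box (fun s => S.G s z.2.2) z.1 t) := by
    filter_upwards [RN.nuN_ae S δ] with z hz
    rw [ofReal_integral_eq_lintegral_ofReal (hio z)
      (Filter.Eventually.of_forall fun t => hnn z hz.1 t),
      ← lintegral_indicator measurableSet_Icc]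
    refine lintegral_congr fun t => ?_
    by_cases ht : t ∈ W
    · rw [indicator_of_mem ht, indicator_of_mem ht, ENNReal.ofReal_mul (RN.F_pos S t _).le]
    · rw [indicator_of_notMem ht, indicator_of_notMem ht, zero_mul]
  have hr : Measurable fun y : ℝ × M =>
      W.indicator (fun t => ENNReal.ofReal (S.F t y.2)) y.1 := by
    have h1 : Measurable fun y : ℝ × M => ENNReal.ofReal (S.F y.1 y.2) :=
      (ML.meas_F S measurable_fst measurable_snd).ennreal_ofReal
    have h2 : (fun y : ℝ × M => W.indicator (fun t => ENNReal.ofReal (S.F t y.2)) y.1)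
        = (Prod.fst ⁻¹' W).indicator fun y : ℝ × M => ENNReal.ofReal (S.F y.1 y.2) := by
      funext y
      by_cases hy : y.1 ∈ W
      · rw [indicator_of_mem hy, indicator_of_mem (show y ∈ Prod.fst ⁻¹' W from hy)]
      · rw [indicator_of_notMem hy, indicator_of_notMem (show y ∉ Prod.fst ⁻¹' W from hy)]
    rw [h2]
    exact h1.indicator (measurable_fst measurableSet_Icc)
  have h3 : ∫⁻ z, ENNReal.ofReal (∫ t in W,
      S.F t z.2.1 * box (fun s => S.G s z.2.2) z.1 t) ∂(S.nuN δ) ≤ EnQ.J1E S (lam + 2 * a) := by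
    rw [lintegral_congr_ae e1]
    refine (lintegral_mono' Measure.restrict_le_self le_rfl).trans ?_
    rw [ML.lint_box_G_t S (r := fun t θ => W.indicator (fun t => ENNReal.ofReal (S.F t θ)) t) hr]
    unfold EnQ.J1E
    apply lintegral_mono
    intro θ
    simp only
    rw [← lintegral_indicator measurableSet_Iic]
    apply lintegral_mono
    intro t
    simp only
    by_cases ht : t ∈ W
    · rw [indicator_of_mem ht, indicator_of_mem (show t ∈ Iic (lam + 2 * a) from by
        have := ht.2; simp only [mem_Iic]; linarith), ENNReal.ofReal_mul (RN.F_pos S t _).le]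
    · rw [indicator_of_notMem ht, zero_mul]
      exact zero_le
  have hnz : ∀ᵐ z ∂(S.nuN δ), 0 ≤ ∫ t in W,
      S.F t z.2.1 * box (fun s => S.G s z.2.2) z.1 t := by
    filter_upwards [RN.nuN_ae S δ] with z hz
    exact integral_nonneg fun t => hnn z hz.1 t
  rw [integral_eq_lintegral_of_nonneg_ae hnz hm.aestronglyMeasurable, EnQ.J1_eq]
  exact ENNReal.toReal_mono (EnQ.J1E_ne_top S _) h3

end cyl

/-- **Stmt_Xs** -/
theorem Xs : Stmt_Xs := by
  intro M _ μ _ S lam a L m η δ hW hδ h2 h8
  have ha := hW.ha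
  have ha1 := hW.ha1
  have hδ1 : δ ≤ 1 := by linarith
  have i3 := RN.int_Q3 hW η hδ1
  have i3' := RN.int_Q3' hW η hδ1
  obtain ⟨i6, t6⟩ := window_near' hW hδ1
  have hL0 : (0:ℝ) ≤ 4 / a ^ 2 := by positivity
  have key : ∀ᵐ z ∂(S.nuN δ), |(∫ t, tent lam a t * S.FLo lam a m L η t z.2.1 *
      box (fun s => S.GLo lam a m L η s z.2.2) z.1 t)
      - ∫ t, tent lam a t * S.GLo lam a m L η t z.2.2 *
          box (fun s => S.FLo lam a m L η s z.2.1) z.1 t|
      ≤ 4 / a ^ 2 * δ * ∫ t in Icc (lam - a / 2) (lam + 3 * a / 2),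
          S.F t z.2.1 * box (fun s => S.G s z.2.2) z.1 t := by
    filter_upwards [RN.nuN_ae S δ] with z hz
    have h := Xs1 (η := η) ha hW.hm hz.1 (RN.lay_F hW z.2.1) (RN.lay_G hW z.2.2)
    refine h.trans (mul_le_mul_of_nonneg_right (mul_le_mul_of_nonneg_left hz.2.le hL0) ?_)
    refine integral_nonneg fun t => mul_nonneg (RN.F_pos S t _).le
      (RN.box_nonneg (fun s => (RN.G_pos S s _).le) hz.1.le t)
  unfold Cyl.X0 Cyl.X0'
  rw [← integral_sub i3 i3']
  refine abs_integral_le_integral_abs.trans ?_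
  refine (integral_mono_ae (i3.sub i3').abs (i6.const_mul (4 / a ^ 2 * δ)) key).trans ?_
  rw [integral_const_mul]
  exact mul_le_mul_of_nonneg_left t6 (mul_nonneg hL0 hδ.le)

end Crest.Agent.R077.Xsy

namespace Crest.Agent.R077
/-- **Stmt_Xs** -/
theorem Xs : Stmt_Xs := Xsy.Xs
end Crest.Agent.R077
end

-- ▼ part R077/IntX
section

/-!
# Row 77: STEP X integrated, `Stmt_XF` (helper392)
-/

set_option autoImplicit false
open MeasureTheory Set Real
open scoped ENNReal Topology

namespace Crest.Agent.R077.XEnd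

section cyl
variable {M : Type} [MeasurableSpace M] {μ : Measure M}

/-- the integrand in `t` is jointly measurable -/
theorem meas_shr (S : Cyl M μ) (lam a L : ℝ) (m : ℕ) (η ζ : ℝ) :
    Measurable fun y : (ℝ × M × M) × ℝ =>
      tent lam a y.2 * S.FLo lam a m L η y.2 y.1.2.1 *
      box (stepShr (S.xG lam a m L y.1.2.2) (longI a m η) lam a m ζ) y.1.1 y.2 := by
  have h1 : Measurable fun y : (ℝ × M × M) × ℝ => y.1.2.1 :=
      measurable_fst.comp (measurable_snd.comp measurable_fst)
  have h2 : Measurable fun y : ((ℝ × M × M) × ℝ) × ℝ => y.1.1.2.2 :=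
      measurable_snd.comp (measurable_snd.comp (measurable_fst.comp measurable_fst))
  exact (((ML.measurable_tent lam a).comp measurable_snd).mul
      (ML.meas_FLo S lam a m L η measurable_snd h1)).mul
      (ML.measurable_box (f := fun (y : (ℝ × M × M) × ℝ) s =>
        stepShr (S.xG lam a m L y.1.2.2) (longI a m η) lam a m ζ s)
        (ML.meas_stepShr_xG S lam a m L _ ζ measurable_snd h2)
        (measurable_fst.comp measurable_fst) measurable_snd)

/-- shrunk layers: the box at `t` is dominated by the box of `g` at every nearby point -/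
theorem box_shr_le {g : ℝ → ℝ} {y : ℕ → ℝ} {lam a : ℝ} {m : ℕ} {η ζ ρ t s' : ℝ} (ha : 0 < a)
    (hm : 1 ≤ m) (hη : 0 < η) (hζ : 0 ≤ ζ) (hg : Lay g y lam a m) (hρ : 0 ≤ ρ)
    (hs : |s' - t| ≤ ζ) :
    box (stepShr y (longI a m η) lam a m ζ) ρ t ≤ box g ρ s' := by
  have h1 := StepX.X1 g y lam a m η ζ ha hm hη hζ hg
  unfold box
  have e : ∫ r in (s' - ρ)..(s' + ρ), g r = ∫ r in (t - ρ)..(t + ρ), g (r + (s' - t)) := by
    rw [intervalIntegral.integral_comp_add_right]
    congr 1 <;> ring
  rw [e]
  apply intervalIntegral.integral_mono_on (by linarith)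
    (stepShr_intervalIntegrable _ _ _ _ _ _ _ _)
  · exact (hg.f_cont.comp (by fun_prop)).intervalIntegrable _ _
  · intro r _
    exact h1 r (s' - t) hs

/-- the main part at fixed `t` -/
theorem main_t [IsFiniteMeasure μ] {S : Cyl M μ} {lam a L : ℝ} {m : ℕ} {η ζ δ c K : ℝ}
    (hW : WinOK S lam a m L) (hη : 0 < η) (hζ : 0 ≤ ζ)
    (h3 : ∀ θ, ∀ t ∈ Icc lam (lam + a), ∃ s, |s - t| ≤ ζ ∧
      S.FLo lam a m L η t θ * S.V s θ
        ≤ c * psi S.b₁ S.p t (S.FLo lam a m L ζ t θ) + K)
    (t : ℝ) :
    ∫⁻ z, ENNReal.ofReal (tent lam a t * S.FLo lam a m L η t z.2.1 *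
      box (stepShr (S.xG lam a m L z.2.2) (longI a m η) lam a m ζ) z.1 t) ∂(S.nuN δ)
    ≤ ∫⁻ θ, ENNReal.ofReal
        (tent lam a t * (c * psi S.b₁ S.p t (S.FLo lam a m L ζ t θ) + K)) ∂μ := by
  have hmz : Measurable fun z : ℝ × M × M => ENNReal.ofReal
      (tent lam a t * S.FLo lam a m L η t z.2.1 *
      box (stepShr (S.xG lam a m L z.2.2) (longI a m η) lam a m ζ) z.1 t) :=
    ((meas_shr S lam a L m η ζ).comp (measurable_id.prodMk measurable_const)).ennreal_ofReal
  rw [ML.lint_nuN S hmz δ]
  apply lintegral_mono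
  intro θ
  simp only
  by_cases ht : t ∈ Icc lam (lam + a)
  · obtain ⟨s, hs, hFV⟩ := h3 θ t ht
    have hw := TP.tent_nonneg lam a t
    have hF := RN.FLo_nonneg S lam a m L η t θ
    have hwF : 0 ≤ tent lam a t * S.FLo lam a m L η t θ := mul_nonneg hw hF
    have hHK : Measurable fun y : M × ℝ => ENNReal.ofReal (S.H y.2 θ y.1) *
        ENNReal.ofReal (box (fun r => S.G r y.1) y.2 s) :=
      (ML.meas_H S measurable_snd measurable_const measurable_fst).ennreal_ofReal.mul
        (ML.meas_boxG S measurable_snd measurable_const measurable_fst).ennreal_ofReal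
    have hin : Measurable fun θ' : M => ∫⁻ ρ in Ioi (0:ℝ), ENNReal.ofReal (S.H ρ θ θ')
        * ENNReal.ofReal (box (fun r => S.G r θ') ρ s) ∂volume :=
      hHK.lintegral_prod_right'
    calc ∫⁻ θ', ∫⁻ ρ in Ioo (0:ℝ) δ, ENNReal.ofReal (S.H ρ θ θ') * ENNReal.ofReal
          (tent lam a t * S.FLo lam a m L η t θ *
          box (stepShr (S.xG lam a m L θ') (longI a m η) lam a m ζ) ρ t) ∂volume ∂μ
        ≤ ∫⁻ θ', ∫⁻ ρ in Ioi (0:ℝ), ENNReal.ofReal (tent lam a t * S.FLo lam a m L η t θ) *
          (ENNReal.ofReal (S.H ρ θ θ') * ENNReal.ofReal (box (fun r => S.G r θ') ρ s))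
          ∂volume ∂μ := by
          apply lintegral_mono
          intro θ'
          simp only
          refine (setLIntegral_mono' measurableSet_Ioo (fun ρ hρ => ?_)).trans
            (lintegral_mono_set (fun ρ hρ => hρ.1))
          have hb : box (stepShr (S.xG lam a m L θ') (longI a m η) lam a m ζ) ρ t
              ≤ box (fun r => S.G r θ') ρ s :=
            box_shr_le hW.ha hW.hm hη hζ (RN.lay_G hW θ') hρ.1.le hs
          rw [ENNReal.ofReal_mul hwF, ← mul_assoc, ← mul_assoc,
            mul_comm (ENNReal.ofReal (S.H ρ θ θ'))]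
          exact mul_le_mul_right (ENNReal.ofReal_le_ofReal hb) _
      _ = ENNReal.ofReal (tent lam a t * S.FLo lam a m L η t θ) *
          ENNReal.ofReal (S.V s θ) := by
          rw [ML.repV_box S s θ, ← lintegral_const_mul _ hin]
          refine lintegral_congr fun θ' => ?_
          rw [← lintegral_const_mul]
          exact hHK.comp (measurable_const.prodMk measurable_id)
      _ = ENNReal.ofReal (tent lam a t * (S.FLo lam a m L η t θ * S.V s θ)) := by
          rw [← ENNReal.ofReal_mul hwF, mul_assoc]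
      _ ≤ _ := ENNReal.ofReal_le_ofReal (mul_le_mul_of_nonneg_left hFV hw)
  · rw [TP.tent_eq_zero_of_notMem ht]
    simp

/-- **STEP X, main part** -/
theorem XF_main [IsFiniteMeasure μ] {S : Cyl M μ} {lam a L : ℝ} {m : ℕ} {η ζ δ c K : ℝ}
    (hW : WinOK S lam a m L) (hη : 0 < η) (hζ : 0 ≤ ζ) (hc : 0 ≤ c) (hK : 0 ≤ K)
    (h3 : ∀ θ, ∀ t ∈ Icc lam (lam + a), ∃ s, |s - t| ≤ ζ ∧
      S.FLo lam a m L η t θ * S.V s θ
        ≤ c * psi S.b₁ S.p t (S.FLo lam a m L ζ t θ) + K) :
    ∫ z, (∫ t, tent lam a t * S.FLo lam a m L η t z.2.1 *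
      box (stepShr (S.xG lam a m L z.2.2) (longI a m η) lam a m ζ) z.1 t) ∂(S.nuN δ)
    ≤ c * S.EF lam a m L ζ + K * (μ univ).toReal := by
  have ha := hW.ha
  have ha1 := hW.ha1
  -- the density and its bounds
  set P : ℝ → M → ℝ := fun t θ => psi S.b₁ S.p t (S.FLo lam a m L ζ t θ) with hP
  have hPm : Measurable fun z : ℝ × M => P z.1 z.2 :=
    ML.meas_psiF S lam a m L ζ measurable_fst measurable_snd
  have hPb : ∀ t θ, 0 ≤ P t θ ∧ P t θ ≤ S.F t θ * S.V t θ := fun t θ =>
    TV.psi_stepF_le (hW.solF θ) ha ha1 hW.hm hW.hLm ζ t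
  have hw := TP.tent_nonneg lam a
  have hw2 := TP.tent_le (a := a) ha lam
  have hwm : Measurable (tent lam a) := TP.tent_measurable lam a
  have hPL : ∀ θ, ∀ t ∈ Icc lam (lam + a), P t θ ≤ L * L := by
    intro θ t ht
    have ht' : t ∈ Icc (lam - 2) (lam + 4) := ⟨by linarith [ht.1], by linarith [ht.2]⟩
    have hL := (hW.solF θ).hL
    exact (hPb t θ).2.trans (mul_le_mul ((hW.solF θ).f_le t ht') ((hW.solF θ).v_le t ht')
      (S.V_pos t θ).le (by linarith))
  -- integrability of the pieces
  have gm : Measurable fun z : M × ℝ => tent lam a z.2 * P z.2 z.1 :=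
    (hwm.comp measurable_snd).mul (hPm.comp (measurable_snd.prodMk measurable_fst))
  have gb : ∀ θ t, |tent lam a t * P t θ| ≤ 2 / a * (L * L) := by
    intro θ t
    by_cases ht : t ∈ Icc lam (lam + a)
    · rw [abs_of_nonneg (mul_nonneg (hw t) (hPb t θ).1)]
      exact mul_le_mul (hw2 t) (hPL θ t ht) (hPb t θ).1 (by positivity)
    · rw [TP.tent_eq_zero_of_notMem ht, zero_mul, abs_zero]
      have := mul_self_nonneg L
      positivity
  have g0 : ∀ (θ : M) t, t ∉ Icc lam (lam + a) → tent lam a t * P t θ = 0 := by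
    intro θ t ht
    rw [TP.tent_eq_zero_of_notMem ht, zero_mul]
  have iP : Integrable (fun θ => ∫ t, tent lam a t * P t θ) μ :=
    ML.integrable_inner (g := fun θ t => tent lam a t * P t θ) gm gb g0
  have iPt : ∀ θ, Integrable (fun t => tent lam a t * P t θ) volume := fun θ =>
    ML.integrable_slice (g := fun t => tent lam a t * P t θ)
      (gm.comp (measurable_const.prodMk measurable_id)) (gb θ) (g0 θ)
  have iT := TP.tent_integrable lam a
  -- Bochner form of the right side
  have eR : ∫ θ, ∫ t, tent lam a t * (c * P t θ + K) ∂volume ∂μ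
      = c * S.EF lam a m L ζ + K * (μ univ).toReal := by
    have e1 : ∀ θ, ∫ t, tent lam a t * (c * P t θ + K) = c * (∫ t, tent lam a t * P t θ) + K := by
      intro θ
      have e2 : ∀ t, tent lam a t * (c * P t θ + K)
          = c * (tent lam a t * P t θ) + K * tent lam a t := fun t => by ring
      simp only [e2]
      rw [integral_add ((iPt θ).const_mul c) (iT.const_mul K), integral_const_mul,
        integral_const_mul, TP.integral_tent ha, mul_one]
    simp only [e1]
    rw [integral_add (iP.const_mul c) (integrable_const K), integral_const_mul, integral_const]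
    unfold Cyl.EF
    rw [smul_eq_mul, mul_comm (μ.real univ), Measure.real]
  -- lintegral form of the right side
  have nn : ∀ t θ, 0 ≤ tent lam a t * (c * P t θ + K) := fun t θ =>
    mul_nonneg (hw t) (add_nonneg (mul_nonneg hc (hPb t θ).1) hK)
  have hRm : Measurable fun z : ℝ × M => tent lam a z.1 * (c * P z.1 z.2 + K) :=
    (hwm.comp measurable_fst).mul ((hPm.const_mul c).add_const K)
  have hfin : ∫⁻ θ, ∫⁻ t, ENNReal.ofReal (tent lam a t * (c * P t θ + K)) ∂volume ∂μ ≠ ∞ := by
    have h1 : ∀ θ, ∫⁻ t, ENNReal.ofReal (tent lam a t * (c * P t θ + K)) ∂volume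
        ≤ ENNReal.ofReal (2 / a * (c * (L * L) + K)) * volume (Icc lam (lam + a)) := by
      intro θ
      rw [← setLIntegral_const, ← lintegral_indicator measurableSet_Icc]
      apply lintegral_mono
      intro t
      by_cases ht : t ∈ Icc lam (lam + a)
      · simp only [indicator_of_mem ht]
        apply ENNReal.ofReal_le_ofReal
        exact mul_le_mul (hw2 t) (by
          have := mul_le_mul_of_nonneg_left (hPL θ t ht) hc
          linarith) (add_nonneg (mul_nonneg hc (hPb t θ).1) hK) (by positivity)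
      · simp only [TP.tent_eq_zero_of_notMem ht, zero_mul, ENNReal.ofReal_zero]
        exact zero_le
    have h2 := lintegral_mono (μ := μ) h1
    refine ne_top_of_le_ne_top ?_ h2
    rw [lintegral_const]
    refine ENNReal.mul_ne_top (ENNReal.mul_ne_top ENNReal.ofReal_ne_top ?_) (measure_ne_top μ _)
    simp
  have eR2 := EnQ.iter_toReal (μ := μ) volume hRm nn hfin
  -- the left side
  have hIm : Measurable fun z : ℝ × M × M => ∫ t, tent lam a t * S.FLo lam a m L η t z.2.1 *
      box (stepShr (S.xG lam a m L z.2.2) (longI a m η) lam a m ζ) z.1 t :=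
    ML.measurable_integral (f := fun (z : ℝ × M × M) t =>
      tent lam a t * S.FLo lam a m L η t z.2.1 *
        box (stepShr (S.xG lam a m L z.2.2) (longI a m η) lam a m ζ) z.1 t)
      (meas_shr S lam a L m η ζ) volume
  have hnn : ∀ z : ℝ × M × M, 0 < z.1 → ∀ t, 0 ≤ tent lam a t * S.FLo lam a m L η t z.2.1 *
      box (stepShr (S.xG lam a m L z.2.2) (longI a m η) lam a m ζ) z.1 t := fun z hz t =>
    mul_nonneg (mul_nonneg (hw t) (RN.FLo_nonneg S lam a m L η t _))
      (RN.box_nonneg (fun s => stepShr_nonneg _ _ _ _ _ _ s) hz.le t)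
  have hnz : ∀ᵐ z ∂(S.nuN δ), 0 ≤ ∫ t, tent lam a t * S.FLo lam a m L η t z.2.1 *
      box (stepShr (S.xG lam a m L z.2.2) (longI a m η) lam a m ζ) z.1 t := by
    filter_upwards [RN.nuN_ae S δ] with z hz
    exact integral_nonneg fun t => hnn z hz.1 t
  have hle : ∫⁻ z, ENNReal.ofReal (∫ t, tent lam a t * S.FLo lam a m L η t z.2.1 *
      box (stepShr (S.xG lam a m L z.2.2) (longI a m η) lam a m ζ) z.1 t) ∂(S.nuN δ)
      ≤ ∫⁻ θ, ∫⁻ t, ENNReal.ofReal (tent lam a t * (c * P t θ + K)) ∂volume ∂μ := by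
    calc _ ≤ ∫⁻ z, ∫⁻ t, ENNReal.ofReal (tent lam a t * S.FLo lam a m L η t z.2.1 *
          box (stepShr (S.xG lam a m L z.2.2) (longI a m η) lam a m ζ) z.1 t) ∂volume
          ∂(S.nuN δ) := by
          apply lintegral_mono_ae
          filter_upwards [RN.nuN_ae S δ] with z hz
          rw [integral_eq_lintegral_of_nonneg_ae
            (Filter.Eventually.of_forall fun t => hnn z hz.1 t)
            ((meas_shr S lam a L m η ζ).comp
              (measurable_const.prodMk measurable_id)).aestronglyMeasurable]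
          exact ENNReal.ofReal_toReal_le
      _ = ∫⁻ t, ∫⁻ z, ENNReal.ofReal (tent lam a t * S.FLo lam a m L η t z.2.1 *
          box (stepShr (S.xG lam a m L z.2.2) (longI a m η) lam a m ζ) z.1 t)
          ∂(S.nuN δ) ∂volume :=
          lintegral_lintegral_swap (meas_shr S lam a L m η ζ).ennreal_ofReal.aemeasurable
      _ ≤ ∫⁻ t, ∫⁻ θ, ENNReal.ofReal (tent lam a t * (c * P t θ + K)) ∂μ ∂volume :=
          lintegral_mono fun t => main_t hW hη hζ h3 t
      _ = _ := lintegral_lintegral_swap hRm.ennreal_ofReal.aemeasurable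
  rw [integral_eq_lintegral_of_nonneg_ae hnz hIm.aestronglyMeasurable, ← eR, eR2]
  exact ENNReal.toReal_mono hfin hle

end cyl

end Crest.Agent.R077.XEnd

namespace Crest.Agent.R077

/-- **STEP X, `F` side** -/
theorem XF : Stmt_XF := by
  intro M _ μ _ S lam a L ha ha1
  obtain ⟨K, hK, h3⟩ := StepX.X3 S.b₁ S.p lam a L ha ha1
  refine ⟨K * (μ univ).toReal, mul_nonneg hK ENNReal.toReal_nonneg, ?_⟩
  intro m η ζ δ hW hδ h1 h2 h8 hmδ
  have hζ : 0 < ζ := by linarith
  have hη : 0 < η := by linarith
  have hδ1 : δ ≤ 1 := by linarith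
  have hmζ : msh a m ≤ ζ := by linarith
  have hmsh : 0 ≤ msh a m := by unfold msh; positivity
  have hcb : 0 ≤ cb S.b₁ S.p := by
    unfold cb
    have := S.hp
    positivity
  have hp := S.hp
  have hc : 0 ≤ (1 + cb S.b₁ S.p * ζ) * ((S.p + 1) / S.p) := by positivity
  have hmain := XEnd.XF_main (S := S) (δ := δ) hW hη hζ.le hc (mul_nonneg hK hmsh)
    (fun θ t ht => h3 (fun t => S.F t θ) (fun t => S.V t θ) m η ζ (hW.solF θ) hW.hm hW.hLm hζ
      (by linarith) h8 hmζ t ht)
  have hend := XEnd.XF_end hW hδ h1 h2 h8 hmζ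
  have iS := XEnd.int_shr hW η hζ.le hδ1
  have iE := XEnd.int_end hW η hζ.le hδ1
  constructor
  · unfold Cyl.X0
    apply integral_nonneg_of_ae
    filter_upwards [RN.nuN_ae S δ] with z hz
    exact integral_nonneg fun t => mul_nonneg
      (mul_nonneg (TP.tent_nonneg lam a t) (RN.FLo_nonneg S lam a m L η t _))
      (RN.box_nonneg (fun s => RN.GLo_nonneg S lam a m L η s _) hz.1.le t)
  · have e : S.X0 lam a m L η δ
        = (∫ z, (∫ t, tent lam a t * S.FLo lam a m L η t z.2.1 *
            box (stepShr (S.xG lam a m L z.2.2) (longI a m η) lam a m ζ) z.1 t) ∂(S.nuN δ))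
          + ∫ z, (∫ t, tent lam a t * S.FLo lam a m L η t z.2.1 *
            box (fun s => S.GLo lam a m L η s z.2.2
              - stepShr (S.xG lam a m L z.2.2) (longI a m η) lam a m ζ s) z.1 t)
            ∂(S.nuN δ) := by
      rw [← integral_add iS iE]
      unfold Cyl.X0
      exact integral_congr_ae (Filter.Eventually.of_forall fun z => XEnd.split_shr η ζ z)
    rw [e]
    have hr : K * msh a m * (μ univ).toReal = K * (μ univ).toReal * msh a m := by ring
    rw [hr] at hmain
    linarith

end Crest.Agent.R077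
end

-- ▼ part R077/Full

/-! Row 77: the core theorem (all statements proved). -/

set_option autoImplicit false

namespace Crest.Agent.R077.Full

theorem core : Stmt_Core :=
  core_of Win Swap SwapX Ident WF (SR.R_of Ident) AA (JB.J_of Ident Win JB.intFdV) TVF EF XF Xs

end Crest.Agent.R077.Full
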