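import Mathlib

/-!
Row 77 (S0102), PDE block G1: Green identity with test functions.
-/

set_option autoImplicit false

open MeasureTheory Laplacian InnerProductSpace Topology Filter Set

namespace Crest.Agent.R077

noncomputable section

variable {n : ℕ}

/-- Euclidean space. -/
abbrev EE (n : ℕ) := EuclideanSpace ℝ (Fin n)

/-- standard basis vectors -/
abbrev ev (i : Fin n) : EE n := EuclideanSpace.single i (1 : ℝ)

/-- partial derivative -/
def pdv (i : Fin n) (f : EE n → ℝ) (x : EE n) : ℝ := fderiv ℝ f x (ev i)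

lemma lap_eq {f : EE n → ℝ} {x : EE n} (hf : ContDiffAt ℝ 2 f x) :
    (Δ f) x = ∑ i, pdv i (pdv i f) x := by
  have h := congrFun (laplacian_eq_iteratedFDeriv_orthonormalBasis f
    (EuclideanSpace.basisFun (Fin n) ℝ)) x
  rw [h]
  apply Finset.sum_congr rfl
  intro i _
  have hd : DifferentiableAt ℝ (fderiv ℝ f) x :=
    ((hf.fderiv_right (m := 1) (by norm_num)).differentiableAt (by norm_num))
  simp only [EuclideanSpace.basisFun_apply, iteratedFDeriv_two_apply, Matrix.cons_val_zero,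
    Matrix.cons_val_one]
  unfold pdv
  have h2 : fderiv ℝ (fun y => fderiv ℝ f y (ev i)) x
      = (fderiv ℝ (fderiv ℝ f) x).flip (ev i) := by
    rw [fderiv_clm_apply hd (differentiableAt_const _)]
    ext v
    simp
  rw [show (fun x => (fderiv ℝ f x) (ev i)) = fun y => fderiv ℝ f y (ev i) from rfl, h2]
  rfl

lemma pdv_congr {f g : EE n → ℝ} {x : EE n} (h : f =ᶠ[𝓝 x] g) (i : Fin n) :
    pdv i f x = pdv i g x := by
  unfold pdv
  rw [h.fderiv_eq]


lemma contDiff_pdv {f : EE n → ℝ} {m k : WithTop ℕ∞} (hf : ContDiff ℝ k f) (hmk : m + 1 ≤ k)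
    (i : Fin n) : ContDiff ℝ m (pdv i f) := by
  have h := (hf.fderiv_right (m := m) hmk).clm_apply (contDiff_const (c := ev i))
  exact h

lemma hasCompactSupport_pdv {f : EE n → ℝ} (hf : HasCompactSupport f) (i : Fin n) :
    HasCompactSupport (pdv i f) :=
  hf.fderiv_apply (𝕜 := ℝ) (ev i)

lemma ibp_right {f g : EE n → ℝ} (hf : ContDiff ℝ 1 f) (hg : ContDiff ℝ 1 g)
    (hc : HasCompactSupport g) (i : Fin n) : ∫ x, pdv i f x * g x = -∫ x, f x * pdv i g x := by
  have h := integral_mul_fderiv_eq_neg_fderiv_mul_of_integrable (μ := (volume : Measure (EE n)))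
    (f := f) (g := g) (v := ev i) ?_ ?_ ?_ ?_ ?_
  · have h2 : ∫ x, pdv i f x * g x = ∫ x, fderiv ℝ f x (ev i) * g x := rfl
    rw [h2]
    have h3 : ∫ x, f x * pdv i g x = ∫ x, f x * fderiv ℝ g x (ev i) := rfl
    rw [h3, h]
    ring
  · exact ((contDiff_pdv (m := 0) hf (by norm_num) i).continuous.mul
      hg.continuous).integrable_of_hasCompactSupport (hc.mul_left)
  · exact (hf.continuous.mul
      (contDiff_pdv (m := 0) hg (by norm_num) i).continuous).integrable_of_hasCompactSupport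
      ((hasCompactSupport_pdv hc i).mul_left)
  · exact (hf.continuous.mul hg.continuous).integrable_of_hasCompactSupport hc.mul_left
  · intro x _
    exact hf.differentiable (by norm_num) x
  · intro x _
    exact hg.differentiable (by norm_num) x

lemma ibp_left {f g : EE n → ℝ} (hf : ContDiff ℝ 1 f) (hg : ContDiff ℝ 1 g)
    (hc : HasCompactSupport f) (i : Fin n) :
    ∫ x, pdv i f x * g x = -∫ x, f x * pdv i g x := by
  have h := ibp_right hg hf hc i
  have h1 : ∫ x, pdv i f x * g x = ∫ x, g x * pdv i f x := by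
    congr 1; funext x; ring
  have h2 : ∫ x, f x * pdv i g x = ∫ x, pdv i g x * f x := by
    congr 1; funext x; ring
  rw [h1, h2, h]
  ring

/-- Green's second identity, one of the functions has compact support. -/
lemma green_smooth {a b : EE n → ℝ} (ha : ContDiff ℝ 2 a) (hb : ContDiff ℝ 2 b)
    (hc : HasCompactSupport b) : ∫ x, a x * (Δ b) x = ∫ x, (Δ a) x * b x := by
  have ha1 : ContDiff ℝ 1 a := ha.of_le (by norm_num)
  have hb1 : ContDiff ℝ 1 b := hb.of_le (by norm_num)
  have pa : ∀ i, ContDiff ℝ 1 (pdv i a) := fun i => contDiff_pdv ha (by norm_num) i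
  have pb : ∀ i, ContDiff ℝ 1 (pdv i b) := fun i => contDiff_pdv hb (by norm_num) i
  have e1 : ∀ x, a x * (Δ b) x = ∑ i, a x * pdv i (pdv i b) x := by
    intro x
    rw [lap_eq hb.contDiffAt, Finset.mul_sum]
  have e2 : ∀ x, (Δ a) x * b x = ∑ i, pdv i (pdv i a) x * b x := by
    intro x
    rw [lap_eq ha.contDiffAt, Finset.sum_mul]
  simp_rw [e1, e2]
  rw [integral_finsetSum, integral_finsetSum]
  · apply Finset.sum_congr rfl
    intro i _
    have h1 : ∫ x, a x * pdv i (pdv i b) x = - ∫ x, pdv i a x * pdv i b x := by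
      have := ibp_right ha1 (pb i) (hasCompactSupport_pdv hc i) i
      linarith
    have h2 := ibp_right (pa i) hb1 hc i
    rw [h1, h2]
  · intro i _
    exact ((contDiff_pdv (m := 0) (pa i) (by norm_num) i).continuous.mul
      hb.continuous).integrable_of_hasCompactSupport (hc.mul_left)
  · intro i _
    exact (ha.continuous.mul
      (contDiff_pdv (m := 0) (pb i) (by norm_num) i).continuous).integrable_of_hasCompactSupport
      ((hasCompactSupport_pdv (hasCompactSupport_pdv hc i) i).mul_left)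

lemma green_one {b : EE n → ℝ} (hb : ContDiff ℝ 2 b)
    (hc : HasCompactSupport b) : ∫ x, (Δ b) x = 0 := by
  have h := green_smooth (a := fun _ : EE n => (1:ℝ)) contDiff_const hb hc
  have h0 : ∀ x, (Δ (fun _ : EE n => (1:ℝ))) x = 0 := by
    intro x
    simp
  simp only [one_mul, h0, zero_mul, integral_zero] at h
  exact h


/-! ### product rule and scaling -/

lemma pdv_mul {f g : EE n → ℝ} {x : EE n} (hf : DifferentiableAt ℝ f x)
    (hg : DifferentiableAt ℝ g x) (i : Fin n) :
    pdv i (fun y => f y * g y) x = pdv i f x * g x + f x * pdv i g x := by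
  unfold pdv
  rw [fderiv_fun_mul hf hg]
  simp only [add_apply, smul_apply, smul_eq_mul]
  ring

lemma pdv_add {f g : EE n → ℝ} {x : EE n} (hf : DifferentiableAt ℝ f x)
    (hg : DifferentiableAt ℝ g x) (i : Fin n) :
    pdv i (fun y => f y + g y) x = pdv i f x + pdv i g x := by
  unfold pdv
  rw [fderiv_fun_add hf hg]
  rfl

lemma pdv_const_mul {f : EE n → ℝ} {x : EE n} (hf : DifferentiableAt ℝ f x) (c : ℝ)
    (i : Fin n) : pdv i (fun y => c * f y) x = c * pdv i f x := by
  unfold pdv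
  rw [fderiv_const_mul hf]
  rfl

lemma pdv_scale {f : EE n → ℝ} {x : EE n} {a : ℝ} (hf : DifferentiableAt ℝ f (a • x))
    (i : Fin n) : pdv i (fun y => f (a • y)) x = a * pdv i f (a • x) := by
  unfold pdv
  have h1 : HasFDerivAt (fun y : EE n => a • y) (a • ContinuousLinearMap.id ℝ (EE n)) x :=
    (hasFDerivAt_id x).const_smul a
  have h2 := hf.hasFDerivAt.comp x h1
  have h3 : fderiv ℝ (fun y => f (a • y)) x
      = (fderiv ℝ f (a • x)).comp (a • ContinuousLinearMap.id ℝ (EE n)) := h2.fderiv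
  rw [h3]
  simp

lemma lap_mul {f g : EE n → ℝ} (hf : ContDiff ℝ 2 f) (hg : ContDiff ℝ 2 g) (x : EE n) :
    (Δ (fun y => f y * g y)) x
      = (Δ f) x * g x + 2 * ∑ i, pdv i f x * pdv i g x + f x * (Δ g) x := by
  have hfg : ContDiff ℝ 2 (fun y => f y * g y) := hf.mul hg
  rw [lap_eq hfg.contDiffAt, lap_eq hf.contDiffAt, lap_eq hg.contDiffAt]
  have df : Differentiable ℝ f := hf.differentiable (by norm_num)
  have dg : Differentiable ℝ g := hg.differentiable (by norm_num)
  have dpf : ∀ i, Differentiable ℝ (pdv i f) := fun i =>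
    (contDiff_pdv (m := 1) hf (by norm_num) i).differentiable (by norm_num)
  have dpg : ∀ i, Differentiable ℝ (pdv i g) := fun i =>
    (contDiff_pdv (m := 1) hg (by norm_num) i).differentiable (by norm_num)
  have h : ∀ i, pdv i (pdv i fun y => f y * g y) x
      = pdv i (pdv i f) x * g x + 2 * (pdv i f x * pdv i g x) + f x * pdv i (pdv i g) x := by
    intro i
    have h1 : pdv i (fun y => f y * g y) = fun y => pdv i f y * g y + f y * pdv i g y := by
      funext y
      exact pdv_mul (df y) (dg y) i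
    rw [h1, pdv_add (f := fun y => pdv i f y * g y) (g := fun y => f y * pdv i g y)
      ((dpf i x).mul (dg x)) ((df x).mul (dpg i x)), pdv_mul (dpf i x) (dg x),
      pdv_mul (df x) (dpg i x)]
    ring
  simp_rw [h]
  rw [Finset.sum_add_distrib, Finset.sum_add_distrib, Finset.sum_mul, Finset.mul_sum,
    Finset.mul_sum]

/-! ### the cut-off near the origin -/

/-- smooth cut-off: `0` for `‖x‖² ≤ 1`, `1` for `‖x‖² ≥ 2`. -/
def chi1 (x : EE n) : ℝ := Real.smoothTransition (‖x‖ ^ 2 - 1)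

lemma contDiff_chi1 {m : ℕ∞} : ContDiff ℝ m (chi1 : EE n → ℝ) := by
  unfold chi1
  exact Real.smoothTransition.contDiff.comp ((contDiff_norm_sq ℝ).sub contDiff_const)

lemma chi1_nonneg (x : EE n) : 0 ≤ chi1 x := Real.smoothTransition.nonneg _
lemma chi1_le_one (x : EE n) : chi1 x ≤ 1 := Real.smoothTransition.le_one _

lemma chi1_zero {x : EE n} (h : ‖x‖ ≤ 1) : chi1 x = 0 := by
  unfold chi1
  apply Real.smoothTransition.zero_of_nonpos
  have := norm_nonneg x
  nlinarith

lemma chi1_one {x : EE n} (h : 2 ≤ ‖x‖) : chi1 x = 1 := by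
  unfold chi1
  apply Real.smoothTransition.one_of_one_le
  nlinarith

lemma pdv_chi1_far {x : EE n} (h : 2 < ‖x‖) (i : Fin n) : pdv i chi1 x = 0 := by
  have h1 : (chi1 : EE n → ℝ) =ᶠ[𝓝 x] fun _ => (1:ℝ) := by
    have : {y : EE n | 2 < ‖y‖} ∈ 𝓝 x := (isOpen_lt continuous_const continuous_norm).mem_nhds h
    filter_upwards [this] with y hy
    exact chi1_one (le_of_lt hy)
  rw [pdv_congr h1]
  unfold pdv
  simp

lemma pdv2_chi1_far {x : EE n} (h : 2 < ‖x‖) (i : Fin n) : pdv i (pdv i chi1) x = 0 := by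
  have h1 : (pdv i (chi1 : EE n → ℝ)) =ᶠ[𝓝 x] fun _ => (0:ℝ) := by
    have : {y : EE n | 2 < ‖y‖} ∈ 𝓝 x := (isOpen_lt continuous_const continuous_norm).mem_nhds h
    filter_upwards [this] with y hy
    exact pdv_chi1_far hy i
  rw [pdv_congr h1]
  unfold pdv
  simp

lemma bdd_of_far {f : EE n → ℝ} (hf : Continuous f) (h : ∀ x, 2 < ‖x‖ → f x = 0) :
    ∃ C : ℝ, 0 ≤ C ∧ ∀ x, |f x| ≤ C := by
  obtain ⟨C, hC⟩ := (isCompact_closedBall (0 : EE n) 2).exists_bound_of_continuousOn
    hf.continuousOn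
  refine ⟨max C 0, le_max_right _ _, fun x => ?_⟩
  by_cases hx : ‖x‖ ≤ 2
  · have := hC x (by simpa using hx)
    exact le_trans this (le_max_left _ _)
  · rw [h x (not_le.mp hx)]
    simp

lemma exists_chi1_bound : ∃ C : ℝ, 0 ≤ C ∧ ∀ (i : Fin n) (x : EE n),
    |pdv i chi1 x| ≤ C ∧ |pdv i (pdv i chi1) x| ≤ C := by
  have h1 : ∀ i : Fin n, ∃ C : ℝ, 0 ≤ C ∧ ∀ x : EE n, |pdv i chi1 x| ≤ C := fun i =>
    bdd_of_far (contDiff_pdv (m := 0) (contDiff_chi1 (m := 1)) (by norm_num) i).continuous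
      (fun x hx => pdv_chi1_far hx i)
  have h2 : ∀ i : Fin n, ∃ C : ℝ, 0 ≤ C ∧ ∀ x : EE n, |pdv i (pdv i chi1) x| ≤ C := fun i =>
    bdd_of_far (contDiff_pdv (m := 0)
      (contDiff_pdv (m := 1) (contDiff_chi1 (m := 2)) (by norm_num) i) (by norm_num) i).continuous
      (fun x hx => pdv2_chi1_far hx i)
  choose C1 hC1 hC1' using h1
  choose C2 hC2 hC2' using h2
  refine ⟨∑ i, (C1 i + C2 i), Finset.sum_nonneg fun i _ => add_nonneg (hC1 i) (hC2 i),
    fun i x => ?_⟩
  have hle : C1 i + C2 i ≤ ∑ j, (C1 j + C2 j) :=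
    Finset.single_le_sum (f := fun j => C1 j + C2 j)
      (fun j _ => add_nonneg (hC1 j) (hC2 j)) (Finset.mem_univ i)
  exact ⟨by linarith [hC1' i x, hC2 i], by linarith [hC2' i x, hC1 i]⟩

/-- rescaled cut-off -/
def chi (δ : ℝ) (x : EE n) : ℝ := chi1 (δ⁻¹ • x)

lemma contDiff_chi {m : ℕ∞} (δ : ℝ) : ContDiff ℝ m (chi δ : EE n → ℝ) :=
  contDiff_chi1.comp (contDiff_const_smul _)

lemma chi_nonneg (δ : ℝ) (x : EE n) : 0 ≤ chi δ x := chi1_nonneg _
lemma chi_le_one (δ : ℝ) (x : EE n) : chi δ x ≤ 1 := chi1_le_one _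

lemma chi_zero {δ : ℝ} (hδ : 0 < δ) {x : EE n} (h : ‖x‖ ≤ δ) : chi δ x = 0 := by
  apply chi1_zero
  rw [norm_smul, Real.norm_eq_abs, abs_of_pos (inv_pos.mpr hδ), inv_mul_le_iff₀ hδ]
  simpa using h

lemma chi_one {δ : ℝ} (hδ : 0 < δ) {x : EE n} (h : 2 * δ ≤ ‖x‖) : chi δ x = 1 := by
  apply chi1_one
  rw [norm_smul, Real.norm_eq_abs, abs_of_pos (inv_pos.mpr hδ), le_inv_mul_iff₀ hδ]
  linarith

lemma pdv_chi (δ : ℝ) (x : EE n) (i : Fin n) :
    pdv i (chi δ) x = δ⁻¹ * pdv i chi1 (δ⁻¹ • x) :=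
  pdv_scale ((contDiff_chi1 (m := 1)).differentiable (by norm_num) _) i

lemma pdv2_chi (δ : ℝ) (x : EE n) (i : Fin n) :
    pdv i (pdv i (chi δ)) x = δ⁻¹ * (δ⁻¹ * pdv i (pdv i chi1) (δ⁻¹ • x)) := by
  have h1 : pdv i (chi δ : EE n → ℝ) = fun y => δ⁻¹ * (fun z => pdv i chi1 (δ⁻¹ • z)) y := by
    funext y
    exact pdv_chi δ y i
  have hd : Differentiable ℝ (pdv i (chi1 : EE n → ℝ)) :=
    (contDiff_pdv (m := 1) (contDiff_chi1 (m := 2)) (by norm_num) i).differentiable (by norm_num)
  rw [h1, pdv_const_mul, pdv_scale (hd _)]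
  exact (hd _).comp x ((contDiff_const_smul (𝕜 := ℝ) (n := 1) δ⁻¹).differentiable (by norm_num) x)


/-! ### regularity of the Laplacian -/

lemma lap_fun_eq {b : EE n → ℝ} (hb : ContDiff ℝ 2 b) :
    (Δ b) = fun x => ∑ i, pdv i (pdv i b) x := by
  funext x
  exact lap_eq hb.contDiffAt

lemma continuous_lap {b : EE n → ℝ} (hb : ContDiff ℝ 2 b) : Continuous (Δ b) := by
  rw [lap_fun_eq hb]
  apply continuous_finsetSum
  intro i _
  exact (contDiff_pdv (m := 0) (contDiff_pdv (m := 1) hb (by norm_num) i) (by norm_num)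
    i).continuous

lemma lap_zero_of_nhds {b : EE n → ℝ} {x : EE n} (h : b =ᶠ[𝓝 x] fun _ => 0) :
    (Δ b) x = 0 := by
  have h1 := (laplacian_congr_nhds h).self_of_nhds
  rw [h1]
  simp

lemma lap_congr_at {f g : EE n → ℝ} {x : EE n} (h : f =ᶠ[𝓝 x] g) : (Δ f) x = (Δ g) x :=
  (laplacian_congr_nhds h).self_of_nhds

lemma hasCompactSupport_lap {b : EE n → ℝ} (hc : HasCompactSupport b) :
    HasCompactSupport (Δ b) := by
  apply hc.mono'
  intro x hx
  by_contra hx2
  have h1 : b =ᶠ[𝓝 x] fun _ => (0:ℝ) := notMem_tsupport_iff_eventuallyEq.mp hx2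
  exact hx (lap_zero_of_nhds h1)

lemma contDiff_cut {u : EE n → ℝ} (hu2 : ContDiffOn ℝ 2 u {0}ᶜ) {δ : ℝ} (hδ : 0 < δ) :
    ContDiff ℝ 2 (fun x => u x * chi δ x) := by
  rw [contDiff_iff_contDiffAt]
  intro x
  by_cases hx : x = 0
  · subst hx
    have h1 : (fun x => u x * chi δ x) =ᶠ[𝓝 0] fun _ => (0:ℝ) := by
      filter_upwards [Metric.ball_mem_nhds (0 : EE n) hδ] with y hy
      rw [chi_zero hδ (by simpa using (le_of_lt (mem_ball_zero_iff.mp hy)))]
      simp
    exact contDiffAt_const.congr_of_eventuallyEq h1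
  · have h1 : ContDiffAt ℝ 2 u x := hu2.contDiffAt (isOpen_compl_singleton.mem_nhds hx)
    exact h1.mul (contDiff_chi (m := 2) δ).contDiffAt

lemma green_cut {u f : EE n → ℝ} (hu : Continuous u)
    (hu2 : ContDiffOn ℝ 2 u {0}ᶜ) (hf : ∀ x, x ≠ 0 → -(Δ u) x = f x)
    {Q : EE n → ℝ} (hQ : ContDiff ℝ 2 Q) (hQc : HasCompactSupport Q) {δ : ℝ} (hδ : 0 < δ) :
    ∫ x, (u x - u 0) * (Δ (fun y => Q y * chi δ y)) x = -∫ x, (Q x * chi δ x) * f x := by
  have hb : ContDiff ℝ 2 (fun y => Q y * chi δ y) := hQ.mul (contDiff_chi (m := 2) δ)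
  have hbc : HasCompactSupport (fun y => Q y * chi δ y) := hQc.mul_right
  have hδ2 : 0 < δ / 2 := by positivity
  have h1 := green_smooth (contDiff_cut hu2 hδ2) hb hbc
  have hcl := continuous_lap hb
  have hcs := hasCompactSupport_lap hbc
  have h2 : ∫ x, u x * (Δ (fun y => Q y * chi δ y)) x
      = ∫ x, (u x * chi (δ / 2) x) * (Δ (fun y => Q y * chi δ y)) x := by
    congr 1
    funext x
    by_cases hx : ‖x‖ < δ
    · have h3 : (fun y => Q y * chi δ y) =ᶠ[𝓝 x] fun _ => (0:ℝ) := by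
        have : {y : EE n | ‖y‖ < δ} ∈ 𝓝 x :=
          (isOpen_lt continuous_norm continuous_const).mem_nhds hx
        filter_upwards [this] with y hy
        rw [chi_zero hδ (le_of_lt hy)]
        simp
      rw [lap_zero_of_nhds h3]
      simp
    · rw [chi_one hδ2 (by linarith [not_lt.mp hx]), mul_one]
  have h4 : ∫ x, (Δ (fun x => u x * chi (δ / 2) x)) x * (Q x * chi δ x)
      = - ∫ x, (Q x * chi δ x) * f x := by
    rw [← integral_neg]
    congr 1
    funext x
    by_cases hx : ‖x‖ ≤ δ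
    · rw [chi_zero hδ hx]
      simp
    · have hx' : δ < ‖x‖ := not_le.mp hx
      have h5 : (fun x => u x * chi (δ / 2) x) =ᶠ[𝓝 x] u := by
        have : {y : EE n | δ < ‖y‖} ∈ 𝓝 x :=
          (isOpen_lt continuous_const continuous_norm).mem_nhds hx'
        filter_upwards [this] with y hy
        rw [chi_one hδ2 (by linarith [show δ < ‖y‖ from hy]), mul_one]
      have hx0 : x ≠ 0 := by
        intro h0
        rw [h0, norm_zero] at hx'
        linarith
      rw [lap_congr_at h5, ← hf x hx0]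
      ring
  have h6 : ∫ x, (u x - u 0) * (Δ (fun y => Q y * chi δ y)) x
      = ∫ x, u x * (Δ (fun y => Q y * chi δ y)) x := by
    have h7 : ∀ x, (u x - u 0) * (Δ (fun y => Q y * chi δ y)) x
        = u x * (Δ (fun y => Q y * chi δ y)) x - u 0 * (Δ (fun y => Q y * chi δ y)) x := by
      intro x; ring
    simp_rw [h7]
    rw [integral_sub, integral_const_mul, green_one hb hbc, mul_zero, sub_zero]
    · exact (hu.mul hcl).integrable_of_hasCompactSupport hcs.mul_left
    · exact (continuous_const.mul hcl).integrable_of_hasCompactSupport hcs.mul_left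
  rw [h6, h2, h1, h4]


lemma err_bound (hn : 2 ≤ n) {u : EE n → ℝ} (hu : Continuous u)
    {Q : EE n → ℝ} (hQ : ContDiff ℝ 2 Q) (hQc : HasCompactSupport Q) :
    ∃ K : ℝ, 0 ≤ K ∧ ∀ η : ℝ, 0 ≤ η → ∀ δ : ℝ, 0 < δ → δ ≤ 1 →
      (∀ x : EE n, ‖x‖ ≤ 2 * δ → |u x - u 0| ≤ η) →
      |∫ x, (u x - u 0) * (2 * ∑ i, pdv i Q x * pdv i (chi δ) x + Q x * (Δ (chi δ)) x)|
        ≤ η * K := by
  obtain ⟨C, hC0, hC⟩ := exists_chi1_bound (n := n)
  obtain ⟨D, hD⟩ := hQc.exists_bound_of_continuous hQ.continuous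
  have hD1 : ∀ i : Fin n, ∃ D : ℝ, ∀ x, ‖pdv i Q x‖ ≤ D := fun i =>
    (hasCompactSupport_pdv hQc i).exists_bound_of_continuous
      (contDiff_pdv (m := 0) (hQ.of_le (m := 1) (by norm_num)) (by norm_num) i).continuous
  choose D1 hD1 using hD1
  set M : ℝ := |D| + ∑ i, |D1 i| with hM
  have hM0 : 0 ≤ M := add_nonneg (abs_nonneg _) (Finset.sum_nonneg fun i _ => abs_nonneg _)
  have hMQ : ∀ x, |Q x| ≤ M := by
    intro x
    have h1 := hD x
    rw [Real.norm_eq_abs] at h1
    have h2 : D ≤ |D| := le_abs_self D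
    have h3 : 0 ≤ ∑ i, |D1 i| := Finset.sum_nonneg fun i _ => abs_nonneg _
    linarith
  have hMD : ∀ i x, |pdv i Q x| ≤ M := by
    intro i x
    have h1 := hD1 i x
    rw [Real.norm_eq_abs] at h1
    have h2 : D1 i ≤ |D1 i| := le_abs_self _
    have h3 : |D1 i| ≤ ∑ j, |D1 j| :=
      Finset.single_le_sum (f := fun j => |D1 j|) (fun j _ => abs_nonneg _) (Finset.mem_univ i)
    have h4 : 0 ≤ |D| := abs_nonneg _
    linarith
  set V : ℝ := (volume : Measure (EE n)).real (Metric.closedBall 0 1) with hV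
  have hV0 : 0 ≤ V := measureReal_nonneg
  refine ⟨(3 * n * M * C) * (2 ^ n * V), by positivity, ?_⟩
  intro η hη δ hδ hδ1 hηu
  have hinv1 : 1 ≤ δ⁻¹ := (one_le_inv₀ hδ).mpr hδ1
  -- pointwise bound
  have hpt : ∀ x, ‖(u x - u 0) * (2 * ∑ i, pdv i Q x * pdv i (chi δ) x + Q x * (Δ (chi δ)) x)‖
      ≤ (Metric.closedBall (0 : EE n) (2 * δ)).indicator
        (fun _ => η * ((3 * n * M * C) * (δ⁻¹) ^ 2)) x := by
    intro x
    by_cases hx : ‖x‖ ≤ 2 * δ
    · rw [indicator_of_mem (by simpa using hx)]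
      rw [norm_mul, Real.norm_eq_abs, Real.norm_eq_abs]
      apply mul_le_mul (hηu x hx) _ (abs_nonneg _) hη
      have h1 : |∑ i, pdv i Q x * pdv i (chi δ) x| ≤ n * (M * (δ⁻¹ * C)) := by
        calc |∑ i, pdv i Q x * pdv i (chi δ) x| ≤ ∑ i, |pdv i Q x * pdv i (chi δ) x| :=
              Finset.abs_sum_le_sum_abs _ _
          _ ≤ ∑ i : Fin n, M * (δ⁻¹ * C) := by
              apply Finset.sum_le_sum
              intro i _
              rw [abs_mul]
              apply mul_le_mul (hMD i x) _ (abs_nonneg _) hM0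
              rw [pdv_chi, abs_mul, abs_of_pos (inv_pos.mpr hδ)]
              exact mul_le_mul_of_nonneg_left (hC i _).1 (le_of_lt (inv_pos.mpr hδ))
          _ = n * (M * (δ⁻¹ * C)) := by simp
      have h2 : |(Δ (chi δ)) x| ≤ n * (δ⁻¹ * (δ⁻¹ * C)) := by
        rw [lap_eq (contDiff_chi (m := 2) δ).contDiffAt]
        calc |∑ i, pdv i (pdv i (chi δ)) x| ≤ ∑ i, |pdv i (pdv i (chi δ)) x| :=
              Finset.abs_sum_le_sum_abs _ _
          _ ≤ ∑ i : Fin n, δ⁻¹ * (δ⁻¹ * C) := by
              apply Finset.sum_le_sum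
              intro i _
              rw [pdv2_chi, abs_mul, abs_mul, abs_of_pos (inv_pos.mpr hδ)]
              apply mul_le_mul_of_nonneg_left _ (le_of_lt (inv_pos.mpr hδ))
              exact mul_le_mul_of_nonneg_left (hC i _).2 (le_of_lt (inv_pos.mpr hδ))
          _ = n * (δ⁻¹ * (δ⁻¹ * C)) := by simp
      have h3 : |2 * ∑ i, pdv i Q x * pdv i (chi δ) x + Q x * (Δ (chi δ)) x|
          ≤ 2 * (n * (M * (δ⁻¹ * C))) + M * (n * (δ⁻¹ * (δ⁻¹ * C))) := by
        refine le_trans (abs_add_le _ _) ?_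
        apply add_le_add
        · rw [abs_mul, abs_two]
          linarith
        · rw [abs_mul]
          exact mul_le_mul (hMQ x) h2 (abs_nonneg _) hM0
      refine le_trans h3 ?_
      have h4 : δ⁻¹ ≤ δ⁻¹ ^ 2 := by nlinarith
      have h5 : 0 ≤ (n : ℝ) * M * C := by positivity
      nlinarith [mul_le_mul_of_nonneg_left h4 h5]
    · rw [indicator_of_notMem (by simpa using hx)]
      have hx' : 2 * δ < ‖x‖ := not_le.mp hx
      have hbig : 2 < ‖δ⁻¹ • x‖ := by
        rw [norm_smul, Real.norm_eq_abs, abs_of_pos (inv_pos.mpr hδ), lt_inv_mul_iff₀ hδ]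
        linarith
      have h1 : ∀ i, pdv i (chi δ) x = 0 := by
        intro i
        rw [pdv_chi, pdv_chi1_far hbig, mul_zero]
      have h2 : (Δ (chi δ)) x = 0 := by
        rw [lap_eq (contDiff_chi (m := 2) δ).contDiffAt]
        apply Finset.sum_eq_zero
        intro i _
        rw [pdv2_chi, pdv2_chi1_far hbig, mul_zero, mul_zero]
      simp [h1, h2]
  have hint : Integrable ((Metric.closedBall (0 : EE n) (2 * δ)).indicator
        (fun _ => η * ((3 * n * M * C) * (δ⁻¹) ^ 2))) := by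
    rw [integrable_indicator_iff measurableSet_closedBall]
    exact (integrableOn_const_iff).mpr (Or.inr measure_closedBall_lt_top)
  have h1 := norm_integral_le_of_norm_le hint (ae_of_all _ hpt)
  rw [Real.norm_eq_abs] at h1
  refine le_trans h1 ?_
  rw [integral_indicator measurableSet_closedBall, setIntegral_const, smul_eq_mul]
  have hvol : (volume : Measure (EE n)).real (Metric.closedBall (0 : EE n) (2 * δ))
      = (2 * δ) ^ n * V := by
    have h2 := Measure.addHaar_real_closedBall (volume : Measure (EE n)) (0 : EE n)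
      (r := 2 * δ) (by positivity)
    rw [finrank_euclideanSpace_fin] at h2
    rw [h2, hV]
    congr 1
    have h3 := Measure.addHaar_real_closedBall (volume : Measure (EE n)) (0 : EE n)
      (r := 1) (by positivity)
    rw [h3]
    simp
  rw [hvol]
  have h5 : (2 * δ) ^ n * δ⁻¹ ^ 2 ≤ 2 ^ n := by
    obtain ⟨m, rfl⟩ := Nat.exists_eq_add_of_le hn
    rw [mul_pow, pow_add δ 2 m]
    have h6 : δ ^ m ≤ 1 := pow_le_one₀ hδ.le hδ1
    have h7 : δ ^ 2 * δ⁻¹ ^ 2 = 1 := by
      rw [← mul_pow, mul_inv_cancel₀ hδ.ne', one_pow]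
    calc 2 ^ (2 + m) * (δ ^ 2 * δ ^ m) * δ⁻¹ ^ 2
        = 2 ^ (2 + m) * δ ^ m * (δ ^ 2 * δ⁻¹ ^ 2) := by ring
      _ = 2 ^ (2 + m) * δ ^ m := by rw [h7, mul_one]
      _ ≤ 2 ^ (2 + m) * 1 := by
          apply mul_le_mul_of_nonneg_left h6
          positivity
      _ = 2 ^ (2 + m) := mul_one _
  have h6 : 0 ≤ η * (3 * n * M * C) * V := by positivity
  calc (2 * δ) ^ n * V * (η * ((3 * n * M * C) * (δ⁻¹) ^ 2))
      = (η * (3 * n * M * C) * V) * ((2 * δ) ^ n * δ⁻¹ ^ 2) := by ring
    _ ≤ (η * (3 * n * M * C) * V) * 2 ^ n := mul_le_mul_of_nonneg_left h5 h6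
    _ = η * ((3 * n * M * C) * (2 ^ n * V)) := by ring

/-- **G1**: Green identity with test functions for `u` continuous on the whole space and `C²` off
the origin. -/
theorem green_test (hn : 2 ≤ n) {u f : EE n → ℝ} (hu : Continuous u)
    (hu2 : ContDiffOn ℝ 2 u {0}ᶜ) (hf : ∀ x, x ≠ 0 → -(Δ u) x = f x)
    (hfi : LocallyIntegrable f) {Q : EE n → ℝ} (hQ : ContDiff ℝ 2 Q)
    (hQc : HasCompactSupport Q) :
    ∫ x, u x * (Δ Q) x = -∫ x, Q x * f x := by
  have hQf : Integrable (fun x => Q x * f x) := by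
    have := hfi.integrable_smul_left_of_hasCompactSupport hQ.continuous hQc
    simpa [smul_eq_mul] using this
  have hlc := continuous_lap hQ
  have hls := hasCompactSupport_lap hQc
  have huint : Integrable (fun x => (u x - u 0) * (Δ Q) x) :=
    ((hu.sub continuous_const).mul hlc).integrable_of_hasCompactSupport hls.mul_left
  obtain ⟨K, hK0, hK⟩ := err_bound hn hu hQ hQc
  set d : ℕ → ℝ := fun k => 1 / ((k : ℝ) + 1) with hd
  have hd0 : ∀ k, 0 < d k := fun k => by positivity
  have hd1 : ∀ k, d k ≤ 1 := by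
    intro k
    rw [hd]
    simp only
    rw [div_le_one (by positivity)]
    have : (0:ℝ) ≤ k := Nat.cast_nonneg k
    linarith
  have hdl : Tendsto d atTop (𝓝 0) := tendsto_one_div_add_atTop_nhds_zero_nat
  -- pointwise convergence of the cut-off
  have hchi : ∀ x : EE n, x ≠ 0 → ∀ᶠ k in atTop, chi (d k) x = 1 := by
    intro x hx
    have h1 : 0 < ‖x‖ / 2 := by positivity
    filter_upwards [hdl.eventually (gt_mem_nhds h1)] with k hk
    exact chi_one (hd0 k) (by linarith)
  have hae : ∀ᵐ x : EE n, x ≠ 0 := by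
    have : NeZero n := ⟨by omega⟩
    have h0 : (volume : Measure (EE n)) {0} = 0 := by
      have : Nonempty (Fin n) := ⟨⟨0, by omega⟩⟩
      have : Nontrivial (EE n) := inferInstance
      exact measure_singleton 0
    rw [ae_iff]
    simpa using h0
  -- the three limits
  have hA : Tendsto (fun k => ∫ x, (u x - u 0) * (chi (d k) x * (Δ Q) x)) atTop
      (𝓝 (∫ x, (u x - u 0) * (Δ Q) x)) := by
    apply tendsto_integral_of_dominated_convergence (fun x => ‖(u x - u 0) * (Δ Q) x‖)
    · intro k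
      exact ((hu.sub continuous_const).mul
        ((contDiff_chi (m := 0) (d k)).continuous.mul hlc)).aestronglyMeasurable
    · exact huint.norm
    · intro k
      refine ae_of_all _ fun x => ?_
      rw [norm_mul, norm_mul, norm_mul]
      apply mul_le_mul_of_nonneg_left _ (norm_nonneg _)
      rw [Real.norm_eq_abs (chi (d k) x), abs_of_nonneg (chi_nonneg _ _)]
      exact mul_le_of_le_one_left (norm_nonneg _) (chi_le_one _ _)
    · filter_upwards [hae] with x hx
      apply tendsto_const_nhds.congr'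
      filter_upwards [hchi x hx] with k hk
      rw [hk, one_mul]
  have hB : Tendsto (fun k => ∫ x, (Q x * chi (d k) x) * f x) atTop
      (𝓝 (∫ x, Q x * f x)) := by
    apply tendsto_integral_of_dominated_convergence (fun x => ‖Q x * f x‖)
    · intro k
      have h1 : (fun x => (Q x * chi (d k) x) * f x) = fun x => chi (d k) x * (Q x * f x) := by
        funext x; ring
      rw [h1]
      exact ((contDiff_chi (m := 0) (d k)).continuous.aestronglyMeasurable).mul
        hQf.aestronglyMeasurable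
    · exact hQf.norm
    · intro k
      refine ae_of_all _ fun x => ?_
      have h1 : (Q x * chi (d k) x) * f x = chi (d k) x * (Q x * f x) := by ring
      rw [h1, norm_mul, Real.norm_eq_abs (chi (d k) x), abs_of_nonneg (chi_nonneg _ _)]
      exact mul_le_of_le_one_left (norm_nonneg _) (chi_le_one _ _)
    · filter_upwards [hae] with x hx
      apply tendsto_const_nhds.congr'
      filter_upwards [hchi x hx] with k hk
      rw [hk, mul_one]
  have hE : Tendsto (fun k => ∫ x, (u x - u 0) *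
      (2 * ∑ i, pdv i Q x * pdv i (chi (d k)) x + Q x * (Δ (chi (d k))) x)) atTop (𝓝 0) := by
    rw [Metric.tendsto_atTop]
    intro ε hε
    have hη : 0 < ε / (2 * (K + 1)) := by positivity
    have hc := Metric.continuousAt_iff.mp (hu.continuousAt (x := 0)) _ hη
    obtain ⟨r, hr, hr2⟩ := hc
    have h1 : ∀ᶠ k in atTop, d k < r / 2 := hdl.eventually (gt_mem_nhds (by positivity))
    obtain ⟨N, hN⟩ := eventually_atTop.mp h1
    refine ⟨N, fun k hk => ?_⟩
    have h2 := hK (ε / (2 * (K + 1))) hη.le (d k) (hd0 k) (hd1 k) (by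
      intro x hx
      have h3 : dist x 0 < r := by
        rw [dist_zero_right]
        have := hN k hk
        linarith
      have h4 := hr2 h3
      rw [Real.dist_eq] at h4
      exact h4.le)
    rw [Real.dist_eq, sub_zero]
    refine lt_of_le_of_lt h2 ?_
    rw [div_mul_eq_mul_div, div_lt_iff₀ (by positivity)]
    nlinarith
  have hsplit : ∀ k, ∫ x, (u x - u 0) * (Δ (fun y => Q y * chi (d k) y)) x
      = (∫ x, (u x - u 0) * (chi (d k) x * (Δ Q) x)) + ∫ x, (u x - u 0) *
      (2 * ∑ i, pdv i Q x * pdv i (chi (d k)) x + Q x * (Δ (chi (d k))) x) := by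
    intro k
    rw [← integral_add]
    · congr 1
      funext x
      rw [lap_mul hQ (contDiff_chi (m := 2) (d k))]
      ring
    · exact ((hu.sub continuous_const).mul
        ((contDiff_chi (m := 0) (d k)).continuous.mul hlc)).integrable_of_hasCompactSupport
        (hls.mul_left).mul_left
    · have hcQ : ∀ i, Continuous (pdv i Q) := fun i =>
        (contDiff_pdv (m := 0) (hQ.of_le (m := 1) (by norm_num)) (by norm_num) i).continuous
      have hcc : ∀ i, Continuous (pdv i (chi (d k) : EE n → ℝ)) := fun i =>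
        (contDiff_pdv (m := 0) (contDiff_chi (m := 1) (d k)) (by norm_num) i).continuous
      have hcont : Continuous fun x => (2 * ∑ i, pdv i Q x * pdv i (chi (d k)) x
          + Q x * (Δ (chi (d k))) x) :=
        (continuous_const.mul (continuous_finsetSum _ fun i _ => (hcQ i).mul (hcc i))).add
          (hQ.continuous.mul (continuous_lap (contDiff_chi (m := 2) (d k))))
      have hsupp : HasCompactSupport fun x => (2 * ∑ i, pdv i Q x * pdv i (chi (d k)) x
          + Q x * (Δ (chi (d k))) x) := by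
        apply hQc.mono'
        intro x hx
        by_contra hx2
        have h1 : Q =ᶠ[𝓝 x] fun _ => (0:ℝ) := notMem_tsupport_iff_eventuallyEq.mp hx2
        apply hx
        have h2 : Q x = 0 := h1.self_of_nhds
        have h3 : ∀ i, pdv i Q x = 0 := by
          intro i
          rw [pdv_congr h1]
          unfold pdv
          simp
        simp [h2, h3]
      exact ((hu.sub continuous_const).mul hcont).integrable_of_hasCompactSupport hsupp.mul_left
  have hlim := hA.add hE
  have hlim2 : Tendsto (fun k => -∫ x, (Q x * chi (d k) x) * f x) atTop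
      (𝓝 (-∫ x, Q x * f x)) := hB.neg
  have heq : (fun k => -∫ x, (Q x * chi (d k) x) * f x)
      = fun k => (∫ x, (u x - u 0) * (chi (d k) x * (Δ Q) x)) + ∫ x, (u x - u 0) *
      (2 * ∑ i, pdv i Q x * pdv i (chi (d k)) x + Q x * (Δ (chi (d k))) x) := by
    funext k
    rw [← hsplit k, green_cut hu hu2 hf hQ hQc (hd0 k)]
  rw [heq] at hlim2
  have h8 := tendsto_nhds_unique hlim hlim2
  rw [add_zero] at h8
  rw [← h8]
  have h9 : ∀ x, (u x - u 0) * (Δ Q) x = u x * (Δ Q) x - u 0 * (Δ Q) x := by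
    intro x; ring
  simp_rw [h9]
  rw [integral_sub, integral_const_mul, green_one hQ hQc, mul_zero, sub_zero]
  · exact (hu.mul hlc).integrable_of_hasCompactSupport hls.mul_left
  · exact (continuous_const.mul hlc).integrable_of_hasCompactSupport hls.mul_left

end

end Crest.Agent.R077
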