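import Crest.Agent.R077.Kern2
import Crest.Agent.R077.Kern_Mg
import Crest.Agent.R077.Far
import Crest.Agent.R077.CylA
import Crest.Agent.R077.Defs
import Crest.Agent.R077.Green
import Crest.Agent.R077.Lap
import Crest.Agent.R077.Rep
import Crest.Agent.R077.Core

-- ▼ part R077/Kern3
section

/-! Row 77: absolute convergence of the force (K6). -/

set_option autoImplicit false

open MeasureTheory Set Filter Topology
open scoped ENNReal RealInnerProductSpace

namespace Crest.Agent.R077.Kern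

variable {n : ℕ}

theorem int_of (hn : 3 ≤ n) {F G : ℝ → Sph n → ℝ≥0∞} (hF : Measurable (Function.uncurry F))
    (hG : Measurable (Function.uncurry G))
    (hFint : ∀ T : ℝ, ∃ C : ℝ≥0∞, C ≠ ⊤ ∧ ∀ θ, ∫⁻ t in Iic T, F t θ ≤ C)
    (hGbd : ∀ T : ℝ, ∃ C : ℝ≥0∞, C ≠ ⊤ ∧ ∀ θ, ∀ t, t ≤ T → G t θ ≤ C)
    (hfar : ∫⁻ t, ∫⁻ θ, (∫⁻ s, ∫⁻ θ2, F t θ * G s θ2 *
      ENNReal.ofReal (Real.exp (-(cc n) * |t - s|)) ∂(sph n)) ∂(sph n) < ⊤) (T : ℝ) :
    ∫⁻ θ, (∫⁻ θ2, (∫⁻ ρ in Ioi (0 : ℝ), ENNReal.ofReal (HH ρ θ θ2) *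
      ∫⁻ t in Iic T, F t θ * (G (t + ρ) θ2 + G (t - ρ) θ2)) ∂(sph n)) ∂(sph n) ≠ ⊤ := by
  obtain ⟨CF, hCF, hCF'⟩ := hFint T
  obtain ⟨CG, hCG, hCG'⟩ := hGbd (T + 1)
  obtain ⟨CB, hCB, hCB'⟩ := exists_lintegral_base_le hn
  have hc := cc_pos hn
  set Ce : ℝ≥0∞ := ENNReal.ofReal (cc n * 4 ^ (cc n + 1)) with hCe
  set N : Sph n → Sph n → ℝ≥0∞ := fun θ θ2 => (ENNReal.ofReal (4 * cc n) * (CF * (CG + CG))) *
    ∫⁻ ρ in Ioo (-1 : ℝ) 1, ENNReal.ofReal ((base ρ θ θ2) ^ (-(((n : ℝ) - 1) / 2))) with hN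
  set K : ℝ → Sph n → ℝ → Sph n → ℝ≥0∞ := fun t θ s θ2 => F t θ * G s θ2 *
      ENNReal.ofReal (Real.exp (-(cc n) * |t - s|)) with hK
  set Fa : Sph n → Sph n → ℝ≥0∞ := fun θ θ2 => (Ce * 2) * ∫⁻ t, ∫⁻ s, K t θ s θ2 with hFa
  -- measurability of `K`
  have hKm : Measurable fun p : (ℝ × Sph n) × (ℝ × Sph n) => K p.1.1 p.1.2 p.2.1 p.2.2 := by
    rw [hK]
    refine Measurable.mul (Measurable.mul ?_ ?_) ?_
    · exact hF.comp measurable_fst
    · exact hG.comp measurable_snd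
    · fun_prop
  -- pointwise bound
  have key : ∀ θ θ2 : Sph n, (∫⁻ ρ in Ioi (0 : ℝ), ENNReal.ofReal (HH ρ θ θ2) *
      ∫⁻ t in Iic T, F t θ * (G (t + ρ) θ2 + G (t - ρ) θ2)) ≤ N θ θ2 + Fa θ θ2 := by
    intro θ θ2
    have hsplit : Ioi (0 : ℝ) = Ioo 0 1 ∪ Ici 1 := by
      rw [Ioo_union_Ici_eq_Ioi zero_lt_one]
    rw [hsplit]
    refine (lintegral_union_le _ _ _).trans (add_le_add ?_ ?_)
    · -- near
      have h1 : ∀ ρ ∈ Ioo (0 : ℝ) 1, ENNReal.ofReal (HH ρ θ θ2) *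
          ∫⁻ t in Iic T, F t θ * (G (t + ρ) θ2 + G (t - ρ) θ2) ≤
          (ENNReal.ofReal (4 * cc n) * (CF * (CG + CG))) *
            ENNReal.ofReal ((base ρ θ θ2) ^ (-(((n : ℝ) - 1) / 2))) := by
        intro ρ hρ
        have h2 : ∫⁻ t in Iic T, F t θ * (G (t + ρ) θ2 + G (t - ρ) θ2) ≤ CF * (CG + CG) := by
          calc ∫⁻ t in Iic T, F t θ * (G (t + ρ) θ2 + G (t - ρ) θ2)
              ≤ ∫⁻ t in Iic T, F t θ * (CG + CG) := by
                refine setLIntegral_mono' measurableSet_Iic fun t ht => ?_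
                have ht' : t ≤ T := ht
                gcongr
                · exact hCG' θ2 _ (by linarith [hρ.2])
                · exact hCG' θ2 _ (by linarith [hρ.1])
            _ = (∫⁻ t in Iic T, F t θ) * (CG + CG) :=
                lintegral_mul_const' _ _ (ENNReal.add_ne_top.2 ⟨hCG, hCG⟩)
            _ ≤ _ := by gcongr; exact hCF' θ
        have h3 : ENNReal.ofReal (HH ρ θ θ2) ≤ ENNReal.ofReal (4 * cc n) *
            ENNReal.ofReal ((base ρ θ θ2) ^ (-(((n : ℝ) - 1) / 2))) := by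
          rw [← ENNReal.ofReal_mul (by positivity)]
          exact ENNReal.ofReal_le_ofReal (HH_le_base hn hρ.1 hρ.2.le θ θ2)
        calc _ ≤ (ENNReal.ofReal (4 * cc n) *
              ENNReal.ofReal ((base ρ θ θ2) ^ (-(((n : ℝ) - 1) / 2)))) * (CF * (CG + CG)) :=
              mul_le_mul' h3 h2
          _ = _ := by ring
      calc _ ≤ ∫⁻ ρ in Ioo (0 : ℝ) 1, (ENNReal.ofReal (4 * cc n) * (CF * (CG + CG))) *
            ENNReal.ofReal ((base ρ θ θ2) ^ (-(((n : ℝ) - 1) / 2))) :=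
            setLIntegral_mono' measurableSet_Ioo h1
        _ = (ENNReal.ofReal (4 * cc n) * (CF * (CG + CG))) * ∫⁻ ρ in Ioo (0 : ℝ) 1,
            ENNReal.ofReal ((base ρ θ θ2) ^ (-(((n : ℝ) - 1) / 2))) :=
            lintegral_const_mul' _ _ (ENNReal.mul_ne_top ENNReal.ofReal_ne_top
              (ENNReal.mul_ne_top hCF (ENNReal.add_ne_top.2 ⟨hCG, hCG⟩)))
        _ ≤ _ := by
            rw [hN]
            simp only
            gcongr
            norm_num
    · -- far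
      have h1 : ∀ ρ ∈ Ici (1 : ℝ), ENNReal.ofReal (HH ρ θ θ2) *
          ∫⁻ t in Iic T, F t θ * (G (t + ρ) θ2 + G (t - ρ) θ2) ≤
          Ce * ∫⁻ t, (F t θ * G (t + ρ) θ2 * ENNReal.ofReal (Real.exp (-(cc n) * |ρ|)) +
            F t θ * G (t - ρ) θ2 * ENNReal.ofReal (Real.exp (-(cc n) * |ρ|))) := by
        intro ρ hρ
        have hρ' : |ρ| = ρ := abs_of_pos (lt_of_lt_of_le one_pos hρ)
        have h3 : ENNReal.ofReal (HH ρ θ θ2) ≤ Ce *
            ENNReal.ofReal (Real.exp (-(cc n) * |ρ|)) := by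
          rw [hCe, ← ENNReal.ofReal_mul (by positivity), hρ']
          exact ENNReal.ofReal_le_ofReal (HH_le_exp hn hρ θ θ2)
        calc _ ≤ (Ce * ENNReal.ofReal (Real.exp (-(cc n) * |ρ|))) *
              ∫⁻ t, F t θ * (G (t + ρ) θ2 + G (t - ρ) θ2) :=
              mul_le_mul' h3 (setLIntegral_le_lintegral _ _)
          _ = Ce * ∫⁻ t, ENNReal.ofReal (Real.exp (-(cc n) * |ρ|)) *
                (F t θ * (G (t + ρ) θ2 + G (t - ρ) θ2)) := by
              rw [mul_assoc, ← lintegral_const_mul' _ _ ENNReal.ofReal_ne_top]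
          _ = _ := by
              congr 1
              refine lintegral_congr fun t => ?_
              ring
      have hmF : Measurable fun p : ℝ × ℝ => F p.2 θ := hF.comp (by fun_prop :
        Measurable fun p : ℝ × ℝ => (p.2, θ))
      have hmG : Measurable fun p : ℝ × ℝ => G (p.2 + p.1) θ2 := hG.comp (by fun_prop :
        Measurable fun p : ℝ × ℝ => (p.2 + p.1, θ2))
      have hmG' : Measurable fun p : ℝ × ℝ => G (p.2 - p.1) θ2 := hG.comp (by fun_prop :
        Measurable fun p : ℝ × ℝ => (p.2 - p.1, θ2))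
      have hme : Measurable fun p : ℝ × ℝ => ENNReal.ofReal (Real.exp (-(cc n) * |p.1|)) := by
        fun_prop
      calc _ ≤ ∫⁻ ρ in Ici (1 : ℝ), Ce *
            ∫⁻ t, (F t θ * G (t + ρ) θ2 * ENNReal.ofReal (Real.exp (-(cc n) * |ρ|)) +
            F t θ * G (t - ρ) θ2 * ENNReal.ofReal (Real.exp (-(cc n) * |ρ|))) :=
            setLIntegral_mono' measurableSet_Ici h1
        _ ≤ ∫⁻ ρ, Ce *
            ∫⁻ t, (F t θ * G (t + ρ) θ2 * ENNReal.ofReal (Real.exp (-(cc n) * |ρ|)) +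
            F t θ * G (t - ρ) θ2 * ENNReal.ofReal (Real.exp (-(cc n) * |ρ|))) :=
            setLIntegral_le_lintegral _ _
        _ = Ce * ∫⁻ ρ, 
            ∫⁻ t, (F t θ * G (t + ρ) θ2 * ENNReal.ofReal (Real.exp (-(cc n) * |ρ|)) +
            F t θ * G (t - ρ) θ2 * ENNReal.ofReal (Real.exp (-(cc n) * |ρ|))) :=
            lintegral_const_mul' _ _ ENNReal.ofReal_ne_top
        _ = Ce * ∫⁻ t, 
            ∫⁻ ρ, (F t θ * G (t + ρ) θ2 * ENNReal.ofReal (Real.exp (-(cc n) * |ρ|)) +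
            F t θ * G (t - ρ) θ2 * ENNReal.ofReal (Real.exp (-(cc n) * |ρ|))) := by
            rw [lintegral_lintegral_swap]
            exact (((hmF.mul hmG).mul hme).add ((hmF.mul hmG').mul hme)).aemeasurable
        _ = Ce * ∫⁻ t, (2 * ∫⁻ s, K t θ s θ2) := by
            congr 1
            refine lintegral_congr fun t => ?_
            have hm1 : Measurable fun ρ : ℝ => F t θ * G (t + ρ) θ2 *
                ENNReal.ofReal (Real.exp (-(cc n) * |ρ|)) := by
              have : Measurable fun ρ : ℝ => G (t + ρ) θ2 := hG.comp (by fun_prop :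
                Measurable fun ρ : ℝ => (t + ρ, θ2))
              fun_prop
            rw [lintegral_add_left hm1, two_mul]
            have hKe : ∀ s, K t θ s θ2 = F t θ * G s θ2 *
              ENNReal.ofReal (Real.exp (-(cc n) * |t - s|)) := fun s => rfl
            congr 1
            · have := lintegral_add_left_eq_self (μ := (volume : Measure ℝ))
                (fun s => K t θ s θ2) t
              rw [← this]
              refine lintegral_congr fun ρ => ?_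
              rw [hKe]
              congr 4
              rw [show t - (t + ρ) = -ρ by ring, abs_neg]
            · have := lintegral_sub_left_eq_self (μ := (volume : Measure ℝ))
                (fun s => K t θ s θ2) t
              rw [← this]
              refine lintegral_congr fun ρ => ?_
              rw [hKe]
              congr 4
              rw [show t - (t - ρ) = ρ by ring]
        _ = Ce * (2 * ∫⁻ t, ∫⁻ s, K t θ s θ2) := by
            rw [lintegral_const_mul' _ _ (by norm_num)]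
        _ = _ := by rw [hFa]; ring
  -- integrate
  have hNint : ∫⁻ θ, ∫⁻ θ2, N θ θ2 ∂(sph n) ∂(sph n) ≤
      ((ENNReal.ofReal (4 * cc n) * (CF * (CG + CG))) * CB) * (sph n) univ := by
    rw [← lintegral_const]
    refine lintegral_mono fun θ => ?_
    rw [hN]
    simp only
    rw [lintegral_const_mul' _ _ (ENNReal.mul_ne_top ENNReal.ofReal_ne_top
              (ENNReal.mul_ne_top hCF (ENNReal.add_ne_top.2 ⟨hCG, hCG⟩)))]
    gcongr
    have hm : Measurable fun p : Sph n × ℝ =>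
        ENNReal.ofReal ((base p.2 θ p.1) ^ (-(((n : ℝ) - 1) / 2))) := by
      apply ENNReal.measurable_ofReal.comp
      apply Measurable.pow_const
      exact (continuous_base.comp (by fun_prop : Continuous fun p : Sph n × ℝ =>
        (p.2, θ, p.1))).measurable
    rw [lintegral_lintegral_swap hm.aemeasurable]
    exact hCB' θ
  have hFaint : ∫⁻ θ, ∫⁻ θ2, Fa θ θ2 ∂(sph n) ∂(sph n) = (Ce * 2) *
      ∫⁻ t, ∫⁻ θ, (∫⁻ s, ∫⁻ θ2, F t θ * G s θ2 *
      ENNReal.ofReal (Real.exp (-(cc n) * |t - s|)) ∂(sph n)) ∂(sph n) := by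
    have hC2 : Ce * 2 ≠ ⊤ := ENNReal.mul_ne_top ENNReal.ofReal_ne_top (by norm_num)
    rw [hFa]
    simp only
    have e1 : ∀ θ : Sph n, ∫⁻ θ2, (Ce * 2 * (∫⁻ t, ∫⁻ s, K t θ s θ2)) ∂(sph n) =
        Ce * 2 * ∫⁻ t, (∫⁻ s, ∫⁻ θ2, K t θ s θ2 ∂(sph n)) := by
      intro θ
      rw [lintegral_const_mul' _ _ hC2]
      congr 1
      rw [lintegral_lintegral_swap]
      · refine lintegral_congr fun t => ?_
        rw [lintegral_lintegral_swap]
        exact (hKm.comp (by fun_prop : Measurable fun p : Sph n × ℝ =>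
          ((t, θ), (p.2, p.1)))).aemeasurable
      · have : Measurable fun p : (Sph n × ℝ) × ℝ => K p.1.2 θ p.2 p.1.1 :=
          hKm.comp (by fun_prop : Measurable fun p : (Sph n × ℝ) × ℝ =>
            ((p.1.2, θ), (p.2, p.1.1)))
        exact this.lintegral_prod_right'.aemeasurable
    simp only [e1]
    rw [lintegral_const_mul' _ _ hC2]
    congr 1
    rw [lintegral_lintegral_swap]
    have h1 : Measurable fun p : ((Sph n × ℝ) × ℝ) × Sph n => K p.1.1.2 p.1.1.1 p.1.2 p.2 :=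
      hKm.comp (by fun_prop : Measurable fun p : ((Sph n × ℝ) × ℝ) × Sph n =>
        ((p.1.1.2, p.1.1.1), (p.1.2, p.2)))
    exact h1.lintegral_prod_right'.lintegral_prod_right'.aemeasurable
  have hFam : ∀ θ : Sph n, Measurable fun θ2 => N θ θ2 := by
    intro θ
    rw [hN]
    simp only
    have hm : Measurable fun p : Sph n × ℝ =>
        ENNReal.ofReal ((base p.2 θ p.1) ^ (-(((n : ℝ) - 1) / 2))) := by
      apply ENNReal.measurable_ofReal.comp
      apply Measurable.pow_const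
      exact (continuous_base.comp (by fun_prop : Continuous fun p : Sph n × ℝ =>
        (p.2, θ, p.1))).measurable
    exact (hm.lintegral_prod_right').const_mul _
  have hNm : Measurable fun θ => ∫⁻ θ2, N θ θ2 ∂(sph n) := by
    rw [hN]
    simp only
    have hm : Measurable fun p : (Sph n × Sph n) × ℝ =>
        ENNReal.ofReal ((base p.2 p.1.1 p.1.2) ^ (-(((n : ℝ) - 1) / 2))) := by
      apply ENNReal.measurable_ofReal.comp
      apply Measurable.pow_const
      exact (continuous_base.comp (by fun_prop : Continuous fun p : (Sph n × Sph n) × ℝ =>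
        (p.2, p.1.1, p.1.2))).measurable
    exact ((hm.lintegral_prod_right').const_mul _).lintegral_prod_right'
  refine ne_of_lt (lt_of_le_of_lt (lintegral_mono fun θ => lintegral_mono fun θ2 => key θ θ2) ?_)
  have hsum : ∫⁻ θ, ∫⁻ θ2, (N θ θ2 + Fa θ θ2) ∂(sph n) ∂(sph n) =
      ∫⁻ θ, ∫⁻ θ2, N θ θ2 ∂(sph n) ∂(sph n) + ∫⁻ θ, ∫⁻ θ2, Fa θ θ2 ∂(sph n) ∂(sph n) := by
    rw [← lintegral_add_left hNm]
    refine lintegral_congr fun θ => ?_
    rw [lintegral_add_left (hFam θ)]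
  rw [hsum, hFaint]
  refine ENNReal.add_lt_top.2 ⟨lt_of_le_of_lt hNint ?_, ?_⟩
  · exact ENNReal.mul_lt_top (ENNReal.mul_lt_top (ENNReal.mul_lt_top ENNReal.ofReal_lt_top
      (ENNReal.mul_lt_top hCF.lt_top (ENNReal.add_lt_top.2 ⟨hCG.lt_top, hCG.lt_top⟩)))
      hCB.lt_top) (measure_lt_top _ _)
  · exact ENNReal.mul_lt_top (ENNReal.mul_lt_top ENNReal.ofReal_lt_top (by norm_num)) hfar

end Crest.Agent.R077.Kern
end

-- ▼ part R077/FarCyl
section

/-! Row 77: the far energy and the local energies on the cylinder. -/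

set_option autoImplicit false

open MeasureTheory Set Filter Topology
open scoped ENNReal RealInnerProductSpace

namespace Crest.Agent.R077.Kern

variable {n : ℕ}

/-- `min (kk τ) (kk δ) ≤ C δ^{-(n-2)} e^{-c|τ|}` in the form with the maximum inside -/
theorem kk_max_le (hn : 3 ≤ n) {δ : ℝ} (h0 : 0 < δ) (h1 : δ ≤ 1) (τ : ℝ) (θ θ' : Sph n) :
    kk (max δ |τ|) θ θ' ≤ (4 ^ (cc n) + Real.exp (cc n)) * δ ^ (-((n : ℝ) - 2)) *
      Real.exp (-(cc n) * |τ|) := by
  have hc := cc_pos hn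
  have hn3 : (3 : ℝ) ≤ n := by exact_mod_cast hn
  have hd1 : 1 ≤ δ ^ (-((n : ℝ) - 2)) :=
    Real.one_le_rpow_of_pos_of_le_one_of_nonpos h0 h1 (by linarith)
  have h4 : (0 : ℝ) < 4 ^ (cc n) := Real.rpow_pos_of_pos (by norm_num) _
  rcases le_or_gt 1 |τ| with h | h
  · have hmax : max δ |τ| = |τ| := max_eq_right (h1.trans h)
    rw [hmax]
    have h2 : kk |τ| θ θ' ≤ 4 ^ (cc n) * Real.exp (-(cc n) * |τ|) := by
      have := kk_le_exp hn (τ := |τ|) (by rwa [abs_abs]) θ θ'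
      rwa [abs_abs] at this
    refine h2.trans ?_
    have h5 : 4 ^ (cc n) ≤ (4 ^ (cc n) + Real.exp (cc n)) * δ ^ (-((n : ℝ) - 2)) := by
      have := Real.exp_pos (cc n)
      nlinarith
    exact mul_le_mul_of_nonneg_right h5 (Real.exp_pos _).le
  · have h2 : kk (max δ |τ|) θ θ' ≤ kk δ θ θ' := by
      refine kk_anti hn ?_ (base_pos_of_ne h0.ne' θ θ')
      rw [abs_of_pos h0, abs_of_pos (lt_max_of_lt_left h0)]
      exact le_max_left _ _
    refine h2.trans ((kk_le_rpow hn h0 θ θ').trans ?_)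
    have h5 : 1 ≤ Real.exp (cc n) * Real.exp (-(cc n) * |τ|) := by
      rw [← Real.exp_add]
      refine Real.one_le_exp ?_
      nlinarith
    have h6 : 0 < δ ^ (-((n : ℝ) - 2)) := lt_of_lt_of_le one_pos hd1
    have h7 := Real.exp_pos (-(cc n) * |τ|)
    calc δ ^ (-((n : ℝ) - 2)) = δ ^ (-((n : ℝ) - 2)) * 1 := (mul_one _).symm
      _ ≤ δ ^ (-((n : ℝ) - 2)) * (Real.exp (cc n) * Real.exp (-(cc n) * |τ|)) :=
          mul_le_mul_of_nonneg_left h5 h6.le
      _ ≤ δ ^ (-((n : ℝ) - 2)) * ((4 ^ (cc n) + Real.exp (cc n)) * Real.exp (-(cc n) * |τ|)) := by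
          refine mul_le_mul_of_nonneg_left ?_ h6.le
          refine mul_le_mul_of_nonneg_right ?_ h7.le
          linarith
      _ = _ := by ring

/-- the inner integral over `ρ` -/
theorem inner_rho (hn : 3 ≤ n) {δ : ℝ} (h0 : 0 < δ) (h1 : δ ≤ 1) (t s : ℝ) (θ θ' : Sph n) :
    ∫⁻ ρ in Ioi δ, ENNReal.ofReal (HH ρ θ θ') * (Ioo (t - ρ) (t + ρ)).indicator (fun _ => 1) s
      ≤ ENNReal.ofReal ((4 ^ (cc n) + Real.exp (cc n)) * δ ^ (-((n : ℝ) - 2)) *
        Real.exp (-(cc n) * |t - s|)) := by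
  have hpos : 0 < max δ |t - s| := lt_max_of_lt_left h0
  have h2 : ∫⁻ ρ in Ioi δ, ENNReal.ofReal (HH ρ θ θ') * (Ioo (t - ρ) (t + ρ)).indicator (fun _ => 1) s
      ≤ ∫⁻ ρ in Ioi (max δ |t - s|), ENNReal.ofReal (HH ρ θ θ') := by
    rw [← lintegral_indicator measurableSet_Ioi, ← lintegral_indicator measurableSet_Ioi]
    refine lintegral_mono fun ρ => ?_
    by_cases hρ : ρ ∈ Ioi δ
    · rw [indicator_of_mem hρ]
      by_cases hs : s ∈ Ioo (t - ρ) (t + ρ)
      · rw [indicator_of_mem hs, mul_one, indicator_of_mem]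
        refine mem_Ioi.2 (max_lt hρ ?_)
        rw [abs_lt]
        constructor <;> linarith [hs.1, hs.2]
      · rw [indicator_of_notMem hs, mul_zero]; exact zero_le
    · rw [indicator_of_notMem hρ]; exact zero_le
  refine h2.trans ?_
  rw [lintegral_HH hn hpos.le (base_pos_of_ne hpos.ne' θ θ')]
  exact ENNReal.ofReal_le_ofReal (kk_max_le hn h0 h1 (t - s) θ θ')

/-- fixed angles -/
theorem far_angles (hn : 3 ≤ n) {f g : ℝ → ℝ≥0∞} (hf : Measurable f) (hg : Measurable g)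
    {δ : ℝ} (h0 : 0 < δ) (h1 : δ ≤ 1) (θ θ' : Sph n) :
    ∫⁻ ρ in Ioi δ, ENNReal.ofReal (HH ρ θ θ') * ∫⁻ t, f t * ∫⁻ s in Ioo (t - ρ) (t + ρ), g s
      ≤ ∫⁻ t, ∫⁻ s, f t * g s * ENNReal.ofReal ((4 ^ (cc n) + Real.exp (cc n)) *
          δ ^ (-((n : ℝ) - 2)) * Real.exp (-(cc n) * |t - s|)) := by
  have hH : Measurable fun ρ : ℝ => ENNReal.ofReal (HH ρ θ θ') := by
    have := (measurable_HH (n := n)).comp
      (measurable_id.prodMk (measurable_const (a := (θ, θ'))) : Measurable fun ρ : ℝ => (ρ, (θ, θ')))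
    exact this.ennreal_ofReal
  -- joint measurability of the indicator
  have hind : Measurable fun z : ℝ × ℝ × ℝ =>
      (Ioo (z.2.1 - z.1) (z.2.1 + z.1)).indicator (fun _ => (1 : ℝ≥0∞)) z.2.2 := by
    have hset : MeasurableSet {z : ℝ × ℝ × ℝ | z.2.1 - z.1 < z.2.2 ∧ z.2.2 < z.2.1 + z.1} := by
      have m1 : Measurable fun z : ℝ × ℝ × ℝ => z.2.1 - z.1 := by fun_prop
      have m2 : Measurable fun z : ℝ × ℝ × ℝ => z.2.2 := by fun_prop
      have m3 : Measurable fun z : ℝ × ℝ × ℝ => z.2.1 + z.1 := by fun_prop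
      exact (measurableSet_lt m1 m2).inter (measurableSet_lt m2 m3)
    have : (fun z : ℝ × ℝ × ℝ =>
        (Ioo (z.2.1 - z.1) (z.2.1 + z.1)).indicator (fun _ => (1 : ℝ≥0∞)) z.2.2)
        = {z : ℝ × ℝ × ℝ | z.2.1 - z.1 < z.2.2 ∧ z.2.2 < z.2.1 + z.1}.indicator (fun _ => 1) := by
      funext z
      by_cases hz : z.2.1 - z.1 < z.2.2 ∧ z.2.2 < z.2.1 + z.1
      · rw [indicator_of_mem (show z.2.2 ∈ Ioo (z.2.1 - z.1) (z.2.1 + z.1) from hz),
          indicator_of_mem (show z ∈ {z : ℝ × ℝ × ℝ | z.2.1 - z.1 < z.2.2 ∧ z.2.2 < z.2.1 + z.1}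
            from hz)]
      · rw [indicator_of_notMem (show z.2.2 ∉ Ioo (z.2.1 - z.1) (z.2.1 + z.1) from hz),
          indicator_of_notMem (show z ∉ {z : ℝ × ℝ × ℝ | z.2.1 - z.1 < z.2.2 ∧ z.2.2 < z.2.1 + z.1}
            from hz)]
    rw [this]
    exact measurable_const.indicator hset
  have hK : Measurable fun z : ℝ × ℝ × ℝ => f z.2.1 * g z.2.2 * (ENNReal.ofReal (HH z.1 θ θ') *
      (Ioo (z.2.1 - z.1) (z.2.1 + z.1)).indicator (fun _ => (1 : ℝ≥0∞)) z.2.2) :=
    ((hf.comp (by fun_prop)).mul (hg.comp (by fun_prop))).mul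
      ((hH.comp measurable_fst).mul hind)
  have step1 : ∀ ρ : ℝ, ENNReal.ofReal (HH ρ θ θ') *
      ∫⁻ t, f t * ∫⁻ s in Ioo (t - ρ) (t + ρ), g s
      = ∫⁻ t, ∫⁻ s, f t * g s * (ENNReal.ofReal (HH ρ θ θ') *
          (Ioo (t - ρ) (t + ρ)).indicator (fun _ => (1 : ℝ≥0∞)) s) := by
    intro ρ
    rw [← lintegral_const_mul' _ _ ENNReal.ofReal_ne_top]
    refine lintegral_congr fun t => ?_
    have hm : Measurable fun s => (Ioo (t - ρ) (t + ρ)).indicator g s := hg.indicator measurableSet_Ioo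
    rw [← lintegral_indicator measurableSet_Ioo, ← lintegral_const_mul _ hm,
      ← lintegral_const_mul _ (hm.const_mul _)]
    refine lintegral_congr fun s => ?_
    by_cases hs : s ∈ Ioo (t - ρ) (t + ρ)
    · rw [indicator_of_mem hs, indicator_of_mem hs]; ring
    · rw [indicator_of_notMem hs, indicator_of_notMem hs]; ring
  calc ∫⁻ ρ in Ioi δ, ENNReal.ofReal (HH ρ θ θ') * ∫⁻ t, f t * ∫⁻ s in Ioo (t - ρ) (t + ρ), g s
      = ∫⁻ ρ in Ioi δ, ∫⁻ t, ∫⁻ s, f t * g s * (ENNReal.ofReal (HH ρ θ θ') *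
          (Ioo (t - ρ) (t + ρ)).indicator (fun _ => (1 : ℝ≥0∞)) s) :=
        lintegral_congr fun ρ => step1 ρ
    _ = ∫⁻ t, ∫⁻ ρ in Ioi δ, ∫⁻ s, f t * g s * (ENNReal.ofReal (HH ρ θ θ') *
          (Ioo (t - ρ) (t + ρ)).indicator (fun _ => (1 : ℝ≥0∞)) s) := by
        refine lintegral_lintegral_swap ?_
        have h3 : Measurable fun z : ℝ × ℝ => ∫⁻ s, f z.2 * g s * (ENNReal.ofReal (HH z.1 θ θ') *
          (Ioo (z.2 - z.1) (z.2 + z.1)).indicator (fun _ => (1 : ℝ≥0∞)) s) := by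
          have h4 : Measurable fun z : (ℝ × ℝ) × ℝ => f z.1.2 * g z.2 * (ENNReal.ofReal (HH z.1.1 θ θ') *
              (Ioo (z.1.2 - z.1.1) (z.1.2 + z.1.1)).indicator (fun _ => (1 : ℝ≥0∞)) z.2) :=
            hK.comp (show Measurable fun z : (ℝ × ℝ) × ℝ => (z.1.1, z.1.2, z.2) by fun_prop)
          exact h4.lintegral_prod_right'
        exact h3.aemeasurable
    _ = ∫⁻ t, ∫⁻ s, ∫⁻ ρ in Ioi δ, f t * g s * (ENNReal.ofReal (HH ρ θ θ') *
          (Ioo (t - ρ) (t + ρ)).indicator (fun _ => (1 : ℝ≥0∞)) s) := by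
        refine lintegral_congr fun t => ?_
        refine lintegral_lintegral_swap ?_
        have h4 : Measurable fun z : ℝ × ℝ => f t * g z.2 * (ENNReal.ofReal (HH z.1 θ θ') *
              (Ioo (t - z.1) (t + z.1)).indicator (fun _ => (1 : ℝ≥0∞)) z.2) :=
            hK.comp (show Measurable fun z : ℝ × ℝ => (z.1, t, z.2) by fun_prop)
        exact h4.aemeasurable
    _ ≤ _ := by
        refine lintegral_mono fun t => lintegral_mono fun s => ?_
        have h5 : Measurable fun ρ : ℝ => ENNReal.ofReal (HH ρ θ θ') *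
            (Ioo (t - ρ) (t + ρ)).indicator (fun _ => (1 : ℝ≥0∞)) s :=
          hH.mul (hind.comp (show Measurable fun ρ : ℝ => (ρ, t, s) by fun_prop))
        rw [lintegral_const_mul _ h5]
        exact mul_le_mul_right (inner_rho hn h0 h1 t s θ θ') _

/-- the far energy on the cylinder -/
theorem far_of (hn : 3 ≤ n) {F G : ℝ → Sph n → ℝ≥0∞} (hF : Measurable (Function.uncurry F))
    (hG : Measurable (Function.uncurry G)) {δ : ℝ} (h0 : 0 < δ) (h1 : δ ≤ 1) :
    ∫⁻ θ, (∫⁻ θ', (∫⁻ ρ in Ioi δ, ENNReal.ofReal (HH ρ θ θ') *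
        ∫⁻ t, F t θ * ∫⁻ s in Ioo (t - ρ) (t + ρ), G s θ') ∂(sph n)) ∂(sph n)
      ≤ ENNReal.ofReal ((4 ^ (cc n) + Real.exp (cc n)) * δ ^ (-((n : ℝ) - 2))) *
        ∫⁻ t, ∫⁻ θ, (∫⁻ s, ∫⁻ θ', F t θ * G s θ' *
          ENNReal.ofReal (Real.exp (-(cc n) * |t - s|)) ∂(sph n)) ∂(sph n) := by
  have hFθ : ∀ θ, Measurable fun t => F t θ := fun θ =>
    hF.comp (show Measurable fun t : ℝ => (t, θ) by fun_prop)
  have hGθ : ∀ θ, Measurable fun t => G t θ := fun θ =>
    hG.comp (show Measurable fun t : ℝ => (t, θ) by fun_prop)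
  have hE : Measurable fun z : ℝ × ℝ => ENNReal.ofReal (Real.exp (-(cc n) * |z.1 - z.2|)) := by
    fun_prop
  have hC : 0 ≤ (4 ^ (cc n) + Real.exp (cc n)) * δ ^ (-((n : ℝ) - 2)) := by
    have := Real.exp_pos (cc n)
    positivity
  -- the four variable function
  have hM : Measurable fun z : (ℝ × Sph n) × (ℝ × Sph n) => F z.1.1 z.1.2 * G z.2.1 z.2.2 *
      ENNReal.ofReal (Real.exp (-(cc n) * |z.1.1 - z.2.1|)) :=
    ((hF.comp (show Measurable fun z : (ℝ × Sph n) × (ℝ × Sph n) => (z.1.1, z.1.2) by fun_prop)).mul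
      (hG.comp (show Measurable fun z : (ℝ × Sph n) × (ℝ × Sph n) => (z.2.1, z.2.2) by fun_prop))).mul
      (hE.comp (show Measurable fun z : (ℝ × Sph n) × (ℝ × Sph n) => (z.1.1, z.2.1) by fun_prop))
  calc ∫⁻ θ, (∫⁻ θ', (∫⁻ ρ in Ioi δ, ENNReal.ofReal (HH ρ θ θ') *
        ∫⁻ t, F t θ * ∫⁻ s in Ioo (t - ρ) (t + ρ), G s θ') ∂(sph n)) ∂(sph n)
      ≤ ∫⁻ θ, (∫⁻ θ', (∫⁻ t, ∫⁻ s, F t θ * G s θ' *
          ENNReal.ofReal ((4 ^ (cc n) + Real.exp (cc n)) *
          δ ^ (-((n : ℝ) - 2)) * Real.exp (-(cc n) * |t - s|))) ∂(sph n)) ∂(sph n) :=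
        lintegral_mono fun θ => lintegral_mono fun θ' =>
          far_angles hn (hFθ θ) (hGθ θ') h0 h1 θ θ'
    _ = ∫⁻ θ, (∫⁻ θ', (ENNReal.ofReal ((4 ^ (cc n) + Real.exp (cc n)) * δ ^ (-((n : ℝ) - 2))) *
          ∫⁻ t, ∫⁻ s, F t θ * G s θ' *
            ENNReal.ofReal (Real.exp (-(cc n) * |t - s|))) ∂(sph n)) ∂(sph n) := by
        refine lintegral_congr fun θ => lintegral_congr fun θ' => ?_
        rw [← lintegral_const_mul' _ _ ENNReal.ofReal_ne_top]
        refine lintegral_congr fun t => ?_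
        rw [← lintegral_const_mul' _ _ ENNReal.ofReal_ne_top]
        refine lintegral_congr fun s => ?_
        rw [ENNReal.ofReal_mul hC]
        ring
    _ = ENNReal.ofReal ((4 ^ (cc n) + Real.exp (cc n)) * δ ^ (-((n : ℝ) - 2))) *
          ∫⁻ θ, (∫⁻ θ', (∫⁻ t, ∫⁻ s, F t θ * G s θ' *
            ENNReal.ofReal (Real.exp (-(cc n) * |t - s|))) ∂(sph n)) ∂(sph n) := by
        rw [← lintegral_const_mul' _ _ ENNReal.ofReal_ne_top]
        refine lintegral_congr fun θ => ?_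
        rw [← lintegral_const_mul' _ _ ENNReal.ofReal_ne_top]
    _ = _ := by
        congr 1
        have e1 : ∀ θ, ∫⁻ θ', (∫⁻ t, ∫⁻ s, F t θ * G s θ' *
            ENNReal.ofReal (Real.exp (-(cc n) * |t - s|))) ∂(sph n)
            = ∫⁻ t, (∫⁻ θ', (∫⁻ s, F t θ * G s θ' *
            ENNReal.ofReal (Real.exp (-(cc n) * |t - s|))) ∂(sph n)) := by
          intro θ
          refine lintegral_lintegral_swap ?_
          have h4 : Measurable fun z : (Sph n × ℝ) × ℝ => F z.1.2 θ * G z.2 z.1.1 *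
              ENNReal.ofReal (Real.exp (-(cc n) * |z.1.2 - z.2|)) :=
            hM.comp (show Measurable fun z : (Sph n × ℝ) × ℝ => ((z.1.2, θ), (z.2, z.1.1)) by fun_prop)
          exact h4.lintegral_prod_right'.aemeasurable
        have e2 : ∀ θ t, ∫⁻ θ', (∫⁻ s, F t θ * G s θ' *
            ENNReal.ofReal (Real.exp (-(cc n) * |t - s|))) ∂(sph n)
            = ∫⁻ s, ∫⁻ θ', F t θ * G s θ' *
            ENNReal.ofReal (Real.exp (-(cc n) * |t - s|)) ∂(sph n) := by
          intro θ t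
          refine lintegral_lintegral_swap ?_
          have h4 : Measurable fun z : Sph n × ℝ => F t θ * G z.2 z.1 *
              ENNReal.ofReal (Real.exp (-(cc n) * |t - z.2|)) :=
            hM.comp (show Measurable fun z : Sph n × ℝ => ((t, θ), (z.2, z.1)) by fun_prop)
          exact h4.aemeasurable
        have e3 : ∫⁻ θ, (∫⁻ t, (∫⁻ s, ∫⁻ θ', F t θ * G s θ' *
            ENNReal.ofReal (Real.exp (-(cc n) * |t - s|)) ∂(sph n))) ∂(sph n)
            = ∫⁻ t, (∫⁻ θ, (∫⁻ s, ∫⁻ θ', F t θ * G s θ' *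
            ENNReal.ofReal (Real.exp (-(cc n) * |t - s|)) ∂(sph n)) ∂(sph n)) := by
          refine lintegral_lintegral_swap ?_
          have h4 : Measurable fun z : (Sph n × ℝ) × ℝ × Sph n => F z.1.2 z.1.1 * G z.2.1 z.2.2 *
              ENNReal.ofReal (Real.exp (-(cc n) * |z.1.2 - z.2.1|)) :=
            hM.comp (show Measurable fun z : (Sph n × ℝ) × ℝ × Sph n =>
              ((z.1.2, z.1.1), (z.2.1, z.2.2)) by fun_prop)
          have h5 : Measurable fun z : ((Sph n × ℝ) × ℝ) × Sph n => F z.1.1.2 z.1.1.1 * G z.1.2 z.2 *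
              ENNReal.ofReal (Real.exp (-(cc n) * |z.1.1.2 - z.1.2|)) :=
            h4.comp (show Measurable fun z : ((Sph n × ℝ) × ℝ) × Sph n =>
              (z.1.1, (z.1.2, z.2)) by fun_prop)
          exact (h5.lintegral_prod_right' (ν := sph n)).lintegral_prod_right'.aemeasurable
        rw [← e3]
        refine lintegral_congr fun θ => ?_
        rw [e1 θ]
        exact lintegral_congr fun t => e2 θ t

/-- exchange of the order of integration on the cylinder -/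
theorem cyl_swap (hn1 : 1 ≤ n) {g : EuclideanSpace ℝ (Fin n) → ℝ≥0∞} (hg : Measurable g) (T : ℝ) :
    ∫⁻ θ, (∫⁻ t in Iic T, ENNReal.ofReal (Real.exp ((n : ℝ) * t)) *
        g (Real.exp t • (θ : EuclideanSpace ℝ (Fin n)))) ∂(sph n)
      = ∫⁻ t in Iic T, ∫⁻ θ, ENNReal.ofReal (Real.exp ((n : ℝ) * t)) *
        g (Real.exp t • (θ : EuclideanSpace ℝ (Fin n))) ∂(sph n) := by
  refine lintegral_lintegral_swap ?_
  have h0 : Measurable fun z : ℝ × Sph n => g (Real.exp z.1 • (z.2 : EuclideanSpace ℝ (Fin n))) :=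
    meas_cyl hn1 hg
  have h2 : Measurable fun z : Sph n × ℝ => ENNReal.ofReal (Real.exp ((n : ℝ) * z.2)) := by
    fun_prop
  exact (h2.mul (h0.comp measurable_swap)).aemeasurable

/-- finiteness of the local energy on the cylinder -/
theorem fin_of {p q A B κ : ℝ} {u v : EuclideanSpace ℝ (Fin n) → ℝ}
    (h : Mass.Sup n p q A B κ u v) (T : ℝ) :
    ∫⁻ θ, (∫⁻ t in Iic T, ENNReal.ofReal (Real.exp ((cc n + 2 + A - p * cc n) * t) *
      (Real.exp (cc n * t) * v (Real.exp t • (θ : EuclideanSpace ℝ (Fin n)))) ^ p *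
      (Real.exp (cc n * t) * v (Real.exp t • (θ : EuclideanSpace ℝ (Fin n)))))) ∂(sph n) ≠ ∞ := by
  have hn1 : 1 ≤ n := by have := h.hn; omega
  set g : EuclideanSpace ℝ (Fin n) → ℝ≥0∞ :=
    fun x => ENNReal.ofReal (Mass.den A p v x * v x) with hg
  have hgm : Measurable g := ((Mass.den_measurable h.hv).mul h.hv.measurable).ennreal_ofReal
  have hle : ∫⁻ x in {x : EuclideanSpace ℝ (Fin n) | ‖x‖ ∈ Iic (Real.exp T)}, g x < ∞ := by
    refine lt_of_le_of_lt (lintegral_mono_set ?_) (Mass.local_energy h h.hv (Real.exp T + 1))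
    intro x hx
    have hx' : ‖x‖ ≤ Real.exp T := hx
    simp only [Metric.mem_ball, dist_zero_right]
    linarith
  rw [setLIntegral_cyl hn1 hgm measurableSet_Iic] at hle
  have hpre : Real.exp ⁻¹' (Iic (Real.exp T)) = Iic T := by
    ext t; simp
  rw [hpre] at hle
  have hpt : ∀ (t : ℝ) (θ : Sph n), ENNReal.ofReal (Real.exp ((cc n + 2 + A - p * cc n) * t) *
      (Real.exp (cc n * t) * v (Real.exp t • (θ : EuclideanSpace ℝ (Fin n)))) ^ p *
      (Real.exp (cc n * t) * v (Real.exp t • (θ : EuclideanSpace ℝ (Fin n)))))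
      = ENNReal.ofReal (Real.exp ((n : ℝ) * t)) * g (Real.exp t • (θ : EuclideanSpace ℝ (Fin n))) := by
    intro t θ
    rw [hg, ← ENNReal.ofReal_mul (Real.exp_pos _).le]
    congr 1
    have hv0 := h.hv0 (Real.exp t • (θ : EuclideanSpace ℝ (Fin n)))
    rw [Mass.den, norm_cyl, Real.mul_rpow (Real.exp_pos _).le hv0.le, ← Real.exp_mul,
      ← Real.exp_mul]
    have e1 : Real.exp ((cc n + 2 + A - p * cc n) * t) * Real.exp (cc n * t * p) *
        Real.exp (cc n * t) = Real.exp ((n : ℝ) * t) * Real.exp (t * A) := by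
      rw [← Real.exp_add, ← Real.exp_add, ← Real.exp_add]
      congr 1
      unfold cc
      ring
    calc Real.exp ((cc n + 2 + A - p * cc n) * t) * (Real.exp (cc n * t * p) *
          v (Real.exp t • (θ : EuclideanSpace ℝ (Fin n))) ^ p) *
          (Real.exp (cc n * t) * v (Real.exp t • (θ : EuclideanSpace ℝ (Fin n))))
        = (Real.exp ((cc n + 2 + A - p * cc n) * t) * Real.exp (cc n * t * p) *
          Real.exp (cc n * t)) * (v (Real.exp t • (θ : EuclideanSpace ℝ (Fin n))) ^ p *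
          v (Real.exp t • (θ : EuclideanSpace ℝ (Fin n)))) := by ring
      _ = _ := by rw [e1]; ring
  have hgo : ∀ θ : Sph n, (∫⁻ t in Iic T, ENNReal.ofReal (Real.exp ((cc n + 2 + A - p * cc n) * t) *
      (Real.exp (cc n * t) * v (Real.exp t • (θ : EuclideanSpace ℝ (Fin n)))) ^ p *
      (Real.exp (cc n * t) * v (Real.exp t • (θ : EuclideanSpace ℝ (Fin n))))))
      = ∫⁻ t in Iic T, ENNReal.ofReal (Real.exp ((n : ℝ) * t)) *
        g (Real.exp t • (θ : EuclideanSpace ℝ (Fin n))) := fun θ => lintegral_congr fun t => hpt t θ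
  rw [lintegral_congr hgo, cyl_swap hn1 hgm T]
  exact hle.ne

end Crest.Agent.R077.Kern
end

-- ▼ part R077/CylOf
section

/-!
Row 77 (Henon-Lane-Emden): the cylinder data of a solution.
-/

set_option autoImplicit false

open MeasureTheory Metric Set Real
open scoped ENNReal

namespace Crest.Agent.R077.CylOf

noncomputable section

open Kern Mass

variable {n : ℕ}

local notation "𝔼" => EuclideanSpace ℝ (Fin n)

theorem sph_ne_zero (hn : 1 ≤ n) : sph n ≠ 0 := by
  have : Nonempty (Fin n) := ⟨⟨0, hn⟩⟩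
  have : Nontrivial 𝔼 := inferInstance
  unfold sph
  intro h0
  have h1 := Measure.toSphere_apply_univ (μ := (volume : Measure 𝔼))
  rw [h0] at h1
  simp only [Measure.coe_zero, Pi.zero_apply] at h1
  have h2 := measure_ball_pos (volume : Measure 𝔼) 0 one_pos
  have h3 : ((Module.finrank ℝ 𝔼 : ℕ) : ℝ≥0∞) ≠ 0 := by simp; omega
  exact (mul_ne_zero h3 h2.ne') h1.symm

/-- derivative bound -/
theorem C1t.deriv_bounded {M : Type*} [TopologicalSpace M] [CompactSpace M] {W : ℝ → M → ℝ}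
    (hW : C1t W) (a b : ℝ) :
    ∃ L : ℝ, 0 ≤ L ∧ ∀ θ, ∀ t ∈ Icc a b, |deriv (fun s => W s θ) t| ≤ L := by
  obtain ⟨h1, W', h2, h3⟩ := hW
  have hK : IsCompact (Icc a b ×ˢ (univ : Set M)) := isCompact_Icc.prod isCompact_univ
  obtain ⟨L, hL⟩ := hK.exists_bound_of_continuousOn (f := fun z : ℝ × M => W' z.1 z.2)
    (Continuous.continuousOn h2)
  refine ⟨max L 0, le_max_right _ _, fun θ t ht => ?_⟩
  rw [(h3 t θ).deriv]
  exact (hL (t, θ) ⟨ht, mem_univ _⟩).trans (le_max_left _ _)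

theorem C1t.contDiff {M : Type*} [TopologicalSpace M] {W : ℝ → M → ℝ}
    (hW : C1t W) (θ : M) : ContDiff ℝ 1 (fun t => W t θ) := by
  obtain ⟨h1, W', h2, h3⟩ := hW
  rw [contDiff_one_iff_deriv]
  refine ⟨fun t => (h3 t θ).differentiableAt, ?_⟩
  have : deriv (fun t => W t θ) = fun t => W' t θ := by
    funext t; exact (h3 t θ).deriv
  rw [this]
  exact Continuous.comp (g := fun z : ℝ × M => W' z.1 z.2) h2 (Continuous.prodMk_left θ)

/-- the constants of the field `bdd` -/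
theorem bdd_of {M : Type*} [TopologicalSpace M] [CompactSpace M] [Nonempty M] {U V : ℝ → M → ℝ}
    (hU : C1t U) (hV : C1t V) (hU0 : ∀ t θ, 0 < U t θ) (hV0 : ∀ t θ, 0 < V t θ) (T : ℝ) :
    ∃ L : ℝ, 1 ≤ L ∧ ∀ θ, ∀ t ∈ Icc (-T) T,
      U t θ ≤ L ∧ V t θ ≤ L ∧ 1 ≤ L * U t θ ∧ 1 ≤ L * V t θ ∧
      |deriv (fun s => U s θ) t| ≤ L ∧ |deriv (fun s => V s θ) t| ≤ L := by
  obtain ⟨a1, h1, H1⟩ := hU.bounded (-T) T
  obtain ⟨a2, h2, H2⟩ := hV.bounded (-T) T
  obtain ⟨a3, h3, H3⟩ := hU.lower hU0 (-T) T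
  obtain ⟨a4, h4, H4⟩ := hV.lower hV0 (-T) T
  obtain ⟨a5, h5, H5⟩ := C1t.deriv_bounded hU (-T) T
  obtain ⟨a6, h6, H6⟩ := C1t.deriv_bounded hV (-T) T
  have i3 : 0 < a3⁻¹ := inv_pos.2 h3
  have i4 : 0 < a4⁻¹ := inv_pos.2 h4
  refine ⟨1 + a1 + a2 + a3⁻¹ + a4⁻¹ + a5 + a6, by linarith, fun θ t ht => ?_⟩
  have e1 := (le_abs_self _).trans (H1 θ t ht)
  have e2 := (le_abs_self _).trans (H2 θ t ht)
  have e3 := H3 θ t ht
  have e4 := H4 θ t ht
  have e5 := H5 θ t ht
  have e6 := H6 θ t ht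
  refine ⟨by linarith, by linarith, ?_, ?_, by linarith, by linarith⟩
  · calc (1 : ℝ) = a3⁻¹ * a3 := (inv_mul_cancel₀ h3.ne').symm
      _ ≤ (1 + a1 + a2 + a3⁻¹ + a4⁻¹ + a5 + a6) * U t θ := by
          apply mul_le_mul _ e3 h3.le (by linarith)
          linarith
  · calc (1 : ℝ) = a4⁻¹ * a4 := (inv_mul_cancel₀ h4.ne').symm
      _ ≤ (1 + a1 + a2 + a3⁻¹ + a4⁻¹ + a5 + a6) * V t θ := by
          apply mul_le_mul _ e4 h4.le (by linarith)
          linarith

theorem D_eq {p q A B : ℝ} (hp : 0 < p) (hq : 0 < q) :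
    bb n A p / (p + 1) + bb n B q / (q + 1) =
      ((n : ℝ) + A) / (p + 1) + ((n : ℝ) + B) / (q + 1) - ((n : ℝ) - 2) := by
  unfold bb cc
  have h1 : p + 1 ≠ 0 := by positivity
  have h2 : q + 1 ≠ 0 := by positivity
  field_simp
  ring

variable {p q A B κ : ℝ} {u v : EuclideanSpace ℝ (Fin n) → ℝ}

theorem src_le (h : Sup n p q A B κ u v) (T : ℝ) : ∃ M : ℝ, 0 ≤ M ∧ ∀ θ : Sph n, ∀ t ≤ T,
    src (bb n A p) p (lf (cc n) v) t θ ≤ M * Real.exp ((cc n + 2 + A) * t) := by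
  obtain ⟨C, hC⟩ := (isCompact_closedBall (0 : 𝔼) (Real.exp T)).exists_bound_of_continuousOn
    h.hv.continuousOn
  refine ⟨(max C 0) ^ p, Real.rpow_nonneg (le_max_right _ _) _, fun θ t ht => ?_⟩
  have hx : Real.exp t • (θ : 𝔼) ∈ closedBall (0 : 𝔼) (Real.exp T) := by
    rw [mem_closedBall, dist_zero_right, norm_cyl]; exact Real.exp_le_exp.2 ht
  have h1 : v (Real.exp t • (θ : 𝔼)) ≤ max C 0 :=
    ((le_abs_self _).trans (hC _ hx)).trans (le_max_left _ _)
  have h2 : v (Real.exp t • (θ : 𝔼)) ^ p ≤ (max C 0) ^ p :=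
    Real.rpow_le_rpow (h.hv0 _).le h1 h.hp.le
  rw [src_eq h.hv0]
  unfold den
  rw [norm_cyl, ← Real.exp_mul]
  have e1 : Real.exp ((cc n + 2 + A) * t) = Real.exp (((n : ℝ) - cc n) * t) * Real.exp (t * A) := by
    rw [← Real.exp_add]; congr 1; unfold cc; ring
  rw [e1]
  calc Real.exp (((n : ℝ) - cc n) * t) * (Real.exp (t * A) * v (Real.exp t • (θ : 𝔼)) ^ p)
      ≤ Real.exp (((n : ℝ) - cc n) * t) * (Real.exp (t * A) * (max C 0) ^ p) := by gcongr
    _ = _ := by ring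

theorem hFint (h : Sup n p q A B κ u v) (T : ℝ) : ∃ C : ℝ≥0∞, C ≠ ∞ ∧ ∀ θ : Sph n,
    ∫⁻ t in Iic T, ENNReal.ofReal (src (bb n A p) p (lf (cc n) v) t θ) ≤ C := by
  obtain ⟨M, hM, hb⟩ := src_le h T
  have hc := cc_pos h.hn
  have hA := A_gt h
  have hpos : 0 < cc n + 2 + A := by linarith
  have hint : IntegrableOn (fun t : ℝ => M * Real.exp ((cc n + 2 + A) * t)) (Iic T) := by
    have := integrableOn_exp_mul_Iic hpos T
    exact this.const_mul M
  refine ⟨ENNReal.ofReal (∫ t in Iic T, M * Real.exp ((cc n + 2 + A) * t)),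
    ENNReal.ofReal_ne_top, fun θ => ?_⟩
  rw [ofReal_integral_eq_lintegral_ofReal hint
    (Filter.Eventually.of_forall fun t => mul_nonneg hM (Real.exp_pos _).le)]
  exact setLIntegral_mono' measurableSet_Iic fun t ht => ENNReal.ofReal_le_ofReal (hb θ t ht)

theorem hFbd (h : Sup n p q A B κ u v) (T : ℝ) : ∃ C : ℝ≥0∞, C ≠ ∞ ∧ ∀ θ : Sph n, ∀ t, t ≤ T →
    ENNReal.ofReal (src (bb n A p) p (lf (cc n) v) t θ) ≤ C := by
  obtain ⟨M, hM, hb⟩ := src_le h T
  have hc := cc_pos h.hn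
  have hA := A_gt h
  refine ⟨ENNReal.ofReal (M * Real.exp ((cc n + 2 + A) * T)), ENNReal.ofReal_ne_top,
    fun θ t ht => ENNReal.ofReal_le_ofReal ((hb θ t ht).trans ?_)⟩
  have : (cc n + 2 + A) * t ≤ (cc n + 2 + A) * T := by nlinarith
  gcongr

theorem src_meas {b r : ℝ} {w : 𝔼 → ℝ} (hw : Continuous w) :
    Measurable (Function.uncurry fun (t : ℝ) (θ : Sph n) =>
      ENNReal.ofReal (src b r (lf (cc n) w) t θ)) := by
  refine Measurable.ennreal_ofReal ?_
  have hmap : Continuous fun z : ℝ × Sph n => Real.exp z.1 • (z.2 : 𝔼) := by fun_prop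
  have h1 : Continuous fun z : ℝ × Sph n => lf (cc n) w z.1 z.2 := by
    unfold lf
    exact Continuous.mul (by fun_prop) (hw.comp hmap)
  have h2 : Continuous fun z : ℝ × Sph n => Real.exp (b * z.1) := by fun_prop
  exact h2.measurable.mul (h1.measurable.pow_const r)

/-- representation in box form -/
theorem rep_of (hn : 3 ≤ n) (hκ : 0 < κ) (hv : Continuous v) (hv0 : ∀ x, 0 < v x)
    (ru : ∀ x, ∫⁻ y, ENNReal.ofReal (‖x - y‖ ^ ((2 : ℝ) - n) * den A p v y) =
      ENNReal.ofReal (κ * u x)) (t : ℝ) (θ : Sph n) :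
    ENNReal.ofReal (lf (cc n) u t θ) = ∫⁻ θ', ∫⁻ ρ in Ioi (0:ℝ),
      ENNReal.ofReal (|HH ρ θ θ'| / κ) * ∫⁻ s in Ioo (t - ρ) (t + ρ),
        ENNReal.ofReal (Real.exp (bb n A p * s) * lf (cc n) v s θ' ^ p) ∂volume ∂volume ∂(sph n) := by
  have h1 := pot_cyl hn (den_measurable (A := A) (p := p) hv) t θ
  rw [ru] at h1
  have h2 : ∀ s : ℝ, ∀ θ' : Sph n, Real.exp (((n : ℝ) - cc n) * s) *
      den A p v (Real.exp s • (θ' : 𝔼)) = src (bb n A p) p (lf (cc n) v) s θ' := fun s θ' =>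
    (src_eq hv0 s θ').symm
  simp only [h2] at h1
  rw [box_cyl hn (src_meas hv)] at h1
  have h3 : ENNReal.ofReal (lf (cc n) u t θ) = ENNReal.ofReal κ⁻¹ *
      (ENNReal.ofReal (Real.exp (cc n * t)) * ENNReal.ofReal (κ * u (Real.exp t • (θ : 𝔼)))) := by
    rw [← ENNReal.ofReal_mul (Real.exp_pos _).le, ← ENNReal.ofReal_mul (inv_pos.2 hκ).le]
    congr 1
    unfold lf
    field_simp
  rw [h3, h1, ← lintegral_const_mul' _ _ ENNReal.ofReal_ne_top]
  refine lintegral_congr fun θ' => ?_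
  rw [← lintegral_const_mul' _ _ ENNReal.ofReal_ne_top]
  refine setLIntegral_congr_fun measurableSet_Ioi fun ρ hρ => ?_
  rw [abs_of_nonneg (HH_nonneg hn (le_of_lt hρ) θ θ'), div_eq_inv_mul,
    ENNReal.ofReal_mul (inv_pos.2 hκ).le, mul_assoc]
  rfl

/-- swapping the order in the energy -/
theorem fin_of (h : Sup n p q A B κ u v) (T : ℝ) :
    ∫⁻ θ, ∫⁻ t in Iic T, ENNReal.ofReal (Real.exp (bb n A p * t) * lf (cc n) v t θ ^ p *
      lf (cc n) v t θ) ∂volume ∂(sph n) ≠ ∞ := by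
  have h1 := J_lt_top h T
  have hm : Measurable (Function.uncurry fun (t : ℝ) (θ : Sph n) =>
      ENNReal.ofReal (src (bb n A p) p (lf (cc n) v) t θ * lf (cc n) v t θ)) := by
    have hmap : Continuous fun z : ℝ × Sph n => Real.exp z.1 • (z.2 : 𝔼) := by fun_prop
    have h1 : Continuous fun z : ℝ × Sph n => lf (cc n) v z.1 z.2 := by
      unfold lf
      exact Continuous.mul (by fun_prop) (h.hv.comp hmap)
    have h2 : Continuous fun z : ℝ × Sph n => Real.exp (bb n A p * z.1) := by fun_prop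
    exact ((h2.measurable.mul (h1.measurable.pow_const p)).mul h1.measurable).ennreal_ofReal
  rw [lintegral_lintegral_swap hm.aemeasurable] at h1
  have h2 : ∀ θ : Sph n, ∫⁻ t in Iic T, ENNReal.ofReal (Real.exp (bb n A p * t) *
      lf (cc n) v t θ ^ p * lf (cc n) v t θ) = ∫⁻ t in Iio T, ENNReal.ofReal
        (src (bb n A p) p (lf (cc n) v) t θ * lf (cc n) v t θ) := fun θ => by
    rw [setLIntegral_congr Iio_ae_eq_Iic.symm]; rfl
  simp only [h2]
  exact h1.ne

/-- the far interaction of the two densities on the cylinder -/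
theorem far_fin (h : Sup n p q A B κ u v)
    (hsub : (n : ℝ) - 2 < ((n : ℝ) + A) / (p + 1) + ((n : ℝ) + B) / (q + 1)) :
    ∫⁻ t : ℝ, ∫⁻ θ, (∫⁻ s : ℝ, ∫⁻ θ', ENNReal.ofReal (src (bb n A p) p (lf (cc n) v) t θ) *
      ENNReal.ofReal (src (bb n B q) q (lf (cc n) u) s θ') *
      ENNReal.ofReal (Real.exp (-(cc n) * |t - s|)) ∂(sph n)) ∂(sph n) < ∞ := by
  have h1 := far_cyl h.hn (den_measurable (A := A) (p := p) h.hv)
    (den_measurable (A := B) (p := q) h.hu)
  have h2 := far_lt_top h hsub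
  have h3 : ∫⁻ x, ∫⁻ y, ENNReal.ofReal (den A p v x) * ENNReal.ofReal (den B q u y) *
      ENNReal.ofReal (max ‖x‖ ‖y‖ ^ ((2 : ℝ) - n)) =
      ∫⁻ x : 𝔼, ∫⁻ y : 𝔼, ENNReal.ofReal (den A p v x * den B q u y *
        (max ‖x‖ ‖y‖) ^ ((2 : ℝ) - n)) := by
    refine lintegral_congr fun x => lintegral_congr fun y => ?_
    have e1 := den_nonneg (A := A) (p := p) h.hv0 x
    have e2 := den_nonneg (A := B) (p := q) h.hu0 y
    rw [ENNReal.ofReal_mul (mul_nonneg e1 e2), ENNReal.ofReal_mul e1]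
  rw [h3, ← h1] at h2
  refine lt_of_le_of_lt (le_of_eq ?_) h2
  refine lintegral_congr fun t => lintegral_congr fun θ => lintegral_congr fun s =>
    lintegral_congr fun θ' => ?_
  have e1 : 0 ≤ src (bb n A p) p (lf (cc n) v) t θ := by
    rw [src_eq h.hv0]; exact mul_nonneg (Real.exp_pos _).le (den_nonneg h.hv0 _)
  have e2 : 0 ≤ src (bb n B q) q (lf (cc n) u) s θ' := by
    rw [src_eq h.hu0]; exact mul_nonneg (Real.exp_pos _).le (den_nonneg h.hu0 _)
  rw [← ENNReal.ofReal_mul e1, ← ENNReal.ofReal_mul (mul_nonneg e1 e2), src_eq h.hv0,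
    src_eq h.hu0]

/-- pulling out the constant `κ⁻¹` -/
theorem scale_int (hn : 3 ≤ n) (hκ : 0 < κ) (X : ℝ → Sph n → Sph n → ℝ≥0∞) {s : Set ℝ}
    (hs : MeasurableSet s) (hs0 : s ⊆ Ioi 0) :
    ∫⁻ θ, (∫⁻ θ', (∫⁻ ρ in s, ENNReal.ofReal (|HH ρ θ θ'| / κ) * X ρ θ θ') ∂(sph n)) ∂(sph n) =
    ENNReal.ofReal κ⁻¹ * ∫⁻ θ, (∫⁻ θ', (∫⁻ ρ in s, ENNReal.ofReal (HH ρ θ θ') * X ρ θ θ')
      ∂(sph n)) ∂(sph n) := by
  rw [← lintegral_const_mul' _ _ ENNReal.ofReal_ne_top]
  refine lintegral_congr fun θ => ?_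
  rw [← lintegral_const_mul' _ _ ENNReal.ofReal_ne_top]
  refine lintegral_congr fun θ' => ?_
  rw [← lintegral_const_mul' _ _ ENNReal.ofReal_ne_top]
  refine setLIntegral_congr_fun hs fun ρ hρ => ?_
  rw [abs_of_nonneg (HH_nonneg hn (le_of_lt (hs0 hρ)) θ θ'), div_eq_inv_mul,
    ENNReal.ofReal_mul (inv_pos.2 hκ).le, mul_assoc]

theorem int_fld (h : Sup n p q A B κ u v)
    (hsub : (n : ℝ) - 2 < ((n : ℝ) + A) / (p + 1) + ((n : ℝ) + B) / (q + 1)) (T : ℝ) :
    ∫⁻ θ, ∫⁻ θ', ∫⁻ ρ in Ioi (0:ℝ), ENNReal.ofReal (|HH ρ θ θ'| / κ) *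
      ∫⁻ t in Iic T, ENNReal.ofReal (Real.exp (bb n A p * t) * lf (cc n) v t θ ^ p) *
        (ENNReal.ofReal (Real.exp (bb n B q * (t + ρ)) * lf (cc n) u (t + ρ) θ' ^ q)
          + ENNReal.ofReal (Real.exp (bb n B q * (t - ρ)) * lf (cc n) u (t - ρ) θ' ^ q))
            ∂volume ∂volume ∂(sph n) ∂(sph n) ≠ ∞ := by
  have h1 := int_of h.hn (src_meas (b := bb n A p) (r := p) h.hv)
    (src_meas (b := bb n B q) (r := q) h.hu) (hFint h) (hFbd h.symm) (far_fin h hsub) T
  have h2 := scale_int h.hn h.hκ (fun ρ θ θ' => ∫⁻ t in Iic T,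
    ENNReal.ofReal (src (bb n A p) p (lf (cc n) v) t θ) *
      (ENNReal.ofReal (src (bb n B q) q (lf (cc n) u) (t + ρ) θ') +
        ENNReal.ofReal (src (bb n B q) q (lf (cc n) u) (t - ρ) θ'))) (s := Ioi 0)
        measurableSet_Ioi subset_rfl
  have h3 := ENNReal.mul_ne_top (ENNReal.ofReal_ne_top (r := κ⁻¹)) h1
  rw [← h2] at h3
  exact h3

/-- the statement of the far estimate (general form) -/
def FarOf (n : ℕ) : Prop :=
  ∀ {F G : ℝ → Sph n → ℝ≥0∞}, Measurable (Function.uncurry F) → Measurable (Function.uncurry G) →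
    ∀ {δ : ℝ}, 0 < δ → δ ≤ 1 →
    ∫⁻ θ, (∫⁻ θ', (∫⁻ ρ in Ioi δ, ENNReal.ofReal (HH ρ θ θ') * ∫⁻ t, F t θ *
      ∫⁻ s in Ioo (t - ρ) (t + ρ), G s θ') ∂(sph n)) ∂(sph n) ≤
    ENNReal.ofReal ((4 ^ (cc n) + Real.exp (cc n)) * δ ^ (-((n : ℝ) - 2))) *
      ∫⁻ t, ∫⁻ θ, (∫⁻ s, ∫⁻ θ', F t θ * G s θ' *
        ENNReal.ofReal (Real.exp (-(cc n) * |t - s|)) ∂(sph n)) ∂(sph n)

theorem far_fld (hFar : FarOf n) (h : Sup n p q A B κ u v)
    (hsub : (n : ℝ) - 2 < ((n : ℝ) + A) / (p + 1) + ((n : ℝ) + B) / (q + 1)) :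
    ∃ C κ' : ℝ, 0 ≤ C ∧ 0 ≤ κ' ∧ ∀ δ ∈ Ioc (0:ℝ) 1,
    ∫⁻ θ, ∫⁻ θ', ∫⁻ ρ in Ioi δ, ENNReal.ofReal (|HH ρ θ θ'| / κ) *
      ∫⁻ t, ENNReal.ofReal (Real.exp (bb n A p * t) * lf (cc n) v t θ ^ p) *
        ∫⁻ s in Ioo (t - ρ) (t + ρ), ENNReal.ofReal (Real.exp (bb n B q * s) *
          lf (cc n) u s θ' ^ q) ∂volume ∂volume ∂volume ∂(sph n) ∂(sph n) ≤
            ENNReal.ofReal (C * δ ^ (-κ')) := by
  have hn3 : (3 : ℝ) ≤ n := by exact_mod_cast h.hn
  set I : ℝ≥0∞ := ∫⁻ t : ℝ, ∫⁻ θ, (∫⁻ s : ℝ, ∫⁻ θ',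
    ENNReal.ofReal (src (bb n A p) p (lf (cc n) v) t θ) *
      ENNReal.ofReal (src (bb n B q) q (lf (cc n) u) s θ') *
      ENNReal.ofReal (Real.exp (-(cc n) * |t - s|)) ∂(sph n)) ∂(sph n) with hI
  have hIfin : I < ∞ := far_fin h hsub
  refine ⟨κ⁻¹ * ((4 ^ (cc n) + Real.exp (cc n)) * I.toReal), (n : ℝ) - 2, ?_, by linarith,
    fun δ hδ => ?_⟩
  · have := h.hκ
    have h4 : (0 : ℝ) < 4 ^ (cc n) := Real.rpow_pos_of_pos (by norm_num) _
    have h5 := Real.exp_pos (cc n)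
    have h6 := ENNReal.toReal_nonneg (a := I)
    positivity
  · have h1 := hFar (src_meas (b := bb n A p) (r := p) h.hv)
      (src_meas (b := bb n B q) (r := q) h.hu) hδ.1 hδ.2
    have h2 := scale_int h.hn h.hκ (fun ρ θ θ' => ∫⁻ t,
      ENNReal.ofReal (src (bb n A p) p (lf (cc n) v) t θ) *
        ∫⁻ s in Ioo (t - ρ) (t + ρ), ENNReal.ofReal (src (bb n B q) q (lf (cc n) u) s θ'))
        (s := Ioi δ) measurableSet_Ioi (fun x hx => hδ.1.trans hx)
    have h3 : ENNReal.ofReal (κ⁻¹ * ((4 ^ (cc n) + Real.exp (cc n)) * I.toReal) *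
        δ ^ (-((n : ℝ) - 2))) = ENNReal.ofReal κ⁻¹ *
        (ENNReal.ofReal ((4 ^ (cc n) + Real.exp (cc n)) * δ ^ (-((n : ℝ) - 2))) * I) := by
      have h4 : (0 : ℝ) < 4 ^ (cc n) := Real.rpow_pos_of_pos (by norm_num) _
      have h5 := Real.exp_pos (cc n)
      have h6 := ENNReal.toReal_nonneg (a := I)
      have h7 : 0 < δ ^ (-((n : ℝ) - 2)) := Real.rpow_pos_of_pos hδ.1 _
      conv_rhs => rw [← ENNReal.ofReal_toReal hIfin.ne]
      rw [← ENNReal.ofReal_mul (by positivity), ← ENNReal.ofReal_mul (inv_pos.2 h.hκ).le]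
      congr 1; ring
    rw [h3]
    refine (le_of_eq h2).trans ?_
    gcongr

/-- THE CYLINDER DATA of a solution with exact representation. -/
theorem cylOf' (hFar : FarOf n) (h : Sup n p q A B κ u v)
    (hsub : (n : ℝ) - 2 < ((n : ℝ) + A) / (p + 1) + ((n : ℝ) + B) / (q + 1))
    (hu2 : ContDiffOn ℝ 2 u {0}ᶜ) (hv2 : ContDiffOn ℝ 2 v {0}ᶜ)
    (ru : ∀ x, ∫⁻ y, ENNReal.ofReal (‖x - y‖ ^ ((2 : ℝ) - n) * den A p v y) =
      ENNReal.ofReal (κ * u x))
    (rv : ∀ x, ∫⁻ y, ENNReal.ofReal (‖x - y‖ ^ ((2 : ℝ) - n) * den B q u y) =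
      ENNReal.ofReal (κ * v x)) :
    Nonempty (Cyl (Sph n) (sph n)) := by
  have hne : Nonempty (Sph n) := by
    by_contra hcon
    have : IsEmpty (Sph n) := not_nonempty_iff.1 hcon
    exact sph_ne_zero (n := n) (le_trans (by norm_num) h.hn) (Measure.eq_zero_of_isEmpty _)
  have hsub' : (n : ℝ) - 2 < ((n : ℝ) + B) / (q + 1) + ((n : ℝ) + A) / (p + 1) := by linarith
  have hUc : C1t (lf (cc n) u) := C1t_lf hu2
  have hVc : C1t (lf (cc n) v) := C1t_lf hv2
  have hU0 : ∀ t θ, 0 < lf (cc n) u t θ := lf_pos fun x _ => h.hu0 x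
  have hV0 : ∀ t θ, 0 < lf (cc n) v t θ := lf_pos fun x _ => h.hv0 x
  refine ⟨{
    p := p
    q := q
    b₁ := bb n A p
    b₂ := bb n B q
    hp := h.hp
    hq := h.hq
    hpq := pq_gt h
    hD := by rw [D_eq h.hp h.hq]; linarith
    U := lf (cc n) u
    V := lf (cc n) v
    H := fun ρ θ θ' => |HH ρ θ θ'| / κ
    U_pos := hU0
    V_pos := hV0
    U_meas := hUc.1.measurable
    V_meas := hVc.1.measurable
    U_C1 := fun θ => C1t.contDiff hUc θ
    V_C1 := fun θ => C1t.contDiff hVc θ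
    bdd := fun T => bdd_of hUc hVc hU0 hV0 T
    H_nonneg := fun ρ θ θ' => div_nonneg (abs_nonneg _) h.hκ.le
    H_symm := fun ρ θ θ' => by rw [HH_symm]
    H_meas := (measurable_HH.abs).div_const κ
    repU := fun t θ => rep_of h.hn h.hκ h.hv h.hv0 ru t θ
    repV := fun t θ => rep_of h.hn h.hκ h.hu h.hu0 rv t θ
    int1 := fun T => int_fld h hsub T
    int2 := fun T => int_fld h.symm hsub' T
    far := far_fld hFar h hsub
    fin1 := fun T => fin_of h T
    fin2 := fun T => fin_of h.symm T }⟩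

/-- THE CYLINDER DATA of a solution with exact representation. -/
theorem cylOf (h : Sup n p q A B κ u v)
    (hsub : (n : ℝ) - 2 < ((n : ℝ) + A) / (p + 1) + ((n : ℝ) + B) / (q + 1))
    (hu2 : ContDiffOn ℝ 2 u {0}ᶜ) (hv2 : ContDiffOn ℝ 2 v {0}ᶜ)
    (ru : ∀ x, ∫⁻ y, ENNReal.ofReal (‖x - y‖ ^ ((2 : ℝ) - n) * den A p v y) =
      ENNReal.ofReal (κ * u x))
    (rv : ∀ x, ∫⁻ y, ENNReal.ofReal (‖x - y‖ ^ ((2 : ℝ) - n) * den B q u y) =
      ENNReal.ofReal (κ * v x)) :
    Nonempty (Cyl (Sph n) (sph n)) :=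
  cylOf' (fun hF hG _ h0 h1 => far_of h.hn hF hG h0 h1) h hsub hu2 hv2 ru rv

end

end Crest.Agent.R077.CylOf
end

-- ▼ part R077/LocInt
section

/-!
Row 77 (S0102), PDE block: local integrability of `f = -Δu` near the origin.
-/

set_option autoImplicit false

open MeasureTheory Laplacian InnerProductSpace Topology Filter Set

namespace Crest.Agent.R077

noncomputable section

variable {n : ℕ}

namespace LocI

lemma cut_f_eq {u f : EE n → ℝ} (hf : ∀ x, x ≠ 0 → -(Δ u) x = f x)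
    (Q : EE n → ℝ) {δ : ℝ} (hδ : 0 < δ) (x : EE n) :
    (Q x * chi δ x) * f x = - ((Δ (fun x => u x * chi (δ / 2) x)) x * (Q x * chi δ x)) := by
  have hδ2 : 0 < δ / 2 := by positivity
  by_cases hx : ‖x‖ ≤ δ
  · rw [chi_zero hδ hx]
    simp
  · have hx' : δ < ‖x‖ := not_le.mp hx
    have h5 : (fun x => u x * chi (δ / 2) x) =ᶠ[𝓝 x] u := by
      have : {y : EE n | δ < ‖y‖} ∈ 𝓝 x :=
        (isOpen_lt continuous_const continuous_norm).mem_nhds hx'
      filter_upwards [this] with y hy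
      rw [chi_one hδ2 (by linarith [show δ < ‖y‖ from hy]), mul_one]
    have hx0 : x ≠ 0 := by
      intro h0
      rw [h0, norm_zero] at hx'
      linarith
    rw [lap_congr_at h5, ← hf x hx0]
    ring

lemma integrable_cut {u f : EE n → ℝ}
    (hu2 : ContDiffOn ℝ 2 u {0}ᶜ) (hf : ∀ x, x ≠ 0 → -(Δ u) x = f x)
    {Q : EE n → ℝ} (hQ : Continuous Q) (hQc : HasCompactSupport Q) {δ : ℝ} (hδ : 0 < δ) :
    Integrable (fun x => (Q x * chi δ x) * f x) := by
  have hδ2 : 0 < δ / 2 := by positivity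
  have h1 : (fun x => (Q x * chi δ x) * f x)
      = fun x => - ((Δ (fun x => u x * chi (δ / 2) x)) x * (Q x * chi δ x)) := by
    funext x
    exact cut_f_eq hf Q hδ x
  rw [h1]
  apply Integrable.neg
  exact ((continuous_lap (contDiff_cut hu2 hδ2)).mul
    (hQ.mul (contDiff_chi (m := 0) δ).continuous)).integrable_of_hasCompactSupport
    (hQc.mul_right).mul_left

lemma split_cut {u : EE n → ℝ} (hu : Continuous u) {Q : EE n → ℝ} (hQ : ContDiff ℝ 2 Q)
    (hQc : HasCompactSupport Q) (δ : ℝ) :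
    ∫ x, (u x - u 0) * (Δ (fun y => Q y * chi δ y)) x
      = (∫ x, (u x - u 0) * (chi δ x * (Δ Q) x)) + ∫ x, (u x - u 0) *
      (2 * ∑ i, pdv i Q x * pdv i (chi δ) x + Q x * (Δ (chi δ)) x) := by
  have hlc := continuous_lap hQ
  have hls := hasCompactSupport_lap hQc
  rw [← integral_add]
  · congr 1
    funext x
    rw [lap_mul hQ (contDiff_chi (m := 2) δ)]
    ring
  · exact ((hu.sub continuous_const).mul
      ((contDiff_chi (m := 0) δ).continuous.mul hlc)).integrable_of_hasCompactSupport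
      (hls.mul_left).mul_left
  · have hcQ : ∀ i, Continuous (pdv i Q) := fun i =>
      (contDiff_pdv (m := 0) (hQ.of_le (m := 1) (by norm_num)) (by norm_num) i).continuous
    have hcc : ∀ i, Continuous (pdv i (chi δ : EE n → ℝ)) := fun i =>
      (contDiff_pdv (m := 0) (contDiff_chi (m := 1) δ) (by norm_num) i).continuous
    have hcont : Continuous fun x => (2 * ∑ i, pdv i Q x * pdv i (chi δ) x
        + Q x * (Δ (chi δ)) x) :=
      (continuous_const.mul (continuous_finsetSum _ fun i _ => (hcQ i).mul (hcc i))).add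
        (hQ.continuous.mul (continuous_lap (contDiff_chi (m := 2) δ)))
    have hsupp : HasCompactSupport fun x => (2 * ∑ i, pdv i Q x * pdv i (chi δ) x
        + Q x * (Δ (chi δ)) x) := by
      apply hQc.mono'
      intro x hx
      by_contra hx2
      have h1 : Q =ᶠ[𝓝 x] fun _ => (0:ℝ) := notMem_tsupport_iff_eventuallyEq.mp hx2
      apply hx
      have h2 : Q x = 0 := h1.self_of_nhds
      have h3 : ∀ i, pdv i Q x = 0 := by
        intro i
        rw [pdv_congr h1]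
        unfold pdv
        simp
      simp [h2, h3]
    exact ((hu.sub continuous_const).mul hcont).integrable_of_hasCompactSupport hsupp.mul_left

/-- uniform bound for the cut off masses -/
lemma cut_bound (hn : 2 ≤ n) {u f : EE n → ℝ} (hu : Continuous u)
    (hu2 : ContDiffOn ℝ 2 u {0}ᶜ) (hf : ∀ x, x ≠ 0 → -(Δ u) x = f x)
    {Q : EE n → ℝ} (hQ : ContDiff ℝ 2 Q) (hQc : HasCompactSupport Q) :
    ∃ C : ℝ, ∀ δ : ℝ, 0 < δ → δ ≤ 1 → ∫ x, (Q x * chi δ x) * f x ≤ C := by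
  obtain ⟨K, hK0, hK⟩ := err_bound hn hu hQ hQc
  obtain ⟨B, hB⟩ := (isCompact_closedBall (0 : EE n) 2).exists_bound_of_continuousOn
    (hu.sub continuous_const).continuousOn (f := fun x => u x - u 0)
  have hB0 : 0 ≤ B := le_trans (norm_nonneg _) (hB 0 (Metric.mem_closedBall_self (by norm_num)))
  have hlc := continuous_lap hQ
  have hls := hasCompactSupport_lap hQc
  have huint : Integrable (fun x => (u x - u 0) * (Δ Q) x) :=
    ((hu.sub continuous_const).mul hlc).integrable_of_hasCompactSupport hls.mul_left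
  refine ⟨(∫ x, ‖(u x - u 0) * (Δ Q) x‖) + B * K, fun δ hδ hδ1 => ?_⟩
  have h1 := green_cut hu hu2 hf hQ hQc hδ
  rw [split_cut hu hQ hQc] at h1
  have h2 := hK B hB0 δ hδ hδ1 (by
    intro x hx
    exact hB x (by simpa using (by linarith : ‖x‖ ≤ 2)))
  have h3 : |∫ x, (u x - u 0) * (chi δ x * (Δ Q) x)| ≤ ∫ x, ‖(u x - u 0) * (Δ Q) x‖ := by
    rw [← Real.norm_eq_abs]
    apply norm_integral_le_of_norm_le huint.norm
    refine ae_of_all _ fun x => ?_
    rw [norm_mul, norm_mul, norm_mul]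
    apply mul_le_mul_of_nonneg_left _ (norm_nonneg _)
    rw [Real.norm_eq_abs (chi δ x), abs_of_nonneg (chi_nonneg _ _)]
    exact mul_le_of_le_one_left (norm_nonneg _) (chi_le_one _ _)
  have h4 := abs_le.mp h2
  have h5 := abs_le.mp h3
  linarith [h4.1, h5.1]

end LocI

/-- `f = -Δu ≥ 0` is locally integrable if `u` is continuous at the origin. -/
theorem locInt (hn : 2 ≤ n) {u f : EE n → ℝ} (hu : Continuous u)
    (hu2 : ContDiffOn ℝ 2 u {0}ᶜ) (hf : ∀ x, x ≠ 0 → -(Δ u) x = f x)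
    (hf0 : ∀ x, 0 ≤ f x) (hfm : Measurable f) : LocallyIntegrable f := by
  rw [locallyIntegrable_iff]
  intro k hk
  obtain ⟨R, hR⟩ := hk.isBounded.subset_closedBall (0 : EE n)
  set R1 : ℝ := max R 1 with hR1
  have hR10 : 0 < R1 := lt_of_lt_of_le one_pos (le_max_right _ _)
  let b : ContDiffBump (0 : EE n) := ⟨R1, 2 * R1, hR10, by linarith⟩
  have hQ : ContDiff ℝ 2 (b : EE n → ℝ) := b.contDiff
  have hQc : HasCompactSupport (b : EE n → ℝ) := b.hasCompactSupport
  obtain ⟨C, hC⟩ := LocI.cut_bound hn hu hu2 hf hQ hQc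
  set d : ℕ → ℝ := fun k => 1 / ((k : ℝ) + 1) with hd
  have hd0 : ∀ k, 0 < d k := fun k => by positivity
  have hd1 : ∀ k, d k ≤ 1 := by
    intro k
    rw [hd]
    simp only
    rw [div_le_one (by positivity)]
    have : (0:ℝ) ≤ k := Nat.cast_nonneg k
    linarith
  have hdl : Tendsto d atTop (𝓝 0) := tendsto_one_div_add_atTop_nhds_zero_nat
  have hae : ∀ᵐ x : EE n, x ≠ 0 := by
    have : Nonempty (Fin n) := ⟨⟨0, by omega⟩⟩
    have : Nontrivial (EE n) := inferInstance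
    rw [ae_iff]
    simp
  have hfin : ∫⁻ x, ENNReal.ofReal (b x * f x) ≤ ENNReal.ofReal C := by
    calc ∫⁻ x, ENNReal.ofReal (b x * f x)
        ≤ ∫⁻ x, liminf (fun k => ENNReal.ofReal ((b x * chi (d k) x) * f x)) atTop := by
          apply lintegral_mono_ae
          filter_upwards [hae] with x hx
          have h1 : 0 < ‖x‖ / 2 := by positivity
          have h2 : Tendsto (fun k => ENNReal.ofReal ((b x * chi (d k) x) * f x)) atTop
              (𝓝 (ENNReal.ofReal (b x * f x))) := by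
            apply tendsto_const_nhds.congr'
            filter_upwards [hdl.eventually (gt_mem_nhds h1)] with k hk
            rw [chi_one (hd0 k) (by linarith), mul_one]
          exact le_of_eq h2.liminf_eq.symm
      _ ≤ liminf (fun k => ∫⁻ x, ENNReal.ofReal ((b x * chi (d k) x) * f x)) atTop := by
          apply lintegral_liminf_le'
          intro k
          exact (LocI.integrable_cut hu2 hf hQ.continuous hQc
            (hd0 k)).aestronglyMeasurable.aemeasurable.ennreal_ofReal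
      _ ≤ liminf (fun _ : ℕ => ENNReal.ofReal C) atTop := by
          refine liminf_le_liminf (Eventually.of_forall fun k => ?_)
          rw [← ofReal_integral_eq_lintegral_ofReal
            (LocI.integrable_cut hu2 hf hQ.continuous hQc (hd0 k))
            (ae_of_all _ fun x => mul_nonneg (mul_nonneg b.nonneg (chi_nonneg _ _)) (hf0 x))]
          exact ENNReal.ofReal_le_ofReal (hC (d k) (hd0 k) (hd1 k))
      _ = ENNReal.ofReal C := by simp
  refine ⟨hfm.aestronglyMeasurable, ?_⟩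
  rw [hasFiniteIntegral_iff_ofReal (ae_of_all _ hf0)]
  calc ∫⁻ x in k, ENNReal.ofReal (f x)
      ≤ ∫⁻ x in k, ENNReal.ofReal (b x * f x) := by
        apply setLIntegral_mono' hk.measurableSet
        intro x hx
        have h1 : b x = 1 := by
          apply b.one_of_mem_closedBall
          exact Metric.closedBall_subset_closedBall (le_max_left _ _) (hR hx)
        rw [h1, one_mul]
    _ ≤ ∫⁻ x, ENNReal.ofReal (b x * f x) := setLIntegral_le_lintegral _ _
    _ ≤ ENNReal.ofReal C := hfin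
    _ < ⊤ := ENNReal.ofReal_lt_top

end

end Crest.Agent.R077
end

-- ▼ part R077/N2
section

/-! Row 77 (Henon-Lane-Emden): the case `n = 2`. -/

set_option autoImplicit false
open Laplacian InnerProductSpace Filter Topology

namespace Crest.Agent.R077

/-- A positive continuous function on the punctured plane which is `C²` and strictly superharmonic
off `0` cannot exist. -/
theorem n_two_aux (u : EuclideanSpace ℝ (Fin 2) → ℝ) (huc : Continuous u)
    (hu2 : ContDiffOn ℝ 2 u {0}ᶜ) (hpos : ∀ x, 0 < u x)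
    (hlap : ∀ x, x ≠ 0 → (Δ u) x < 0) : False := by
  -- minimum on the unit circle
  have hcomp : IsCompact (Metric.sphere (0 : EuclideanSpace ℝ (Fin 2)) 1) := isCompact_sphere _ _
  have hne : (Metric.sphere (0 : EuclideanSpace ℝ (Fin 2)) 1).Nonempty :=
    ⟨EuclideanSpace.single 0 1, by simp⟩
  obtain ⟨x0, hx0, hmin0⟩ := hcomp.exists_isMinOn hne huc.continuousOn
  have hx0n : ‖x0‖ = 1 := by simpa using hx0
  set m : ℝ := u x0 with hm
  have hmpos : 0 < m := hpos x0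
  have hsph : ∀ y : EuclideanSpace ℝ (Fin 2), ‖y‖ = 1 → m ≤ u y := by
    intro y hy
    exact hmin0 (by simpa using hy)
  have hC2 : ∀ y : EuclideanSpace ℝ (Fin 2), y ≠ 0 → ContDiffAt ℝ 2 u y := fun y hy =>
    hu2.contDiffAt (isOpen_compl_singleton.mem_nhds hy)
  -- comparison
  have hcmp : ∀ σ : ℝ, (σ = 1 ∨ σ = -1) → ∀ x : EuclideanSpace ℝ (Fin 2), x ≠ 0 →
      0 ≤ σ * (‖x‖ - 1) → ∀ ε : ℝ, 0 < ε → m ≤ u x + ε * (σ * Real.log ‖x‖) := by
    intro σ hσ x hx hxσ ε hε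
    have hσ2 : σ * σ = 1 := by rcases hσ with h | h <;> rw [h] <;> norm_num
    by_contra hcon
    push Not at hcon
    have hxn : 0 < ‖x‖ := norm_pos_iff.2 hx
    -- a large T
    set T : ℝ := m / ε + |Real.log ‖x‖| with hT
    have hT0 : 0 < T := by have := abs_nonneg (Real.log ‖x‖); positivity
    set K : Set (EuclideanSpace ℝ (Fin 2)) :=
      {y | Real.exp (-T) ≤ ‖y‖ ∧ ‖y‖ ≤ Real.exp T ∧ 0 ≤ σ * (‖y‖ - 1)} with hK
    have hKclosed : IsClosed K := by
      rw [hK]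
      apply IsClosed.inter
      · exact isClosed_le continuous_const continuous_norm
      · apply IsClosed.inter
        · exact isClosed_le continuous_norm continuous_const
        · have hc : Continuous (fun y : EuclideanSpace ℝ (Fin 2) => σ * (‖y‖ - 1)) := by fun_prop
          exact isClosed_le continuous_const hc
    have hKcomp : IsCompact K := by
      apply (isCompact_closedBall (0 : EuclideanSpace ℝ (Fin 2)) (Real.exp T)).of_isClosed_subset hKclosed
      intro y hy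
      simpa using hy.2.1
    have hKne : ∀ y ∈ K, y ≠ 0 := by
      intro y hy h0
      have := hy.1
      rw [h0, norm_zero] at this
      exact absurd this (not_le.2 (Real.exp_pos _))
    have hxK : x ∈ K := by
      refine ⟨?_, ?_, hxσ⟩
      · rw [← Real.le_log_iff_exp_le hxn]
        have := neg_abs_le (Real.log ‖x‖)
        have : 0 < m / ε := by positivity
        linarith
      · rw [← Real.log_le_iff_le_exp hxn]
        have := le_abs_self (Real.log ‖x‖)
        have : 0 < m / ε := by positivity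
        linarith
    set w : EuclideanSpace ℝ (Fin 2) → ℝ := fun y => u y + (ε * σ) * Real.log ‖y‖ with hw
    have hwc : ContinuousOn w K := by
      intro y hy
      have h0 := hKne y hy
      have : ContinuousAt w y :=
        huc.continuousAt.add (continuousAt_const.mul ((contDiffAt_log_norm h0 2).continuousAt))
      exact this.continuousWithinAt
    obtain ⟨y, hyK, hymin⟩ := hKcomp.exists_isMinOn ⟨x, hxK⟩ hwc
    have hy0 := hKne y hyK
    have hyn : 0 < ‖y‖ := norm_pos_iff.2 hy0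
    have hwy : w y < m := by
      have h1 : w y ≤ w x := hymin hxK
      have h2 : w x = u x + ε * (σ * Real.log ‖x‖) := by simp only [hw]; ring
      linarith
    -- y not on the unit circle
    have hy1 : ‖y‖ ≠ 1 := by
      intro h
      have h1 := hsph y h
      have h2 : w y = u y := by simp [hw, h]
      linarith
    have hyσ : 0 < σ * (‖y‖ - 1) := by
      refine lt_of_le_of_ne hyK.2.2 ?_
      intro h
      have : σ * (σ * (‖y‖ - 1)) = 0 := by rw [← h]; ring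
      rw [← mul_assoc, hσ2, one_mul] at this
      exact hy1 (by linarith)
    have hlogσ : 0 < σ * Real.log ‖y‖ := by
      rcases hσ with h | h
      · rw [h] at hyσ ⊢
        have : 0 < Real.log ‖y‖ := Real.log_pos (by linarith)
        linarith
      · rw [h] at hyσ ⊢
        have : Real.log ‖y‖ < 0 := Real.log_neg hyn (by linarith)
        linarith
    -- |log ‖y‖| < T
    have hlt : σ * Real.log ‖y‖ < T := by
      by_contra hge
      push Not at hge
      have h1 : ε * T ≤ ε * (σ * Real.log ‖y‖) := mul_le_mul_of_nonneg_left hge hε.le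
      have h2 : ε * T = m + ε * |Real.log ‖x‖| := by rw [hT]; field_simp
      have h3 : 0 ≤ ε * |Real.log ‖x‖| := by positivity
      have h4 : w y = u y + ε * (σ * Real.log ‖y‖) := by simp only [hw]; ring
      have h5 := hpos y
      linarith
    have hup : ‖y‖ < Real.exp T := by
      rw [← Real.log_lt_iff_lt_exp hyn]
      rcases hσ with h | h
      · rw [h] at hlt; linarith
      · rw [h] at hlogσ
        linarith
    have hlow : Real.exp (-T) < ‖y‖ := by
      rw [← Real.lt_log_iff_exp_lt hyn]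
      rcases hσ with h | h
      · rw [h] at hlogσ; linarith
      · rw [h] at hlt; linarith
    -- interior: local minimum
    have hnhds : K ∈ 𝓝 y := by
      have h1 : ∀ᶠ z in 𝓝 y, Real.exp (-T) < ‖z‖ :=
        (continuous_norm.continuousAt).eventually (lt_mem_nhds hlow)
      have h2 : ∀ᶠ z in 𝓝 y, ‖z‖ < Real.exp T :=
        (continuous_norm.continuousAt).eventually (gt_mem_nhds hup)
      have h3 : ∀ᶠ z in 𝓝 y, 0 < σ * (‖z‖ - 1) := by
        have hc : ContinuousAt (fun z : EuclideanSpace ℝ (Fin 2) => σ * (‖z‖ - 1)) y := by fun_prop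
        exact hc.eventually (lt_mem_nhds hyσ)
      filter_upwards [h1, h2, h3] with z hz1 hz2 hz3
      exact ⟨hz1.le, hz2.le, hz3.le⟩
    have hloc : IsLocalMin w y := hymin.isLocalMin hnhds
    have hlC : ContDiffAt ℝ 2 (fun z : EuclideanSpace ℝ (Fin 2) => Real.log ‖z‖) y :=
      contDiffAt_log_norm hy0 2
    have hwC : ContDiffAt ℝ 2 w y := (hC2 y hy0).add (contDiffAt_const.mul hlC)
    have h0 := laplacian_nonneg_of_isLocalMin hwC hloc
    have hsm : ContDiffAt ℝ 2 ((ε * σ) • (fun z : EuclideanSpace ℝ (Fin 2) => Real.log ‖z‖)) y :=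
      contDiffAt_const.smul hlC
    have hweq : w = u + (ε * σ) • (fun z : EuclideanSpace ℝ (Fin 2) => Real.log ‖z‖) := by
      funext z; simp [hw]
    have hlapw : (Δ w) y = (Δ u) y := by
      rw [hweq, ContDiffAt.laplacian_add (hC2 y hy0) hsm, laplacian_smul _ hlC,
        laplacian_log_norm hy0]
      norm_num
    rw [hlapw] at h0
    exact absurd (hlap y hy0) (not_lt.2 h0)
  -- hence u ≥ m off 0
  have hge : ∀ x : EuclideanSpace ℝ (Fin 2), x ≠ 0 → m ≤ u x := by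
    intro x hx
    obtain ⟨σ, hσ, hxσ⟩ : ∃ σ : ℝ, (σ = 1 ∨ σ = -1) ∧ 0 ≤ σ * (‖x‖ - 1) := by
      rcases le_total 1 ‖x‖ with h | h
      · exact ⟨1, Or.inl rfl, by linarith⟩
      · exact ⟨-1, Or.inr rfl, by linarith⟩
    have h1 := hcmp σ hσ x hx hxσ
    by_contra hcon
    push Not at hcon
    set L : ℝ := |σ * Real.log ‖x‖| + 1 with hL
    have hLpos : 0 < L := by positivity
    have h2 := h1 ((m - u x) / (2 * L)) (by have : 0 < m - u x := by linarith
                                            positivity)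
    have h3 : (m - u x) / (2 * L) * (σ * Real.log ‖x‖) ≤ (m - u x) / (2 * L) * L := by
      apply mul_le_mul_of_nonneg_left
      · have := le_abs_self (σ * Real.log ‖x‖)
        rw [hL]; linarith
      · have : 0 < m - u x := by linarith
        positivity
    have h4 : (m - u x) / (2 * L) * L = (m - u x) / 2 := by field_simp
    linarith
  -- contradiction at x0
  have hx00 : x0 ≠ 0 := by
    intro h; rw [h, norm_zero] at hx0n; exact absurd hx0n (by norm_num)
  have hloc : IsLocalMin u x0 := by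
    filter_upwards [isOpen_compl_singleton.mem_nhds hx00] with y hy
    exact hge y hy
  have h1 := laplacian_nonneg_of_isLocalMin (hC2 x0 hx00) hloc
  exact absurd (hlap x0 hx00) (not_lt.2 h1)

/-- S0102 for `n = 2`. -/
theorem n_two (p q A B : ℝ) (u v : EuclideanSpace ℝ (Fin 2) → ℝ)
    (hu : Continuous u) (hu2 : ContDiffOn ℝ 2 u {0}ᶜ)
    (hup : ∀ x, 0 < u x) (hvp : ∀ x, 0 < v x)
    (heq : ∀ x, x ≠ 0 →
          -(Δ u) x = ‖x‖ ^ A * v x ^ p ∧ -(Δ v) x = ‖x‖ ^ B * u x ^ q) : False := by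
  apply n_two_aux u hu hu2 hup
  intro x hx
  have h1 := (heq x hx).1
  have h2 : 0 < ‖x‖ ^ A * v x ^ p := by
    have := norm_pos_iff.2 hx
    have := hvp x
    positivity
  linarith

end Crest.Agent.R077
end

-- ▼ part R077/PdeFin

/-! Row 77: the PDE assembly and the reduction of S0102 to the core theorem (captain). -/

set_option autoImplicit false

open Laplacian InnerProductSpace MeasureTheory Set

namespace Crest.Agent.R077.Fin

open Crest.Agent.R077.Mass

variable {n : ℕ}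

theorem S0102_of_core (hcore : Stmt_Core)
    (n : ℕ) (hn : 2 ≤ n) (p q A B : ℝ) (hp : 0 < p) (hq : 0 < q)
    (hsub : (n : ℝ) - 2 < ((n : ℝ) + A) / (p + 1) + ((n : ℝ) + B) / (q + 1)) :
    ¬ ∃ u v : EuclideanSpace ℝ (Fin n) → ℝ,
        Continuous u ∧ Continuous v ∧
        ContDiffOn ℝ 2 u {0}ᶜ ∧ ContDiffOn ℝ 2 v {0}ᶜ ∧
        (∀ x, 0 < u x) ∧ (∀ x, 0 < v x) ∧
        ∀ x, x ≠ 0 →
          -(Δ u) x = ‖x‖ ^ A * v x ^ p ∧ -(Δ v) x = ‖x‖ ^ B * u x ^ q := by
  rintro ⟨u, v, hu, hv, hu2, hv2, hu0, hv0, heq⟩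
  rcases hn.eq_or_lt with h | h
  · subst h
    exact n_two p q A B u v hu hu2 hu0 hv0 heq
  · have hn3 : 3 ≤ n := h
    have hf : ∀ x, x ≠ 0 → -(Δ u) x = den A p v x := fun x hx => (heq x hx).1
    have hg : ∀ x, x ≠ 0 → -(Δ v) x = den B q u x := fun x hx => (heq x hx).2
    have hf0 : ∀ x, 0 ≤ den A p v x := fun x => den_nonneg hv0 x
    have hg0 : ∀ x, 0 ≤ den B q u x := fun x => den_nonneg hu0 x
    have hfi : LocallyIntegrable (den A p v) :=
      locInt hn hu hu2 hf hf0 (den_measurable hv)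
    have hgi : LocallyIntegrable (den B q u) :=
      locInt hn hv hv2 hg hg0 (den_measurable hu)
    have hS : Sup n p q A B (kapR n) u v :=
      { hn := hn3, hp := hp, hq := hq, hκ := kapR_pos hn3, hu := hu, hv := hv, hu0 := hu0,
        hv0 := hv0
        repu := fun x => rep_le hn3 hu (fun x => (hu0 x).le) hu2 hf hf0 hfi x
        repv := fun x => rep_le hn3 hv (fun x => (hv0 x).le) hv2 hg hg0 hgi x }
    have ru := (rep_dichotomy hn3 hu (fun x => (hu0 x).le) hu2 hf hf0 hfi).resolve_right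
      (fun hc => no_lower hS hc)
    have rv := (rep_dichotomy hn3 hv (fun x => (hv0 x).le) hv2 hg hg0 hgi).resolve_right
      (fun hc => no_lower hS.symm hc)
    obtain ⟨S⟩ := CylOf.cylOf hS hsub hu2 hv2 ru rv
    exact hcore _ _ (CylOf.sph_ne_zero (n := n) (by omega)) S

end Crest.Agent.R077.Fin
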